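import Crest.Agent.R240.SmJet2

/-!
# Row 240, block R (helper245): smoothness of parameter integrals over a compact set

`contDiffOn_integral` : if `g` is smooth on the open set `s ⊇ U ×ˢ K`, `K` compact, then
`x ↦ ∫ y in K, g (x, y) ∂μ` is smooth on `U`, with derivative `∫ y in K, dx g (x, y) ∂μ`.
-/

set_option autoImplicit false
set_option linter.unusedSectionVars false
open Set Filter Topology MeasureTheory
open scoped ContDiff

namespace Crest.Agent.R240.SmJ

section
variable {E E' : Type} [NormedAddCommGroup E] [NormedSpace ℝ E]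
  [NormedAddCommGroup E'] [NormedSpace ℝ E'] [SecondCountableTopology E']
  [MeasurableSpace E'] [BorelSpace E']
  {V : Type} [NormedAddCommGroup V] [NormedSpace ℝ V]

/-- integration over a compact set as a continuous linear map on `C(K, V)` -/
theorem intC_int (K : Set E') [CompactSpace K] (ν : Measure K) [IsFiniteMeasure ν]
    (f : C(K, V)) : Integrable (fun y => f y) ν := by
  refine (integrable_const (‖f‖ : ℝ)).mono' (f.continuous.aestronglyMeasurable) ?_
  exact Filter.Eventually.of_forall fun y => f.norm_coe_le_norm y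

/-- integration over a compact set as a continuous linear map on `C(K, V)` -/
noncomputable def intC (K : Set E') [CompactSpace K] (ν : Measure K) [IsFiniteMeasure ν]
    (V : Type) [NormedAddCommGroup V] [NormedSpace ℝ V] : C(K, V) →L[ℝ] V :=
  LinearMap.mkContinuous
    { toFun := fun f => ∫ y, f y ∂ν
      map_add' := fun f g => integral_add (intC_int K ν f) (intC_int K ν g)
      map_smul' := fun c f => integral_smul c _ }
    (ν.real univ) (fun f => by
      have := norm_integral_le_of_norm_le_const (μ := ν) (f := fun y => f y) (C := ‖f‖)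
        (Filter.Eventually.of_forall fun y => f.norm_coe_le_norm y)
      rw [mul_comm] at this
      exact this)

theorem intC_apply (K : Set E') [CompactSpace K] (ν : Measure K) [IsFiniteMeasure ν]
    (f : C(K, V)) : intC K ν V f = ∫ y, f y ∂ν := rfl

/-- product neighbourhoods -/
theorem tube {X Y : Type} [TopologicalSpace X] [TopologicalSpace Y] {s : Set (X × Y)}
    (hs : IsOpen s) {U : Set X} (hU : IsOpen U) {K : Set Y} (hK : IsCompact K)
    (h : U ×ˢ K ⊆ s) {x : X} (hx : x ∈ U) :
    ∃ (U' : Set X) (W : Set Y), IsOpen U' ∧ IsOpen W ∧ x ∈ U' ∧ K ⊆ W ∧ U' ⊆ U ∧ U' ×ˢ W ⊆ s := by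
  obtain ⟨u, v, hu, hv, h1, h2, h3⟩ := generalized_tube_lemma (isCompact_singleton (x := x)) hK hs
    (fun p hp => h ⟨by rw [mem_singleton_iff.1 hp.1]; exact hx, hp.2⟩)
  refine ⟨u ∩ U, v, hu.inter hU, hv, ⟨h1 rfl, hx⟩, h2, inter_subset_right, ?_⟩
  exact (prod_mono inter_subset_left subset_rfl).trans h3

theorem setIntegral_comap (K : Set E') (hK : MeasurableSet K) (μ : Measure E') (f : E' → V) :
    ∫ y in K, f y ∂μ = ∫ y : K, f y ∂(μ.comap Subtype.val) := (integral_subtype_comap hK f).symm

theorem finite_comap (K : Set E') (hK : IsCompact K) (μ : Measure E') [IsFiniteMeasureOnCompacts μ] :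
    IsFiniteMeasure (μ.comap (Subtype.val : K → E')) := by
  refine ⟨?_⟩
  rw [Measure.comap_apply _ Subtype.val_injective
    (fun s hs => (MeasurableEmbedding.subtype_coe hK.measurableSet).measurableSet_image.2 hs) _
    MeasurableSet.univ]
  rw [image_univ, Subtype.range_val]
  exact hK.measure_lt_top

theorem hasFDerivAt_integral {s : Set (E × E')} (hs : IsOpen s) {U : Set E} (hU : IsOpen U)
    {K : Set E'} (hK : IsCompact K) (h : U ×ˢ K ⊆ s) (μ : Measure E')
    [IsFiniteMeasureOnCompacts μ] {g : E × E' → V} (hg : ContDiffOn ℝ ∞ g s) {x : E} (hx : x ∈ U) :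
    HasFDerivAt (fun x => ∫ y in K, g (x, y) ∂μ) (∫ y in K, dx g (x, y) ∂μ) x := by
  have : CompactSpace K := isCompact_iff_compactSpace.1 hK
  have := finite_comap K hK μ
  obtain ⟨U', W, hU', hW, hxU', hKW, hUU, hsub⟩ := tube hs hU hK h hx
  have hg' : ContDiffOn ℝ ∞ g (U' ×ˢ W) := hg.mono hsub
  have hdg' : ContDiffOn ℝ ∞ (dx g) (U' ×ˢ W) := (contDiffOn_dx hs hg).mono hsub
  have h1 := ((intC K (μ.comap Subtype.val) V).hasFDerivAt).comp x
    (hasFDerivAt_restr K hU' hW hKW hg' hxU')
  have e1 : (intC K (μ.comap Subtype.val) V).comp (swapL K E V (restr K (dx g) x))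
      = ∫ y in K, dx g (x, y) ∂μ := by
    ext v
    rw [setIntegral_comap K hK.measurableSet]
    have hint : Integrable (fun y : K => dx g (x, (y : E'))) (μ.comap Subtype.val) := by
      have := intC_int K (μ.comap Subtype.val) (restr K (dx g) x)
      refine this.congr (Filter.Eventually.of_forall fun y => ?_)
      exact restr_apply hKW hdg'.continuousOn hxU' y
    rw [ContinuousLinearMap.integral_apply hint]
    change ∫ y, _ ∂_ = _
    refine integral_congr_ae (Filter.Eventually.of_forall fun y => ?_)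
    change (swapL K E V (restr K (dx g) x)) v y = _
    rw [swapL_apply, restr_apply hKW hdg'.continuousOn hxU']
  rw [e1] at h1
  refine h1.congr_of_eventuallyEq ?_
  filter_upwards [hU'.mem_nhds hxU'] with x' hx'
  rw [setIntegral_comap K hK.measurableSet]
  change _ = ∫ y, _ ∂_
  refine integral_congr_ae (Filter.Eventually.of_forall fun y => ?_)
  exact (restr_apply hKW hg'.continuousOn hx' y).symm

theorem contDiffOn_integral {s : Set (E × E')} (hs : IsOpen s) {U : Set E} (hU : IsOpen U)
    {K : Set E'} (hK : IsCompact K) (h : U ×ˢ K ⊆ s) (μ : Measure E')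
    [IsFiniteMeasureOnCompacts μ] {g : E × E' → V} (hg : ContDiffOn ℝ ∞ g s) :
    ContDiffOn ℝ ∞ (fun x => ∫ y in K, g (x, y) ∂μ) U := by
  have : CompactSpace K := isCompact_iff_compactSpace.1 hK
  have := finite_comap K hK μ
  intro x hx
  obtain ⟨U', W, hU', hW, hxU', hKW, hUU, hsub⟩ := tube hs hU hK h hx
  have hg' : ContDiffOn ℝ ∞ g (U' ×ˢ W) := hg.mono hsub
  have h0 : ContDiff ℝ ∞ (intC K (μ.comap Subtype.val) V) := ContinuousLinearMap.contDiff _
  have h1 : ContDiffOn ℝ ∞ (fun x => intC K (μ.comap Subtype.val) V (restr K g x)) U' :=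
    h0.comp_contDiffOn (contDiffOn_restr K hU' hW hKW hg')
  have h2 : ContDiffOn ℝ ∞ (fun x => ∫ y in K, g (x, y) ∂μ) U' := by
    refine h1.congr fun x' hx' => ?_
    rw [setIntegral_comap K hK.measurableSet, intC_apply]
    refine integral_congr_ae (Filter.Eventually.of_forall fun y => ?_)
    exact (restr_apply hKW hg'.continuousOn hx' y).symm
  exact (h2.contDiffAt (hU'.mem_nhds hxU')).contDiffWithinAt

end

end Crest.Agent.R240.SmJ
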