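import Crest.Agent.R240.Lin1

/-!
Row 240, LEMMA A (team K, captain helper106): local statements on `E4`.
-/

set_option autoImplicit false

open scoped ContDiff

namespace Crest.Agent.R240.Ell

noncomputable section

/-- exterior derivative of a one-form on `E4`. -/
def dS (S : E4 → E4 →L[ℝ] ℝ) (x : E4) : Bil := fderiv ℝ S x - (fderiv ℝ S x).flip

theorem dS_apply (S : E4 → E4 →L[ℝ] ℝ) (x u v : E4) :
    dS S x u v = fderiv ℝ S x u v - fderiv ℝ S x v u := rfl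

/-- all derivatives of order `≤ k` are bounded by `B`. -/
def CkB {F : Type*} [NormedAddCommGroup F] [NormedSpace ℝ F] (k : ℕ) (f : E4 → F) (B : ℝ) : Prop :=
  ∀ j ≤ k, ∀ x, ‖iteratedFDeriv ℝ j f x‖ ≤ B

/-- smooth compactly supported `J`-anti-invariant two-forms, supported in `U`. -/
structure Test (J : E4 → E4 →L[ℝ] E4) (U : Set E4) (f : E4 → Bil) : Prop where
  smooth : ContDiff ℝ ∞ f
  cpt : HasCompactSupport f
  supp : tsupport f ⊆ U
  alt : ∀ x, Alt (f x)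
  anti : ∀ x u v, f x (J x u) (J x v) = - f x u v

/-- THE LOCAL THEOREM (local right inverse of `S ↦ (dS)''` modulo a good remainder).
`U`, `V` bounded open, `closure U ⊆ V`; test forms live in `U`, outputs in `V`. -/
def LocalThm : Prop :=
  ∀ (J : E4 → E4 →L[ℝ] E4), ContDiff ℝ ∞ J →
  ∀ (U V : Set E4), IsOpen U → IsOpen V → Bornology.IsBounded V → closure U ⊆ V →
  (∀ x ∈ V, ∀ v, J x (J x v) = -v) →
  ∃ (Q : (E4 → Bil) → (E4 → E4 →L[ℝ] ℝ)) (K : (E4 → Bil) → (E4 → Bil)),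
    -- linearity on test forms
    (∀ f g, Test J U f → Test J U g → Q (f + g) = Q f + Q g ∧ K (f + g) = K f + K g) ∧
    (∀ (c : ℝ) f, Test J U f → Q (c • f) = c • Q f ∧ K (c • f) = c • K f) ∧
    -- regularity and supports
    (∀ f, Test J U f → ContDiff ℝ ∞ (Q f) ∧ tsupport (Q f) ⊆ V ∧ Test J V (K f)) ∧
    -- the identity
    (∀ f, Test J U f → ∀ x, antip (J x) (dS (Q f) x) = f x + K f x) ∧
    -- bound for `Q` (with any loss of derivatives)
    (∃ (m : ℕ) (C : ℝ), ∀ f B, Test J U f → CkB m f B → CkB 1 (Q f) (C * B)) ∧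
    -- tame bound for `K`
    (∀ (k : ℕ) (θ : ℝ), 0 < θ → ∃ C : ℝ, ∀ f A B, Test J U f → CkB k f A → CkB 0 f B →
        CkB k (K f) (θ * A + C * B)) ∧
    -- `K` is a finite rank operator up to a small one in sup norm
    (∀ (θ : ℝ), 0 < θ → ∃ (n : ℕ) (φ : Fin n → E4 → Bil) (l : Fin n → (E4 → Bil) → ℝ) (C : ℝ),
        (∀ j, Test J V (φ j)) ∧
        (∀ j f g, Test J U f → Test J U g → l j (f + g) = l j f + l j g) ∧
        (∀ j (c : ℝ) f, Test J U f → l j (c • f) = c * l j f) ∧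
        (∀ j f B, Test J U f → CkB 0 f B → |l j f| ≤ C * B) ∧
        (∀ f B, Test J U f → CkB 0 f B →
          CkB 0 (fun x => K f x - ∑ j, l j f • φ j x) (θ * B)))

/-! ### weakly singular kernels (K1), generic target spaces -/

section kernels

variable {F G : Type*} [NormedAddCommGroup F] [NormedSpace ℝ F] [NormedAddCommGroup G]
    [NormedSpace ℝ G]

/-- weakly singular kernels `k x z`, smooth off `z = 0`, `x`-derivatives `O(|z|^{-3})`,
supported in a bounded set. -/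
structure WK (k : E4 → E4 → (F →L[ℝ] G)) : Prop where
  smooth : ContDiffOn ℝ ∞ (fun p : E4 × E4 => k p.1 p.2) {p | p.2 ≠ 0}
  bound : ∀ n : ℕ, ∃ C : ℝ, ∀ x z, z ≠ 0 →
    ‖iteratedFDeriv ℝ n (fun x => k x z) x‖ ≤ C * ‖z‖⁻¹ ^ 3
  supp : ∃ R : ℝ, ∀ x z, R ≤ ‖x‖ ∨ R ≤ ‖z‖ → k x z = 0

/-- the operator with kernel `k`. -/
def op (k : E4 → E4 → (F →L[ℝ] G)) (f : E4 → F) (x : E4) : G :=
  ∫ z, k x z (f (x - z))

variable (F G) in
/-- K1 + far part: what is needed about `op k`. -/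
def OpThm : Prop :=
  ∀ (k : E4 → E4 → (F →L[ℝ] G)), WK k →
    (∀ f : E4 → F, ContDiff ℝ ∞ f → HasCompactSupport f → ContDiff ℝ ∞ (op k f)) ∧
    (∀ (m : ℕ), ∃ C : ℝ, ∀ (f : E4 → F) A, ContDiff ℝ ∞ f → HasCompactSupport f →
        CkB m f A → CkB m (op k f) (C * A)) ∧
    (∀ (m : ℕ) (θ : ℝ), 0 < θ → ∃ C : ℝ, ∀ (f : E4 → F) A B, ContDiff ℝ ∞ f →
        HasCompactSupport f → CkB m f A → CkB 0 f B → CkB m (op k f) (θ * A + C * B)) ∧
    (∀ (θ R : ℝ), 0 < θ → ∃ (n : ℕ) (w : Fin n → E4 → (F →L[ℝ] G))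
        (l : Fin n → (E4 → F) → F) (C : ℝ),
        (∀ j, ContDiff ℝ ∞ (w j)) ∧
        (∀ j x, ∃ z, z ≠ 0 ∧ ∃ c : ℝ, w j x = c • k x z) ∧
        (∀ j f g, ContDiff ℝ ∞ f → HasCompactSupport f → ContDiff ℝ ∞ g → HasCompactSupport g →
          l j (f + g) = l j f + l j g) ∧
        (∀ j (c : ℝ) f, l j (c • f) = c • l j f) ∧
        (∀ j f B, ContDiff ℝ ∞ f → HasCompactSupport f → CkB 0 f B → ‖l j f‖ ≤ C * B) ∧
        (∀ f B, ContDiff ℝ ∞ f → (∀ x, R ≤ ‖x‖ → f x = 0) → CkB 0 f B →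
          CkB 0 (fun x => op k f x - ∑ j, w j x (l j f)) (θ * B)))

end kernels

end

end Crest.Agent.R240.Ell
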