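import Mathlib
import Crest.Prelude.Def_ManifoldTwoForm

/-!
Row 240 (S0371), layer L1 (helper707): frozen definitions in charts, part 1.
-/

set_option autoImplicit false

open Set Function Filter VectorField Bundle
open scoped Manifold ContDiff Topology
open Crest.GeometryTopology.TwoForm

namespace Crest.Agent.R240.Ch

noncomputable section

variable {E : Type*} [NormedAddCommGroup E] [NormedSpace ℝ E]
variable {M : Type*} [TopologicalSpace M] [ChartedSpace E M] [IsManifold 𝓘(ℝ, E) ∞ M]

/-- coordinate change of tangent vectors, from the chart at `x` to the chart at `y`, at `z`. -/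
abbrev tcc (x y z : M) : E →L[ℝ] E := tangentCoordChange 𝓘(ℝ, E) x y z

variable (E M) in
/-- (not necessarily smooth) two-forms. -/
abbrev F2 := M → E →L[ℝ] E →L[ℝ] ℝ

variable (E M) in
/-- (not necessarily smooth) one-forms. -/
abbrev F1 := M → E →L[ℝ] ℝ

variable (E M) in
/-- (not necessarily smooth) vector fields. -/
abbrev VF := M → E

variable (E M) in
/-- (not necessarily smooth) endomorphism fields. -/
abbrev EndF := M → E →L[ℝ] E

variable (E M) in
/-- two-forms, in the type used by the frozen definitions. -/
abbrev TF2 := (x : M) → TangentSpace 𝓘(ℝ, E) x →L[ℝ] TangentSpace 𝓘(ℝ, E) x →L[ℝ] ℝ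

variable (E M) in
/-- vector fields, in the type used by the frozen definitions. -/
abbrev TVF := (x : M) → TangentSpace 𝓘(ℝ, E) x

variable (E M) in
/-- endomorphism fields, in the type used by the frozen definitions. -/
abbrev TEndF := (x : M) → TangentSpace 𝓘(ℝ, E) x →L[ℝ] TangentSpace 𝓘(ℝ, E) x

/-! ### coordinate changes -/

lemma tcc_self {x z : M} (h : z ∈ (chartAt E x).source) (v : E) : tcc (E := E) x x z v = v :=
  tangentCoordChange_self (I := 𝓘(ℝ, E)) (by simpa [extChartAt_source] using h)

lemma tcc_comp {w x y z : M} (hw : z ∈ (chartAt E w).source)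
    (hx : z ∈ (chartAt E x).source) (hy : z ∈ (chartAt E y).source) (v : E) :
    tcc x y z (tcc w x z v) = tcc (E := E) w y z v :=
  tangentCoordChange_comp (I := 𝓘(ℝ, E)) (by
    simp only [extChartAt_source]; exact ⟨⟨hw, hx⟩, hy⟩)

lemma tcc_cancel {x z : M} (hx : z ∈ (chartAt E x).source) (v : E) :
    tcc z x z (tcc x z z v) = v := by
  rw [tcc_comp hx (mem_chart_source _ z) hx, tcc_self hx]

lemma tcc_cancel' {x z : M} (hx : z ∈ (chartAt E x).source) (v : E) :
    tcc x z z (tcc z x z v) = v := by
  rw [tcc_comp (mem_chart_source _ z) hx (mem_chart_source _ z), tcc_self (mem_chart_source _ z)]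

omit [NormedSpace ℝ E] [IsManifold 𝓘(ℝ, E) ∞ M] in
lemma symm_mem {p : M} {y : E} (hy : y ∈ (chartAt E p).target) :
    (chartAt E p).symm y ∈ (chartAt E p).source :=
  (chartAt E p).map_target hy

/-- the value of a two-form at `x`, as a bilinear form on the model space. -/
def at2 (a : F2 E M) (x : M) : E →L[ℝ] E →L[ℝ] ℝ := a x

/-- the value of a one-form at `x`, as a linear form on the model space. -/
def at1 (s : F1 E M) (x : M) : E →L[ℝ] ℝ := s x

/-- the value of a vector field at `x`, as a vector of the model space. -/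
def atV (V : VF E M) (x : M) : E := V x

/-- the value of an endomorphism field at `x`, as an endomorphism of the model space. -/
def atJ (J : EndF E M) (x : M) : E →L[ℝ] E := J x

/-! ### representations in charts -/

/-- a two-form in the chart at `p`. -/
def rep (p : M) (a : F2 E M) (y : E) : E →L[ℝ] E →L[ℝ] ℝ :=
  ContinuousLinearMap.bilinearComp (at2 a ((chartAt E p).symm y))
    (tcc p ((chartAt E p).symm y) ((chartAt E p).symm y))
    (tcc p ((chartAt E p).symm y) ((chartAt E p).symm y))

/-- a one-form in the chart at `p`. -/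
def rep1 (p : M) (s : F1 E M) (y : E) : E →L[ℝ] ℝ :=
  ContinuousLinearMap.comp (at1 s ((chartAt E p).symm y))
    (tcc p ((chartAt E p).symm y) ((chartAt E p).symm y))

/-- a vector field in the chart at `p`. -/
def repV (p : M) (V : VF E M) (y : E) : E :=
  tcc ((chartAt E p).symm y) p ((chartAt E p).symm y) (atV V ((chartAt E p).symm y))

/-- an endomorphism field in the chart at `p`. -/
def repJ (p : M) (J : EndF E M) (y : E) : E →L[ℝ] E :=
  (tcc ((chartAt E p).symm y) p ((chartAt E p).symm y)).comp
    (ContinuousLinearMap.comp (atJ J ((chartAt E p).symm y))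
      (tcc p ((chartAt E p).symm y) ((chartAt E p).symm y)))

lemma rep_apply (p : M) (a : F2 E M) (y u v : E) :
    rep p a y u v = (at2 a ((chartAt E p).symm y))
      (tcc p ((chartAt E p).symm y) ((chartAt E p).symm y) u)
      (tcc p ((chartAt E p).symm y) ((chartAt E p).symm y) v) := rfl

lemma rep1_apply (p : M) (s : F1 E M) (y u : E) :
    rep1 p s y u = (at1 s ((chartAt E p).symm y))
      (tcc p ((chartAt E p).symm y) ((chartAt E p).symm y) u) := rfl

lemma repJ_apply (p : M) (J : EndF E M) (y v : E) :
    repJ p J y v = tcc ((chartAt E p).symm y) p ((chartAt E p).symm y)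
      ((atJ J ((chartAt E p).symm y))
        (tcc p ((chartAt E p).symm y) ((chartAt E p).symm y) v)) := rfl

/-- the form at a point from its representation. -/
lemma apply_eq_rep {p x : M} (hx : x ∈ (chartAt E p).source) (a : F2 E M) (u v : E) :
    at2 a x u v
      = rep p a (chartAt E p x) (tcc x p x u) (tcc x p x v) := by
  rw [rep_apply, (chartAt E p).left_inv hx, tcc_cancel' hx, tcc_cancel' hx]

lemma apply_eq_rep1 {p x : M} (hx : x ∈ (chartAt E p).source) (s : F1 E M) (u : E) :
    at1 s x u = rep1 p s (chartAt E p x) (tcc x p x u) := by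
  rw [rep1_apply, (chartAt E p).left_inv hx, tcc_cancel' hx]

lemma apply_eq_repJ {p x : M} (hx : x ∈ (chartAt E p).source) (J : EndF E M) (u : E) :
    tcc x p x (atJ J x u) = repJ p J (chartAt E p x) (tcc x p x u) := by
  rw [repJ_apply, (chartAt E p).left_inv hx, tcc_cancel' hx]

/-- value at the centre of the chart. -/
lemma rep_self (x : M) (a : F2 E M) (u v : E) :
    rep x a (chartAt E x x) u v = at2 a x u v := by
  have h := apply_eq_rep (mem_chart_source E x) a u v
  rw [tcc_self (mem_chart_source E x), tcc_self (mem_chart_source E x)] at h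
  exact h.symm

lemma rep_repV {p : M} {y : E} (hy : y ∈ (chartAt E p).target) (a : F2 E M) (V W : VF E M) :
    rep p a y (repV p V y) (repV p W y) =
      a ((chartAt E p).symm y) (V ((chartAt E p).symm y)) (W ((chartAt E p).symm y)) := by
  rw [rep_apply, repV, repV, tcc_cancel' (symm_mem hy), tcc_cancel' (symm_mem hy)]
  rfl

lemma rep1_repV {p : M} {y : E} (hy : y ∈ (chartAt E p).target) (s : F1 E M) (V : VF E M) :
    rep1 p s y (repV p V y) = s ((chartAt E p).symm y) (V ((chartAt E p).symm y)) := by
  rw [rep1_apply, repV, tcc_cancel' (symm_mem hy)]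
  rfl

/-- transition law -/
lemma rep_trans {p q x : M} (hp : x ∈ (chartAt E p).source) (hq : x ∈ (chartAt E q).source)
    (a : F2 E M) (u v : E) :
    rep p a (chartAt E p x) u v
      = rep q a (chartAt E q x) (tcc p q x u) (tcc p q x v) := by
  rw [rep_apply, rep_apply, (chartAt E p).left_inv hp, (chartAt E q).left_inv hq,
    tcc_comp hp hq (mem_chart_source E x), tcc_comp hp hq (mem_chart_source E x)]

lemma rep1_trans {p q x : M} (hp : x ∈ (chartAt E p).source) (hq : x ∈ (chartAt E q).source)
    (s : F1 E M) (u : E) :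
    rep1 p s (chartAt E p x) u = rep1 q s (chartAt E q x) (tcc p q x u) := by
  rw [rep1_apply, rep1_apply, (chartAt E p).left_inv hp, (chartAt E q).left_inv hq,
    tcc_comp hp hq (mem_chart_source E x)]

lemma repJ_trans {p q x : M} (hp : x ∈ (chartAt E p).source) (hq : x ∈ (chartAt E q).source)
    (J : EndF E M) (u : E) :
    tcc p q x (repJ p J (chartAt E p x) u) = repJ q J (chartAt E q x) (tcc p q x u) := by
  rw [repJ_apply, repJ_apply, (chartAt E p).left_inv hp, (chartAt E q).left_inv hq,
    tcc_comp hp hq (mem_chart_source E x), tcc_comp (mem_chart_source E x) hp hq]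

/-- the coordinate change is the derivative of the transition map. -/
lemma tcc_eq_fderiv (p q x : M) :
    tcc p q x = fderiv ℝ (chartAt E q ∘ (chartAt E p).symm) (chartAt E p x) := by
  rw [tcc, tangentCoordChange_def]
  simp only [modelWithCornersSelf_coe, range_id, fderivWithin_univ]
  rfl

/-- transition law as a pull-back by the transition map. -/
lemma rep_pullback {p q : M} {y : E} (hy : y ∈ (chartAt E p).target)
    (hq : (chartAt E p).symm y ∈ (chartAt E q).source) (a : F2 E M) (u v : E) :
    rep p a y u v
      = rep q a ((chartAt E q ∘ (chartAt E p).symm) y)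
        (fderiv ℝ (chartAt E q ∘ (chartAt E p).symm) y u)
        (fderiv ℝ (chartAt E q ∘ (chartAt E p).symm) y v) := by
  have h := rep_trans (symm_mem hy) hq a u v
  rw [tcc_eq_fderiv, (chartAt E p).right_inv hy] at h
  exact h

/-! ### trivializations -/

/-- the section given by a vector field, in the trivialization at `p`. -/
lemma triv_apply (p x : M) (v : TangentSpace 𝓘(ℝ, E) x) :
    (trivializationAt E (TangentSpace 𝓘(ℝ, E)) p ⟨x, v⟩).2 = tcc (E := E) x p x v := rfl

lemma triv_symm {p x : M} (hx : x ∈ (chartAt E p).source) (v : E) :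
    (trivializationAt E (TangentSpace 𝓘(ℝ, E)) p).symm x v = tcc p x x v := by
  have h2 := TangentBundle.symmL_trivializationAt_eq_core (I := 𝓘(ℝ, E)) (b₀ := p) (b := x) hx
  have hb : x ∈ (trivializationAt E (TangentSpace 𝓘(ℝ, E)) p).baseSet := hx
  have h3 := (Trivialization.symmL_apply (R := ℝ)
    (trivializationAt E (TangentSpace 𝓘(ℝ, E)) p) hb v).symm
  rw [h2] at h3
  exact h3

lemma triv2_apply {p x : M} (hx : x ∈ (chartAt E p).source) (a : TF2 E M) :
    (trivializationAt (E →L[ℝ] E →L[ℝ] ℝ)
        (fun x : M => TangentSpace 𝓘(ℝ, E) x →L[ℝ] TangentSpace 𝓘(ℝ, E) x →L[ℝ] ℝ) p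
          ⟨x, a x⟩).2 = rep p a (chartAt E p x) := by
  rw [hom_trivializationAt_apply]
  ext u v
  have hb : x ∈ (trivializationAt E (TangentSpace 𝓘(ℝ, E)) p).baseSet := hx
  rw [inCoordinates_apply_eq₂ hb hb (Set.mem_univ _), triv_symm hx, triv_symm hx]
  have h4 : ∀ y : ℝ, (Trivialization.linearMapAt ℝ (trivializationAt ℝ (fun _ : M => ℝ) p) x) y
      = y := by
    intro y
    rw [Trivialization.coe_linearMapAt_of_mem _ (mem_univ _)]
    rfl
  rw [rep_apply, (chartAt E p).left_inv hx]
  exact h4 _

lemma tcc_inj {p x : M} (hx : x ∈ (chartAt E p).source) {u v : E}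
    (h : tcc x p x u = tcc x p x v) : u = v := by
  have := congrArg (tcc p x x) h
  rwa [tcc_cancel' hx, tcc_cancel' hx] at this

end

end Crest.Agent.R240.Ch
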