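import Mathlib
import Crest.Agent.R240.Ch1

/-!
Row 240 (S0371), layer L1 (helper707): smoothness in charts.
-/

set_option autoImplicit false

open Set Function Filter VectorField Bundle
open scoped Manifold ContDiff Topology
open Crest.GeometryTopology.TwoForm

namespace Crest.Agent.R240.Ch

noncomputable section

variable {E : Type*} [NormedAddCommGroup E] [NormedSpace ℝ E]
variable {M : Type*} [TopologicalSpace M] [ChartedSpace E M] [IsManifold 𝓘(ℝ, E) ∞ M]
variable {F : Type*} [NormedAddCommGroup F] [NormedSpace ℝ F]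

/-- smoothness of a function of the chart coordinates. -/
lemma contMDiffAt_comp_chart {p x : M} (hx : x ∈ (chartAt E p).source) (f : E → F) :
    ContMDiffAt 𝓘(ℝ, E) 𝓘(ℝ, F) ∞ (fun x => f (chartAt E p x)) x ↔
      ContDiffAt ℝ ∞ f (chartAt E p x) := by
  constructor
  · intro h
    have hs : ContMDiffAt 𝓘(ℝ, E) 𝓘(ℝ, E) ∞ (chartAt E p).symm (chartAt E p x) :=
      (contMDiffOn_chart_symm (I := 𝓘(ℝ, E)) (x := p)).contMDiffAt
        ((chartAt E p).open_target.mem_nhds ((chartAt E p).map_source hx))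
    have h' : ContMDiffAt 𝓘(ℝ, E) 𝓘(ℝ, F) ∞ (fun x => f (chartAt E p x))
        ((chartAt E p).symm (chartAt E p x)) := by
      rw [(chartAt E p).left_inv hx]; exact h
    have h2 := (h'.comp _ hs).contDiffAt
    refine h2.congr_of_eventuallyEq ?_
    filter_upwards [(chartAt E p).open_target.mem_nhds ((chartAt E p).map_source hx)] with y hy
    simp only [comp_apply]
    rw [(chartAt E p).right_inv hy]
  · intro h
    have hc : ContMDiffAt 𝓘(ℝ, E) 𝓘(ℝ, E) ∞ (chartAt E p) x :=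
      (contMDiffOn_chart (I := 𝓘(ℝ, E)) (x := p)).contMDiffAt
        ((chartAt E p).open_source.mem_nhds hx)
    exact h.contMDiffAt.comp x hc

lemma contMDiffAt_of_eq {p x : M} (hx : x ∈ (chartAt E p).source) {g : M → F} {f : E → F}
    (h : ∀ z ∈ (chartAt E p).source, g z = f (chartAt E p z)) :
    ContMDiffAt 𝓘(ℝ, E) 𝓘(ℝ, F) ∞ g x ↔ ContDiffAt ℝ ∞ f (chartAt E p x) := by
  rw [← contMDiffAt_comp_chart hx f]
  have he : g =ᶠ[𝓝 x] fun x => f (chartAt E p x) := by
    filter_upwards [(chartAt E p).open_source.mem_nhds hx] with z hz using h z hz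
  exact ⟨fun h => h.congr_of_eventuallyEq he.symm, fun h => h.congr_of_eventuallyEq he⟩

/-! ### pointwise smoothness of sections in charts -/

lemma repV_chart {p x : M} (hx : x ∈ (chartAt E p).source) (V : VF E M) :
    repV p V (chartAt E p x) = tcc x p x (atV V x) := by
  rw [repV, (chartAt E p).left_inv hx]

theorem contMDiffAt_V {p x : M} (hx : x ∈ (chartAt E p).source) (V : TVF E M) :
    ContMDiffAt 𝓘(ℝ, E) 𝓘(ℝ, E).tangent ∞ (fun x => (V x : TangentBundle 𝓘(ℝ, E) M)) x ↔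
      ContDiffAt ℝ ∞ (repV p V) (chartAt E p x) := by
  have h1 := (trivializationAt E (TangentSpace (M := M) 𝓘(ℝ, E)) p).contMDiffAt_section_iff
    (IB := 𝓘(ℝ, E)) (n := ∞) (s := V) (x₀ := x) hx
  refine h1.trans ?_
  exact contMDiffAt_of_eq hx (fun z hz => (repV_chart hz V).symm)

lemma mem_baseSet2 {p x : M} (hx : x ∈ (chartAt E p).source) :
    x ∈ (trivializationAt (E →L[ℝ] E →L[ℝ] ℝ)
        (fun x : M => TangentSpace 𝓘(ℝ, E) x →L[ℝ] TangentSpace 𝓘(ℝ, E) x →L[ℝ] ℝ)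
        p).baseSet := by
  rw [hom_trivializationAt_baseSet, hom_trivializationAt_baseSet]
  exact ⟨hx, hx, mem_univ _⟩

set_option synthInstance.maxHeartbeats 400000 in
set_option maxHeartbeats 1000000 in
theorem contMDiffAt_2 {p x : M} (hx : x ∈ (chartAt E p).source) (a : TF2 E M) :
    ContMDiffAt 𝓘(ℝ, E) (𝓘(ℝ, E).prod 𝓘(ℝ, E →L[ℝ] E →L[ℝ] ℝ)) ∞
      (fun x => TotalSpace.mk' (E →L[ℝ] E →L[ℝ] ℝ) x (a x)) x ↔
      ContDiffAt ℝ ∞ (rep p a) (chartAt E p x) := by
  have h1 := Bundle.Trivialization.contMDiffAt_section_iff (𝕜 := ℝ) (B := M)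
    (F := E →L[ℝ] E →L[ℝ] ℝ)
    (E := fun x : M => TangentSpace 𝓘(ℝ, E) x →L[ℝ] TangentSpace 𝓘(ℝ, E) x →L[ℝ] ℝ)
    (IB := 𝓘(ℝ, E)) (n := ∞) (s := a) (x₀ := x)
    (trivializationAt (E →L[ℝ] E →L[ℝ] ℝ)
        (fun x : M => TangentSpace 𝓘(ℝ, E) x →L[ℝ] TangentSpace 𝓘(ℝ, E) x →L[ℝ] ℝ)
        p) (mem_baseSet2 hx)
  refine h1.trans ?_
  exact contMDiffAt_of_eq hx (fun z hz => triv2_apply hz a)

lemma trivJ_apply {p x : M} (hx : x ∈ (chartAt E p).source) (J : TEndF E M) :
    (trivializationAt (E →L[ℝ] E)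
        (fun x : M => TangentSpace 𝓘(ℝ, E) x →L[ℝ] TangentSpace 𝓘(ℝ, E) x) p
          ⟨x, J x⟩).2 = repJ p J (chartAt E p x) := by
  rw [hom_trivializationAt_apply]
  ext v
  have hb : x ∈ (trivializationAt E (TangentSpace 𝓘(ℝ, E)) p).baseSet := hx
  have h1 : (ContinuousLinearMap.inCoordinates E (TangentSpace (M := M) 𝓘(ℝ, E)) E
      (TangentSpace (M := M) 𝓘(ℝ, E)) p x p x (J x)) v =
      (trivializationAt E (TangentSpace (M := M) 𝓘(ℝ, E)) p
        ⟨x, J x ((trivializationAt E (TangentSpace (M := M) 𝓘(ℝ, E)) p).symm x v)⟩).2 := by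
    rw [ContinuousLinearMap.inCoordinates_eq hb hb]
    rfl
  refine h1.trans ?_
  rw [triv_symm hx, triv_apply, repJ_apply, (chartAt E p).left_inv hx]
  rfl

theorem contMDiffAt_J {p x : M} (hx : x ∈ (chartAt E p).source) (J : TEndF E M) :
    ContMDiffAt 𝓘(ℝ, E) (𝓘(ℝ, E).prod 𝓘(ℝ, E →L[ℝ] E)) ∞
      (fun x => TotalSpace.mk' (E →L[ℝ] E) x (J x)) x ↔
      ContDiffAt ℝ ∞ (repJ p J) (chartAt E p x) := by
  have h1 := (trivializationAt (E →L[ℝ] E)
        (fun x : M => TangentSpace 𝓘(ℝ, E) x →L[ℝ] TangentSpace 𝓘(ℝ, E) x)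
        p).contMDiffAt_section_iff
    (IB := 𝓘(ℝ, E)) (n := ∞) (s := J) (x₀ := x) ⟨hx, hx⟩
  refine h1.trans ?_
  exact contMDiffAt_of_eq hx (fun z hz => trivJ_apply hz J)

/-! ### global smoothness -/

/-- smooth two-form, in charts. -/
def Smooth2 (a : F2 E M) : Prop :=
  (∀ x v, at2 a x v v = 0) ∧ ∀ p : M, ContDiffOn ℝ ∞ (rep p a) (chartAt E p).target

/-- smooth one-form, in charts. -/
def Smooth1 (s : F1 E M) : Prop :=
  ∀ p : M, ContDiffOn ℝ ∞ (rep1 p s) (chartAt E p).target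

/-- smooth vector field, in charts. -/
def SmoothV (V : VF E M) : Prop :=
  ∀ p : M, ContDiffOn ℝ ∞ (repV p V) (chartAt E p).target

/-- smooth endomorphism field, in charts. -/
def SmoothJ (J : EndF E M) : Prop :=
  ∀ p : M, ContDiffOn ℝ ∞ (repJ p J) (chartAt E p).target

omit [NormedSpace ℝ E] [IsManifold 𝓘(ℝ, E) ∞ M] in
lemma forall_chart_iff {P : M → E → Prop} {Q : M → Prop}
    (h : ∀ p x : M, x ∈ (chartAt E p).source → (Q x ↔ P p (chartAt E p x))) :
    (∀ x, Q x) ↔ ∀ p : M, ∀ y ∈ (chartAt E p).target, P p y := by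
  constructor
  · intro hq p y hy
    have := (h p _ (symm_mem hy)).1 (hq _)
    rwa [(chartAt E p).right_inv hy] at this
  · intro hp x
    exact (h x x (mem_chart_source E x)).2 (hp x _ (mem_chart_target E x))

omit [IsManifold 𝓘(ℝ, E) ∞ M] in
lemma contDiffOn_chart_iff {p : M} {f : E → F} :
    ContDiffOn ℝ ∞ f (chartAt E p).target ↔ ∀ y ∈ (chartAt E p).target, ContDiffAt ℝ ∞ f y := by
  constructor
  · intro h y hy
    exact h.contDiffAt ((chartAt E p).open_target.mem_nhds hy)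
  · intro h y hy
    exact (h y hy).contDiffWithinAt

theorem smooth2_iff (a : TF2 E M) : IsSmoothTwoForm 𝓘(ℝ, E) M a ↔ Smooth2 a := by
  have h := forall_chart_iff (P := fun p y => ContDiffAt ℝ ∞ (rep p a) y)
    (fun p x hx => contMDiffAt_2 hx a)
  constructor
  · rintro ⟨h1, h2⟩
    exact ⟨h1, fun p => contDiffOn_chart_iff.2 (h.1 h2 p)⟩
  · rintro ⟨h1, h2⟩
    exact ⟨h1, h.2 fun p => contDiffOn_chart_iff.1 (h2 p)⟩

theorem smoothV_iff (V : TVF E M) : IsSmoothVectorField 𝓘(ℝ, E) M V ↔ SmoothV V := by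
  have h := forall_chart_iff (P := fun p y => ContDiffAt ℝ ∞ (repV p V) y)
    (fun p x hx => contMDiffAt_V hx V)
  constructor
  · intro h2 p
    exact contDiffOn_chart_iff.2 (h.1 h2 p)
  · intro h2
    exact h.2 fun p => contDiffOn_chart_iff.1 (h2 p)

theorem smoothJ_iff (J : TEndF E M) :
    ContMDiff 𝓘(ℝ, E) (𝓘(ℝ, E).prod 𝓘(ℝ, E →L[ℝ] E)) ∞
      (fun x => TotalSpace.mk' (E →L[ℝ] E) x (J x)) ↔ SmoothJ J := by
  have h := forall_chart_iff (P := fun p y => ContDiffAt ℝ ∞ (repJ p J) y)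
    (fun p x hx => contMDiffAt_J hx J)
  constructor
  · intro h2 p
    exact contDiffOn_chart_iff.2 (h.1 h2 p)
  · intro h2
    exact h.2 fun p => contDiffOn_chart_iff.1 (h2 p)

/-! ### transition maps and locality of smoothness -/

/-- the transition map from the chart at `p` to the chart at `q`. -/
def trans (p q : M) : E → E := chartAt E q ∘ (chartAt E p).symm

lemma trans_contDiffAt {p q : M} {y : E} (hy : y ∈ (chartAt E p).target)
    (hq : (chartAt E p).symm y ∈ (chartAt E q).source) :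
    ContDiffAt ℝ ∞ (trans (E := E) p q) y := by
  have hs : ContMDiffAt 𝓘(ℝ, E) 𝓘(ℝ, E) ∞ (chartAt E p).symm y :=
    (contMDiffOn_chart_symm (I := 𝓘(ℝ, E)) (x := p)).contMDiffAt
      ((chartAt E p).open_target.mem_nhds hy)
  have hc : ContMDiffAt 𝓘(ℝ, E) 𝓘(ℝ, E) ∞ (chartAt E q) ((chartAt E p).symm y) :=
    (contMDiffOn_chart (I := 𝓘(ℝ, E)) (x := q)).contMDiffAt
      ((chartAt E q).open_source.mem_nhds hq)
  exact (hc.comp y hs).contDiffAt

omit [NormedSpace ℝ E] [IsManifold 𝓘(ℝ, E) ∞ M] in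
lemma trans_apply {p q x : M} (hp : x ∈ (chartAt E p).source) :
    trans (E := E) p q (chartAt E p x) = chartAt E q x := by
  simp only [trans, comp_apply]
  rw [(chartAt E p).left_inv hp]

lemma tcc_eq_fderiv_trans (p q x : M) :
    tcc p q x = fderiv ℝ (trans (E := E) p q) (chartAt E p x) := tcc_eq_fderiv p q x

/-- smoothness at a point can be checked in any chart. -/
theorem smooth1_at_iff {p q x : M} (hp : x ∈ (chartAt E p).source) (hq : x ∈ (chartAt E q).source)
    (s : F1 E M) (h : ContDiffAt ℝ ∞ (rep1 q s) (chartAt E q x)) :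
    ContDiffAt ℝ ∞ (rep1 p s) (chartAt E p x) := by
  have hy : chartAt E p x ∈ (chartAt E p).target := (chartAt E p).map_source hp
  have hq' : (chartAt E p).symm (chartAt E p x) ∈ (chartAt E q).source := by
    rw [(chartAt E p).left_inv hp]; exact hq
  have ht := trans_contDiffAt hy hq'
  have hft : ContDiffAt ℝ ∞ (fderiv ℝ (trans (E := E) p q)) (chartAt E p x) :=
    ht.fderiv_right (m := ∞) (by simp)
  have hev : rep1 p s =ᶠ[𝓝 (chartAt E p x)] fun y =>
      (rep1 q s (trans (E := E) p q y)).comp (fderiv ℝ (trans (E := E) p q) y) := by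
    have ho : IsOpen ((chartAt E p).target ∩ (chartAt E p).symm ⁻¹' (chartAt E q).source) :=
      (chartAt E p).isOpen_inter_preimage_symm (chartAt E q).open_source
    filter_upwards [ho.mem_nhds ⟨hy, hq'⟩] with y hy
    ext u
    have h1 := rep1_trans (symm_mem hy.1) hy.2 s u
    rw [(chartAt E p).right_inv hy.1, tcc_eq_fderiv_trans, (chartAt E p).right_inv hy.1] at h1
    exact h1
  refine ContDiffAt.congr_of_eventuallyEq ?_ hev
  have h2 : ContDiffAt ℝ ∞ (fun y => rep1 q s (trans (E := E) p q y)) (chartAt E p x) := by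
    have h3 : ContDiffAt ℝ ∞ (rep1 q s) (trans (E := E) p q (chartAt E p x)) := by
      rw [trans_apply hp]; exact h
    exact h3.comp (chartAt E p x) ht
  exact h2.clm_comp hft

theorem smooth2_at_iff {p q x : M} (hp : x ∈ (chartAt E p).source) (hq : x ∈ (chartAt E q).source)
    (a : F2 E M) :
    ContDiffAt ℝ ∞ (rep q a) (chartAt E q x) ↔ ContDiffAt ℝ ∞ (rep p a) (chartAt E p x) := by
  rw [← contMDiffAt_2 hp a, ← contMDiffAt_2 hq a]

theorem smoothV_at_iff {p q x : M} (hp : x ∈ (chartAt E p).source) (hq : x ∈ (chartAt E q).source)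
    (V : VF E M) :
    ContDiffAt ℝ ∞ (repV q V) (chartAt E q x) ↔ ContDiffAt ℝ ∞ (repV p V) (chartAt E p x) := by
  rw [← contMDiffAt_V hp V, ← contMDiffAt_V hq V]

theorem smoothJ_at_iff {p q x : M} (hp : x ∈ (chartAt E p).source) (hq : x ∈ (chartAt E q).source)
    (J : EndF E M) :
    ContDiffAt ℝ ∞ (repJ q J) (chartAt E q x) ↔ ContDiffAt ℝ ∞ (repJ p J) (chartAt E p x) := by
  rw [← contMDiffAt_J hp J, ← contMDiffAt_J hq J]

/-- locality: smooth as soon as every point has a chart in which the representation is smooth. -/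
theorem Smooth2.of_local {a : F2 E M} (h0 : ∀ x v, at2 a x v v = 0)
    (h : ∀ x : M, ∃ p : M, x ∈ (chartAt E p).source ∧ ContDiffAt ℝ ∞ (rep p a) (chartAt E p x)) :
    Smooth2 a := by
  refine ⟨h0, fun p => contDiffOn_chart_iff.2 fun y hy => ?_⟩
  obtain ⟨q, hq, hs⟩ := h ((chartAt E p).symm y)
  have := (smooth2_at_iff (symm_mem hy) hq a).1 hs
  rwa [(chartAt E p).right_inv hy] at this

theorem Smooth1.of_local {s : F1 E M}
    (h : ∀ x : M, ∃ p : M, x ∈ (chartAt E p).source ∧ ContDiffAt ℝ ∞ (rep1 p s) (chartAt E p x)) :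
    Smooth1 s := by
  refine fun p => contDiffOn_chart_iff.2 fun y hy => ?_
  obtain ⟨q, hq, hs⟩ := h ((chartAt E p).symm y)
  have := smooth1_at_iff (symm_mem hy) hq s hs
  rwa [(chartAt E p).right_inv hy] at this

theorem SmoothV.of_local {V : VF E M}
    (h : ∀ x : M, ∃ p : M, x ∈ (chartAt E p).source ∧ ContDiffAt ℝ ∞ (repV p V) (chartAt E p x)) :
    SmoothV V := by
  refine fun p => contDiffOn_chart_iff.2 fun y hy => ?_
  obtain ⟨q, hq, hs⟩ := h ((chartAt E p).symm y)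
  have := (smoothV_at_iff (symm_mem hy) hq V).1 hs
  rwa [(chartAt E p).right_inv hy] at this

theorem SmoothJ.of_local {J : EndF E M}
    (h : ∀ x : M, ∃ p : M, x ∈ (chartAt E p).source ∧ ContDiffAt ℝ ∞ (repJ p J) (chartAt E p x)) :
    SmoothJ J := by
  refine fun p => contDiffOn_chart_iff.2 fun y hy => ?_
  obtain ⟨q, hq, hs⟩ := h ((chartAt E p).symm y)
  have := (smoothJ_at_iff (symm_mem hy) hq J).1 hs
  rwa [(chartAt E p).right_inv hy] at this

end

end Crest.Agent.R240.Ch
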