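import Mathlib
import Crest.Agent.R240.Ch2

/-!
Row 240 (S0371), layer L1 (helper707): closedness in charts.
-/

set_option autoImplicit false

open Set Function Filter VectorField Bundle
open scoped Manifold ContDiff Topology
open Crest.GeometryTopology.TwoForm

namespace Crest.Agent.R240.Ch

noncomputable section

/-! ### the exterior derivative of a two-form on a normed space -/

section Local

variable {E : Type*} [NormedAddCommGroup E] [NormedSpace ℝ E]

/-- the exterior derivative of a two-form on a normed space. -/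
def dd (b : E → E →L[ℝ] E →L[ℝ] ℝ) (y u v w : E) : ℝ :=
  fderiv ℝ b y u v w - fderiv ℝ b y v u w + fderiv ℝ b y w u v

/-- the exterior derivative of a one-form on a normed space. -/
def d1 (s : E → E →L[ℝ] ℝ) (y : E) : E →L[ℝ] E →L[ℝ] ℝ :=
  fderiv ℝ s y - (fderiv ℝ s y).flip

lemma d1_apply (s : E → E →L[ℝ] ℝ) (y u v : E) :
    d1 s y u v = fderiv ℝ s y u v - fderiv ℝ s y v u := rfl

lemma fderiv_pair {b : E → E →L[ℝ] E →L[ℝ] ℝ} {Y Z : E → E} {y : E}
    (hb : DifferentiableAt ℝ b y) (hY : DifferentiableAt ℝ Y y) (hZ : DifferentiableAt ℝ Z y)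
    (u : E) :
    fderiv ℝ (fun z => b z (Y z) (Z z)) y u =
      fderiv ℝ b y u (Y y) (Z y) + b y (fderiv ℝ Y y u) (Z y) + b y (Y y) (fderiv ℝ Z y u) := by
  have h1 : DifferentiableAt ℝ (fun z => b z (Y z)) y := hb.clm_apply hY
  rw [fderiv_clm_apply h1 hZ, fderiv_clm_apply hb hY]
  simp only [add_apply, ContinuousLinearMap.comp_apply, ContinuousLinearMap.flip_apply]
  ring

/-- the invariant formula for the exterior derivative. -/
theorem dd_invariant {b : E → E →L[ℝ] E →L[ℝ] ℝ} {X Y Z : E → E} {y : E}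
    (halt : ∀ u v, b y u v = - b y v u)
    (hb : DifferentiableAt ℝ b y) (hX : DifferentiableAt ℝ X y)
    (hY : DifferentiableAt ℝ Y y) (hZ : DifferentiableAt ℝ Z y) :
    fderiv ℝ (fun z => b z (Y z) (Z z)) y (X y)
      - fderiv ℝ (fun z => b z (X z) (Z z)) y (Y y)
      + fderiv ℝ (fun z => b z (X z) (Y z)) y (Z y)
      - b y (lieBracket ℝ X Y y) (Z y)
      + b y (lieBracket ℝ X Z y) (Y y)
      - b y (lieBracket ℝ Y Z y) (X y) = dd b y (X y) (Y y) (Z y) := by
  rw [fderiv_pair hb hY hZ, fderiv_pair hb hX hZ, fderiv_pair hb hX hY]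
  simp only [lieBracket_eq, map_sub, sub_apply, dd]
  rw [halt (Y y) (fderiv ℝ Z y (X y)), halt (X y) (fderiv ℝ Z y (Y y)),
    halt (X y) (fderiv ℝ Y y (Z y))]
  ring

end Local

variable {E : Type*} [NormedAddCommGroup E] [NormedSpace ℝ E]
variable {M : Type*} [TopologicalSpace M] [ChartedSpace E M] [IsManifold 𝓘(ℝ, E) ∞ M]

/-! ### derivatives of charts and brackets -/

lemma mfderiv_extChart {p x : M} (hx : x ∈ (chartAt E p).source) :
    (mfderiv 𝓘(ℝ, E) 𝓘(ℝ, E) (extChartAt 𝓘(ℝ, E) p) x : E →L[ℝ] E) = tcc (E := E) x p x := by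
  rw [← TangentBundle.continuousLinearMapAt_trivializationAt hx]
  exact TangentBundle.continuousLinearMapAt_trivializationAt_eq_core hx

lemma mfderiv_chart {p x : M} (hx : x ∈ (chartAt E p).source) :
    (mfderiv 𝓘(ℝ, E) 𝓘(ℝ, E) (chartAt E p) x : E →L[ℝ] E) = tcc (E := E) x p x := by
  rw [← mfderiv_extChart hx]
  rfl

lemma inverse_mfderivWithin_symm {p : M} {y : E}
    (hy : y ∈ (chartAt E p).target) :
    (mfderivWithin 𝓘(ℝ, E) 𝓘(ℝ, E) (extChartAt 𝓘(ℝ, E) p).symm (range 𝓘(ℝ, E)) y :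
      E →L[ℝ] E).inverse =
      tcc (E := E) ((chartAt E p).symm y) p ((chartAt E p).symm y) := by
  have hy' : y ∈ (extChartAt 𝓘(ℝ, E) p).target := by simpa [extChartAt_target] using hy
  have h1 := mfderivWithin_extChartAt_symm_comp_mfderiv_extChartAt (I := 𝓘(ℝ, E)) hy'
  have h2 := mfderiv_extChartAt_comp_mfderivWithin_extChartAt_symm (I := 𝓘(ℝ, E)) hy'
  have h3 := ContinuousLinearMap.inverse_eq h1 h2
  have h4 := mfderiv_extChart (p := p) (symm_mem hy)
  exact h3.trans h4

lemma mpullback_eq_repV {p : M} (V : TVF E M) {y : E}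
    (hy : y ∈ (chartAt E p).target) :
    mpullbackWithin 𝓘(ℝ, E) 𝓘(ℝ, E) (extChartAt 𝓘(ℝ, E) p).symm V (range 𝓘(ℝ, E)) y
      = repV p V y := by
  rw [mpullbackWithin_apply]
  exact congrArg (fun L : E →L[ℝ] E => L (V ((chartAt E p).symm y)))
    (inverse_mfderivWithin_symm hy)

/-- the bracket of vector fields in any chart. -/
lemma mlieBracket_chart [CompleteSpace E] {p : M} {y : E} (hy : y ∈ (chartAt E p).target)
    {V W : TVF E M}
    (hV : MDifferentiableAt 𝓘(ℝ, E) 𝓘(ℝ, E).tangent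
      (fun x => (Bundle.TotalSpace.mk' E x (V x) : TangentBundle 𝓘(ℝ, E) M))
      ((chartAt E p).symm y))
    (hW : MDifferentiableAt 𝓘(ℝ, E) 𝓘(ℝ, E).tangent
      (fun x => (Bundle.TotalSpace.mk' E x (W x) : TangentBundle 𝓘(ℝ, E) M))
      ((chartAt E p).symm y)) :
    repV p (mlieBracket 𝓘(ℝ, E) V W) y = lieBracket ℝ (repV p V) (repV p W) y := by
  have h1 : ContMDiffAt 𝓘(ℝ, E) 𝓘(ℝ, E) ∞ (chartAt E p).symm y :=
    (contMDiffOn_chart_symm (I := 𝓘(ℝ, E)) (n := ∞) (x := p)).contMDiffAt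
      ((chartAt E p).open_target.mem_nhds hy)
  have h2le : minSmoothness ℝ 2 ≤ (∞ : WithTop ℕ∞) := by
    simp only [minSmoothness_of_isRCLikeNormedField]
    exact ENat.LEInfty.out
  have : IsManifold 𝓘(ℝ, E) (minSmoothness ℝ 2) M := IsManifold.of_le (n := ∞) h2le
  have : IsManifold 𝓘(ℝ, E) (minSmoothness ℝ 2) E := IsManifold.of_le (n := ∞) h2le
  have key := mpullback_mlieBracket (I := 𝓘(ℝ, E)) (I' := 𝓘(ℝ, E)) (n := ∞)
    (f := (chartAt E p).symm) (V := V) (W := W) (x₀ := y) hV hW h1 h2le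
  have hpb : ∀ V : TVF E M, ∀ z ∈ (chartAt E p).target,
      mpullback 𝓘(ℝ, E) 𝓘(ℝ, E) (chartAt E p).symm V z = repV p V z := by
    intro V z hz
    have := mpullback_eq_repV V hz
    simpa [mpullbackWithin, mpullback, extChartAt] using! this
  have hev : ∀ V : TVF E M,
      mpullback 𝓘(ℝ, E) 𝓘(ℝ, E) (chartAt E p).symm V =ᶠ[𝓝 y] repV p V := by
    intro V
    filter_upwards [(chartAt E p).open_target.mem_nhds hy] with z hz
    exact hpb V z hz
  have h2 := hpb (mlieBracket 𝓘(ℝ, E) V W) y hy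
  have h3 := key
  rw [h2] at h3
  refine h3.trans ?_
  have hw : ∀ V W : (z : E) → TangentSpace 𝓘(ℝ, E) z,
      mlieBracket 𝓘(ℝ, E) V W y = lieBracket ℝ (V : E → E) W y := by
    intro V W
    have e1 := congrFun (mlieBracketWithin_univ (I := 𝓘(ℝ, E)) (V := V) (W := W)).symm y
    have e2 := congrFun (mlieBracketWithin_eq_lieBracketWithin (V := V) (W := W)
      (s := (Set.univ : Set E))) y
    exact e1.trans (e2.trans (congrFun (lieBracketWithin_univ (V := V) (W := W)) y))
  exact (hw _ _).trans ((hev V).lieBracket_vectorField_eq (hev W))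

/-- the derivative of a function along a vector field, in a chart. -/
lemma lieDerivFun_chart {p x : M} (hx : x ∈ (chartAt E p).source) (V : TVF E M) {f : M → ℝ}
    {g : E → ℝ} (hg : DifferentiableAt ℝ g (chartAt E p x))
    (hfg : ∀ᶠ z in 𝓝 x, f z = g (chartAt E p z)) :
    lieDerivFun 𝓘(ℝ, E) M V f x = fderiv ℝ g (chartAt E p x) (repV p V (chartAt E p x)) := by
  have h1 : mfderiv 𝓘(ℝ, E) 𝓘(ℝ, ℝ) f x = mfderiv 𝓘(ℝ, E) 𝓘(ℝ, ℝ) (g ∘ chartAt E p) x :=
    Filter.EventuallyEq.mfderiv_eq hfg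
  have hc : MDifferentiableAt 𝓘(ℝ, E) 𝓘(ℝ, E) (chartAt E p) x :=
    ((contMDiffOn_chart (I := 𝓘(ℝ, E)) (n := ∞) (x := p)).contMDiffAt
      ((chartAt E p).open_source.mem_nhds hx)).mdifferentiableAt (by simp)
  have h2 := mfderiv_comp x (g := g) (f := chartAt E p) hg.mdifferentiableAt hc
  have h3 : (mfderiv 𝓘(ℝ, E) 𝓘(ℝ, ℝ) f x : E →L[ℝ] ℝ) (V x) =
      (fderiv ℝ g (chartAt E p x)) (tcc x p x (V x)) := by
    rw [h1, h2]
    have h4 : (mfderiv 𝓘(ℝ, E) 𝓘(ℝ, ℝ) g (chartAt E p x) : E →L[ℝ] ℝ)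
        = fderiv ℝ g (chartAt E p x) := mfderiv_eq_fderiv
    have h5 := mfderiv_chart (E := E) hx
    exact (congrArg (fun L : E →L[ℝ] ℝ => L ((mfderiv 𝓘(ℝ, E) 𝓘(ℝ, E) (chartAt E p) x :
      E →L[ℝ] E) (V x))) h4).trans
      (congrArg (fun L : E →L[ℝ] E => fderiv ℝ g (chartAt E p x) (L (V x))) h5)
  rw [lieDerivFun, repV_chart hx]
  exact h3

/-- closedness in charts. -/
def Closed2 (a : F2 E M) : Prop :=
  ∀ p : M, ∀ y ∈ (chartAt E p).target, ∀ u v w, dd (rep p a) y u v w = 0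

lemma Smooth2.diff {a : F2 E M} (ha : Smooth2 a) {p : M} {y : E} (hy : y ∈ (chartAt E p).target) :
    DifferentiableAt ℝ (rep p a) y :=
  (contDiffOn_chart_iff.1 (ha.2 p) y hy).differentiableAt (by simp)

lemma Smooth2.antisymm {a : F2 E M} (ha : Smooth2 a) (x : M) (u v : E) :
    at2 a x u v = - at2 a x v u := by
  have h1 := ha.1 x (u + v)
  have h2 := ha.1 x u
  have h3 := ha.1 x v
  simp only [map_add, add_apply] at h1
  linarith

lemma Smooth2.antisymm_rep {a : F2 E M} (ha : Smooth2 a) (p : M) (y u v : E) :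
    rep p a y u v = - rep p a y v u := ha.antisymm _ _ _

lemma Smooth2.rep_self_zero {a : F2 E M} (ha : Smooth2 a) (p : M) (y u : E) :
    rep p a y u u = 0 := ha.1 _ _

/-- the frozen expression in a chart. -/
theorem extDerivOnFields_chart [CompleteSpace E] {a : TF2 E M} (ha : Smooth2 a) {X Y Z : TVF E M}
    {p x : M} (hx : x ∈ (chartAt E p).source)
    (hX : ContDiffAt ℝ ∞ (repV p X) (chartAt E p x))
    (hY : ContDiffAt ℝ ∞ (repV p Y) (chartAt E p x))
    (hZ : ContDiffAt ℝ ∞ (repV p Z) (chartAt E p x)) :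
    extDerivOnFields 𝓘(ℝ, E) M a X Y Z x =
      dd (rep p a) (chartAt E p x) (repV p X (chartAt E p x)) (repV p Y (chartAt E p x))
        (repV p Z (chartAt E p x)) := by
  have hy : chartAt E p x ∈ (chartAt E p).target := (chartAt E p).map_source hx
  have hb : DifferentiableAt ℝ (rep p a) (chartAt E p x) := ha.diff hy
  have dX := hX.differentiableAt (by simp : (∞ : WithTop ℕ∞) ≠ 0)
  have dY := hY.differentiableAt (by simp : (∞ : WithTop ℕ∞) ≠ 0)
  have dZ := hZ.differentiableAt (by simp : (∞ : WithTop ℕ∞) ≠ 0)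
  have key := dd_invariant (fun u v => ha.antisymm_rep p _ u v) hb dX dY dZ
  rw [← key]
  have hf : ∀ V W : TVF E M, ∀ᶠ z in 𝓝 x, a z (V z) (W z) =
      (fun y => rep p a y (repV p V y) (repV p W y)) (chartAt E p z) := by
    intro V W
    filter_upwards [(chartAt E p).open_source.mem_nhds hx] with z hz
    have h := rep_repV ((chartAt E p).map_source hz) a V W
    rw [h, (chartAt E p).left_inv hz]
    rfl
  have hd : ∀ V W : TVF E M, DifferentiableAt ℝ (repV p V) (chartAt E p x) →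
      DifferentiableAt ℝ (repV p W) (chartAt E p x) →
      DifferentiableAt ℝ (fun y => rep p a y (repV p V y) (repV p W y)) (chartAt E p x) :=
    fun V W h1 h2 => (hb.clm_apply h1).clm_apply h2
  have hm : ∀ V : TVF E M, ContDiffAt ℝ ∞ (repV p V) (chartAt E p x) →
      MDifferentiableAt 𝓘(ℝ, E) 𝓘(ℝ, E).tangent
      (fun x => (Bundle.TotalSpace.mk' E x (V x) : TangentBundle 𝓘(ℝ, E) M))
      ((chartAt E p).symm (chartAt E p x)) := by
    intro V hV
    rw [(chartAt E p).left_inv hx]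
    exact ((contMDiffAt_V hx V).2 hV).mdifferentiableAt (by simp)
  have hbr : ∀ V W T : TVF E M, ContDiffAt ℝ ∞ (repV p V) (chartAt E p x) →
      ContDiffAt ℝ ∞ (repV p W) (chartAt E p x) →
      a x (mlieBracket 𝓘(ℝ, E) V W x) (T x) = rep p a (chartAt E p x)
        (lieBracket ℝ (repV p V) (repV p W) (chartAt E p x)) (repV p T (chartAt E p x)) := by
    intro V W T hV hW
    rw [← mlieBracket_chart hy (hm V hV) (hm W hW), rep_repV hy, (chartAt E p).left_inv hx]
    rfl
  unfold extDerivOnFields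
  rw [lieDerivFun_chart hx X (hd Y Z dY dZ) (hf Y Z), lieDerivFun_chart hx Y (hd X Z dX dZ) (hf X Z),
    lieDerivFun_chart hx Z (hd X Y dX dY) (hf X Y), hbr X Y Z hX hY, hbr X Z Y hX hZ,
    hbr Y Z X hY hZ]

/-- the vector field which is constant in the chart at `p`. -/
def cfield (p : M) (v : E) (x : M) : TangentSpace 𝓘(ℝ, E) x := tcc (E := E) p x x v

lemma repV_cfield {p : M} {y : E} (hy : y ∈ (chartAt E p).target) (v : E) :
    repV p (cfield p v) y = v := tcc_cancel (symm_mem hy) v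

/-- extension of chart vectors to global smooth fields. -/
theorem exists_field [FiniteDimensional ℝ E] [T2Space M] {p x : M} (hx : x ∈ (chartAt E p).source)
    (v : E) :
    ∃ V : TVF E M, IsSmoothVectorField 𝓘(ℝ, E) M V ∧
      ∀ᶠ y in 𝓝 (chartAt E p x), repV p V y = v := by
  obtain ⟨f, -, hf⟩ := (SmoothBumpFunction.nhds_basis_tsupport (I := 𝓘(ℝ, E)) (c := x)).mem_iff.1
    ((chartAt E p).open_source.mem_nhds hx)
  refine ⟨fun z => f z • cfield p v z, ?_, ?_⟩
  · refine ContMDiffOn.smul_section_of_tsupport (s := cfield p v) (V := TangentSpace 𝓘(ℝ, E))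
      (f.contMDiff.contMDiffOn) (chartAt E p).open_source hf ?_
    intro z hz
    refine ContMDiffAt.contMDiffWithinAt ?_
    refine (contMDiffAt_V hz (cfield p v)).2 ?_
    refine (contDiffAt_const (c := v)).congr_of_eventuallyEq ?_
    filter_upwards [(chartAt E p).open_target.mem_nhds ((chartAt E p).map_source hz)] with y hy
    exact repV_cfield hy v
  · have h1 : ∀ᶠ z in 𝓝 x, f z = 1 := f.eventuallyEq_one
    have h2 : Filter.Tendsto (chartAt E p).symm (𝓝 (chartAt E p x)) (𝓝 x) := by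
      have := (chartAt E p).continuousAt_symm ((chartAt E p).map_source hx)
      unfold ContinuousAt at this
      rwa [(chartAt E p).left_inv hx] at this
    filter_upwards [h2.eventually h1, (chartAt E p).open_target.mem_nhds
      ((chartAt E p).map_source hx)] with y hy1 hy2
    have h3 : repV p (fun z => f z • cfield p v z) y
        = f ((chartAt E p).symm y) • repV p (cfield p v) y :=
      map_smul (tcc ((chartAt E p).symm y) p ((chartAt E p).symm y)) _ _
    rw [h3, hy1, one_smul, repV_cfield hy2]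

theorem closed2_iff [FiniteDimensional ℝ E] [T2Space M] {a : TF2 E M} (ha : Smooth2 a) :
    IsClosedTwoForm 𝓘(ℝ, E) M a ↔ Closed2 a := by
  have : CompleteSpace E := FiniteDimensional.complete ℝ E
  constructor
  · intro h p y hy u v w
    have hx := symm_mem hy
    obtain ⟨X, hX, eX⟩ := exists_field hx u
    obtain ⟨Y, hY, eY⟩ := exists_field hx v
    obtain ⟨Z, hZ, eZ⟩ := exists_field hx w
    have sX := (contMDiffAt_V hx X).1 (hX _)
    have sY := (contMDiffAt_V hx Y).1 (hY _)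
    have sZ := (contMDiffAt_V hx Z).1 (hZ _)
    have h1 := extDerivOnFields_chart ha hx sX sY sZ
    rw [h X Y Z hX hY hZ, eX.self_of_nhds, eY.self_of_nhds, eZ.self_of_nhds,
      (chartAt E p).right_inv hy] at h1
    exact h1.symm
  · intro h X Y Z hX hY hZ x
    have hx := mem_chart_source E x
    have sX := (contMDiffAt_V hx X).1 (hX _)
    have sY := (contMDiffAt_V hx Y).1 (hY _)
    have sZ := (contMDiffAt_V hx Z).1 (hZ _)
    rw [extDerivOnFields_chart ha hx sX sY sZ]
    exact h x _ (mem_chart_target E x) _ _ _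

end

end Crest.Agent.R240.Ch
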