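import Mathlib

/-!
Row 240, PART L (helper798): pointwise linear algebra of two-forms on `E4`.
`W b c` = coefficient of `b ∧ c` w.r.t. the standard volume form, `pull A b = A^* b`.
-/

set_option autoImplicit false

namespace Crest.Agent.R240

noncomputable section

/-- The model space. -/
abbrev E4 : Type := EuclideanSpace ℝ (Fin 4)

/-- continuous bilinear forms on `E4` (curried). -/
abbrev Bil : Type := E4 →L[ℝ] E4 →L[ℝ] ℝ

/- instance shortcuts (typeclass search on `Bil` is very slow otherwise) -/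
instance instBilNACG : NormedAddCommGroup Bil := inferInstance
instance instBilNS : NormedSpace ℝ Bil := inferInstance
instance instBilACG : AddCommGroup Bil := inferInstance
instance instBilModule : Module ℝ Bil := inferInstance
instance instBilNSMC : NormSMulClass ℝ Bil := inferInstance
instance instBilIBSMul : IsBoundedSMul ℝ Bil := inferInstance
instance instBilFD : FiniteDimensional ℝ Bil := inferInstance

/-- standard basis vectors. -/
def ee (i : Fin 4) : E4 := EuclideanSpace.single i (1 : ℝ)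

@[simp] theorem ee_apply (i j : Fin 4) : (ee i) j = if j = i then (1 : ℝ) else 0 := by
  simp [ee]

theorem sum_ee (v : E4) : v = v 0 • ee 0 + v 1 • ee 1 + v 2 • ee 2 + v 3 • ee 3 := by
  ext j
  fin_cases j <;> simp

/-- alternating bilinear forms = two-forms. -/
def Alt (b : Bil) : Prop := ∀ v, b v v = 0

theorem Alt.swap {b : Bil} (hb : Alt b) (u v : E4) : b u v = - b v u := by
  have h := hb (u + v)
  have h1 := hb u
  have h2 := hb v
  simp only [map_add, add_apply] at h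
  linarith

/-- entries -/
def ent (b : Bil) (i j : Fin 4) : ℝ := b (ee i) (ee j)

theorem bil_expand (b : Bil) (u v : E4) : b u v =
    ∑ i, ∑ j, u i * v j * ent b i j := by
  conv_lhs => rw [sum_ee u, sum_ee v]
  simp only [map_add, map_smul, add_apply, smul_apply,
    smul_eq_mul, Fin.sum_univ_four, ent]
  ring

theorem Alt.ent_self {b : Bil} (hb : Alt b) (i : Fin 4) : ent b i i = 0 := hb _

theorem Alt.ent_swap {b : Bil} (hb : Alt b) (i j : Fin 4) : ent b i j = - ent b j i := hb.swap _ _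

theorem alt_expand {b : Bil} (hb : Alt b) (u v : E4) : b u v =
    (u 0 * v 1 - u 1 * v 0) * ent b 0 1 + (u 0 * v 2 - u 2 * v 0) * ent b 0 2
    + (u 0 * v 3 - u 3 * v 0) * ent b 0 3 + (u 1 * v 2 - u 2 * v 1) * ent b 1 2
    + (u 1 * v 3 - u 3 * v 1) * ent b 1 3 + (u 2 * v 3 - u 3 * v 2) * ent b 2 3 := by
  rw [bil_expand]
  simp only [Fin.sum_univ_four]
  rw [hb.ent_self 0, hb.ent_self 1, hb.ent_self 2, hb.ent_self 3, hb.ent_swap 1 0, hb.ent_swap 2 0,
    hb.ent_swap 3 0, hb.ent_swap 2 1, hb.ent_swap 3 1, hb.ent_swap 3 2]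
  ring

theorem alt_ext {b c : Bil} (hb : Alt b) (hc : Alt c) (h01 : ent b 0 1 = ent c 0 1)
    (h02 : ent b 0 2 = ent c 0 2) (h03 : ent b 0 3 = ent c 0 3) (h12 : ent b 1 2 = ent c 1 2)
    (h13 : ent b 1 3 = ent c 1 3) (h23 : ent b 2 3 = ent c 2 3) : b = c := by
  ext u v
  rw [alt_expand hb, alt_expand hc, h01, h02, h03, h12, h13, h23]

/-- coefficient of the wedge product `b ∧ c` (with respect to `dx0∧dx1∧dx2∧dx3`). -/
def W (b c : Bil) : ℝ :=
  ent b 0 1 * ent c 2 3 - ent b 0 2 * ent c 1 3 + ent b 0 3 * ent c 1 2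
    + ent b 1 2 * ent c 0 3 - ent b 1 3 * ent c 0 2 + ent b 2 3 * ent c 0 1

theorem W_comm (b c : Bil) : W b c = W c b := by unfold W; ring

theorem ent_add (b c : Bil) (i j : Fin 4) : ent (b + c) i j = ent b i j + ent c i j := by
  simp [ent]

theorem ent_sub (b c : Bil) (i j : Fin 4) : ent (b - c) i j = ent b i j - ent c i j := by
  simp [ent]

theorem ent_smul (r : ℝ) (b : Bil) (i j : Fin 4) : ent (r • b) i j = r * ent b i j := by
  simp [ent]

theorem ent_neg (b : Bil) (i j : Fin 4) : ent (-b) i j = - ent b i j := by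
  simp [ent]

theorem ent_zero (i j : Fin 4) : ent (0 : Bil) i j = 0 := by
  simp [ent]

theorem W_add_left (a b c : Bil) : W (a + b) c = W a c + W b c := by
  unfold W; simp only [ent_add]; ring

theorem W_add_right (a b c : Bil) : W a (b + c) = W a b + W a c := by
  unfold W; simp only [ent_add]; ring

theorem W_sub_left (a b c : Bil) : W (a - b) c = W a c - W b c := by
  unfold W; simp only [ent_sub]; ring

theorem W_sub_right (a b c : Bil) : W a (b - c) = W a b - W a c := by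
  unfold W; simp only [ent_sub]; ring

theorem W_smul_left (r : ℝ) (b c : Bil) : W (r • b) c = r * W b c := by
  unfold W; simp only [ent_smul]; ring

theorem W_smul_right (r : ℝ) (b c : Bil) : W b (r • c) = r * W b c := by
  unfold W; simp only [ent_smul]; ring

/-- pull-back of a bilinear form by a linear map. -/
def pull (A : E4 →L[ℝ] E4) (b : Bil) : Bil :=
  (ContinuousLinearMap.compL ℝ E4 E4 ℝ |>.flip A).comp (b.comp A)

@[simp] theorem pull_apply (A : E4 →L[ℝ] E4) (b : Bil) (u v : E4) :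
    pull A b u v = b (A u) (A v) := by
  simp [pull]

theorem Alt.pull {b : Bil} (hb : Alt b) (A : E4 →L[ℝ] E4) : Alt (pull A b) := by
  intro v; simp [hb (A v)]

theorem det_eq (A : E4 →L[ℝ] E4) : LinearMap.det (A : E4 →ₗ[ℝ] E4) =
    (Matrix.of fun i j => (A (ee j)) i).det := by
  rw [← LinearMap.det_toMatrix (EuclideanSpace.basisFun (Fin 4) ℝ).toBasis]
  congr 1

theorem W_pull {b c : Bil} (hb : Alt b) (hc : Alt c) (A : E4 →L[ℝ] E4) :
    W (pull A b) (pull A c) = LinearMap.det (A : E4 →ₗ[ℝ] E4) * W b c := by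
  rw [det_eq]
  have hdet : (Matrix.of fun i j => (A (ee j)) i).det =
      ∑ σ : Equiv.Perm (Fin 4), (Equiv.Perm.sign σ : ℤ) * ∏ i, (A (ee i)) (σ i) := by
    rw [Matrix.det_apply']
    rfl
  have h1 : ∀ i j : Fin 4, ent (pull A b) i j =
    ((A (ee i)) 0 * (A (ee j)) 1 - (A (ee i)) 1 * (A (ee j)) 0) * ent b 0 1
    + ((A (ee i)) 0 * (A (ee j)) 2 - (A (ee i)) 2 * (A (ee j)) 0) * ent b 0 2
    + ((A (ee i)) 0 * (A (ee j)) 3 - (A (ee i)) 3 * (A (ee j)) 0) * ent b 0 3
    + ((A (ee i)) 1 * (A (ee j)) 2 - (A (ee i)) 2 * (A (ee j)) 1) * ent b 1 2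
    + ((A (ee i)) 1 * (A (ee j)) 3 - (A (ee i)) 3 * (A (ee j)) 1) * ent b 1 3
    + ((A (ee i)) 2 * (A (ee j)) 3 - (A (ee i)) 3 * (A (ee j)) 2) * ent b 2 3 := by
    intro i j
    unfold ent
    rw [pull_apply, alt_expand hb]
    simp only [ent]
  have h2 : ∀ i j : Fin 4, ent (pull A c) i j =
    ((A (ee i)) 0 * (A (ee j)) 1 - (A (ee i)) 1 * (A (ee j)) 0) * ent c 0 1
    + ((A (ee i)) 0 * (A (ee j)) 2 - (A (ee i)) 2 * (A (ee j)) 0) * ent c 0 2
    + ((A (ee i)) 0 * (A (ee j)) 3 - (A (ee i)) 3 * (A (ee j)) 0) * ent c 0 3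
    + ((A (ee i)) 1 * (A (ee j)) 2 - (A (ee i)) 2 * (A (ee j)) 1) * ent c 1 2
    + ((A (ee i)) 1 * (A (ee j)) 3 - (A (ee i)) 3 * (A (ee j)) 1) * ent c 1 3
    + ((A (ee i)) 2 * (A (ee j)) 3 - (A (ee i)) 3 * (A (ee j)) 2) * ent c 2 3 := by
    intro i j
    unfold ent
    rw [pull_apply, alt_expand hc]
    simp only [ent]
  unfold W
  simp only [h1, h2]
  generalize ent b 0 1 = b01
  generalize ent b 0 2 = b02
  generalize ent b 0 3 = b03
  generalize ent b 1 2 = b12
  generalize ent b 1 3 = b13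
  generalize ent b 2 3 = b23
  generalize ent c 0 1 = c01
  generalize ent c 0 2 = c02
  generalize ent c 0 3 = c03
  generalize ent c 1 2 = c12
  generalize ent c 1 3 = c13
  generalize ent c 2 3 = c23
  simp only [Matrix.det_succ_row_zero, Fin.sum_univ_succ, Matrix.of_apply, Matrix.submatrix_apply,
    Fin.succ_zero_eq_one, Fin.succ_one_eq_two, Finset.univ_unique, Fin.default_eq_zero,
    Matrix.det_unique, Finset.sum_singleton, Fin.zero_succAbove, Fin.val_zero, pow_zero, one_mul,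
    Fin.val_succ, zero_add, pow_one]
  simp [Fin.succAbove, Fin.lt_def]
  ring

/-! ### types with respect to an almost complex structure `J` -/

/-- the `J`-invariant part `b' = (b + J^* b)/2`. -/
def invp (J : E4 →L[ℝ] E4) (b : Bil) : Bil := (1/2 : ℝ) • (b + pull J b)

/-- the `J`-anti-invariant part `b'' = (b - J^* b)/2`. -/
def antip (J : E4 →L[ℝ] E4) (b : Bil) : Bil := (1/2 : ℝ) • (b - pull J b)

theorem invp_apply (J : E4 →L[ℝ] E4) (b : Bil) (u v : E4) :
    invp J b u v = (b u v + b (J u) (J v)) / 2 := by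
  have h : invp J b u v = (1/2 : ℝ) * (b u v + pull J b u v) := rfl
  rw [h, pull_apply]; ring

theorem antip_apply (J : E4 →L[ℝ] E4) (b : Bil) (u v : E4) :
    antip J b u v = (b u v - b (J u) (J v)) / 2 := by
  have h : antip J b u v = (1/2 : ℝ) * (b u v - pull J b u v) := rfl
  rw [h, pull_apply]; ring

theorem invp_add_antip (J : E4 →L[ℝ] E4) (b : Bil) : invp J b + antip J b = b := by
  ext u v
  have h : (invp J b + antip J b) u v = invp J b u v + antip J b u v := rfl
  rw [h, invp_apply, antip_apply]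
  ring

/-- `P` is a (semi-)positive `J`-invariant two-form: `P(v, J v) ≥ 0`. -/
structure Pos (J : E4 →L[ℝ] E4) (P : Bil) : Prop where
  alt : Alt P
  inv : ∀ u v, P (J u) (J v) = P u v
  nonneg : ∀ v, 0 ≤ P v (J v)

/-- `F` is a strictly positive `J`-invariant two-form. -/
structure SPos (J : E4 →L[ℝ] E4) (F : Bil) : Prop where
  alt : Alt F
  inv : ∀ u v, F (J u) (J v) = F u v
  pos : ∀ v, v ≠ 0 → 0 < F v (J v)

/-- the orientation-free wedge pairing `q(b,c) = (b ∧ c)/(F ∧ F)`. -/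
def q (F b c : Bil) : ℝ := W b c / W F F

/-- the elementary two-form `ξ ∧ η`. -/
def wed (ξ η : E4 →L[ℝ] ℝ) : Bil := ξ.smulRight η - η.smulRight ξ

@[simp] theorem wed_apply (ξ η : E4 →L[ℝ] ℝ) (u v : E4) :
    wed ξ η u v = ξ u * η v - η u * ξ v := rfl

/-- `J` acting on a covector with the sign `(d^c) : (Jc ξ)(v) = - ξ (J v)`; then `ξ ∧ Jc ξ` is positive
    [`(ξ ∧ Jc ξ)(v, J v) = ξ(v)^2 + ξ(J v)^2`]. -/
def Jc (J : E4 →L[ℝ] E4) (ξ : E4 →L[ℝ] ℝ) : E4 →L[ℝ] ℝ := - ξ.comp J

@[simp] theorem Jc_apply (J : E4 →L[ℝ] E4) (ξ : E4 →L[ℝ] ℝ) (v : E4) :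
    Jc J ξ v = - ξ (J v) := by
  simp [Jc]

theorem wed_alt (ξ η : E4 →L[ℝ] ℝ) : Alt (wed ξ η) := by
  intro v; simp; ring

theorem wed_Jc_pos {J : E4 →L[ℝ] E4} (hJ : ∀ v, J (J v) = -v) (ξ : E4 →L[ℝ] ℝ) :
    Pos J (wed ξ (Jc J ξ)) where
  alt := wed_alt _ _
  inv u v := by simp [hJ]; ring
  nonneg v := by
    simp [hJ]
    nlinarith [sq_nonneg (ξ v), sq_nonneg (ξ (J v))]

end

end Crest.Agent.R240
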