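import Mathlib
import Crest.Agent.R240.Ch3
import Crest.Agent.R240.Lin1

/-!
Row 240 (S0371), layer CH (helper707): common definitions for forms on the manifold.
Definitions and the most basic lemmas only; the theorems are in `Ch4`, `Ch6`, `Ch7`.
-/

set_option autoImplicit false

open Set Function Filter Bundle
open scoped Manifold ContDiff Topology
open Crest.GeometryTopology.TwoForm

namespace Crest.Agent.R240.Ch

noncomputable section

section General

variable {E : Type*} [NormedAddCommGroup E] [NormedSpace ℝ E]
variable {M : Type*} [TopologicalSpace M] [ChartedSpace E M] [IsManifold 𝓘(ℝ, E) ∞ M]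

/-! ### functions -/

omit [IsManifold 𝓘(ℝ, E) ∞ M] in
/-- a function in the chart at `p`. -/
def repF (p : M) (f : M → ℝ) (y : E) : ℝ := f ((chartAt E p).symm y)

/-- smooth functions, in charts. -/
def SmoothF (E : Type*) [NormedAddCommGroup E] [NormedSpace ℝ E]
    {M : Type*} [TopologicalSpace M] [ChartedSpace E M] (f : M → ℝ) : Prop :=
  ∀ p : M, ContDiffOn ℝ ∞ (repF (E := E) p f) (chartAt E p).target

/-- the differential of a function. -/
def dF (f : M → ℝ) : F1 E M := fun x => (fderiv ℝ (repF x f) (chartAt E x x) : E →L[ℝ] ℝ)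

/-! ### algebra -/

/-- `f a`. -/
def fmul (f : M → ℝ) (a : F2 E M) : F2 E M := fun x => f x • a x

/-- `f s` for a one-form `s`. -/
def fmul1 (f : M → ℝ) (s : F1 E M) : F1 E M := fun x => f x • s x

/-- the exterior derivative of a one-form. -/
def dG (s : F1 E M) : F2 E M := fun x => (d1 (rep1 x s) (chartAt E x x) : E →L[ℝ] E →L[ℝ] ℝ)

/-- the wedge product of two one-forms. -/
def wedG (s t : F1 E M) : F2 E M := fun x =>
  ((at1 s x).smulRight (at1 t x) - (at1 t x).smulRight (at1 s x) : E →L[ℝ] E →L[ℝ] ℝ)

/-! ### extension by zero -/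

open Classical in
/-- extension by zero of a function on the model space (chart at `p`). -/
def extF (p : M) (g : E → ℝ) (x : M) : ℝ :=
  if x ∈ (chartAt E p).source then g (chartAt E p x) else 0

open Classical in
/-- extension by zero of a two-form on the model space (chart at `p`). -/
def ext2 (p : M) (b : E → E →L[ℝ] E →L[ℝ] ℝ) : F2 E M := fun x =>
  (if x ∈ (chartAt E p).source then
    (b (chartAt E p x)).bilinearComp (tcc x p x) (tcc x p x) else 0 : E →L[ℝ] E →L[ℝ] ℝ)

open Classical in
/-- extension by zero of a one-form on the model space (chart at `p`). -/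
def ext1 (p : M) (s : E → E →L[ℝ] ℝ) : F1 E M := fun x =>
  (if x ∈ (chartAt E p).source then (s (chartAt E p x)).comp (tcc x p x) else 0 : E →L[ℝ] ℝ)

end General

/-! ### the case of `E4`: types with respect to `J` -/

section Four

variable {M : Type*} [TopologicalSpace M] [ChartedSpace E4 M] [IsManifold 𝓘(ℝ, E4) ∞ M]

/-- `b'`. -/
def bp (J : EndF E4 M) (a : F2 E4 M) : F2 E4 M := fun x => (invp (atJ J x) (at2 a x) : Bil)

/-- `b''`. -/
def bpp (J : EndF E4 M) (a : F2 E4 M) : F2 E4 M := fun x => (antip (atJ J x) (at2 a x) : Bil)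

/-- semi-positive `J`-invariant forms. -/
def PosG (J : EndF E4 M) (a : F2 E4 M) : Prop := ∀ x, Pos (atJ J x) (at2 a x)

/-- strictly positive `J`-invariant forms. -/
def SPosG (J : EndF E4 M) (a : F2 E4 M) : Prop := ∀ x, SPos (atJ J x) (at2 a x)

/-- the orientation-free pairing of two-forms. -/
def qG (F b c : F2 E4 M) (x : M) : ℝ := q (at2 F x) (at2 b x) (at2 c x)

end Four

end

end Crest.Agent.R240.Ch
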