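import Mathlib
import Crest.Agent.R240.FormDefs

/-!
Row 240 (S0371), layer CH (helper707): algebra of forms on the manifold, exterior derivatives.
-/

set_option autoImplicit false
set_option linter.unusedSectionVars false

open Set Function Filter Bundle
open scoped Manifold ContDiff Topology
open Crest.GeometryTopology.TwoForm

namespace Crest.Agent.R240.Ch

noncomputable section

/-! ### local calculus -/

section Local

variable {E : Type*} [NormedAddCommGroup E] [NormedSpace ℝ E]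

instance instNormedBil : NormedAddCommGroup (E →L[ℝ] E →L[ℝ] ℝ) :=
  ContinuousLinearMap.toNormedAddCommGroup

instance instNormedSpaceBil : NormedSpace ℝ (E →L[ℝ] E →L[ℝ] ℝ) :=
  ContinuousLinearMap.toNormedSpace

lemma two_le_infty : (2 : WithTop ℕ∞) ≤ (∞ : WithTop ℕ∞) := ENat.LEInfty.out

lemma one_le_infty : (1 : WithTop ℕ∞) ≤ (∞ : WithTop ℕ∞) := ENat.LEInfty.out

lemma infty_ne_zero : (∞ : WithTop ℕ∞) ≠ 0 := by simp

/-- symmetry of the second derivative, of a smooth map. -/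
lemma snd_symm {F : Type*} [NormedAddCommGroup F] [NormedSpace ℝ F] {φ : E → F} {y : E}
    (h : ContDiffAt ℝ ∞ φ y) (u v : E) :
    fderiv ℝ (fderiv ℝ φ) y u v = fderiv ℝ (fderiv ℝ φ) y v u := by
  have h1 : IsSymmSndFDerivAt ℝ φ y := (h.of_le two_le_infty).isSymmSndFDerivAt (by simp)
  exact h1 u v

lemma d1_self (s : E → E →L[ℝ] ℝ) (y u : E) : d1 s y u u = 0 := by
  rw [d1_apply, sub_self]

/-- naturality of the exterior derivative of one-forms. -/
lemma d1_pullback {s t : E → E →L[ℝ] ℝ} {φ : E → E} {y : E} (hφ : ContDiffAt ℝ ∞ φ y)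
    (hs : DifferentiableAt ℝ s (φ y))
    (ht : ∀ᶠ z in 𝓝 y, t z = (s (φ z)).comp (fderiv ℝ φ z)) (u v : E) :
    d1 t y u v = d1 s (φ y) (fderiv ℝ φ y u) (fderiv ℝ φ y v) := by
  have hd : DifferentiableAt ℝ φ y := hφ.differentiableAt infty_ne_zero
  have hdd : DifferentiableAt ℝ (fderiv ℝ φ) y :=
    (hφ.fderiv_right (m := ∞) (by simp)).differentiableAt infty_ne_zero
  have key : ∀ u v, fderiv ℝ t y u v = fderiv ℝ s (φ y) (fderiv ℝ φ y u) (fderiv ℝ φ y v)
      + s (φ y) (fderiv ℝ (fderiv ℝ φ) y u v) := by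
    intro u v
    rw [Filter.EventuallyEq.fderiv_eq ht]
    have h1 : DifferentiableAt ℝ (fun z => s (φ z)) y := hs.comp y hd
    have h2 : fderiv ℝ (fun z => s (φ z)) y = (fderiv ℝ s (φ y)).comp (fderiv ℝ φ y) :=
      fderiv_comp y hs hd
    rw [fderiv_clm_comp h1 hdd, h2]
    simp only [add_apply, ContinuousLinearMap.comp_apply, ContinuousLinearMap.compL_apply,
      ContinuousLinearMap.flip_apply]
    ring
  rw [d1_apply, d1_apply, key, key, snd_symm hφ u v]
  ring

/-- naturality of the exterior derivative of two-forms. -/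
lemma dd_pullback {b t : E → E →L[ℝ] E →L[ℝ] ℝ} {φ : E → E} {y : E} (hφ : ContDiffAt ℝ ∞ φ y)
    (hb : DifferentiableAt ℝ b (φ y)) (halt : ∀ u v, b (φ y) u v = - b (φ y) v u)
    (htd : DifferentiableAt ℝ t y)
    (ht : ∀ᶠ z in 𝓝 y, ∀ u v, t z u v = b (φ z) (fderiv ℝ φ z u) (fderiv ℝ φ z v)) (u v w : E) :
    dd t y u v w = dd b (φ y) (fderiv ℝ φ y u) (fderiv ℝ φ y v) (fderiv ℝ φ y w) := by
  have hd : DifferentiableAt ℝ φ y := hφ.differentiableAt infty_ne_zero
  have hdd : DifferentiableAt ℝ (fderiv ℝ φ) y :=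
    (hφ.fderiv_right (m := ∞) (by simp)).differentiableAt infty_ne_zero
  have hc : ∀ v : E, DifferentiableAt ℝ (fun z => fderiv ℝ φ z v) y := fun v =>
    hdd.clm_apply (differentiableAt_const v)
  have hcv : ∀ u v : E, fderiv ℝ (fun z => fderiv ℝ φ z v) y u = fderiv ℝ (fderiv ℝ φ) y u v := by
    intro u v
    rw [fderiv_clm_apply hdd (differentiableAt_const v)]
    simp
  have hbφ : DifferentiableAt ℝ (fun z => b (φ z)) y := hb.comp y hd
  have hbφ' : fderiv ℝ (fun z => b (φ z)) y = (fderiv ℝ b (φ y)).comp (fderiv ℝ φ y) :=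
    fderiv_comp y hb hd
  have key : ∀ u v w, fderiv ℝ t y u v w =
      fderiv ℝ b (φ y) (fderiv ℝ φ y u) (fderiv ℝ φ y v) (fderiv ℝ φ y w)
      + b (φ y) (fderiv ℝ (fderiv ℝ φ) y u v) (fderiv ℝ φ y w)
      + b (φ y) (fderiv ℝ φ y v) (fderiv ℝ (fderiv ℝ φ) y u w) := by
    intro u v w
    have h1 : fderiv ℝ (fun z => t z v w) y u = fderiv ℝ t y u v w := by
      have h2 : DifferentiableAt ℝ (fun z => t z v) y := htd.clm_apply (differentiableAt_const v)
      rw [fderiv_clm_apply h2 (differentiableAt_const w),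
        fderiv_clm_apply htd (differentiableAt_const v)]
      simp
    have h3 : (fun z => t z v w) =ᶠ[𝓝 y] fun z => b (φ z) (fderiv ℝ φ z v) (fderiv ℝ φ z w) :=
      ht.mono fun z hz => hz v w
    rw [← h1, h3.fderiv_eq, fderiv_pair hbφ (hc v) (hc w), hcv, hcv, hbφ']
    rfl
  unfold dd
  rw [key, key, key, snd_symm hφ v u, snd_symm hφ w u, snd_symm hφ w v,
    halt (fderiv ℝ (fderiv ℝ φ) y u w) (fderiv ℝ φ y v)]
  ring

lemma fderiv_const_apply2 {b : E → E →L[ℝ] E →L[ℝ] ℝ} {y : E} (hb : DifferentiableAt ℝ b y)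
    (u v w : E) : fderiv ℝ (fun z => b z v w) y u = fderiv ℝ b y u v w := by
  have h2 : DifferentiableAt ℝ (fun z => b z v) y := hb.clm_apply (differentiableAt_const v)
  rw [fderiv_clm_apply h2 (differentiableAt_const w),
    fderiv_clm_apply hb (differentiableAt_const v)]
  simp

lemma fderiv_const_apply1 {s : E → E →L[ℝ] ℝ} {y : E} (hs : DifferentiableAt ℝ s y)
    (u v : E) : fderiv ℝ (fun z => s z v) y u = fderiv ℝ s y u v := by
  rw [fderiv_clm_apply hs (differentiableAt_const v)]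
  simp

lemma d1_contDiffAt {s : E → E →L[ℝ] ℝ} {y : E} (h : ContDiffAt ℝ ∞ s y) :
    ContDiffAt ℝ ∞ (d1 s) y := by
  have h1 : ContDiffAt ℝ ∞ (fderiv ℝ s) y := h.fderiv_right (m := ∞) (by simp)
  have h2 : ContDiffAt ℝ ∞ (fun z => (fderiv ℝ s z).flip) y := by
    have hc : ContDiff ℝ ∞ (fun b : E →L[ℝ] E →L[ℝ] ℝ => b.flip) :=
      (ContinuousLinearMap.flipₗᵢ ℝ E E ℝ).contDiff
    exact hc.contDiffAt.comp y h1
  exact h1.sub h2

lemma fderiv_d1 {s : E → E →L[ℝ] ℝ} {y : E} (h : ContDiffAt ℝ ∞ s y) (u v w : E) :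
    fderiv ℝ (d1 s) y u v w = fderiv ℝ (fderiv ℝ s) y u v w - fderiv ℝ (fderiv ℝ s) y u w v := by
  have hdd : DifferentiableAt ℝ (fderiv ℝ s) y :=
    (h.fderiv_right (m := ∞) (by simp)).differentiableAt infty_ne_zero
  rw [← fderiv_const_apply2 ((d1_contDiffAt h).differentiableAt infty_ne_zero),
    ← fderiv_const_apply2 hdd, ← fderiv_const_apply2 hdd]
  have h1 : (fun z => d1 s z v w) = fun z => fderiv ℝ s z v w - fderiv ℝ s z w v := by
    funext z; exact d1_apply s z v w
  have h2 : ∀ v w : E, DifferentiableAt ℝ (fun z => fderiv ℝ s z v w) y := fun v w =>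
    (hdd.clm_apply (differentiableAt_const v)).clm_apply (differentiableAt_const w)
  rw [h1, fderiv_fun_sub (h2 v w) (h2 w v)]
  rfl

/-- `d ∘ d = 0` (one-forms). -/
lemma dd_d1 {s : E → E →L[ℝ] ℝ} {y : E} (h : ContDiffAt ℝ ∞ s y) (u v w : E) :
    dd (d1 s) y u v w = 0 := by
  unfold dd
  rw [fderiv_d1 h, fderiv_d1 h, fderiv_d1 h, snd_symm h u v, snd_symm h u w, snd_symm h v w]
  ring

/-- `d ∘ d = 0` (functions). -/
lemma d1_fderiv {f : E → ℝ} {y : E} (h : ContDiffAt ℝ ∞ f y) : d1 (fderiv ℝ f) y = 0 := by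
  ext u v
  rw [d1_apply, snd_symm h u v]
  simp

lemma d1_congr {s t : E → E →L[ℝ] ℝ} {y : E} (h : s =ᶠ[𝓝 y] t) : d1 s y = d1 t y := by
  unfold d1; rw [h.fderiv_eq]

lemma dd_congr {s t : E → E →L[ℝ] E →L[ℝ] ℝ} {y : E} (h : s =ᶠ[𝓝 y] t) (u v w : E) :
    dd s y u v w = dd t y u v w := by
  unfold dd; rw [h.fderiv_eq]

lemma d1_add {s t : E → E →L[ℝ] ℝ} {y : E} (hs : DifferentiableAt ℝ s y)
    (ht : DifferentiableAt ℝ t y) : d1 (fun z => s z + t z) y = d1 s y + d1 t y := by
  ext u v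
  simp only [d1_apply, add_apply]
  rw [fderiv_fun_add hs ht]
  simp only [add_apply]
  ring

lemma d1_smul {f : E → ℝ} {s : E → E →L[ℝ] ℝ} {y : E} (hf : DifferentiableAt ℝ f y)
    (hs : DifferentiableAt ℝ s y) (u v : E) :
    d1 (fun z => f z • s z) y u v
      = fderiv ℝ f y u * s y v - fderiv ℝ f y v * s y u + f y * d1 s y u v := by
  simp only [d1_apply]
  rw [fderiv_fun_smul hf hs]
  simp only [add_apply, smul_apply, ContinuousLinearMap.smulRight_apply, smul_eq_mul]
  ring

lemma dd_add {s t : E → E →L[ℝ] E →L[ℝ] ℝ} {y : E} (hs : DifferentiableAt ℝ s y)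
    (ht : DifferentiableAt ℝ t y) (u v w : E) :
    dd (fun z => s z + t z) y u v w = dd s y u v w + dd t y u v w := by
  unfold dd
  rw [fderiv_fun_add hs ht]
  simp only [add_apply]
  ring

lemma dd_const_smul {s : E → E →L[ℝ] E →L[ℝ] ℝ} {y : E} (c : ℝ)
    (hs : DifferentiableAt ℝ s y) (u v w : E) :
    dd (fun z => c • s z) y u v w = c * dd s y u v w := by
  unfold dd
  rw [fderiv_fun_const_smul hs]
  simp only [smul_apply, smul_eq_mul]
  ring

end Local

/-! ### forms on the manifold -/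

section General

variable {E : Type*} [NormedAddCommGroup E] [NormedSpace ℝ E]
variable {M : Type*} [TopologicalSpace M] [ChartedSpace E M] [IsManifold 𝓘(ℝ, E) ∞ M]

/-! #### functions -/

omit [IsManifold 𝓘(ℝ, E) ∞ M] in
lemma repF_chart {p x : M} (hx : x ∈ (chartAt E p).source) (f : M → ℝ) :
    repF p f (chartAt E p x) = f x := by
  rw [repF, (chartAt E p).left_inv hx]

lemma contMDiffAt_F {p x : M} (hx : x ∈ (chartAt E p).source) (f : M → ℝ) :
    ContMDiffAt 𝓘(ℝ, E) 𝓘(ℝ, ℝ) ∞ f x ↔ ContDiffAt ℝ ∞ (repF p f) (chartAt E p x) :=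
  contMDiffAt_of_eq hx (fun _ hz => (repF_chart hz f).symm)

theorem smoothF_iff (f : M → ℝ) : ContMDiff 𝓘(ℝ, E) 𝓘(ℝ, ℝ) ∞ f ↔ SmoothF E f := by
  have h := forall_chart_iff (P := fun (p : M) (y : E) => ContDiffAt ℝ ∞ (repF p f) y)
    (fun p x hx => contMDiffAt_F hx f)
  constructor
  · intro h2 p
    exact contDiffOn_chart_iff.2 (h.1 h2 p)
  · intro h2
    exact h.2 fun p => contDiffOn_chart_iff.1 (h2 p)

omit [IsManifold 𝓘(ℝ, E) ∞ M] in
lemma SmoothF.at {f : M → ℝ} (hf : SmoothF E f) {p : M} {y : E} (hy : y ∈ (chartAt E p).target) :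
    ContDiffAt ℝ ∞ (repF p f) y := contDiffOn_chart_iff.1 (hf p) y hy

lemma Smooth1.at {s : F1 E M} (hs : Smooth1 s) {p : M} {y : E} (hy : y ∈ (chartAt E p).target) :
    ContDiffAt ℝ ∞ (rep1 p s) y := contDiffOn_chart_iff.1 (hs p) y hy

lemma Smooth2.at {a : F2 E M} (ha : Smooth2 a) {p : M} {y : E} (hy : y ∈ (chartAt E p).target) :
    ContDiffAt ℝ ∞ (rep p a) y := contDiffOn_chart_iff.1 (ha.2 p) y hy

lemma SmoothJ.at {J : EndF E M} (hJ : SmoothJ J) {p : M} {y : E} (hy : y ∈ (chartAt E p).target) :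
    ContDiffAt ℝ ∞ (repJ p J) y := contDiffOn_chart_iff.1 (hJ p) y hy

omit [IsManifold 𝓘(ℝ, E) ∞ M] in
/-- transition law for functions. -/
lemma repF_trans_ev {p q : M} {y : E} (hy : y ∈ (chartAt E p).target)
    (hq : (chartAt E p).symm y ∈ (chartAt E q).source) (f : M → ℝ) :
    ∀ᶠ z in 𝓝 y, repF p f z = repF q f (trans (E := E) p q z) := by
  have ho : IsOpen ((chartAt E p).target ∩ (chartAt E p).symm ⁻¹' (chartAt E q).source) :=
    (chartAt E p).isOpen_inter_preimage_symm (chartAt E q).open_source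
  filter_upwards [ho.mem_nhds ⟨hy, hq⟩] with z hz
  simp only [repF, trans, comp_apply]
  rw [(chartAt E q).left_inv hz.2]

lemma rep1_trans_ev {p q : M} {y : E} (hy : y ∈ (chartAt E p).target)
    (hq : (chartAt E p).symm y ∈ (chartAt E q).source) (s : F1 E M) :
    ∀ᶠ z in 𝓝 y, rep1 p s z
      = (rep1 q s (trans (E := E) p q z)).comp (fderiv ℝ (trans (E := E) p q) z) := by
  have ho : IsOpen ((chartAt E p).target ∩ (chartAt E p).symm ⁻¹' (chartAt E q).source) :=
    (chartAt E p).isOpen_inter_preimage_symm (chartAt E q).open_source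
  filter_upwards [ho.mem_nhds ⟨hy, hq⟩] with y hy
  ext u
  have h1 := rep1_trans (symm_mem hy.1) hy.2 s u
  rw [(chartAt E p).right_inv hy.1, tcc_eq_fderiv_trans, (chartAt E p).right_inv hy.1] at h1
  exact h1

lemma rep_trans_ev {p q : M} {y : E} (hy : y ∈ (chartAt E p).target)
    (hq : (chartAt E p).symm y ∈ (chartAt E q).source) (a : F2 E M) :
    ∀ᶠ z in 𝓝 y, ∀ u v, rep p a z u v
      = rep q a (trans (E := E) p q z) (fderiv ℝ (trans (E := E) p q) z u)
        (fderiv ℝ (trans (E := E) p q) z v) := by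
  have ho : IsOpen ((chartAt E p).target ∩ (chartAt E p).symm ⁻¹' (chartAt E q).source) :=
    (chartAt E p).isOpen_inter_preimage_symm (chartAt E q).open_source
  filter_upwards [ho.mem_nhds ⟨hy, hq⟩] with y hy
  intro u v
  exact rep_pullback hy.1 hy.2 a u v

omit [IsManifold 𝓘(ℝ, E) ∞ M] in
lemma trans_mem {p q : M} {y : E} (_hy : y ∈ (chartAt E p).target)
    (hq : (chartAt E p).symm y ∈ (chartAt E q).source) :
    trans (E := E) p q y ∈ (chartAt E q).target := (chartAt E q).map_source hq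

/-- two representations at the centre of the chart. -/
lemma ext_rep {p : M} {y : E} {b : E →L[ℝ] E →L[ℝ] ℝ} {a : F2 E M}
    (h : ∀ u v, at2 a ((chartAt E p).symm y) (tcc p ((chartAt E p).symm y) ((chartAt E p).symm y) u)
      (tcc p ((chartAt E p).symm y) ((chartAt E p).symm y) v) = b u v) : rep p a y = b := by
  ext u v
  rw [rep_apply]
  exact h u v

/-- the differential of a function in a chart. -/
theorem rep1_dF {f : M → ℝ} (hf : SmoothF E f) {p : M} {y : E} (hy : y ∈ (chartAt E p).target) :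
    rep1 p (dF f) y = fderiv ℝ (repF p f) y := by
  set x := (chartAt E p).symm y with hx
  have hq : (chartAt E p).symm y ∈ (chartAt E x).source := mem_chart_source E x
  have hev := repF_trans_ev hy hq f
  have ht : DifferentiableAt ℝ (trans (E := E) p x) y :=
    (trans_contDiffAt hy hq).differentiableAt infty_ne_zero
  have hg : DifferentiableAt ℝ (repF x f) (trans (E := E) p x y) :=
    (hf.at (trans_mem hy hq)).differentiableAt infty_ne_zero
  have h1 : fderiv ℝ (repF p f) y = (fderiv ℝ (repF x f) (trans (E := E) p x y)).comp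
      (fderiv ℝ (trans (E := E) p x) y) := by
    rw [Filter.EventuallyEq.fderiv_eq hev]
    exact fderiv_comp y hg ht
  rw [h1]
  ext u
  rw [rep1_apply, ← hx]
  have h2 : tcc p x x u = fderiv ℝ (trans (E := E) p x) y u := by
    rw [tcc_eq_fderiv_trans, hx, (chartAt E p).right_inv hy]
  rw [h2]
  rfl

/-- the exterior derivative of a one-form in a chart. -/
theorem rep_dG {s : F1 E M} (hs : Smooth1 s) {p : M} {y : E} (hy : y ∈ (chartAt E p).target) :
    rep p (dG s) y = d1 (rep1 p s) y := by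
  set x := (chartAt E p).symm y with hx
  have hq : (chartAt E p).symm y ∈ (chartAt E x).source := mem_chart_source E x
  have hev := rep1_trans_ev hy hq s
  have hg : DifferentiableAt ℝ (rep1 x s) (trans (E := E) p x y) :=
    (hs.at (trans_mem hy hq)).differentiableAt infty_ne_zero
  ext u v
  rw [d1_pullback (trans_contDiffAt hy hq) hg hev, rep_apply, ← hx]
  have h2 : ∀ u, tcc p x x u = fderiv ℝ (trans (E := E) p x) y u := by
    intro u
    rw [tcc_eq_fderiv_trans, hx, (chartAt E p).right_inv hy]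
  rw [h2, h2]
  rfl

theorem Smooth1.dF {f : M → ℝ} (hf : SmoothF E f) : Smooth1 (dF (E := E) f) := by
  intro p
  refine contDiffOn_chart_iff.2 fun y hy => ?_
  have h : rep1 p (Ch.dF (E := E) f) =ᶠ[𝓝 y] fderiv ℝ (repF p f) := by
    filter_upwards [(chartAt E p).open_target.mem_nhds hy] with z hz using rep1_dF hf hz
  exact ((hf.at hy).fderiv_right (m := ∞) (by simp)).congr_of_eventuallyEq h

lemma rep_dG_ev {s : F1 E M} (hs : Smooth1 s) {p : M} {y : E} (hy : y ∈ (chartAt E p).target) :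
    rep p (dG s) =ᶠ[𝓝 y] d1 (rep1 p s) := by
  filter_upwards [(chartAt E p).open_target.mem_nhds hy] with z hz using rep_dG hs hz

theorem Smooth2.dG {s : F1 E M} (hs : Smooth1 s) : Smooth2 (dG s) := by
  refine ⟨fun x v => d1_self _ _ _, fun p => contDiffOn_chart_iff.2 fun y hy => ?_⟩
  exact (d1_contDiffAt (hs.at hy)).congr_of_eventuallyEq (rep_dG_ev hs hy)

theorem Closed2.dG {s : F1 E M} (hs : Smooth1 s) : Closed2 (dG s) := by
  intro p y hy u v w
  rw [dd_congr (rep_dG_ev hs hy), dd_d1 (hs.at hy)]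

theorem dG_dF {f : M → ℝ} (hf : SmoothF E f) : dG (dF (E := E) f) = 0 := by
  funext x
  have h : rep1 x (Ch.dF (E := E) f) =ᶠ[𝓝 (chartAt E x x)] fderiv ℝ (repF x f) := by
    filter_upwards [(chartAt E x).open_target.mem_nhds (mem_chart_target E x)] with z hz
      using rep1_dF hf hz
  have h2 := d1_congr h
  rw [d1_fderiv (hf.at (mem_chart_target E x))] at h2
  exact h2

/-! #### pointwise algebra in charts -/

lemma rep_add (p : M) (a b : F2 E M) (y : E) : rep p (a + b) y = rep p a y + rep p b y := rfl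

lemma rep_smul (p : M) (c : ℝ) (a : F2 E M) (y : E) : rep p (c • a) y = c • rep p a y := rfl

lemma rep_sub (p : M) (a b : F2 E M) (y : E) : rep p (a - b) y = rep p a y - rep p b y := rfl

lemma rep_neg (p : M) (a : F2 E M) (y : E) : rep p (-a) y = - rep p a y := rfl

lemma rep_zero (p : M) (y : E) : rep p (0 : F2 E M) y = 0 := rfl

lemma rep_fmul (p : M) (f : M → ℝ) (a : F2 E M) (y : E) :
    rep p (fmul f a) y = repF p f y • rep p a y := rfl

lemma rep1_add (p : M) (a b : F1 E M) (y : E) : rep1 p (a + b) y = rep1 p a y + rep1 p b y := rfl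

lemma rep1_smul (p : M) (c : ℝ) (a : F1 E M) (y : E) : rep1 p (c • a) y = c • rep1 p a y := rfl

lemma rep1_sub (p : M) (a b : F1 E M) (y : E) : rep1 p (a - b) y = rep1 p a y - rep1 p b y := rfl

lemma rep1_neg (p : M) (a : F1 E M) (y : E) : rep1 p (-a) y = - rep1 p a y := rfl

lemma rep1_zero (p : M) (y : E) : rep1 p (0 : F1 E M) y = 0 := rfl

lemma rep1_fmul1 (p : M) (f : M → ℝ) (s : F1 E M) (y : E) :
    rep1 p (fmul1 f s) y = repF p f y • rep1 p s y := rfl

lemma rep_wedG (p : M) (s t : F1 E M) (y u v : E) :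
    rep p (wedG s t) y u v = rep1 p s y u * rep1 p t y v - rep1 p t y u * rep1 p s y v := rfl

/-! #### closure properties -/

omit [IsManifold 𝓘(ℝ, E) ∞ M] in
lemma smoothF_const (c : ℝ) : SmoothF E (fun _ : M => c) := fun _ => contDiffOn_const

omit [IsManifold 𝓘(ℝ, E) ∞ M] in
lemma SmoothF.add {f g : M → ℝ} (hf : SmoothF E f) (hg : SmoothF E g) :
    SmoothF E (fun x => f x + g x) := fun p => (hf p).add (hg p)

omit [IsManifold 𝓘(ℝ, E) ∞ M] in
lemma SmoothF.sub {f g : M → ℝ} (hf : SmoothF E f) (hg : SmoothF E g) :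
    SmoothF E (fun x => f x - g x) := fun p => (hf p).sub (hg p)

omit [IsManifold 𝓘(ℝ, E) ∞ M] in
lemma SmoothF.mul {f g : M → ℝ} (hf : SmoothF E f) (hg : SmoothF E g) :
    SmoothF E (fun x => f x * g x) := fun p => (hf p).mul (hg p)

omit [IsManifold 𝓘(ℝ, E) ∞ M] in
lemma SmoothF.neg {f : M → ℝ} (hf : SmoothF E f) : SmoothF E (fun x => - f x) :=
  fun p => (hf p).neg

omit [IsManifold 𝓘(ℝ, E) ∞ M] in
lemma SmoothF.comp {f : M → ℝ} (hf : SmoothF E f) {h : ℝ → ℝ} (hh : ContDiff ℝ ∞ h) :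
    SmoothF E (fun x => h (f x)) := fun p => hh.comp_contDiffOn (hf p)

lemma smooth2_zero : Smooth2 (0 : F2 E M) := by
  refine ⟨fun _ _ => rfl, fun p => ?_⟩
  have h : rep p (0 : F2 E M) = fun _ => 0 := rfl
  rw [h]
  exact contDiffOn_const

lemma Smooth2.add {a b : F2 E M} (ha : Smooth2 a) (hb : Smooth2 b) : Smooth2 (a + b) := by
  refine ⟨fun x v => ?_, fun p => (ha.2 p).add (hb.2 p)⟩
  have h : at2 (a + b) x v v = at2 a x v v + at2 b x v v := rfl
  rw [h, ha.1, hb.1, add_zero]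

lemma Smooth2.smul {a : F2 E M} (c : ℝ) (ha : Smooth2 a) : Smooth2 (c • a) := by
  refine ⟨fun x v => ?_, fun p => (ha.2 p).const_smul c⟩
  have h : at2 (c • a) x v v = c * at2 a x v v := rfl
  rw [h, ha.1, mul_zero]

lemma Smooth2.fmul {f : M → ℝ} {a : F2 E M} (hf : SmoothF E f) (ha : Smooth2 a) :
    Smooth2 (fmul f a) := by
  refine ⟨fun x v => ?_, fun p => (hf p).smul (ha.2 p)⟩
  have h : at2 (Ch.fmul f a) x v v = f x * at2 a x v v := rfl
  rw [h, ha.1, mul_zero]

lemma smooth1_zero : Smooth1 (0 : F1 E M) := by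
  intro p
  have h : rep1 p (0 : F1 E M) = fun _ => 0 := rfl
  rw [h]
  exact contDiffOn_const

lemma Smooth1.add {a b : F1 E M} (ha : Smooth1 a) (hb : Smooth1 b) : Smooth1 (a + b) :=
  fun p => (ha p).add (hb p)

lemma Smooth1.smul {a : F1 E M} (c : ℝ) (ha : Smooth1 a) : Smooth1 (c • a) :=
  fun p => (ha p).const_smul c

lemma Smooth1.fmul {f : M → ℝ} {a : F1 E M} (hf : SmoothF E f) (ha : Smooth1 a) :
    Smooth1 (fmul1 f a) := fun p => (hf p).smul (ha p)

lemma Smooth2.wed {s t : F1 E M} (hs : Smooth1 s) (ht : Smooth1 t) : Smooth2 (wedG s t) := by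
  refine ⟨fun x v => ?_, fun p => contDiffOn_chart_iff.2 fun y hy => ?_⟩
  · have h : at2 (wedG s t) x v v = at1 s x v * at1 t x v - at1 t x v * at1 s x v := rfl
    rw [h]; ring
  · have h : rep p (wedG s t) = fun y => (rep1 p s y).smulRight (rep1 p t y)
        - (rep1 p t y).smulRight (rep1 p s y) := by
      funext y
      ext u v
      rfl
    rw [h]
    exact ((hs.at hy).smulRight (ht.at hy)).sub ((ht.at hy).smulRight (hs.at hy))

lemma dG_add {s t : F1 E M} (hs : Smooth1 s) (ht : Smooth1 t) : dG (s + t) = dG s + dG t := by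
  funext x
  exact d1_add ((hs.at (mem_chart_target E x)).differentiableAt infty_ne_zero)
    ((ht.at (mem_chart_target E x)).differentiableAt infty_ne_zero)

lemma dG_smul (c : ℝ) {s : F1 E M} (hs : Smooth1 s) : dG (c • s) = c • dG s := by
  funext x
  have h : d1 (rep1 x (c • s)) (chartAt E x x) = c • d1 (rep1 x s) (chartAt E x x) := by
    have h0 : rep1 x (c • s) = fun z => c • rep1 x s z := rfl
    rw [h0]
    ext u v
    have hd := (hs.at (mem_chart_target E x)).differentiableAt infty_ne_zero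
    simp only [d1_apply, smul_apply, smul_eq_mul]
    rw [fderiv_fun_const_smul hd]
    simp only [smul_apply, smul_eq_mul]
    ring
  exact h

/-- `d (f s) = df ∧ s + f ds`. -/
theorem dG_fmul1 {f : M → ℝ} {s : F1 E M} (hf : SmoothF E f) (hs : Smooth1 s) :
    dG (fmul1 f s) = wedG (dF f) s + fmul f (dG s) := by
  funext x
  have hy := mem_chart_target E x
  have h : d1 (rep1 x (fmul1 f s)) (chartAt E x x) =
      rep x (wedG (dF f) s + fmul f (dG s)) (chartAt E x x) := by
    have h0 : rep1 x (fmul1 f s) = fun z => repF x f z • rep1 x s z := rfl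
    rw [h0]
    ext u v
    rw [d1_smul ((hf.at hy).differentiableAt infty_ne_zero)
      ((hs.at hy).differentiableAt infty_ne_zero), rep_add, add_apply, add_apply, rep_wedG,
      rep_fmul, smul_apply, smul_apply, rep_dG hs hy, rep1_dF hf hy, smul_eq_mul]
    ring
  have h2 : ∀ u v, at2 (dG (fmul1 f s)) x u v = at2 (wedG (dF f) s + fmul f (dG s)) x u v := by
    intro u v
    rw [← rep_self, ← rep_self, ← h, rep_dG (Smooth1.fmul hf hs) hy]
  exact ContinuousLinearMap.ext fun u => ContinuousLinearMap.ext fun v => h2 u v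

/-! #### closedness is local -/

theorem Closed2.of_local {a : F2 E M} (ha : Smooth2 a)
    (h : ∀ x : M, ∃ p : M, x ∈ (chartAt E p).source ∧
      ∀ u v w, dd (rep p a) (chartAt E p x) u v w = 0) : Closed2 a := by
  intro p y hy u v w
  obtain ⟨q, hq, hd⟩ := h ((chartAt E p).symm y)
  have hb : DifferentiableAt ℝ (rep q a) (trans (E := E) p q y) := ha.diff (trans_mem hy hq)
  rw [dd_pullback (trans_contDiffAt hy hq) hb (fun u v => ha.antisymm_rep q _ u v) (ha.diff hy)
    (rep_trans_ev hy hq a)]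
  exact hd _ _ _

lemma closed2_zero : Closed2 (0 : F2 E M) := by
  intro p y _ u v w
  have h : rep p (0 : F2 E M) = fun _ => 0 := rfl
  simp [dd, h]

lemma Closed2.add {a b : F2 E M} (ha : Smooth2 a) (hb : Smooth2 b) (hca : Closed2 a)
    (hcb : Closed2 b) : Closed2 (a + b) := by
  intro p y hy u v w
  have h := dd_add (ha.diff hy) (hb.diff hy) u v w
  rw [hca p y hy, hcb p y hy, add_zero] at h
  exact h

lemma Closed2.smul {a : F2 E M} (c : ℝ) (ha : Smooth2 a) (hca : Closed2 a) :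
    Closed2 (c • a) := by
  intro p y hy u v w
  have h := dd_const_smul c (ha.diff hy) u v w
  rw [hca p y hy, mul_zero] at h
  exact h

end General

end

end Crest.Agent.R240.Ch
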