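import Mathlib
import Crest.Agent.R240.Ch3

/-!
Row 240 (S0371), CH (helper955): finite atlas with cutoffs, compactness, order unit.
-/

set_option autoImplicit false
set_option maxSynthPendingDepth 3
set_option linter.unusedSectionVars false

open Set Function Filter Topology
open scoped Manifold ContDiff

namespace Crest.Agent.R240.Ch

noncomputable section

variable {E : Type*} [NormedAddCommGroup E] [NormedSpace ℝ E]
variable {M : Type*} [TopologicalSpace M] [ChartedSpace E M]

variable (E M) in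
/-- finite atlas of a compact manifold, with compact cores and cutoffs. -/
structure FA where
  /-- number of charts -/
  n : ℕ
  /-- chart indices -/
  c : Fin n → M
  /-- compact cores, in the chart targets -/
  K : Fin n → Set E
  isCompact_K : ∀ i, IsCompact (K i)
  K_sub : ∀ i, K i ⊆ (chartAt E (c i)).target
  /-- partition of unity -/
  χ : Fin n → M → ℝ
  /-- larger cutoffs -/
  χt : Fin n → M → ℝ
  χ_smooth : ∀ i, ContMDiff 𝓘(ℝ, E) 𝓘(ℝ, ℝ) ∞ (χ i)
  χt_smooth : ∀ i, ContMDiff 𝓘(ℝ, E) 𝓘(ℝ, ℝ) ∞ (χt i)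
  χ_nonneg : ∀ i x, 0 ≤ χ i x
  χ_le : ∀ i x, χ i x ≤ 1
  χt_nonneg : ∀ i x, 0 ≤ χt i x
  χt_le : ∀ i x, χt i x ≤ 1
  χ_sum : ∀ x, ∑ i, χ i x = 1
  χt_nhds : ∀ i x, x ∈ tsupport (χ i) → ∀ᶠ z in 𝓝 x, χt i z = 1
  χt_supp : ∀ i x, x ∈ tsupport (χt i) →
    x ∈ (chartAt E (c i)).source ∧ chartAt E (c i) x ∈ interior (K i)
  /-- Lebesgue radius -/
  r0 : ℝ
  r0_pos : 0 < r0
  leb : ∀ x : M, ∃ i, x ∈ (chartAt E (c i)).source ∧
    Metric.closedBall (chartAt E (c i) x) r0 ⊆ interior (K i)

lemma FA.cover (A : FA E M) (x : M) : ∃ i, x ∈ (chartAt E (A.c i)).source ∧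
    chartAt E (A.c i) x ∈ interior (A.K i) := by
  obtain ⟨i, h1, h2⟩ := A.leb x
  exact ⟨i, h1, h2 (Metric.mem_closedBall_self A.r0_pos.le)⟩

lemma FA.χ_supp (A : FA E M) (i : Fin A.n) {x : M} (hx : x ∈ tsupport (A.χ i)) :
    x ∈ (chartAt E (A.c i)).source ∧ chartAt E (A.c i) x ∈ interior (A.K i) := by
  refine A.χt_supp i x (subset_tsupport _ ?_)
  have h := (A.χt_nhds i x hx).self_of_nhds
  simp [mem_support, h]

lemma FA.χt_eq_one (A : FA E M) (i : Fin A.n) {x : M} (hx : x ∈ tsupport (A.χ i)) :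
    A.χt i x = 1 := (A.χt_nhds i x hx).self_of_nhds

lemma FA.χt_mul_χ (A : FA E M) (i : Fin A.n) (x : M) : A.χt i x * A.χ i x = A.χ i x := by
  by_cases hx : x ∈ tsupport (A.χ i)
  · rw [A.χt_eq_one i hx, one_mul]
  · rw [image_eq_zero_of_notMem_tsupport hx, mul_zero]

lemma FA.eventually_zero (A : FA E M) (i : Fin A.n) {x : M} (hx : x ∉ tsupport (A.χt i)) :
    ∀ᶠ z in 𝓝 x, A.χt i z = 0 := by
  filter_upwards [(isClosed_tsupport (A.χt i)).isOpen_compl.mem_nhds hx] with z hz
  exact image_eq_zero_of_notMem_tsupport hz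

lemma exists_pos_radius [T2Space M] [CompactSpace M] {n : ℕ} (c : Fin n → M) (K : Fin n → Set E)
    (h : ∀ x : M, ∃ i, x ∈ (chartAt E (c i)).source ∧ chartAt E (c i) x ∈ interior (K i)) :
    ∃ r : ℝ, 0 < r ∧ ∀ x : M, ∃ i, x ∈ (chartAt E (c i)).source ∧
      Metric.closedBall (chartAt E (c i) x) r ⊆ interior (K i) := by
  have key : ∃ r : ℝ, 0 < r ∧ ∀ x ∈ (univ : Set M), ∃ i, x ∈ (chartAt E (c i)).source ∧
      Metric.closedBall (chartAt E (c i) x) r ⊆ interior (K i) := by
    refine isCompact_univ.induction_on (p := fun s : Set M => ∃ r : ℝ, 0 < r ∧ ∀ x ∈ s,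
      ∃ i, x ∈ (chartAt E (c i)).source ∧
      Metric.closedBall (chartAt E (c i) x) r ⊆ interior (K i)) ?_ ?_ ?_ ?_
    · exact ⟨1, one_pos, fun x hx => hx.elim⟩
    · rintro s t hst ⟨r, hr, h⟩
      exact ⟨r, hr, fun x hx => h x (hst hx)⟩
    · rintro s t ⟨r, hr, h⟩ ⟨r', hr', h'⟩
      refine ⟨min r r', lt_min hr hr', ?_⟩
      rintro x (hx | hx)
      · obtain ⟨i, h1, h2⟩ := h x hx
        exact ⟨i, h1, (Metric.closedBall_subset_closedBall (min_le_left _ _)).trans h2⟩
      · obtain ⟨i, h1, h2⟩ := h' x hx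
        exact ⟨i, h1, (Metric.closedBall_subset_closedBall (min_le_right _ _)).trans h2⟩
    · intro x _
      obtain ⟨i, h1, h2⟩ := h x
      obtain ⟨ε, hε, hb⟩ := Metric.isOpen_iff.1 isOpen_interior _ h2
      have hc : ContinuousAt (chartAt E (c i)) x := (chartAt E (c i)).continuousAt h1
      have e1 : ∀ᶠ z in 𝓝 x, chartAt E (c i) z ∈ Metric.ball (chartAt E (c i) x) (ε / 2) :=
        hc (Metric.ball_mem_nhds _ (by positivity))
      have e2 : ∀ᶠ z in 𝓝 x, z ∈ (chartAt E (c i)).source :=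
        (chartAt E (c i)).open_source.mem_nhds h1
      refine ⟨_, mem_nhdsWithin_of_mem_nhds (e1.and e2), ε / 4, by positivity, ?_⟩
      rintro z ⟨hz1, hz2⟩
      refine ⟨i, hz2, fun w hw => hb ?_⟩
      rw [Metric.mem_closedBall] at hw
      rw [Metric.mem_ball] at hz1 ⊢
      linarith [dist_triangle w (chartAt E (c i) z) (chartAt E (c i) x)]
  obtain ⟨r, hr, h⟩ := key
  exact ⟨r, hr, fun x => h x (mem_univ x)⟩

theorem exists_FA [FiniteDimensional ℝ E] [T2Space M] [CompactSpace M]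
    [IsManifold 𝓘(ℝ, E) ∞ M] : Nonempty (FA E M) := by
  have : LocallyCompactSpace M := inferInstance
  choose N hN1 hN2 hN3 using fun x : M =>
    exists_compact_subset (chartAt E x).open_source (mem_chart_source E x)
  obtain ⟨t, ht⟩ := isCompact_univ.elim_finite_subcover (fun x : M => interior (N x))
    (fun x => isOpen_interior) (fun x _ => mem_iUnion.2 ⟨x, hN2 x⟩)
  set c : Fin t.card → M := fun i => (t.equivFin.symm i : M) with hc
  have hcov : ∀ x : M, ∃ i, x ∈ interior (N (c i)) := by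
    intro x
    have := ht (mem_univ x)
    simp only [mem_iUnion, exists_prop] at this
    obtain ⟨p, hp, hx⟩ := this
    refine ⟨t.equivFin ⟨p, hp⟩, ?_⟩
    simpa [hc] using hx
  set K : Fin t.card → Set E := fun i => chartAt E (c i) '' N (c i) with hK
  have hKc : ∀ i, IsCompact (K i) := fun i =>
    (hN1 _).image_of_continuousOn ((chartAt E (c i)).continuousOn.mono (hN3 _))
  have hKs : ∀ i, K i ⊆ (chartAt E (c i)).target := by
    rintro i _ ⟨x, hx, rfl⟩
    exact (chartAt E (c i)).map_source (hN3 _ hx)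
  have hKi : ∀ i x, x ∈ interior (N (c i)) →
      x ∈ (chartAt E (c i)).source ∧ chartAt E (c i) x ∈ interior (K i) := by
    intro i x hx
    refine ⟨hN3 _ (interior_subset hx), ?_⟩
    have ho : IsOpen (chartAt E (c i) '' interior (N (c i))) :=
      (chartAt E (c i)).isOpen_image_of_subset_source isOpen_interior
        (interior_subset.trans (hN3 _))
    exact interior_maximal (image_mono interior_subset) ho (mem_image_of_mem _ hx)
  obtain ⟨f, hf⟩ := SmoothPartitionOfUnity.exists_isSubordinate 𝓘(ℝ, E)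
    (isClosed_univ (X := M)) (fun i => interior (N (c i))) (fun i => isOpen_interior)
    (fun x _ => mem_iUnion.2 (hcov x))
  have hW : ∀ i, ∃ g : M → ℝ, ContMDiff 𝓘(ℝ, E) 𝓘(ℝ, ℝ) ∞ g ∧ (∀ x, 0 ≤ g x) ∧
      (∀ x, g x ≤ 1) ∧ (∀ x ∈ tsupport (f i), ∀ᶠ z in 𝓝 x, g z = 1) ∧
      tsupport g ⊆ interior (N (c i)) := by
    intro i
    obtain ⟨W, hW1, hW2, hW3⟩ := normal_exists_closure_subset (isClosed_tsupport (f i))
      (isOpen_interior (s := N (c i))) (hf i)
    obtain ⟨g, hg1, hg2, hg3⟩ := exists_contMDiffMap_one_nhds_of_subset_interior 𝓘(ℝ, E)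
      (n := ⊤) (isClosed_tsupport (f i)) (hW2.trans hW1.interior_eq.symm.subset)
    refine ⟨g, g.contMDiff, fun x => (hg3 x).1, fun x => (hg3 x).2, fun x hx => ?_, ?_⟩
    · exact (eventually_nhdsSet_iff_forall.1 hg1) x hx
    · refine (closure_mono ?_).trans hW3
      intro x hx
      by_contra hxW
      exact hx (hg2 x hxW)
  choose g hg1 hg2 hg3 hg4 hg5 using hW
  obtain ⟨r, hr, hleb⟩ := exists_pos_radius c K
    (fun x => let ⟨i, hi⟩ := hcov x; ⟨i, hKi i x hi⟩)
  exact ⟨{ n := t.card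
           c := c
           K := K
           isCompact_K := hKc
           K_sub := hKs
           χ := fun i => f i
           χt := g
           χ_smooth := fun i => (f i).contMDiff
           χt_smooth := hg1
           χ_nonneg := fun i x => f.nonneg i x
           χ_le := fun i x => f.le_one i x
           χt_nonneg := hg2
           χt_le := hg3
           χ_sum := fun x => by
             rw [← finsum_eq_sum_of_fintype]; exact f.sum_eq_one (mem_univ x)
           χt_nhds := fun i x hx => hg4 i x hx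
           χt_supp := fun i x hx => hKi i x (hg5 i hx)
           r0 := r
           r0_pos := hr
           leb := hleb }⟩

end

end Crest.Agent.R240.Ch
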