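import Crest.Agent.R240.EllIface

/-!
Row 240, Lemma A (helper106): `C^k` norms of smooth compactly supported functions on `E4`.
-/

set_option autoImplicit false
set_option maxSynthPendingDepth 3

open scoped ContDiff Nat
open Filter Topology

namespace Crest.Agent.R240.Ell

noncomputable section

variable {F G H : Type*} [NormedAddCommGroup F] [NormedSpace ℝ F] [NormedAddCommGroup G]
    [NormedSpace ℝ G] [NormedAddCommGroup H] [NormedSpace ℝ H]

theorem cast_le_infty (n : ℕ) : ((n : ℕ) : WithTop ℕ∞) ≤ ∞ := by exact_mod_cast le_top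

/-- smooth and compactly supported. -/
def CS (f : E4 → F) : Prop := ContDiff ℝ ∞ f ∧ HasCompactSupport f

theorem CS.add {f g : E4 → F} (hf : CS f) (hg : CS g) : CS (f + g) :=
  ⟨hf.1.add hg.1, hf.2.add hg.2⟩

theorem CS.neg {f : E4 → F} (hf : CS f) : CS (-f) := ⟨hf.1.neg, hf.2.neg⟩

theorem CS.sub {f g : E4 → F} (hf : CS f) (hg : CS g) : CS (f - g) := by
  rw [sub_eq_add_neg]; exact hf.add hg.neg

theorem CS.smul {f : E4 → F} (c : ℝ) (hf : CS f) : CS (c • f) :=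
  ⟨contDiff_const.smul hf.1, hf.2.smul_left⟩

theorem CS.zero : CS (0 : E4 → F) := ⟨contDiff_const, HasCompactSupport.zero⟩

theorem CS.sum {ι : Type*} (s : Finset ι) {f : ι → E4 → F} (hf : ∀ i ∈ s, CS (f i)) :
    CS (∑ i ∈ s, f i) := by
  classical
  induction s using Finset.induction_on with
  | empty => simpa using CS.zero
  | insert a s ha ih =>
    rw [Finset.sum_insert ha]
    exact (hf a (by simp)).add (ih fun i hi => hf i (by simp [hi]))

theorem CS.bdd {f : E4 → F} (hf : CS f) (j : ℕ) : ∃ C, ∀ x, ‖iteratedFDeriv ℝ j f x‖ ≤ C := by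
  have h1 : Continuous (iteratedFDeriv ℝ j f) :=
    hf.1.continuous_iteratedFDeriv (by exact_mod_cast le_top)
  have h2 : HasCompactSupport (iteratedFDeriv ℝ j f) := hf.2.iteratedFDeriv j
  obtain ⟨C, hC⟩ := h1.bounded_above_of_compact_support h2
  exact ⟨C, hC⟩

theorem CS.exists_ckB {f : E4 → F} (hf : CS f) (k : ℕ) : ∃ B, 0 ≤ B ∧ CkB k f B := by
  choose C hC using fun j => hf.bdd j
  refine ⟨∑ j ∈ Finset.range (k + 1), |C j|, Finset.sum_nonneg fun _ _ => abs_nonneg _, ?_⟩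
  intro j hj x
  refine (hC j x).trans ((le_abs_self _).trans ?_)
  exact Finset.single_le_sum (f := fun j => |C j|) (fun _ _ => abs_nonneg _)
    (Finset.mem_range.mpr (by omega))

theorem CkB.nonneg {k : ℕ} {f : E4 → F} {B : ℝ} (h : CkB k f B) : 0 ≤ B :=
  (norm_nonneg _).trans (h 0 (Nat.zero_le _) 0)

theorem CkB.mono {k : ℕ} {f : E4 → F} {A B : ℝ} (h : CkB k f A) (hAB : A ≤ B) : CkB k f B :=
  fun j hj x => (h j hj x).trans hAB

theorem CkB.mono_k {k l : ℕ} {f : E4 → F} {A : ℝ} (h : CkB k f A) (hl : l ≤ k) : CkB l f A :=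
  fun j hj x => h j (hj.trans hl) x

theorem ckB_zero_iff {f : E4 → F} {A : ℝ} : CkB 0 f A ↔ ∀ x, ‖f x‖ ≤ A := by
  constructor
  · intro h x
    simpa using h 0 le_rfl x
  · intro h j hj x
    obtain rfl : j = 0 := by omega
    simpa using h x

theorem CkB.add {k : ℕ} {f g : E4 → F} {A B : ℝ} (hf : ContDiff ℝ ∞ f) (hg : ContDiff ℝ ∞ g)
    (h : CkB k f A) (h' : CkB k g B) : CkB k (f + g) (A + B) := by
  intro j hj x
  have hj' : ((j : ℕ) : WithTop ℕ∞) ≤ ∞ := by exact_mod_cast le_top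
  rw [iteratedFDeriv_add_apply (hf.of_le hj').contDiffAt (hg.of_le hj').contDiffAt]
  exact (norm_add_le _ _).trans (add_le_add (h j hj x) (h' j hj x))

theorem CkB.smul {k : ℕ} {f : E4 → F} {A : ℝ} (c : ℝ) (hf : ContDiff ℝ ∞ f)
    (h : CkB k f A) : CkB k (c • f) (|c| * A) := by
  intro j hj x
  have hj' : ((j : ℕ) : WithTop ℕ∞) ≤ ∞ := by exact_mod_cast le_top
  rw [iteratedFDeriv_const_smul_apply (hf.of_le hj').contDiffAt, norm_smul]
  exact mul_le_mul_of_nonneg_left (h j hj x) (norm_nonneg _)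

/-- the `C^k` norm. -/
def nk (k : ℕ) (f : E4 → F) : ℝ := ⨆ q : Fin (k + 1) × E4, ‖iteratedFDeriv ℝ (q.1 : ℕ) f q.2‖

theorem nk_le {k : ℕ} {f : E4 → F} {B : ℝ} (h : CkB k f B) : nk k f ≤ B :=
  ciSup_le fun q => h q.1 (by omega) q.2

theorem CS.ckB_nk {f : E4 → F} (hf : CS f) (k : ℕ) : CkB k f (nk k f) := by
  intro j hj x
  obtain ⟨B, -, hB⟩ := hf.exists_ckB k
  have hb : BddAbove (Set.range fun q : Fin (k + 1) × E4 =>
      ‖iteratedFDeriv ℝ (q.1 : ℕ) f q.2‖) := by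
    refine ⟨B, ?_⟩
    rintro _ ⟨q, rfl⟩
    exact hB q.1 (by omega) q.2
  exact le_ciSup hb (⟨⟨j, by omega⟩, x⟩ : Fin (k + 1) × E4)

theorem nk_nonneg (k : ℕ) (f : E4 → F) : 0 ≤ nk k f :=
  Real.iSup_nonneg fun _ => norm_nonneg _

theorem nk_add_le {f g : E4 → F} (hf : CS f) (hg : CS g) (k : ℕ) :
    nk k (f + g) ≤ nk k f + nk k g :=
  nk_le ((hf.ckB_nk k).add hf.1 hg.1 (hg.ckB_nk k))

theorem nk_smul_le {f : E4 → F} (hf : CS f) (c : ℝ) (k : ℕ) :
    nk k (c • f) ≤ |c| * nk k f :=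
  nk_le ((hf.ckB_nk k).smul c hf.1)

theorem nk_smul {f : E4 → F} (hf : CS f) (c : ℝ) (k : ℕ) :
    nk k (c • f) = |c| * nk k f := by
  rcases eq_or_ne c 0 with rfl | hc
  · refine le_antisymm (nk_smul_le hf 0 k) ?_
    simp [nk_nonneg]
  · refine le_antisymm (nk_smul_le hf c k) ?_
    have h := nk_smul_le (hf.smul c) c⁻¹ k
    rw [smul_smul, inv_mul_cancel₀ hc, one_smul, abs_inv] at h
    have hc' : 0 < |c| := abs_pos.mpr hc
    calc |c| * nk k f ≤ |c| * (|c|⁻¹ * nk k (c • f)) := by gcongr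
      _ = nk k (c • f) := by rw [← mul_assoc, mul_inv_cancel₀ hc'.ne', one_mul]

theorem nk_neg {f : E4 → F} (hf : CS f) (k : ℕ) : nk k (-f) = nk k f := by
  have := nk_smul hf (-1) k
  simpa using this

theorem nk_zero (k : ℕ) : nk k (0 : E4 → F) = 0 := by
  have := nk_smul (CS.zero (F := F)) 0 k
  simpa using this

theorem nk_sum_le {ι : Type*} (s : Finset ι) {f : ι → E4 → F} (hf : ∀ i ∈ s, CS (f i)) (k : ℕ) :
    nk k (∑ i ∈ s, f i) ≤ ∑ i ∈ s, nk k (f i) := by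
  classical
  induction s using Finset.induction_on with
  | empty => simp [nk_zero]
  | insert a s ha ih =>
    rw [Finset.sum_insert ha, Finset.sum_insert ha]
    refine (nk_add_le (hf a (by simp)) (CS.sum s fun i hi => hf i (by simp [hi])) k).trans ?_
    exact add_le_add le_rfl (ih fun i hi => hf i (by simp [hi]))

theorem nk_mono {f : E4 → F} (hf : CS f) {k l : ℕ} (h : k ≤ l) : nk k f ≤ nk l f :=
  nk_le ((hf.ckB_nk l).mono_k h)

theorem norm_le_nk {f : E4 → F} (hf : CS f) (k : ℕ) (x : E4) : ‖f x‖ ≤ nk k f := by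
  simpa using (hf.ckB_nk k) 0 (Nat.zero_le _) x

theorem norm_fderiv_le_nk {f : E4 → F} (hf : CS f) {k : ℕ} (hk : 1 ≤ k) (x : E4) :
    ‖fderiv ℝ f x‖ ≤ nk k f := by
  rw [← norm_iteratedFDeriv_one]
  exact (hf.ckB_nk k) 1 hk x

/-- main composition estimate: `y ↦ A y (b (τ y))`. -/
theorem comp_bound {A : E4 → (F →L[ℝ] G)} {τ : E4 → E4} (hA : CS A) (hτ : CS τ) (k : ℕ) :
    ∃ C, 0 ≤ C ∧ ∀ b B, ContDiff ℝ ∞ b → CkB k b B → CkB k (fun y => A y (b (τ y))) (C * B) := by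
  obtain ⟨a, ha0, ha⟩ := hA.exists_ckB k
  obtain ⟨t, ht0, ht⟩ := hτ.exists_ckB k
  set D := max 1 t with hD
  have hD1 : 1 ≤ D := le_max_left _ _
  refine ⟨∑ n ∈ Finset.range (k + 1), ∑ i ∈ Finset.range (n + 1),
      (n.choose i : ℝ) * a * ((n - i)! * D ^ (n - i)), by positivity, ?_⟩
  intro b B hb hB n hn x
  have hB0 : 0 ≤ B := hB.nonneg
  have hn' : ((n : ℕ) : WithTop ℕ∞) ≤ ∞ := by exact_mod_cast le_top
  have h1 := norm_iteratedFDeriv_clm_apply (n := n) (N := ∞) hA.1 (hb.comp hτ.1) x hn'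
  refine h1.trans ?_
  have h2 : ∀ i ∈ Finset.range (n + 1), (n.choose i : ℝ) * ‖iteratedFDeriv ℝ i A x‖ *
      ‖iteratedFDeriv ℝ (n - i) (b ∘ τ) x‖ ≤
        ((n.choose i : ℝ) * a * ((n - i)! * D ^ (n - i))) * B := by
    intro i hi
    have hi' : i ≤ n := by simpa [Nat.lt_succ_iff] using hi
    have h3 : ‖iteratedFDeriv ℝ (n - i) (b ∘ τ) x‖ ≤ (n - i)! * B * D ^ (n - i) := by
      refine norm_iteratedFDeriv_comp_le (N := ∞) hb hτ.1 (cast_le_infty _) x
        (fun j hj => hB j (by omega) _) ?_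
      intro j hj1 hj
      calc ‖iteratedFDeriv ℝ j τ x‖ ≤ t := ht j (by omega) x
        _ ≤ D := le_max_right _ _
        _ ≤ D ^ j := le_self_pow₀ hD1 (by omega)
    have h4 : ‖iteratedFDeriv ℝ i A x‖ ≤ a := ha i (by omega) x
    calc (n.choose i : ℝ) * ‖iteratedFDeriv ℝ i A x‖ * ‖iteratedFDeriv ℝ (n - i) (b ∘ τ) x‖
        ≤ (n.choose i : ℝ) * a * ((n - i)! * B * D ^ (n - i)) := by gcongr
      _ = _ := by ring
  refine (Finset.sum_le_sum h2).trans ?_
  rw [← Finset.sum_mul]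
  refine mul_le_mul_of_nonneg_right ?_ hB0
  exact Finset.single_le_sum (f := fun n => ∑ i ∈ Finset.range (n + 1),
      (n.choose i : ℝ) * a * ((n - i)! * D ^ (n - i))) (fun m _ => by positivity)
    (Finset.mem_range.mpr (by omega))

/-- multiplication by a compactly supported smooth operator field. -/
theorem mul_bound {A : E4 → (F →L[ℝ] G)} (hA : CS A) (k : ℕ) :
    ∃ C, 0 ≤ C ∧ ∀ b B, ContDiff ℝ ∞ b → CkB k b B → CkB k (fun y => A y (b y)) (C * B) := by
  obtain ⟨a, ha0, ha⟩ := hA.exists_ckB k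
  refine ⟨∑ n ∈ Finset.range (k + 1), ∑ i ∈ Finset.range (n + 1),
      (n.choose i : ℝ) * a, by positivity, ?_⟩
  intro b B hb hB n hn x
  have hB0 : 0 ≤ B := hB.nonneg
  have hn' : ((n : ℕ) : WithTop ℕ∞) ≤ ∞ := by exact_mod_cast le_top
  have h1 := norm_iteratedFDeriv_clm_apply (n := n) (N := ∞) hA.1 hb x hn'
  refine h1.trans ?_
  have h2 : ∀ i ∈ Finset.range (n + 1), (n.choose i : ℝ) * ‖iteratedFDeriv ℝ i A x‖ *
      ‖iteratedFDeriv ℝ (n - i) b x‖ ≤ ((n.choose i : ℝ) * a) * B := by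
    intro i hi
    have hi' : i ≤ n := by simpa [Nat.lt_succ_iff] using hi
    have h3 : ‖iteratedFDeriv ℝ (n - i) b x‖ ≤ B := hB _ (by omega) x
    have h4 : ‖iteratedFDeriv ℝ i A x‖ ≤ a := ha i (by omega) x
    gcongr
  refine (Finset.sum_le_sum h2).trans ?_
  rw [← Finset.sum_mul]
  refine mul_le_mul_of_nonneg_right ?_ hB0
  exact Finset.single_le_sum (f := fun n => ∑ i ∈ Finset.range (n + 1),
      (n.choose i : ℝ) * a) (fun m _ => by positivity)
    (Finset.mem_range.mpr (by omega))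

/-- series of smooth functions with a common compact support. -/
theorem series {S : Set E4} (hS : IsCompact S) (u : ℕ → E4 → F) [CompleteSpace F]
    (hu : ∀ n, ContDiff ℝ ∞ (u n)) (hs : ∀ n x, x ∉ S → u n x = 0)
    (hsum : ∀ k, Summable fun n => nk k (u n)) :
    CS (fun x => ∑' n, u n x) ∧ (∀ x, x ∉ S → ∑' n, u n x = 0) ∧
    (∀ x, Summable fun n => u n x) ∧
    ∀ k, nk k (fun x => ∑' n, u n x) ≤ ∑' n, nk k (u n) := by
  have hcs : ∀ n, CS (u n) := fun n =>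
    ⟨hu n, HasCompactSupport.intro hS (fun x hx => hs n x hx)⟩
  have hC : ContDiff ℝ ∞ (fun x => ∑' n, u n x) := by
    refine contDiff_tsum (v := fun k n => nk k (u n)) hu (fun k _ => hsum k) ?_
    intro k n x _
    exact (hcs n).ckB_nk k k le_rfl x
  have h0 : ∀ x, x ∉ S → ∑' n, u n x = 0 := by
    intro x hx
    simp [hs _ x hx]
  refine ⟨⟨hC, HasCompactSupport.intro hS h0⟩, h0, ?_, ?_⟩
  · intro x
    refine Summable.of_norm_bounded (hsum 0) (fun n => ?_)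
    exact norm_le_nk (hcs n) 0 x
  · intro k
    refine nk_le ?_
    intro j hj x
    have h1 := iteratedFDeriv_tsum_apply (𝕜 := ℝ) (N := (⊤ : ℕ∞)) (f := u)
      (v := fun k n => nk k (u n)) hu (fun k _ => hsum k)
      (fun k n x _ => (hcs n).ckB_nk k k le_rfl x) (k := j) le_top x
    rw [h1]
    refine (norm_tsum_le_tsum_norm ?_).trans ?_
    · refine Summable.of_nonneg_of_le (fun _ => norm_nonneg _) (fun n => ?_) (hsum k)
      exact (hcs n).ckB_nk k j hj x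
    · refine Summable.tsum_le_tsum (fun n => (hcs n).ckB_nk k j hj x) ?_ (hsum k)
      refine Summable.of_nonneg_of_le (fun _ => norm_nonneg _) (fun n => ?_) (hsum k)
      exact (hcs n).ckB_nk k j hj x

end

end Crest.Agent.R240.Ell
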