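import Mathlib

/-!
# Row 240, block R (smoothing), part Sm1 (helper950)

One-chart translations `tau z y = y + θ y • z` of a finite dimensional space, their inverses.
-/

set_option autoImplicit false
set_option linter.unusedSectionVars false
set_option linter.style.haveILetI false

open Set Function Filter Metric
open scoped ContDiff Topology NNReal

namespace Crest.Agent.R240.Sm

noncomputable section

variable {E : Type*} [NormedAddCommGroup E] [NormedSpace ℝ E]

/-- a cut-off function with a radius `z0` of allowed translations. -/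
structure Cut (E : Type*) [NormedAddCommGroup E] [NormedSpace ℝ E] where
  θ : E → ℝ
  smooth : ContDiff ℝ ∞ θ
  comp : HasCompactSupport θ
  z0 : ℝ
  z0_pos : 0 < z0
  lip : ∀ y, ‖fderiv ℝ θ y‖ * z0 ≤ 1 / 2

namespace Cut

variable (c : Cut E)

/-- the one-chart translation -/
def tau (z y : E) : E := y + c.θ y • z

lemma tau_zero (y : E) : c.tau 0 y = y := by simp [tau]

lemma tau_eq_self {y : E} (hy : y ∉ tsupport c.θ) (z : E) : c.tau z y = y := by
  simp [tau, image_eq_zero_of_notMem_tsupport hy]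

lemma contDiff_tau : ContDiff ℝ ∞ (fun p : E × E => c.tau p.1 p.2) := by
  unfold tau
  exact contDiff_snd.add ((c.smooth.comp contDiff_snd).smul contDiff_fst)

lemma contDiff_tau' (z : E) : ContDiff ℝ ∞ (c.tau z) := by
  unfold tau
  exact contDiff_id.add (c.smooth.smul contDiff_const)

lemma differentiable_θ : Differentiable ℝ c.θ := c.smooth.differentiable (by simp)

/-- the derivative of the translation -/
def dtau (z y : E) : E →L[ℝ] E :=
  ContinuousLinearMap.id ℝ E + (fderiv ℝ c.θ y).smulRight z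

lemma dtau_apply (z y v : E) : c.dtau z y v = v + (fderiv ℝ c.θ y v) • z := by
  simp [dtau]

lemma hasFDerivAt_tau (z y : E) : HasFDerivAt (c.tau z) (c.dtau z y) y := by
  have h1 : HasFDerivAt c.θ (fderiv ℝ c.θ y) y := (c.differentiable_θ y).hasFDerivAt
  have h2 := (hasFDerivAt_id y).add (h1.smul_const z)
  exact h2

lemma fderiv_tau (z y : E) : fderiv ℝ (c.tau z) y = c.dtau z y := (c.hasFDerivAt_tau z y).fderiv

lemma contDiff_dtau : ContDiff ℝ ∞ (fun p : E × E => c.dtau p.1 p.2) := by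
  unfold dtau
  refine contDiff_const.add ?_
  have h1 : ContDiff ℝ ∞ (fun p : E × E => fderiv ℝ c.θ p.2) :=
    (c.smooth.fderiv_right (m := ∞) (by simp)).comp contDiff_snd
  exact h1.smulRight contDiff_fst

lemma dtau_eq_id {y : E} (hy : y ∉ tsupport c.θ) (z : E) :
    c.dtau z y = ContinuousLinearMap.id ℝ E := by
  have : fderiv ℝ c.θ y = 0 := by
    have h := support_fderiv_subset ℝ (f := c.θ)
    by_contra hne
    exact hy (h hne)
  ext v
  simp [dtau_apply, this]

lemma norm_dtau_sub_id_le (z y : E) :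
    ‖c.dtau z y - ContinuousLinearMap.id ℝ E‖ ≤ ‖fderiv ℝ c.θ y‖ * ‖z‖ := by
  have : c.dtau z y - ContinuousLinearMap.id ℝ E = (fderiv ℝ c.θ y).smulRight z := by
    simp [dtau]
  rw [this, ContinuousLinearMap.norm_smulRight_apply]

lemma norm_dtau_sub_id_le_half {z : E} (hz : ‖z‖ ≤ c.z0) (y : E) :
    ‖c.dtau z y - ContinuousLinearMap.id ℝ E‖ ≤ 1 / 2 :=
  (c.norm_dtau_sub_id_le z y).trans
    ((mul_le_mul_of_nonneg_left hz (norm_nonneg _)).trans (c.lip y))

/-- `θ` is bounded -/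
lemma exists_bound : ∃ B, 0 ≤ B ∧ ∀ y, |c.θ y| ≤ B := by
  obtain ⟨B, hB⟩ := c.comp.exists_bound_of_continuous c.smooth.continuous
  exact ⟨B, (norm_nonneg _).trans (hB 0), hB⟩

/-- Lipschitz estimate for `θ • z` -/
lemma norm_tau_tau_le {z : E} (hz : ‖z‖ ≤ c.z0) (y y' : E) :
    ‖(c.tau z y - c.tau z y') - (y - y')‖ ≤ 1 / 2 * ‖y - y'‖ := by
  have h1 : (c.tau z y - c.tau z y') - (y - y') = (c.θ y - c.θ y') • z := by
    simp only [tau, sub_smul]; abel
  rw [h1, norm_smul]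
  have hC : ∀ x ∈ (univ : Set E), ‖fderiv ℝ c.θ x‖ ≤ 1 / 2 / c.z0 := by
    intro x _
    rw [le_div_iff₀ c.z0_pos]
    exact c.lip x
  have h2 : ‖c.θ y - c.θ y'‖ ≤ 1 / 2 / c.z0 * ‖y - y'‖ :=
    convex_univ.norm_image_sub_le_of_norm_fderiv_le (𝕜 := ℝ)
      (fun x _ => (c.differentiable_θ x)) hC (mem_univ _) (mem_univ _)
  calc ‖c.θ y - c.θ y'‖ * ‖z‖ ≤ (1 / 2 / c.z0 * ‖y - y'‖) * c.z0 := by
        apply mul_le_mul h2 hz (norm_nonneg _)
        have := c.z0_pos.le
        positivity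
    _ = 1 / 2 * ‖y - y'‖ := by
        have := c.z0_pos.ne'
        field_simp

lemma antilip {z : E} (hz : ‖z‖ ≤ c.z0) (y y' : E) :
    ‖y - y'‖ ≤ 2 * ‖c.tau z y - c.tau z y'‖ := by
  have h1 := c.norm_tau_tau_le hz y y'
  have h2 : ‖y - y'‖ ≤ ‖c.tau z y - c.tau z y'‖ + ‖(c.tau z y - c.tau z y') - (y - y')‖ := by
    have : y - y' = (c.tau z y - c.tau z y') - ((c.tau z y - c.tau z y') - (y - y')) := by abel
    calc ‖y - y'‖ = ‖(c.tau z y - c.tau z y') - ((c.tau z y - c.tau z y') - (y - y'))‖ := by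
          rw [← this]
      _ ≤ _ := norm_sub_le _ _
  linarith

lemma tau_injective {z : E} (hz : ‖z‖ ≤ c.z0) : Injective (c.tau z) := by
  intro y y' h
  have := c.antilip hz y y'
  rw [h, sub_self, norm_zero, mul_zero] at this
  exact sub_eq_zero.mp (norm_le_zero_iff.mp this)

variable [CompleteSpace E]

lemma tau_surjective {z : E} (hz : ‖z‖ ≤ c.z0) : Surjective (c.tau z) := by
  have hf : ApproximatesLinearOn (c.tau z) ((ContinuousLinearEquiv.refl ℝ E : E ≃L[ℝ] E) :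
      E →L[ℝ] E) univ (1 / 2) := by
    intro y _ y' _
    have := c.norm_tau_tau_le hz y y'
    simpa using this
  refine hf.surjective ?_
  rcases subsingleton_or_nontrivial E with h | h
  · exact Or.inl h
  · right
    have : ‖((ContinuousLinearEquiv.refl ℝ E).symm : E →L[ℝ] E)‖₊ = 1 := by
      have h1 : ((ContinuousLinearEquiv.refl ℝ E).symm : E →L[ℝ] E)
        = ContinuousLinearMap.id ℝ E := rfl
      rw [h1]
      ext
      simp
    rw [this, inv_one]
    exact NNReal.half_lt_self one_ne_zero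

lemma tau_bijective {z : E} (hz : ‖z‖ ≤ c.z0) : Bijective (c.tau z) :=
  ⟨c.tau_injective hz, c.tau_surjective hz⟩

open Classical in
/-- the inverse of `tau z` -/
def sig (z x : E) : E :=
  if h : ‖z‖ ≤ c.z0 then (Equiv.ofBijective _ (c.tau_bijective h)).symm x else x

lemma tau_sig {z : E} (hz : ‖z‖ ≤ c.z0) (x : E) : c.tau z (c.sig z x) = x := by
  rw [sig, dif_pos hz]
  exact (Equiv.ofBijective _ (c.tau_bijective hz)).apply_symm_apply x

lemma sig_tau {z : E} (hz : ‖z‖ ≤ c.z0) (y : E) : c.sig z (c.tau z y) = y :=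
  c.tau_injective hz (c.tau_sig hz _)

lemma sig_eq_self {x : E} (hx : x ∉ tsupport c.θ) (z : E) : c.sig z x = x := by
  by_cases hz : ‖z‖ ≤ c.z0
  · apply c.tau_injective hz
    rw [c.tau_sig hz, c.tau_eq_self hx]
  · rw [sig, dif_neg hz]

/-- `tau z` preserves the support of `θ`. -/
lemma tau_mem {z : E} (hz : ‖z‖ ≤ c.z0) {y : E} (hy : y ∈ tsupport c.θ) :
    c.tau z y ∈ tsupport c.θ := by
  by_contra h
  have h1 : c.sig z (c.tau z y) = c.tau z y := c.sig_eq_self h z
  rw [c.sig_tau hz] at h1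
  exact h (h1 ▸ hy)

lemma sig_mem {z : E} (hz : ‖z‖ ≤ c.z0) {y : E} (hy : y ∈ tsupport c.θ) :
    c.sig z y ∈ tsupport c.θ := by
  by_contra h
  have h1 : c.tau z (c.sig z y) = c.sig z y := c.tau_eq_self h z
  rw [c.tau_sig hz] at h1
  exact h (h1 ▸ hy)

/-- `tau z` preserves every set containing the support of `θ`. -/
lemma tau_mem' {z : E} (hz : ‖z‖ ≤ c.z0) {Ω : Set E} (hΩ : tsupport c.θ ⊆ Ω) {y : E}
    (hy : y ∈ Ω) : c.tau z y ∈ Ω := by
  by_cases h : y ∈ tsupport c.θ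
  · exact hΩ (c.tau_mem hz h)
  · rwa [c.tau_eq_self h]

lemma sig_mem' {z : E} (hz : ‖z‖ ≤ c.z0) {Ω : Set E} (hΩ : tsupport c.θ ⊆ Ω) {y : E}
    (hy : y ∈ Ω) : c.sig z y ∈ Ω := by
  by_cases h : y ∈ tsupport c.θ
  · exact hΩ (c.sig_mem hz h)
  · rwa [c.sig_eq_self h]

lemma norm_tau_sub (z y : E) {B : ℝ} (hB : ∀ y, |c.θ y| ≤ B) : ‖c.tau z y - y‖ ≤ B * ‖z‖ := by
  have : c.tau z y - y = c.θ y • z := by simp [tau]
  rw [this, norm_smul]
  exact mul_le_mul_of_nonneg_right (hB y) (norm_nonneg _)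

lemma norm_sig_sub {z : E} (hz : ‖z‖ ≤ c.z0) (x : E) {B : ℝ} (hB : ∀ y, |c.θ y| ≤ B) :
    ‖c.sig z x - x‖ ≤ B * ‖z‖ := by
  have h := c.norm_tau_sub z (c.sig z x) hB
  rw [c.tau_sig hz] at h
  rwa [norm_sub_rev]

/-- joint Lipschitz estimate for the inverse -/
lemma norm_sig_sub_sig {z z' : E} (hz : ‖z‖ ≤ c.z0) (hz' : ‖z'‖ ≤ c.z0) (x x' : E) {B : ℝ}
    (hB : ∀ y, |c.θ y| ≤ B) :
    ‖c.sig z x - c.sig z' x'‖ ≤ 2 * (‖x - x'‖ + B * ‖z - z'‖) := by
  have h1 := c.antilip hz (c.sig z x) (c.sig z' x')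
  rw [c.tau_sig hz] at h1
  have h2 : c.tau z (c.sig z' x') = x' + c.θ (c.sig z' x') • (z - z') := by
    have h0 := c.tau_sig hz' x'
    rw [tau] at h0
    have h0' : x' = c.sig z' x' + c.θ (c.sig z' x') • z' := h0.symm
    generalize c.sig z' x' = w at h0' ⊢
    rw [tau, h0', smul_sub]
    abel
  rw [h2] at h1
  refine h1.trans (mul_le_mul_of_nonneg_left ?_ (by norm_num))
  have h3 : x - (x' + c.θ (c.sig z' x') • (z - z'))
      = (x - x') - c.θ (c.sig z' x') • (z - z') := by abel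
  rw [h3]
  refine (norm_sub_le _ _).trans (add_le_add le_rfl ?_)
  rw [norm_smul]
  exact mul_le_mul_of_nonneg_right (hB _) (norm_nonneg _)

lemma continuousOn_sig :
    ContinuousOn (fun p : E × E => c.sig p.1 p.2) (closedBall 0 c.z0 ×ˢ univ) := by
  obtain ⟨B, hB0, hB⟩ := c.exists_bound
  intro p hp
  have hp1 : ‖p.1‖ ≤ c.z0 := by simpa using hp.1
  rw [ContinuousWithinAt, tendsto_iff_norm_sub_tendsto_zero]
  have hlim : Tendsto (fun q : E × E => 2 * (‖q.2 - p.2‖ + B * ‖q.1 - p.1‖))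
      (𝓝[closedBall 0 c.z0 ×ˢ univ] p) (𝓝 0) := by
    have : Continuous (fun q : E × E => 2 * (‖q.2 - p.2‖ + B * ‖q.1 - p.1‖)) := by fun_prop
    have h := (this.tendsto p).mono_left (nhdsWithin_le_nhds (s := closedBall 0 c.z0 ×ˢ univ))
    simpa using h
  refine squeeze_zero' (Eventually.of_forall fun q => norm_nonneg _) ?_ hlim
  filter_upwards [self_mem_nhdsWithin] with q hq
  have hq1 : ‖q.1‖ ≤ c.z0 := by simpa using hq.1
  exact c.norm_sig_sub_sig hq1 hp1 _ _ hB

section Smooth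

variable [FiniteDimensional ℝ E]

/-- the derivative of `(z, y) ↦ (z, tau z y)`. -/
def dTT (z y : E) : E × E →L[ℝ] E × E :=
  (ContinuousLinearMap.fst ℝ E E).prod
    (c.θ y • ContinuousLinearMap.fst ℝ E E + (c.dtau z y).comp (ContinuousLinearMap.snd ℝ E E))

lemma hasFDerivAt_TT (z y : E) :
    HasFDerivAt (fun p : E × E => (p.1, c.tau p.1 p.2)) (c.dTT z y) (z, y) := by
  have h1 : HasFDerivAt c.θ (fderiv ℝ c.θ y) y := (c.differentiable_θ y).hasFDerivAt
  have h2 : HasFDerivAt (fun p : E × E => c.θ p.2)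
      ((fderiv ℝ c.θ y).comp (ContinuousLinearMap.snd ℝ E E)) (z, y) :=
    HasFDerivAt.comp (z, y) h1 hasFDerivAt_snd
  have h3 : HasFDerivAt (fun p : E × E => c.θ p.2 • p.1) _ (z, y) := h2.smul hasFDerivAt_fst
  have h4 : HasFDerivAt (fun p : E × E => p.2 + c.θ p.2 • p.1) _ (z, y) :=
    hasFDerivAt_snd.add h3
  have h5 := (hasFDerivAt_fst (𝕜 := ℝ) (p := ((z, y) : E × E))).prodMk h4
  have h6 : (ContinuousLinearMap.fst ℝ E E).prod
      (ContinuousLinearMap.snd ℝ E E +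
        (c.θ (z, y).2 • ContinuousLinearMap.fst ℝ E E +
          ((fderiv ℝ c.θ y).comp (ContinuousLinearMap.snd ℝ E E)).smulRight (z, y).1))
      = c.dTT z y := by
    ext v
    · simp [dTT]
    · simp [dTT]
    · simp [dTT]
    · simp [dTT, dtau_apply]
  rw [← h6]
  exact h5

lemma dtau_injective {z : E} (hz : ‖z‖ ≤ c.z0) (y : E) : Injective (c.dtau z y) := by
  rw [injective_iff_map_eq_zero]
  intro v hv
  have h := c.norm_dtau_sub_id_le_half hz y
  have h1 : ‖(c.dtau z y - ContinuousLinearMap.id ℝ E) v‖ ≤ 1 / 2 * ‖v‖ :=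
    (ContinuousLinearMap.le_opNorm _ _).trans (mul_le_mul_of_nonneg_right h (norm_nonneg _))
  have h2 : (c.dtau z y - ContinuousLinearMap.id ℝ E) v = - v := by
    simp [hv]
  rw [h2, norm_neg] at h1
  have : ‖v‖ ≤ 0 := by linarith
  exact norm_le_zero_iff.mp this

lemma dTT_injective {z : E} (hz : ‖z‖ ≤ c.z0) (y : E) : Injective (c.dTT z y) := by
  rw [injective_iff_map_eq_zero]
  rintro ⟨a, b⟩ h
  have h1 : a = 0 := by
    have := congrArg Prod.fst h
    simpa [dTT] using this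
  subst h1
  have h2 : c.dtau z y b = 0 := by
    have := congrArg Prod.snd h
    simpa [dTT] using this
  have h3 : b = 0 := by
    apply c.dtau_injective hz y
    rw [h2, map_zero]
  rw [h3]
  rfl

/-- the derivative as an equivalence -/
def dTTe {z : E} (hz : ‖z‖ ≤ c.z0) (y : E) : (E × E) ≃L[ℝ] (E × E) :=
  (LinearEquiv.ofInjectiveEndo (c.dTT z y : E × E →ₗ[ℝ] E × E)
    (c.dTT_injective hz y)).toContinuousLinearEquiv

lemma dTTe_coe {z : E} (hz : ‖z‖ ≤ c.z0) (y : E) :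
    ((c.dTTe hz y : (E × E) ≃L[ℝ] (E × E)) : E × E →L[ℝ] E × E) = c.dTT z y := by
  ext v <;> rfl

/-- `(z, y) ↦ (z, tau z y)` as an open partial homeomorphism. -/
def TT : OpenPartialHomeomorph (E × E) (E × E) where
  toFun p := (p.1, c.tau p.1 p.2)
  invFun p := (p.1, c.sig p.1 p.2)
  source := ball 0 c.z0 ×ˢ univ
  target := ball 0 c.z0 ×ˢ univ
  map_source' := fun p hp => ⟨hp.1, mem_univ _⟩
  map_target' := fun p hp => ⟨hp.1, mem_univ _⟩
  left_inv' := by
    rintro ⟨z, y⟩ hp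
    have hz : ‖z‖ ≤ c.z0 := by
      have := hp.1
      simp only [mem_ball, dist_zero_right] at this
      exact this.le
    simp [c.sig_tau hz]
  right_inv' := by
    rintro ⟨z, y⟩ hp
    have hz : ‖z‖ ≤ c.z0 := by
      have := hp.1
      simp only [mem_ball, dist_zero_right] at this
      exact this.le
    simp [c.tau_sig hz]
  open_source := isOpen_ball.prod isOpen_univ
  open_target := isOpen_ball.prod isOpen_univ
  continuousOn_toFun := (continuous_fst.prodMk c.contDiff_tau.continuous).continuousOn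
  continuousOn_invFun := by
    refine continuousOn_fst.prodMk (c.continuousOn_sig.mono ?_)
    exact prod_mono ball_subset_closedBall le_rfl

/-- the inverse is jointly smooth. -/
lemma contDiffOn_sig :
    ContDiffOn ℝ ∞ (fun p : E × E => c.sig p.1 p.2) (ball 0 c.z0 ×ˢ univ) := by
  rintro ⟨z, x⟩ hp
  have hz : ‖z‖ ≤ c.z0 := by
    have := hp.1
    simp only [mem_ball, dist_zero_right] at this
    exact this.le
  have h : ContDiffAt ℝ ∞ c.TT.symm (z, x) := by
    refine c.TT.contDiffAt_symm (f₀' := c.dTTe hz (c.sig z x)) hp ?_ ?_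
    · rw [dTTe_coe]
      exact c.hasFDerivAt_TT z (c.sig z x)
    · exact (contDiff_fst.prodMk c.contDiff_tau).contDiffAt
  have h2 : ContDiffAt ℝ ∞ (fun p : E × E => c.sig p.1 p.2) (z, x) :=
    (contDiff_snd.contDiffAt (x := c.TT.symm (z, x))).comp (z, x) h
  exact h2.contDiffWithinAt

lemma contDiff_sig' {z : E} (hz : ‖z‖ < c.z0) : ContDiff ℝ ∞ (c.sig z) := by
  rw [contDiff_iff_contDiffAt]
  intro x
  have hmem : (z, x) ∈ (ball (0 : E) c.z0 ×ˢ (univ : Set E)) := ⟨by simpa using hz, mem_univ _⟩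
  have h : ContDiffAt ℝ ∞ (fun p : E × E => c.sig p.1 p.2) (z, x) :=
    (c.contDiffOn_sig (z, x) hmem).contDiffAt
      ((isOpen_ball.prod isOpen_univ).mem_nhds hmem)
  exact h.comp x (contDiff_const.prodMk contDiff_id).contDiffAt

end Smooth

end Cut

/-- existence of a cut-off equal to one on a neighbourhood of a compact set, supported in an
open set. -/
theorem exists_cut [FiniteDimensional ℝ E] {K Ω : Set E} (hK : IsCompact K) (hΩ : IsOpen Ω)
    (hKΩ : K ⊆ Ω) :
    ∃ c : Cut E, tsupport c.θ ⊆ Ω ∧ (∀ᶠ y in 𝓝ˢ K, c.θ y = 1) ∧ ∀ y, c.θ y ∈ Icc (0 : ℝ) 1 := by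
  have : ProperSpace E := FiniteDimensional.proper ℝ E
  obtain ⟨V, hVo, hKV, hVΩ, hVc⟩ := exists_open_between_and_isCompact_closure hK hΩ hKΩ
  obtain ⟨f, hf1, hf0, hf⟩ := exists_contMDiffMap_one_nhds_of_subset_interior
    (modelWithCornersSelf ℝ E) (n := (⊤ : ℕ∞)) hK.isClosed (t := V)
    (hKV.trans (interior_eq_iff_isOpen.mpr hVo).ge)
  have hsm : ContDiff ℝ ∞ (f : E → ℝ) := f.contMDiff.contDiff
  have hts : tsupport (f : E → ℝ) ⊆ closure V := by
    apply closure_mono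
    intro x hx
    by_contra h
    exact hx (hf0 x h)
  have hcs : HasCompactSupport (f : E → ℝ) := hVc.of_isClosed_subset isClosed_closure hts
  have hcs' : HasCompactSupport (fderiv ℝ (f : E → ℝ)) := hcs.fderiv (𝕜 := ℝ)
  obtain ⟨C, hC⟩ := hcs'.exists_bound_of_continuous (hsm.continuous_fderiv (by simp))
  have hC0 : 0 ≤ C := (norm_nonneg _).trans (hC 0)
  refine ⟨⟨f, hsm, hcs, 1 / (2 * (C + 1)), by positivity, ?_⟩, hts.trans hVΩ, hf1, hf⟩
  intro y
  have h1 := hC y
  calc ‖fderiv ℝ (f : E → ℝ) y‖ * (1 / (2 * (C + 1))) ≤ (C + 1) * (1 / (2 * (C + 1))) := by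
        apply mul_le_mul_of_nonneg_right (by linarith); positivity
    _ = 1 / 2 := by field_simp

/-- a smooth family of diffeomorphisms of `E`, equal to the identity off a compact set. -/
structure Fam (E : Type*) [NormedAddCommGroup E] [NormedSpace ℝ E] where
  r : ℝ
  r_pos : 0 < r
  K : Set E
  isCompact : IsCompact K
  g : E → E → E
  gi : E → E → E
  smooth : ContDiffOn ℝ ∞ (fun p : E × E => g p.1 p.2) (ball 0 r ×ˢ univ)
  smoothi : ContDiffOn ℝ ∞ (fun p : E × E => gi p.1 p.2) (ball 0 r ×ˢ univ)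
  left_inv : ∀ z ∈ ball (0 : E) r, ∀ y, gi z (g z y) = y
  right_inv : ∀ z ∈ ball (0 : E) r, ∀ y, g z (gi z y) = y
  id_off : ∀ z ∈ ball (0 : E) r, ∀ y, y ∉ K → g z y = y
  g_zero : ∀ y, g 0 y = y

namespace Fam

variable (G : Fam E)

lemma id_off' {z : E} (hz : z ∈ ball (0 : E) G.r) {y : E} (hy : y ∉ G.K) : G.gi z y = y := by
  conv_lhs => rw [← G.id_off z hz y hy]
  exact G.left_inv z hz y

/-- the family of inverses -/
def symm : Fam E where
  r := G.r
  r_pos := G.r_pos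
  K := G.K
  isCompact := G.isCompact
  g := G.gi
  gi := G.g
  smooth := G.smoothi
  smoothi := G.smooth
  left_inv := G.right_inv
  right_inv := G.left_inv
  id_off := fun _ hz _ hy => G.id_off' hz hy
  g_zero := fun y => by
    have h0 : (0 : E) ∈ ball (0 : E) G.r := by simpa using G.r_pos
    conv_lhs => rw [← G.g_zero y]
    exact G.left_inv 0 h0 y

@[simp] lemma symm_r : G.symm.r = G.r := rfl
@[simp] lemma symm_K : G.symm.K = G.K := rfl
@[simp] lemma symm_g : G.symm.g = G.gi := rfl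
@[simp] lemma symm_gi : G.symm.gi = G.g := rfl
@[simp] lemma symm_symm : G.symm.symm = G := rfl

lemma mem_K {z : E} (hz : z ∈ ball (0 : E) G.r) {y : E} (hy : y ∈ G.K) : G.g z y ∈ G.K := by
  by_contra h
  have h1 : G.gi z (G.g z y) = G.g z y := G.id_off' hz h
  rw [G.left_inv z hz] at h1
  exact h (h1 ▸ hy)

/-- a set containing `K` is preserved. -/
lemma mem_of_mem {z : E} (hz : z ∈ ball (0 : E) G.r) {Ω : Set E} (hΩ : G.K ⊆ Ω) {y : E}
    (hy : y ∈ Ω) : G.g z y ∈ Ω := by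
  by_cases h : y ∈ G.K
  · exact hΩ (G.mem_K hz h)
  · rwa [G.id_off z hz y h]

lemma mem_iff {z : E} (hz : z ∈ ball (0 : E) G.r) {Ω : Set E} (hΩ : G.K ⊆ Ω) {y : E} :
    G.g z y ∈ Ω ↔ y ∈ Ω := by
  refine ⟨fun h => ?_, G.mem_of_mem hz hΩ⟩
  have := G.symm.mem_of_mem (z := z) hz (Ω := Ω) hΩ h
  simpa [G.left_inv z hz] using this

lemma contDiff_g {z : E} (hz : z ∈ ball (0 : E) G.r) : ContDiff ℝ ∞ (G.g z) := by
  rw [contDiff_iff_contDiffAt]
  intro y
  have hmem : (z, y) ∈ (ball (0 : E) G.r ×ˢ (univ : Set E)) := ⟨hz, mem_univ _⟩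
  have h : ContDiffAt ℝ ∞ (fun p : E × E => G.g p.1 p.2) (z, y) :=
    (G.smooth (z, y) hmem).contDiffAt ((isOpen_ball.prod isOpen_univ).mem_nhds hmem)
  exact h.comp y (contDiff_const.prodMk contDiff_id).contDiffAt

/-- the derivative -/
def dg (z y : E) : E →L[ℝ] E := fderiv ℝ (G.g z) y

lemma hasFDerivAt_g {z : E} (hz : z ∈ ball (0 : E) G.r) (y : E) :
    HasFDerivAt (G.g z) (G.dg z y) y :=
  ((G.contDiff_g hz).differentiable (by simp) y).hasFDerivAt

lemma dg_comp {z : E} (hz : z ∈ ball (0 : E) G.r) (y : E) :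
    (G.symm.dg z (G.g z y)).comp (G.dg z y) = ContinuousLinearMap.id ℝ E := by
  have h1 : HasFDerivAt (G.gi z) (G.symm.dg z (G.g z y)) (G.g z y) := G.symm.hasFDerivAt_g hz _
  have h2 := h1.comp y (G.hasFDerivAt_g hz y)
  have h3 : G.gi z ∘ G.g z = id := funext fun y => G.left_inv z hz y
  rw [h3] at h2
  exact h2.unique (hasFDerivAt_id y)

lemma dg_comp' {z : E} (hz : z ∈ ball (0 : E) G.r) (x : E) :
    (G.dg z (G.gi z x)).comp (G.symm.dg z x) = ContinuousLinearMap.id ℝ E := by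
  have := G.symm.dg_comp hz x
  simpa using this

lemma dg_id_off {z : E} (hz : z ∈ ball (0 : E) G.r) {y : E} (hy : y ∉ G.K) :
    G.dg z y = ContinuousLinearMap.id ℝ E := by
  have h : G.g z =ᶠ[𝓝 y] id := by
    filter_upwards [G.isCompact.isClosed.isOpen_compl.mem_nhds hy] with x hx
    exact G.id_off z hz x hx
  rw [dg, h.fderiv_eq, fderiv_id]

/-- joint smoothness of the derivative -/
lemma contDiffOn_dg :
    ContDiffOn ℝ ∞ (fun p : E × E => G.dg p.1 p.2) (ball 0 G.r ×ˢ univ) := by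
  have ho : IsOpen (ball (0 : E) G.r ×ˢ (univ : Set E)) := isOpen_ball.prod isOpen_univ
  have h1 : ContDiffOn ℝ ∞ (fderiv ℝ (fun p : E × E => G.g p.1 p.2)) (ball 0 G.r ×ˢ univ) :=
    G.smooth.fderiv_of_isOpen ho (by simp)
  have h2 : ContDiffOn ℝ ∞ (fun p : E × E =>
      (fderiv ℝ (fun p : E × E => G.g p.1 p.2) p).comp (ContinuousLinearMap.inr ℝ E E))
      (ball 0 G.r ×ˢ univ) := h1.clm_comp contDiffOn_const
  refine h2.congr ?_
  rintro ⟨z, y⟩ hp
  have h3 : HasFDerivAt (fun p : E × E => G.g p.1 p.2)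
      (fderiv ℝ (fun p : E × E => G.g p.1 p.2) (z, y)) (z, y) :=
    (((G.smooth (z, y) hp).contDiffAt (ho.mem_nhds hp)).differentiableAt (by simp)).hasFDerivAt
  have h4 := h3.comp y (hasFDerivAt_prodMk_right z y)
  exact h4.fderiv

end Fam

section

variable [FiniteDimensional ℝ E]

/-- the family of one-chart translations. -/
def Cut.fam (c : Cut E) : Fam E :=
  haveI : CompleteSpace E := FiniteDimensional.complete ℝ E
  { r := c.z0
    r_pos := c.z0_pos
    K := tsupport c.θ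
    isCompact := c.comp
    g := c.tau
    gi := c.sig
    smooth := c.contDiff_tau.contDiffOn
    smoothi := c.contDiffOn_sig
    left_inv := fun z hz y => c.sig_tau (by simpa using (mem_ball_zero_iff.mp hz).le) y
    right_inv := fun z hz y => c.tau_sig (by simpa using (mem_ball_zero_iff.mp hz).le) y
    id_off := fun z _ y hy => c.tau_eq_self hy z
    g_zero := c.tau_zero }

lemma Cut.fam_g (c : Cut E) : c.fam.g = c.tau := rfl
lemma Cut.fam_K (c : Cut E) : c.fam.K = tsupport c.θ := rfl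
lemma Cut.fam_r (c : Cut E) : c.fam.r = c.z0 := rfl
lemma Cut.fam_dg (c : Cut E) (z y : E) : c.fam.dg z y = c.dtau z y := c.fderiv_tau z y

end

end

end Crest.Agent.R240.Sm
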