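import Mathlib
import Crest.Agent.R240.FormDefs
import Crest.Agent.R240.Sm1

/-!
# Row 240, block R (smoothing), part Sm2 (helper950)

The diffeomorphisms `psi G p z` of `M` given by a family `G` of diffeomorphisms of the model space
supported in the target of the chart at `p`, and the pull-back `pullG G p z b` of two-forms.
-/

set_option autoImplicit false
set_option linter.unusedSectionVars false

open Set Function Filter Metric Bundle
open scoped Manifold ContDiff Topology

namespace Crest.Agent.R240.Sm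

open Crest.Agent.R240.Ch

noncomputable section

section Defs

variable {E : Type*} [NormedAddCommGroup E] [NormedSpace ℝ E]
variable {M : Type*} [TopologicalSpace M] [ChartedSpace E M] [IsManifold 𝓘(ℝ, E) ∞ M]

/-- the pull-back of a bilinear form by a linear map. -/
def pb (b : E →L[ℝ] E →L[ℝ] ℝ) (D : E →L[ℝ] E) : E →L[ℝ] E →L[ℝ] ℝ := b.bilinearComp D D

@[simp] lemma pb_apply (b : E →L[ℝ] E →L[ℝ] ℝ) (D : E →L[ℝ] E) (u v : E) :
    pb b D u v = b (D u) (D v) := rfl

lemma pb_comp (b : E →L[ℝ] E →L[ℝ] ℝ) (D D' : E →L[ℝ] E) :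
    pb (pb b D) D' = pb b (D.comp D') := rfl

@[simp] lemma pb_id (b : E →L[ℝ] E →L[ℝ] ℝ) : pb b (ContinuousLinearMap.id ℝ E) = b := rfl

@[simp] lemma pb_zero (D : E →L[ℝ] E) : pb (0 : E →L[ℝ] E →L[ℝ] ℝ) D = 0 := rfl

lemma pb_add (b b' : E →L[ℝ] E →L[ℝ] ℝ) (D : E →L[ℝ] E) : pb (b + b') D = pb b D + pb b' D := rfl

lemma pb_smul (t : ℝ) (b : E →L[ℝ] E →L[ℝ] ℝ) (D : E →L[ℝ] E) : pb (t • b) D = t • pb b D := rfl

/-- `pb` as a composition of continuous maps -/
lemma pb_eq (b : E →L[ℝ] E →L[ℝ] ℝ) (D : E →L[ℝ] E) :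
    pb b D = ((ContinuousLinearMap.compL ℝ E E ℝ).flip D).comp (b.comp D) := by
  ext u v; rfl

lemma contDiff_pb {n : WithTop ℕ∞} :
    ContDiff ℝ n (fun w : (E →L[ℝ] E →L[ℝ] ℝ) × (E →L[ℝ] E) => pb w.1 w.2) := by
  simp only [pb_eq]
  have h0 : ContDiff ℝ n (fun D : E →L[ℝ] E => (ContinuousLinearMap.compL ℝ E E ℝ).flip D) :=
    ContinuousLinearMap.contDiff _
  have h1 : ContDiff ℝ n (fun w : (E →L[ℝ] E →L[ℝ] ℝ) × (E →L[ℝ] E) =>
      (ContinuousLinearMap.compL ℝ E E ℝ).flip w.2) := h0.comp contDiff_snd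
  have h2 : ContDiff ℝ n (fun w : (E →L[ℝ] E →L[ℝ] ℝ) × (E →L[ℝ] E) => w.1.comp w.2) :=
    contDiff_fst.clm_comp contDiff_snd
  exact h1.clm_comp h2

variable (G : Fam E) (p : M)

open Classical in
/-- the diffeomorphism of `M` given by `G.g z` in the chart at `p`. -/
def psi (z : E) (x : M) : M :=
  if x ∈ (chartAt E p).source then (chartAt E p).symm (G.g z (chartAt E p x)) else x

open Classical in
/-- the pull-back of a two-form by `psi G p z`. -/
def pullG (z : E) (b : F2 E M) : F2 E M := fun x =>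
  (if x ∈ (chartAt E p).source then
    pb (rep p b (G.g z (chartAt E p x))) ((G.dg z (chartAt E p x)).comp (tcc x p x))
   else at2 b x : E →L[ℝ] E →L[ℝ] ℝ)

/-- the pull-back of a function by `psi G p z`. -/
def pullF (z : E) (f : M → ℝ) : M → ℝ := fun x => f (psi G p z x)

/-- the compact set off which nothing moves. -/
def KM : Set M := (chartAt E p).symm '' G.K

end Defs

section Basic

variable {E : Type*} [NormedAddCommGroup E] [NormedSpace ℝ E]
variable {M : Type*} [TopologicalSpace M] [ChartedSpace E M] [IsManifold 𝓘(ℝ, E) ∞ M]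
variable {G : Fam E} {p : M}

omit [IsManifold 𝓘(ℝ, E) ∞ M] in
lemma psi_of_mem {x : M} (hx : x ∈ (chartAt E p).source) (z : E) :
    psi G p z x = (chartAt E p).symm (G.g z (chartAt E p x)) := if_pos hx

omit [IsManifold 𝓘(ℝ, E) ∞ M] in
lemma psi_of_notMem {x : M} (hx : x ∉ (chartAt E p).source) (z : E) : psi G p z x = x := if_neg hx

lemma at2_pullG_of_mem {x : M} (hx : x ∈ (chartAt E p).source) (z : E) (b : F2 E M) :
    at2 (pullG G p z b) x =
      pb (rep p b (G.g z (chartAt E p x))) ((G.dg z (chartAt E p x)).comp (tcc x p x)) := if_pos hx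

lemma at2_pullG_of_notMem {x : M} (hx : x ∉ (chartAt E p).source) (z : E) (b : F2 E M) :
    at2 (pullG G p z b) x = at2 b x := if_neg hx

lemma rep_eq_pb (q : M) (a : F2 E M) (y : E) :
    rep q a y = pb (at2 a ((chartAt E q).symm y))
      (tcc q ((chartAt E q).symm y) ((chartAt E q).symm y)) := rfl

/-- the form at a point from its representation. -/
lemma at2_eq_pb {q x : M} (hx : x ∈ (chartAt E q).source) (a : F2 E M) :
    at2 a x = pb (rep q a (chartAt E q x)) (tcc x q x) := by
  ext u v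
  exact apply_eq_rep hx a u v

lemma at2_eq_of_rep {q x : M} (hx : x ∈ (chartAt E q).source) {a b : F2 E M}
    (h : rep q a (chartAt E q x) = rep q b (chartAt E q x)) : at2 a x = at2 b x := by
  rw [at2_eq_pb hx, at2_eq_pb hx, h]

/-- **the pull-back in the chart at `p`.** -/
lemma rep_pullG {y : E} (hy : y ∈ (chartAt E p).target) (z : E) (b : F2 E M) :
    rep p (pullG G p z b) y = pb (rep p b (G.g z y)) (G.dg z y) := by
  rw [rep_eq_pb, at2_pullG_of_mem (symm_mem hy), (chartAt E p).right_inv hy, pb_comp]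
  ext u v
  simp only [pb_apply, ContinuousLinearMap.comp_apply]
  rw [tcc_cancel (symm_mem hy), tcc_cancel (symm_mem hy)]

omit [IsManifold 𝓘(ℝ, E) ∞ M] in
lemma isCompact_KM (hG : G.K ⊆ (chartAt E p).target) : IsCompact (KM G p) :=
  G.isCompact.image_of_continuousOn ((chartAt E p).continuousOn_symm.mono hG)

omit [IsManifold 𝓘(ℝ, E) ∞ M] in
lemma isClosed_KM [T2Space M] (hG : G.K ⊆ (chartAt E p).target) : IsClosed (KM G p) :=
  (isCompact_KM hG).isClosed

omit [IsManifold 𝓘(ℝ, E) ∞ M] in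
lemma KM_subset (hG : G.K ⊆ (chartAt E p).target) : KM G p ⊆ (chartAt E p).source := by
  rintro _ ⟨y, hy, rfl⟩
  exact symm_mem (hG hy)

omit [IsManifold 𝓘(ℝ, E) ∞ M] in
lemma notMem_K_of {x : M} (hx : x ∈ (chartAt E p).source) (h : x ∉ KM G p) :
    chartAt E p x ∉ G.K := fun h' => h ⟨_, h', (chartAt E p).left_inv hx⟩

omit [IsManifold 𝓘(ℝ, E) ∞ M] in
/-- the chart at `p` of the moved point -/
lemma chart_psi (hG : G.K ⊆ (chartAt E p).target) {z : E} (hz : z ∈ ball (0 : E) G.r) {x : M}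
    (hx : x ∈ (chartAt E p).source) :
    psi G p z x ∈ (chartAt E p).source ∧ chartAt E p (psi G p z x) = G.g z (chartAt E p x) := by
  have h1 : G.g z (chartAt E p x) ∈ (chartAt E p).target :=
    G.mem_of_mem hz hG ((chartAt E p).map_source hx)
  rw [psi_of_mem hx]
  exact ⟨symm_mem h1, (chartAt E p).right_inv h1⟩

omit [IsManifold 𝓘(ℝ, E) ∞ M] in
lemma psi_symm (z : E) {y : E}
    (hy : y ∈ (chartAt E p).target) :
    psi G p z ((chartAt E p).symm y) = (chartAt E p).symm (G.g z y) := by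
  rw [psi_of_mem (symm_mem hy), (chartAt E p).right_inv hy]

omit [IsManifold 𝓘(ℝ, E) ∞ M] in
lemma psi_off {z : E} (hz : z ∈ ball (0 : E) G.r) {x : M} (hx : x ∉ KM G p) :
    psi G p z x = x := by
  by_cases h : x ∈ (chartAt E p).source
  · rw [psi_of_mem h, G.id_off z hz _ (notMem_K_of h hx), (chartAt E p).left_inv h]
  · exact psi_of_notMem h z

omit [IsManifold 𝓘(ℝ, E) ∞ M] in
lemma psi_zero (x : M) : psi G p 0 x = x := by
  by_cases h : x ∈ (chartAt E p).source
  · rw [psi_of_mem h, G.g_zero, (chartAt E p).left_inv h]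
  · exact psi_of_notMem h 0

omit [IsManifold 𝓘(ℝ, E) ∞ M] in
lemma psi_mem_iff (hG : G.K ⊆ (chartAt E p).target) {z : E} (hz : z ∈ ball (0 : E) G.r) (x : M) :
    psi G p z x ∈ (chartAt E p).source ↔ x ∈ (chartAt E p).source := by
  by_cases h : x ∈ (chartAt E p).source
  · exact ⟨fun _ => h, fun _ => (chart_psi hG hz h).1⟩
  · rw [psi_of_notMem h]

omit [IsManifold 𝓘(ℝ, E) ∞ M] in
lemma psi_symm_psi (hG : G.K ⊆ (chartAt E p).target) {z : E} (hz : z ∈ ball (0 : E) G.r)
    (x : M) : psi G.symm p z (psi G p z x) = x := by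
  by_cases h : x ∈ (chartAt E p).source
  · obtain ⟨h1, h2⟩ := chart_psi hG hz h
    rw [psi_of_mem h1, h2, Fam.symm_g, G.left_inv z hz, (chartAt E p).left_inv h]
  · rw [psi_of_notMem h, psi_of_notMem h]

omit [IsManifold 𝓘(ℝ, E) ∞ M] in
lemma psi_psi_symm (hG : G.K ⊆ (chartAt E p).target) {z : E} (hz : z ∈ ball (0 : E) G.r)
    (x : M) : psi G p z (psi G.symm p z x) = x :=
  psi_symm_psi (G := G.symm) hG hz x

/-- off the compact set the pull-back does not change anything. -/
lemma pullG_off {z : E} (hz : z ∈ ball (0 : E) G.r) {x : M} (hx : x ∉ KM G p) (b : F2 E M) :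
    at2 (pullG G p z b) x = at2 b x := by
  by_cases h : x ∈ (chartAt E p).source
  · have h1 := notMem_K_of h hx
    rw [at2_pullG_of_mem h, G.id_off z hz _ h1, G.dg_id_off hz h1, at2_eq_pb h b]
    rfl
  · exact at2_pullG_of_notMem h z b

lemma pullG_zero (b : F2 E M) : pullG G p 0 b = b := by
  funext x
  change at2 (pullG G p 0 b) x = at2 b x
  by_cases h : x ∈ (chartAt E p).source
  · have h2 : G.g 0 = id := funext G.g_zero
    have h1 : G.dg 0 (chartAt E p x) = ContinuousLinearMap.id ℝ E := by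
      rw [Fam.dg, h2, fderiv_id]
    rw [at2_pullG_of_mem h, G.g_zero, h1, at2_eq_pb h b]
    rfl
  · exact at2_pullG_of_notMem h 0 b

lemma pullG_add (z : E) (a b : F2 E M) : pullG G p z (a + b) = pullG G p z a + pullG G p z b := by
  funext x
  change at2 (pullG G p z (a + b)) x = at2 (pullG G p z a) x + at2 (pullG G p z b) x
  by_cases h : x ∈ (chartAt E p).source
  · rw [at2_pullG_of_mem h, at2_pullG_of_mem h, at2_pullG_of_mem h, ← pb_add]
    rfl
  · rw [at2_pullG_of_notMem h, at2_pullG_of_notMem h, at2_pullG_of_notMem h]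
    rfl

lemma pullG_smul (z : E) (t : ℝ) (b : F2 E M) : pullG G p z (t • b) = t • pullG G p z b := by
  funext x
  change at2 (pullG G p z (t • b)) x = t • at2 (pullG G p z b) x
  by_cases h : x ∈ (chartAt E p).source
  · rw [at2_pullG_of_mem h, at2_pullG_of_mem h, ← pb_smul]
    rfl
  · rw [at2_pullG_of_notMem h, at2_pullG_of_notMem h]
    rfl

lemma pullG_symm_pullG (hG : G.K ⊆ (chartAt E p).target) {z : E} (hz : z ∈ ball (0 : E) G.r)
    (b : F2 E M) : pullG G.symm p z (pullG G p z b) = b := by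
  funext x
  change at2 (pullG G.symm p z (pullG G p z b)) x = at2 b x
  by_cases h : x ∈ (chartAt E p).source
  · have ht := (chartAt E p).map_source h
    refine at2_eq_of_rep h ?_
    have ht' : G.symm.g z (chartAt E p x) ∈ (chartAt E p).target := G.symm.mem_of_mem hz hG ht
    rw [rep_pullG ht, rep_pullG ht', Fam.symm_g, G.right_inv z hz, pb_comp, G.dg_comp' hz, pb_id]
  · rw [at2_pullG_of_notMem h, at2_pullG_of_notMem h]

lemma pullG_pullG_symm (hG : G.K ⊆ (chartAt E p).target) {z : E} (hz : z ∈ ball (0 : E) G.r)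
    (b : F2 E M) : pullG G p z (pullG G.symm p z b) = b :=
  pullG_symm_pullG (G := G.symm) hG hz b

lemma pullG_fmul (z : E)
    (f : M → ℝ) (b : F2 E M) :
    pullG G p z (fmul f b) = fmul (pullF G p z f) (pullG G p z b) := by
  funext x
  change at2 (pullG G p z (fmul f b)) x = f (psi G p z x) • at2 (pullG G p z b) x
  by_cases h : x ∈ (chartAt E p).source
  · rw [at2_pullG_of_mem h, at2_pullG_of_mem h, psi_of_mem h]
    rfl
  · rw [at2_pullG_of_notMem h, at2_pullG_of_notMem h, psi_of_notMem h]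
    rfl

lemma pullG_alt {b : F2 E M} (hb : ∀ x v, at2 b x v v = 0) (z : E) (x : M) (v : E) :
    at2 (pullG G p z b) x v v = 0 := by
  by_cases h : x ∈ (chartAt E p).source
  · rw [at2_pullG_of_mem h, pb_apply, rep_eq_pb, pb_apply]
    exact hb _ _
  · rw [at2_pullG_of_notMem h]
    exact hb _ _

omit [IsManifold 𝓘(ℝ, E) ∞ M] in
/-- a function in the chart at `p` -/
lemma repF_pullF {y : E} (hy : y ∈ (chartAt E p).target) (z : E) (f : M → ℝ) :
    repF (E := E) p (pullF G p z f) y = repF p f (G.g z y) := by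
  rw [repF, repF, pullF, psi_of_mem (symm_mem hy), (chartAt E p).right_inv hy]

end Basic

/-! ### smooth dependence -/

section Smooth

variable {E : Type*} [NormedAddCommGroup E] [NormedSpace ℝ E]
variable {M : Type*} [TopologicalSpace M] [ChartedSpace E M] [IsManifold 𝓘(ℝ, E) ∞ M]
variable {G : Fam E} {p : M}
variable {Z : Type*} [NormedAddCommGroup Z] [NormedSpace ℝ Z]

lemma tcc_eq_fderiv_at {q p : M} {y : E} (hy : y ∈ (chartAt E q).target) :
    tcc q p ((chartAt E q).symm y) = fderiv ℝ (Ch.trans (E := E) q p) y := by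
  rw [tcc_eq_fderiv_trans, (chartAt E q).right_inv hy]

/-- change of chart for representations. -/
lemma rep_change {q p : M} {y : E} (hy : y ∈ (chartAt E q).target)
    (hp : (chartAt E q).symm y ∈ (chartAt E p).source) (a : F2 E M) :
    rep q a y = pb (rep p a (Ch.trans (E := E) q p y)) (fderiv ℝ (Ch.trans (E := E) q p) y) := by
  ext u v
  exact rep_pullback hy hp a u v

/-- joint smoothness at a point of a family of forms does not depend on the chart. -/
lemma jsmooth_change {β : Z → F2 E M} {q p x : M} (hq : x ∈ (chartAt E q).source)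
    (hp : x ∈ (chartAt E p).source) {z : Z}
    (h : ContDiffAt ℝ ∞ (fun w : Z × E => rep p (β w.1) w.2) (z, chartAt E p x)) :
    ContDiffAt ℝ ∞ (fun w : Z × E => rep q (β w.1) w.2) (z, chartAt E q x) := by
  have hy : chartAt E q x ∈ (chartAt E q).target := (chartAt E q).map_source hq
  have hpx : (chartAt E q).symm (chartAt E q x) ∈ (chartAt E p).source := by
    rw [(chartAt E q).left_inv hq]; exact hp
  have ht := trans_contDiffAt hy hpx
  have ht' : ContDiffAt ℝ ∞ (fderiv ℝ (Ch.trans (E := E) q p)) (chartAt E q x) :=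
    ht.fderiv_right (by simp)
  have htx : Ch.trans (E := E) q p (chartAt E q x) = chartAt E p x := trans_apply hq
  have h1 : ContDiffAt ℝ ∞ (fun w : Z × E => rep p (β w.1) (Ch.trans (E := E) q p w.2))
      (z, chartAt E q x) := by
    have h2 : ContDiffAt ℝ ∞ (fun w : Z × E => (w.1, Ch.trans (E := E) q p w.2))
        (z, chartAt E q x) :=
      contDiffAt_fst.prodMk (ContDiffAt.comp (z, chartAt E q x) (g := Ch.trans (E := E) q p)
        (f := fun w : Z × E => w.2) ht contDiffAt_snd)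
    have h3 : ContDiffAt ℝ ∞ (fun w : Z × E => rep p (β w.1) w.2)
        ((fun w : Z × E => (w.1, Ch.trans (E := E) q p w.2)) (z, chartAt E q x)) := by
      simp only [htx]; exact h
    exact ContDiffAt.comp (z, chartAt E q x) (g := fun w : Z × E => rep p (β w.1) w.2)
      (f := fun w : Z × E => (w.1, Ch.trans (E := E) q p w.2)) h3 h2
  have h4 : ContDiffAt ℝ ∞ (fun w : Z × E => fderiv ℝ (Ch.trans (E := E) q p) w.2)
      (z, chartAt E q x) :=
    ContDiffAt.comp (z, chartAt E q x) (g := fderiv ℝ (Ch.trans (E := E) q p))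
      (f := fun w : Z × E => w.2) ht' contDiffAt_snd
  have h5 := (contDiff_pb (E := E) (n := ∞)).contDiffAt.comp (z, chartAt E q x) (h1.prodMk h4)
  refine h5.congr_of_eventuallyEq ?_
  have hev : ∀ᶠ y in 𝓝 (chartAt E q x), y ∈ (chartAt E q).target ∧
      (chartAt E q).symm y ∈ (chartAt E p).source := by
    have h6 := (chartAt E q).open_target.mem_nhds hy
    have h7 : (chartAt E q).symm ⁻¹' (chartAt E p).source ∈ 𝓝 (chartAt E q x) :=
      ((chartAt E q).continuousAt_symm hy).preimage_mem_nhds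
        ((chartAt E p).open_source.mem_nhds hpx)
    filter_upwards [h6, h7] with y h6 h7 using ⟨h6, h7⟩
  have hev2 : ∀ᶠ w : Z × E in 𝓝 (z, chartAt E q x), w.2 ∈ (chartAt E q).target ∧
      (chartAt E q).symm w.2 ∈ (chartAt E p).source :=
    (continuous_snd.tendsto (z, chartAt E q x)).eventually hev
  filter_upwards [hev2] with w hw
  exact rep_change hw.1 hw.2 (β w.1)

/-- **joint smoothness of the pull-back** in all charts. -/
theorem contDiffOn_rep_pullG [T2Space M] (hG : G.K ⊆ (chartAt E p).target) {b : F2 E M}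
    (hb : Smooth2 b) (q : M) :
    ContDiffOn ℝ ∞ (fun w : E × E => rep q (pullG G p w.1 b) w.2)
      (ball 0 G.r ×ˢ (chartAt E q).target) := by
  rintro ⟨z, y⟩ ⟨hz, hy⟩
  apply ContDiffAt.contDiffWithinAt
  have hbz : ball (0 : E) G.r ∈ 𝓝 z := isOpen_ball.mem_nhds hz
  by_cases hx : (chartAt E q).symm y ∈ (chartAt E p).source
  · have h := jsmooth_change (β := fun z => pullG G p z b) (symm_mem hy) hx (z := z) ?_
    · rwa [(chartAt E q).right_inv hy] at h
    set t := chartAt E p ((chartAt E q).symm y) with ht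
    have htt : t ∈ (chartAt E p).target := (chartAt E p).map_source hx
    have hgt : G.g z t ∈ (chartAt E p).target := G.mem_of_mem hz hG htt
    have hmem : (z, t) ∈ (ball (0 : E) G.r ×ˢ (univ : Set E)) := ⟨hz, mem_univ _⟩
    have ho : (ball (0 : E) G.r ×ˢ (univ : Set E)) ∈ 𝓝 (z, t) :=
      (isOpen_ball.prod isOpen_univ).mem_nhds hmem
    have h1 : ContDiffAt ℝ ∞ (fun w : E × E => G.g w.1 w.2) (z, t) :=
      (G.smooth (z, t) hmem).contDiffAt ho
    have h2 : ContDiffAt ℝ ∞ (fun w : E × E => G.dg w.1 w.2) (z, t) :=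
      (G.contDiffOn_dg (z, t) hmem).contDiffAt ho
    have h3 : ContDiffAt ℝ ∞ (rep p b) (G.g z t) := contDiffOn_chart_iff.1 (hb.2 p) _ hgt
    have h4 : ContDiffAt ℝ ∞ (fun w : E × E => rep p b (G.g w.1 w.2)) (z, t) :=
      ContDiffAt.comp (z, t) (g := rep p b) (f := fun w : E × E => G.g w.1 w.2) h3 h1
    have h5 := (contDiff_pb (E := E) (n := ∞)).contDiffAt.comp (z, t) (h4.prodMk h2)
    refine h5.congr_of_eventuallyEq ?_
    have h6 : ∀ᶠ w : E × E in 𝓝 (z, t), w.2 ∈ (chartAt E p).target :=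
      (continuous_snd.tendsto (z, t)).eventually ((chartAt E p).open_target.mem_nhds htt)
    filter_upwards [h6] with w hw
    exact rep_pullG hw w.1 b
  · have hx' : (chartAt E q).symm y ∉ KM G p := fun h => hx (KM_subset hG h)
    have h1 : ContDiffAt ℝ ∞ (fun w : E × E => rep q b w.2) (z, y) :=
      ContDiffAt.comp (z, y) (g := rep q b) (f := fun w : E × E => w.2)
        (contDiffOn_chart_iff.1 (hb.2 q) y hy) contDiffAt_snd
    refine h1.congr_of_eventuallyEq ?_
    have h2 : ∀ᶠ y' in 𝓝 y, (chartAt E q).symm y' ∉ KM G p :=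
      ((chartAt E q).continuousAt_symm hy).preimage_mem_nhds
        ((isClosed_KM hG).isOpen_compl.mem_nhds hx')
    have h3 : ∀ᶠ w : E × E in 𝓝 (z, y), (chartAt E q).symm w.2 ∉ KM G p :=
      (continuous_snd.tendsto (z, y)).eventually h2
    have h4 : ∀ᶠ w : E × E in 𝓝 (z, y), w.1 ∈ ball (0 : E) G.r :=
      (continuous_fst.tendsto (z, y)).eventually hbz
    filter_upwards [h3, h4] with w hw hw2
    rw [rep_eq_pb, rep_eq_pb, pullG_off hw2 hw]

theorem smooth2_pullG [T2Space M] (hG : G.K ⊆ (chartAt E p).target) {b : F2 E M}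
    (hb : Smooth2 b) {z : E} (hz : z ∈ ball (0 : E) G.r) : Smooth2 (pullG G p z b) := by
  refine ⟨fun x v => pullG_alt hb.1 z x v, fun q y hy => ?_⟩
  have h := (contDiffOn_rep_pullG hG hb q (z, y) ⟨hz, hy⟩).contDiffAt
    ((isOpen_ball.prod (chartAt E q).open_target).mem_nhds ⟨hz, hy⟩)
  exact (ContDiffAt.comp y (g := fun w : E × E => rep q (pullG G p w.1 b) w.2)
    (f := fun y => (z, y)) h (contDiffAt_const.prodMk contDiffAt_id)).contDiffWithinAt

end Smooth

end

end Crest.Agent.R240.Sm
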