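import Mathlib

/-!
Row 240 (S0371), PART D0 (helper703): a metric on a compact smooth manifold, bi-Lipschitz to the
charts on compact sets.
-/

set_option autoImplicit false

open Set Function Filter Topology
open scoped Manifold ContDiff Topology

namespace Crest.Agent.R240.Met

noncomputable section

section Aux

variable {E F : Type*} [NormedAddCommGroup E] [NormedSpace ℝ E] [FiniteDimensional ℝ E]
  [NormedAddCommGroup F] [NormedSpace ℝ F]

/-- a strictly differentiable map with injective derivative is locally anti-Lipschitz. -/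
lemma antilip_local {f : E → F} {f' : E →L[ℝ] F} {y0 : E} (hf : HasStrictFDerivAt f f' y0)
    (hinj : Injective f') : ∃ c : ℝ, 0 < c ∧ ∃ U ∈ 𝓝 y0, ∀ y ∈ U, ∀ z ∈ U,
      c * ‖y - z‖ ≤ ‖f y - f z‖ := by
  obtain ⟨K, hK, hanti⟩ := (LinearMap.injective_iff_antilipschitz (f'.toLinearMap)).1 hinj
  have hlow : ∀ v : E, (K : ℝ)⁻¹ * ‖v‖ ≤ ‖f' v‖ := by
    intro v
    have h := hanti.le_mul_dist v 0
    simp only [dist_zero_right, map_zero] at h
    rw [inv_mul_le_iff₀ (by exact_mod_cast hK)]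
    exact h
  have hc : (0 : ℝ) < (K : ℝ)⁻¹ / 2 := by positivity
  have hlip := hf.isLittleO.def hc
  rw [eventually_iff] at hlip
  rw [nhds_prod_eq] at hlip
  obtain ⟨U, hU, hU'⟩ := mem_prod_same_iff.1 hlip
  refine ⟨(K : ℝ)⁻¹ / 2, hc, U, hU, ?_⟩
  intro y hy z hz
  have h1 : ‖f y - f z - f' (y - z)‖ ≤ (K : ℝ)⁻¹ / 2 * ‖y - z‖ := hU' (mk_mem_prod hy hz)
  have h2 := hlow (y - z)
  have h3 : ‖f' (y - z)‖ ≤ ‖f y - f z‖ + ‖f y - f z - f' (y - z)‖ := by
    have h4 : f' (y - z) = (f y - f z) - (f y - f z - f' (y - z)) := by abel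
    calc ‖f' (y - z)‖ = ‖(f y - f z) - (f y - f z - f' (y - z))‖ := by rw [← h4]
      _ ≤ _ := norm_sub_le _ _
  linarith

omit [FiniteDimensional ℝ E] [NormedSpace ℝ E] [NormedSpace ℝ F] in
lemma antilip_compact {f : E → F} {K : Set E} (hK : IsCompact K) (hf : ContinuousOn f K)
    (hinj : InjOn f K)
    (hloc : ∀ y0 ∈ K, ∃ c : ℝ, 0 < c ∧ ∃ U ∈ 𝓝 y0, ∀ y ∈ U, ∀ z ∈ U, c * ‖y - z‖ ≤ ‖f y - f z‖) :
    ∃ c : ℝ, 0 < c ∧ ∀ y ∈ K, ∀ z ∈ K, c * ‖y - z‖ ≤ ‖f y - f z‖ := by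
  by_contra hcon
  push Not at hcon
  have hpos : ∀ n : ℕ, (0 : ℝ) < 1 / ((n : ℝ) + 1) := fun n => Nat.one_div_pos_of_nat
  choose y hy z hz hyz using fun n : ℕ => hcon (1 / ((n : ℝ) + 1)) (hpos n)
  obtain ⟨w, hw, φ, hφ, hlim⟩ := (hK.prod hK).tendsto_subseq
    (x := fun n => (y n, z n)) (fun n => mk_mem_prod (hy n) (hz n))
  obtain ⟨a, b⟩ := w
  have hya : Tendsto (fun n => y (φ n)) atTop (𝓝 a) :=
    (continuous_fst.tendsto _).comp hlim
  have hzb : Tendsto (fun n => z (φ n)) atTop (𝓝 b) :=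
    (continuous_snd.tendsto _).comp hlim
  have hfa : Tendsto (fun n => f (y (φ n))) atTop (𝓝 (f a)) :=
    (hf a hw.1).tendsto.comp (tendsto_nhdsWithin_iff.2 ⟨hya, Eventually.of_forall fun n => hy _⟩)
  have hfb : Tendsto (fun n => f (z (φ n))) atTop (𝓝 (f b)) :=
    (hf b hw.2).tendsto.comp (tendsto_nhdsWithin_iff.2 ⟨hzb, Eventually.of_forall fun n => hz _⟩)
  have h0 : Tendsto (fun n => 1 / (((φ n : ℕ) : ℝ) + 1)) atTop (𝓝 0) :=
    tendsto_one_div_add_atTop_nhds_zero_nat.comp hφ.tendsto_atTop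
  have hfab : f a = f b := by
    have h1 : Tendsto (fun n => ‖f (y (φ n)) - f (z (φ n))‖) atTop (𝓝 ‖f a - f b‖) :=
      (hfa.sub hfb).norm
    have h2 : Tendsto (fun n => 1 / (((φ n : ℕ) : ℝ) + 1) * ‖y (φ n) - z (φ n)‖) atTop
        (𝓝 (0 * ‖a - b‖)) := h0.mul (hya.sub hzb).norm
    have h3 : ‖f a - f b‖ ≤ 0 * ‖a - b‖ :=
      le_of_tendsto_of_tendsto' h1 h2 fun n => (hyz (φ n)).le
    have h4 : ‖f a - f b‖ = 0 := le_antisymm (by simpa using h3) (norm_nonneg _)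
    exact sub_eq_zero.1 (norm_eq_zero.1 h4)
  have hab : a = b := hinj hw.1 hw.2 hfab
  subst hab
  obtain ⟨c, hc, U, hU, hUc⟩ := hloc a hw.1
  have e1 : ∀ᶠ n in atTop, y (φ n) ∈ U := hya hU
  have e2 : ∀ᶠ n in atTop, z (φ n) ∈ U := hzb hU
  have e3 : ∀ᶠ n in atTop, 1 / (((φ n : ℕ) : ℝ) + 1) < c := h0.eventually (gt_mem_nhds hc)
  obtain ⟨n, h1, h2, h3⟩ := (e1.and (e2.and e3)).exists
  have h4 := hUc _ h1 _ h2
  have h5 := hyz (φ n)
  have h6 : 1 / (((φ n : ℕ) : ℝ) + 1) * ‖y (φ n) - z (φ n)‖ ≤ c * ‖y (φ n) - z (φ n)‖ :=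
    mul_le_mul_of_nonneg_right h3.le (norm_nonneg _)
  linarith

end Aux

variable {E : Type*} [NormedAddCommGroup E] [NormedSpace ℝ E] [FiniteDimensional ℝ E]

/-- the metric of `M` is bi-Lipschitz to the charts on compact subsets of the chart targets. -/
def BiLip (E : Type*) [NormedAddCommGroup E] [NormedSpace ℝ E] (M : Type*) [MetricSpace M]
    [ChartedSpace E M] : Prop :=
  ∀ p : M, ∀ K : Set E, IsCompact K → K ⊆ (chartAt E p).target →
    ∃ c C : ℝ, 0 < c ∧ 0 < C ∧ ∀ y ∈ K, ∀ z ∈ K,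
      c * ‖y - z‖ ≤ dist ((chartAt E p).symm y) ((chartAt E p).symm z) ∧
      dist ((chartAt E p).symm y) ((chartAt E p).symm z) ≤ C * ‖y - z‖

variable {M : Type*} [TopologicalSpace M] [ChartedSpace E M]

/-- A compact smooth manifold carries a metric, inducing its topology, which is bi-Lipschitz to
the charts on compact sets. -/
theorem exists_metric [T2Space M] [CompactSpace M] [IsManifold 𝓘(ℝ, E) ∞ M] :
    ∃ m : MetricSpace M, m.toUniformSpace.toTopologicalSpace = ‹TopologicalSpace M› ∧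
      ∀ p : M, ∀ K : Set E, IsCompact K → K ⊆ (chartAt E p).target →
        ∃ c C : ℝ, 0 < c ∧ 0 < C ∧ ∀ y ∈ K, ∀ z ∈ K,
          c * ‖y - z‖ ≤ m.dist ((chartAt E p).symm y) ((chartAt E p).symm z) ∧
          m.dist ((chartAt E p).symm y) ((chartAt E p).symm z) ≤ C * ‖y - z‖ := by
  obtain ⟨n, e, hsm, hemb, hder⟩ := exists_embedding_euclidean_of_compact (I := 𝓘(ℝ, E)) (M := M)
  refine ⟨(hemb.isEmbedding).comapMetricSpace e, rfl, ?_⟩
  intro p K hK hKt
  set h : E → EuclideanSpace ℝ (Fin n) := fun y => e ((chartAt E p).symm y) with hh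
  have hdist : ∀ y z : E, dist (e ((chartAt E p).symm y)) (e ((chartAt E p).symm z))
      = ‖h y - h z‖ := fun y z => dist_eq_norm _ _
  have htopen : IsOpen (chartAt E p).target := (chartAt E p).open_target
  have hMD : ∀ y ∈ (chartAt E p).target, MDifferentiableAt 𝓘(ℝ, E) 𝓘(ℝ, E) (chartAt E p).symm y :=
    fun y hy => mdifferentiableAt_atlas_symm (chart_mem_atlas E p) hy
  have hCM : ∀ y ∈ (chartAt E p).target,
      ContMDiffAt 𝓘(ℝ, E) 𝓘(ℝ, E) ∞ (chartAt E p).symm y := fun y hy =>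
    (contMDiffOn_chart_symm (I := 𝓘(ℝ, E)) (x := p)).contMDiffAt (htopen.mem_nhds hy)
  have hsmooth : ∀ y ∈ (chartAt E p).target, ContDiffAt ℝ ∞ h y := by
    intro y hy
    have h1 : ContMDiffAt 𝓘(ℝ, E) 𝓘(ℝ, EuclideanSpace ℝ (Fin n)) ∞ (e ∘ (chartAt E p).symm) y :=
      (hsm.contMDiffAt).comp y (hCM y hy)
    exact contMDiffAt_iff_contDiffAt.1 h1
  have hinj' : ∀ y ∈ (chartAt E p).target, Injective (fderiv ℝ h y) := by
    intro y hy
    have h1 : mfderiv 𝓘(ℝ, E) 𝓘(ℝ, EuclideanSpace ℝ (Fin n)) (e ∘ (chartAt E p).symm) y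
        = (mfderiv 𝓘(ℝ, E) 𝓘(ℝ, EuclideanSpace ℝ (Fin n)) e ((chartAt E p).symm y)).comp
          (mfderiv 𝓘(ℝ, E) 𝓘(ℝ, E) (chartAt E p).symm y) :=
      mfderiv_comp y (hsm.mdifferentiable (by simp) _) (hMD y hy)
    rw [mfderiv_eq_fderiv] at h1
    have h2 : Injective (mfderiv 𝓘(ℝ, E) 𝓘(ℝ, E) (chartAt E p).symm y) := by
      have := (mdifferentiable_chart (I := 𝓘(ℝ, E)) p).symm
      exact this.mfderiv_injective hy
    have h3 := (hder ((chartAt E p).symm y)).comp h2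
    intro u v huv
    apply h3
    have huv' : fderiv ℝ (e ∘ (chartAt E p).symm) y u = fderiv ℝ (e ∘ (chartAt E p).symm) y v := huv
    rw [h1] at huv'
    exact huv'
  -- upper bound
  have hup : ∃ C : NNReal, LipschitzOnWith C h K := by
    apply LocallyLipschitzOn.exists_lipschitzOnWith_of_compact hK
    intro y hy
    obtain ⟨C, t, ht, hC⟩ := ((hsmooth y (hKt hy)).of_le (by simp) :
      ContDiffAt ℝ 1 h y).exists_lipschitzOnWith
    exact ⟨C, t, mem_nhdsWithin_of_mem_nhds ht, hC⟩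
  obtain ⟨C, hC⟩ := hup
  have hlow : ∃ c : ℝ, 0 < c ∧ ∀ y ∈ K, ∀ z ∈ K, c * ‖y - z‖ ≤ ‖h y - h z‖ := by
    apply antilip_compact hK
    · intro y hy
      exact (hsmooth y (hKt hy)).continuousAt.continuousWithinAt
    · intro y hy z hz hyz
      have h1 := hemb.injective hyz
      exact (chartAt E p).symm.injOn (hKt hy) (hKt hz) h1
    · intro y hy
      have h1 : HasStrictFDerivAt h (fderiv ℝ h y) y :=
        (hsmooth y (hKt hy)).hasStrictFDerivAt (by simp)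
      exact antilip_local h1 (hinj' y (hKt hy))
  obtain ⟨c, hc, hc'⟩ := hlow
  refine ⟨c, C + 1, hc, by positivity, ?_⟩
  intro y hy z hz
  refine ⟨?_, ?_⟩
  · exact (hc' y hy z hz).trans (hdist y z).ge
  · have h1 := hC.dist_le_mul y hy z hz
    rw [dist_eq_norm, dist_eq_norm] at h1
    have h2 : (C : ℝ) * ‖y - z‖ ≤ (C + 1) * ‖y - z‖ := by
      have := norm_nonneg (y - z)
      nlinarith
    exact ((hdist y z).le.trans h1).trans h2

end

end Crest.Agent.R240.Met
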