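import Mathlib
import Crest.Agent.R240.FormDefs
import Crest.Agent.R240.Met

/-!
Row 240 (S0371), TOP (helper23): common DEFINITIONS for the frozen interface (no proofs).
Everything is about unbundled forms `F2 E4 M`; bundled `X2 M`, `Z2 M` are in `XDefs` (helper456).
-/

set_option autoImplicit false

open Set Function Filter MeasureTheory
open scoped Manifold ContDiff Topology ENNReal

namespace Crest.Agent.R240

open Ch

noncomputable section

/-! ### the pointwise (Hodge) norm: polynomial inner product (helper744) -/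

/-- inner product of `(J,F)` on two-forms:
`⟨b,c⟩ = 2 q(b,F) q(c,F) - q(b',c') + q(b'',c'')`. -/
def ip (J : E4 →L[ℝ] E4) (F b c : Bil) : ℝ :=
  2 * q F b F * q F c F - q F (invp J b) (invp J c) + q F (antip J b) (antip J c)

/-- `|b|²`. -/
def nsq (J : E4 →L[ℝ] E4) (F b : Bil) : ℝ := ip J F b b

/-- `|b|`. -/
def nr (J : E4 →L[ℝ] E4) (F b : Bil) : ℝ := √(nsq J F b)

section Man

variable {M : Type*} [TopologicalSpace M] [ChartedSpace E4 M] [IsManifold 𝓘(ℝ, E4) ∞ M]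

/-- `|b|²_x`. -/
def nsqG (J : EndF E4 M) (F b : F2 E4 M) (x : M) : ℝ := nsq (atJ J x) (at2 F x) (at2 b x)

/-- `|b|_x`. -/
def nrG (J : EndF E4 M) (F b : F2 E4 M) (x : M) : ℝ := nr (atJ J x) (at2 F x) (at2 b x)

/-- `b ≥ h F`: `h(x) F(v, Jv) ≤ b(v, Jv)` for all `x, v`. -/
def GeF (J : EndF E4 M) (F b : F2 E4 M) (h : M → ℝ) : Prop :=
  ∀ x v, h x * at2 F x v (atJ J x v) ≤ at2 b x v (atJ J x v)

/-- `b` is exact: `b = dS` (in all charts) for a smooth one-form `S`. -/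
def IsEx (b : F2 E4 M) : Prop :=
  ∃ S : F1 E4 M, Smooth1 S ∧ ∀ p : M, ∀ y ∈ (chartAt E4 p).target, rep p b y = d1 (rep1 p S) y

/-! ### volume and integration pairing -/

section Meas

variable [MeasurableSpace M]

/-- `μ` is the volume measure of `F`: density `|W(F,F)|` in every chart. -/
def IsVol (F : F2 E4 M) (μ : Measure M) : Prop :=
  ∀ p : M, ∀ f : M → ℝ≥0∞, Measurable f → (∀ x ∉ (chartAt E4 p).source, f x = 0) →
    ∫⁻ x, f x ∂μ =
      ∫⁻ y in (chartAt E4 p).target, f ((chartAt E4 p).symm y) *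
        ENNReal.ofReal |W (rep p F y) (rep p F y)|

/-- `I(b,c) = ∫ q(b,c) dμ`. -/
def IG (F : F2 E4 M) (μ : Measure M) (b c : F2 E4 M) : ℝ := ∫ x, qG F b c x ∂μ

/-- `‖b‖_2`. -/
def n2 (J : EndF E4 M) (F : F2 E4 M) (μ : Measure M) (b : F2 E4 M) : ℝ :=
  √(∫ x, nsqG J F b x ∂μ)

end Meas

/-! ### `C^m` norms -/

variable (M) in
/-- a finite family of compact chart pieces whose interiors cover `M`. -/
structure Cover where
  N : ℕ
  p : Fin N → M
  K : Fin N → Set E4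
  cpt : ∀ i, IsCompact (K i)
  sub : ∀ i, K i ⊆ (chartAt E4 (p i)).target
  cov : ∀ x : M, ∃ i, x ∈ (chartAt E4 (p i)).source ∧ chartAt E4 (p i) x ∈ interior (K i)

/-- the `C^m` norm of a two-form. -/
def Cover.cm (𝒰 : Cover M) (m : ℕ) (b : F2 E4 M) : ℝ :=
  sSup {r : ℝ | ∃ i, ∃ j ≤ m, ∃ y ∈ 𝒰.K i, r = ‖iteratedFDeriv ℝ j (rep (𝒰.p i) b) y‖}

/-! ### the data of the problem -/

end Man

/-- All the data: `M` compact with a metric bi-Lipschitz to the charts, `J`, the taming form `al`,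
its invariant part `F = al'`, and the volume measure `μ` of `F`. -/
structure Dat (M : Type*) [MetricSpace M] [CompactSpace M] [ChartedSpace E4 M]
    [IsManifold 𝓘(ℝ, E4) ∞ M] [MeasurableSpace M] [BorelSpace M] where
  bl : Met.BiLip E4 M
  J : EndF E4 M
  smJ : SmoothJ J
  sq : ∀ x v, atJ J x (atJ J x v) = -v
  al : F2 E4 M
  sm_al : Smooth2 al
  cl_al : Closed2 al
  tames : ∀ x v, v ≠ 0 → 0 < at2 al x v (atJ J x v)
  μ : Measure M
  fin : IsFiniteMeasure μ
  vol : IsVol (bp J al) μ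

namespace Dat

variable {M : Type*} [MetricSpace M] [CompactSpace M] [ChartedSpace E4 M]
    [IsManifold 𝓘(ℝ, E4) ∞ M] [MeasurableSpace M] [BorelSpace M]

/-- `F = al'`. -/
def F (D : Dat M) : F2 E4 M := bp D.J D.al

/-- `I(b,c)`. -/
def I (D : Dat M) (b c : F2 E4 M) : ℝ := IG D.F D.μ b c

/-- `|b|_x`. -/
def nr (D : Dat M) (b : F2 E4 M) (x : M) : ℝ := nrG D.J D.F b x

/-- `‖b‖_2`. -/
def n2 (D : Dat M) (b : F2 E4 M) : ℝ := R240.n2 D.J D.F D.μ b

end Dat

end

end Crest.Agent.R240
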