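import Mathlib
import Crest.Agent.R240.TopDefs
import Crest.Agent.R240.Sm2
import Crest.Agent.R240.EllNorm
import Crest.Agent.R240.FunRep

/-!
Row 240 (S0371), block R, Sm4 part a (helper599): extension by zero of chart functions,
smoothness and `C^m` bounds in all charts.
-/

set_option autoImplicit false
set_option maxSynthPendingDepth 3
set_option linter.unusedSectionVars false

open Set Function Filter MeasureTheory
open scoped Manifold ContDiff Topology

namespace Crest.Agent.R240.Sm4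

open Ch Sm FunRep

noncomputable section

section Ext

variable {E : Type} [NormedAddCommGroup E] [NormedSpace ℝ E]
variable {M : Type*} [TopologicalSpace M] [ChartedSpace E M] [IsManifold 𝓘(ℝ, E) ∞ M]

lemma at2_ext2_of_mem {p x : M} (hx : x ∈ (chartAt E p).source) (f : E → E →L[ℝ] E →L[ℝ] ℝ) :
    at2 (ext2 p f) x = pb (f (chartAt E p x)) (tcc x p x) := if_pos hx

lemma at2_ext2_of_notMem {p x : M} (hx : x ∉ (chartAt E p).source)
    (f : E → E →L[ℝ] E →L[ℝ] ℝ) : at2 (ext2 p f) x = 0 := if_neg hx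

lemma rep_ext2_self {p : M} {y : E} (hy : y ∈ (chartAt E p).target)
    (f : E → E →L[ℝ] E →L[ℝ] ℝ) : rep p (ext2 p f) y = f y := by
  ext u v
  rw [rep_eq_pb, at2_ext2_of_mem (symm_mem hy), (chartAt E p).right_inv hy, pb_comp, pb_apply]
  simp only [ContinuousLinearMap.comp_apply]
  rw [tcc_cancel (symm_mem hy), tcc_cancel (symm_mem hy)]

/-- the extension in another chart -/
lemma rep_ext2 {q p : M} {y : E} (hy : y ∈ (chartAt E q).target)
    (hp : (chartAt E q).symm y ∈ (chartAt E p).source) (f : E → E →L[ℝ] E →L[ℝ] ℝ) :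
    rep q (ext2 p f) y =
      pb (f (Ch.trans (E := E) q p y)) (fderiv ℝ (Ch.trans (E := E) q p) y) := by
  rw [rep_change hy hp, rep_ext2_self]
  exact (chartAt E p).map_source hp

/-- zero off the support -/
lemma at2_ext2_zero {p x : M} {K : Set E} {f : E → E →L[ℝ] E →L[ℝ] ℝ}
    (h0 : ∀ y, y ∉ K → f y = 0) (hx : x ∉ (chartAt E p).symm '' K) :
    at2 (ext2 p f) x = 0 := by
  by_cases h : x ∈ (chartAt E p).source
  · rw [at2_ext2_of_mem h, h0 _ fun h1 => hx ⟨_, h1, (chartAt E p).left_inv h⟩]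
    rfl
  · exact at2_ext2_of_notMem h f

lemma rep_ext2_zero {q p : M} {K : Set E} {f : E → E →L[ℝ] E →L[ℝ] ℝ}
    (h0 : ∀ y, y ∉ K → f y = 0) {y : E} (hx : (chartAt E q).symm y ∉ (chartAt E p).symm '' K) :
    rep q (ext2 p f) y = 0 := by
  rw [rep_eq_pb, at2_ext2_zero h0 hx]
  rfl

lemma isClosed_core [T2Space M] {p : M} {K : Set E} (hK : IsCompact K)
    (hKt : K ⊆ (chartAt E p).target) : IsClosed ((chartAt E p).symm '' K) :=
  (hK.image_of_continuousOn ((chartAt E p).continuousOn_symm.mono hKt)).isClosed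

lemma core_subset {p : M} {K : Set E}
    (hKt : K ⊆ (chartAt E p).target) : (chartAt E p).symm '' K ⊆ (chartAt E p).source := by
  rintro _ ⟨y, hy, rfl⟩
  exact symm_mem (hKt hy)

/-- near a point off the core the representation vanishes -/
lemma eventually_rep_zero [T2Space M] {q p : M} {K : Set E} (hK : IsCompact K)
    (hKt : K ⊆ (chartAt E p).target) {f : E → E →L[ℝ] E →L[ℝ] ℝ}
    (h0 : ∀ y, y ∉ K → f y = 0) {y : E} (hy : y ∈ (chartAt E q).target)
    (hx : (chartAt E q).symm y ∉ (chartAt E p).symm '' K) :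
    rep q (ext2 p f) =ᶠ[𝓝 y] fun _ => 0 := by
  have h1 : ∀ᶠ y' in 𝓝 y, (chartAt E q).symm y' ∈ ((chartAt E p).symm '' K)ᶜ :=
    ((chartAt E q).continuousAt_symm hy).eventually
      ((isClosed_core hK hKt).isOpen_compl.mem_nhds hx)
  filter_upwards [h1] with y' hy'
  exact rep_ext2_zero h0 hy'

/-- smoothness of the extension by zero -/
theorem smooth2_ext2 [T2Space M] {p : M} {K : Set E} (hK : IsCompact K)
    (hKt : K ⊆ (chartAt E p).target) {f : E → E →L[ℝ] E →L[ℝ] ℝ} (hf : ContDiff ℝ ∞ f)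
    (h0 : ∀ y, y ∉ K → f y = 0) (halt : ∀ y v, f y v v = 0) : Smooth2 (ext2 p f) := by
  refine Smooth2.of_local (fun x v => ?_) (fun x => ?_)
  · by_cases h : x ∈ (chartAt E p).source
    · rw [at2_ext2_of_mem h, pb_apply]
      exact halt _ _
    · rw [at2_ext2_of_notMem h]; rfl
  · by_cases h : x ∈ (chartAt E p).source
    · refine ⟨p, h, ?_⟩
      have ht := (chartAt E p).map_source h
      refine hf.contDiffAt.congr_of_eventuallyEq ?_
      filter_upwards [(chartAt E p).open_target.mem_nhds ht] with y hy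
      exact rep_ext2_self hy f
    · refine ⟨x, mem_chart_source E x, ?_⟩
      have hx : (chartAt E x).symm (chartAt E x x) ∉ (chartAt E p).symm '' K := by
        rw [(chartAt E x).left_inv (mem_chart_source E x)]
        exact fun h1 => h (core_subset hKt h1)
      exact contDiffAt_const.congr_of_eventuallyEq
        (eventually_rep_zero hK hKt h0 (mem_chart_target E x) hx)

/-- a form supported in the core of the chart at `p` is the extension of its representation. -/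
lemma eq_ext2_rep {p : M} {b : F2 E M}
    (hb : ∀ x, x ∉ (chartAt E p).source → at2 b x = 0) : ext2 p (rep p b) = b := by
  funext x
  show at2 (ext2 p (rep p b)) x = at2 b x
  by_cases h : x ∈ (chartAt E p).source
  · rw [at2_ext2_of_mem h, ← at2_eq_pb h]
  · rw [at2_ext2_of_notMem h, hb x h]

lemma ext2_add (p : M) (f g : E → E →L[ℝ] E →L[ℝ] ℝ) :
    ext2 p (f + g) = ext2 p f + ext2 p g := by
  funext x
  show at2 (ext2 p (f + g)) x = at2 (ext2 p f) x + at2 (ext2 p g) x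
  by_cases h : x ∈ (chartAt E p).source
  · rw [at2_ext2_of_mem h, at2_ext2_of_mem h, at2_ext2_of_mem h, ← pb_add]; rfl
  · rw [at2_ext2_of_notMem h, at2_ext2_of_notMem h, at2_ext2_of_notMem h, add_zero]

lemma ext2_smul (p : M) (c : ℝ) (f : E → E →L[ℝ] E →L[ℝ] ℝ) :
    ext2 p (c • f) = c • ext2 p f := by
  funext x
  show at2 (ext2 p (c • f)) x = c • at2 (ext2 p f) x
  by_cases h : x ∈ (chartAt E p).source
  · rw [at2_ext2_of_mem h, at2_ext2_of_mem h, ← pb_smul]; rfl
  · rw [at2_ext2_of_notMem h, at2_ext2_of_notMem h, smul_zero]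

end Ext

section Bound

variable {M : Type*} [TopologicalSpace M] [ChartedSpace E4 M] [IsManifold 𝓘(ℝ, E4) ∞ M]

/-- `pb` as a continuous linear operator on forms. -/
def pbL (D : E4 →L[ℝ] E4) : Bil →L[ℝ] Bil :=
  (((ContinuousLinearMap.compL ℝ E4 (E4 →L[ℝ] ℝ) (E4 →L[ℝ] ℝ))
    ((ContinuousLinearMap.compL ℝ E4 E4 ℝ).flip D))).comp
    ((ContinuousLinearMap.compL ℝ E4 E4 (E4 →L[ℝ] ℝ)).flip D)

lemma pbL_apply (D : E4 →L[ℝ] E4) (b : Bil) : pbL D b = pb b D := by
  ext u v; rfl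

lemma contDiff_pbL : ContDiff ℝ ∞ pbL := by
  unfold pbL
  have h1 : ContDiff ℝ ∞ (fun D : E4 →L[ℝ] E4 => (ContinuousLinearMap.compL ℝ E4 E4 ℝ).flip D) :=
    ContinuousLinearMap.contDiff _
  have h2 : ContDiff ℝ ∞ (fun D : E4 →L[ℝ] E4 =>
      (ContinuousLinearMap.compL ℝ E4 (E4 →L[ℝ] ℝ) (E4 →L[ℝ] ℝ))
        ((ContinuousLinearMap.compL ℝ E4 E4 ℝ).flip D)) :=
    (ContinuousLinearMap.contDiff _).comp h1
  have h3 : ContDiff ℝ ∞ (fun D : E4 →L[ℝ] E4 =>
      (ContinuousLinearMap.compL ℝ E4 E4 (E4 →L[ℝ] ℝ)).flip D) :=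
    ContinuousLinearMap.contDiff _
  exact h2.clm_comp h3

/-- **`C^m` bounds of the extension by zero in another chart** -/
theorem ckB_rep_ext2 [T2Space M] (q p : M) {K K' : Set E4} (hK : IsCompact K)
    (hKt : K ⊆ (chartAt E4 p).target) (hK' : IsCompact K') (hKt' : K' ⊆ (chartAt E4 q).target)
    (m : ℕ) :
    ∃ C, 0 ≤ C ∧ ∀ f, f ∈ DK K Bil → ∀ A, (∀ j ≤ m, ∀ y, ‖iteratedFDeriv ℝ j f y‖ ≤ A) →
      ∀ j ≤ m, ∀ y ∈ K', ‖iteratedFDeriv ℝ j (rep q (ext2 p f)) y‖ ≤ C * A := by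
  set φ : E4 → E4 := Ch.trans (E := E4) q p with hφ
  set O : Set E4 := (chartAt E4 q).target ∩ (chartAt E4 q).symm ⁻¹' (chartAt E4 p).source with hO
  have hOo : IsOpen O := (chartAt E4 q).isOpen_inter_preimage_symm (chartAt E4 p).open_source
  set S : Set E4 := K' ∩ (chartAt E4 q).symm ⁻¹' ((chartAt E4 p).symm '' K) with hS
  have hSc : IsCompact S := by
    refine hK'.of_isClosed_subset ?_ inter_subset_left
    exact ((chartAt E4 q).continuousOn_symm.mono hKt').preimage_isClosed_of_isClosed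
      hK'.isClosed (isClosed_core hK hKt)
  have hSO : S ⊆ O := fun y hy => ⟨hKt' hy.1, core_subset hKt hy.2⟩
  have hφs : ∀ y ∈ O, ContDiffAt ℝ ∞ φ y := fun y hy => trans_contDiffAt hy.1 hy.2
  obtain ⟨c, hcO, hc1, -⟩ := exists_cut hSc hOo hSO
  -- cut-off transition map and operator
  have hcut : ∀ {X : Type} [NormedAddCommGroup X] [NormedSpace ℝ X] (g : E4 → X),
      (∀ y ∈ O, ContDiffAt ℝ ∞ g y) → Ell.CS (fun y => c.θ y • g y) := by
    intro X _ _ g hg
    refine ⟨contDiff_of_tsup fun y hy => ?_, c.comp.smul_right⟩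
    have : y ∈ O := hcO (tsupport_smul_subset_left _ _ hy)
    exact c.smooth.contDiffAt.smul (hg y this)
  set τ : E4 → E4 := fun y => c.θ y • φ y with hτ
  set A : E4 → (Bil →L[ℝ] Bil) := fun y => c.θ y • pbL (fderiv ℝ φ y) with hA
  have hτs : Ell.CS τ := hcut φ hφs
  have hAs : Ell.CS A := hcut (fun y => pbL (fderiv ℝ φ y)) fun y hy =>
    contDiff_pbL.contDiffAt.comp y ((hφs y hy).fderiv_right (by simp))
  obtain ⟨C, hC, hb⟩ := Ell.comp_bound hAs hτs m
  refine ⟨C, hC, fun f hf B hB j hj y hy => ?_⟩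
  by_cases hyS : y ∈ S
  · have h1 : rep q (ext2 p f) =ᶠ[𝓝 y] fun y => A y (f (τ y)) := by
      have h2 : ∀ᶠ y' in 𝓝 y, c.θ y' = 1 := Filter.Eventually.filter_mono (nhds_le_nhdsSet hyS) hc1
      filter_upwards [h2, hOo.mem_nhds (hSO hyS)] with y' hy1 hyO
      rw [rep_ext2 hyO.1 hyO.2]
      simp only [hA, hτ, hy1, one_smul]
      rw [pbL_apply]
    rw [(h1.iteratedFDeriv ℝ j).eq_of_nhds]
    exact hb f B hf.1 hB j hj y
  · have h1 : rep q (ext2 p f) =ᶠ[𝓝 y] fun _ => 0 := by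
      refine eventually_rep_zero hK hKt hf.2 (hKt' hy) fun h => hyS ⟨hy, h⟩
    rw [(h1.iteratedFDeriv ℝ j).eq_of_nhds]
    have hB0 : 0 ≤ B := (norm_nonneg _).trans (hB 0 (Nat.zero_le _) 0)
    have h3 : iteratedFDeriv ℝ j (fun _ : E4 => (0 : Bil)) y = 0 := by
      rw [iteratedFDeriv_fun_zero]; rfl
    rw [h3, norm_zero]
    positivity

/-- the `C^m` norm of the extension by zero -/
theorem cm_ext2 [T2Space M] (𝒰 : Cover M) (p : M) {K : Set E4} (hK : IsCompact K)
    (hKt : K ⊆ (chartAt E4 p).target) (m : ℕ) :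
    ∃ C, 0 ≤ C ∧ ∀ f, f ∈ DK K Bil → ∀ A, (∀ j ≤ m, ∀ y, ‖iteratedFDeriv ℝ j f y‖ ≤ A) →
      𝒰.cm m (ext2 p f) ≤ C * A := by
  choose C hC hb using fun i => ckB_rep_ext2 (𝒰.p i) p hK hKt (𝒰.cpt i) (𝒰.sub i) m
  refine ⟨∑ i, C i, Finset.sum_nonneg fun i _ => hC i, fun f hf A hA => ?_⟩
  have hA0 : 0 ≤ A := (norm_nonneg _).trans (hA 0 (Nat.zero_le _) 0)
  refine Real.sSup_le ?_ (mul_nonneg (Finset.sum_nonneg fun i _ => hC i) hA0)
  rintro r ⟨i, j, hj, y, hy, rfl⟩
  refine (hb i f hf A hA j hj y hy).trans ?_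
  exact mul_le_mul_of_nonneg_right
    (Finset.single_le_sum (f := C) (fun i _ => hC i) (Finset.mem_univ i)) hA0

end Bound

end

end Crest.Agent.R240.Sm4
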