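import Mathlib
import Crest.Agent.R240.Sm4a
import Crest.Agent.R240.Ch4
import Crest.Agent.R240.Ch5

/-!
Row 240 (S0371), layer CH (helper707): extension by zero of one-forms and functions, exact forms
from charts, decomposition of forms into chart pieces.
-/

set_option autoImplicit false
set_option maxSynthPendingDepth 3
set_option linter.unusedSectionVars false

open Set Function Filter
open scoped Manifold ContDiff Topology

namespace Crest.Agent.R240.Ch

open Sm4

noncomputable section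

section General

variable {E : Type} [NormedAddCommGroup E] [NormedSpace ℝ E]
variable {M : Type*} [TopologicalSpace M] [ChartedSpace E M] [IsManifold 𝓘(ℝ, E) ∞ M]

/-! ### one-forms -/

lemma at1_ext1_of_mem {p x : M} (hx : x ∈ (chartAt E p).source) (s : E → E →L[ℝ] ℝ) :
    at1 (ext1 p s) x = (s (chartAt E p x)).comp (tcc x p x) := if_pos hx

lemma at1_ext1_of_notMem {p x : M} (hx : x ∉ (chartAt E p).source) (s : E → E →L[ℝ] ℝ) :
    at1 (ext1 p s) x = 0 := if_neg hx

lemma rep1_ext1_self {p : M} {y : E} (hy : y ∈ (chartAt E p).target) (s : E → E →L[ℝ] ℝ) :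
    rep1 p (ext1 p s) y = s y := by
  ext u
  rw [rep1_apply, at1_ext1_of_mem (symm_mem hy), (chartAt E p).right_inv hy]
  simp only [ContinuousLinearMap.comp_apply]
  rw [tcc_cancel (symm_mem hy)]

lemma at1_ext1_zero {p x : M} {K : Set E} {s : E → E →L[ℝ] ℝ}
    (h0 : ∀ y, y ∉ K → s y = 0) (hx : x ∉ (chartAt E p).symm '' K) :
    at1 (ext1 p s) x = 0 := by
  by_cases h : x ∈ (chartAt E p).source
  · rw [at1_ext1_of_mem h, h0 _ fun h1 => hx ⟨_, h1, (chartAt E p).left_inv h⟩]
    rfl
  · exact at1_ext1_of_notMem h s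

lemma rep1_ext1_zero {q p : M} {K : Set E} {s : E → E →L[ℝ] ℝ}
    (h0 : ∀ y, y ∉ K → s y = 0) {y : E} (hx : (chartAt E q).symm y ∉ (chartAt E p).symm '' K) :
    rep1 q (ext1 p s) y = 0 := by
  ext u
  rw [rep1_apply, at1_ext1_zero h0 hx]
  rfl

lemma eventually_rep1_zero [T2Space M] {q p : M} {K : Set E} (hK : IsCompact K)
    (hKt : K ⊆ (chartAt E p).target) {s : E → E →L[ℝ] ℝ}
    (h0 : ∀ y, y ∉ K → s y = 0) {y : E} (hy : y ∈ (chartAt E q).target)
    (hx : (chartAt E q).symm y ∉ (chartAt E p).symm '' K) :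
    rep1 q (ext1 p s) =ᶠ[𝓝 y] fun _ => 0 := by
  have h1 : ∀ᶠ y' in 𝓝 y, (chartAt E q).symm y' ∈ ((chartAt E p).symm '' K)ᶜ :=
    ((chartAt E q).continuousAt_symm hy).eventually
      ((isClosed_core hK hKt).isOpen_compl.mem_nhds hx)
  filter_upwards [h1] with y' hy'
  exact rep1_ext1_zero h0 hy'

theorem smooth1_ext1 [T2Space M] {p : M} {K : Set E} (hK : IsCompact K)
    (hKt : K ⊆ (chartAt E p).target) {s : E → E →L[ℝ] ℝ} (hs : ContDiff ℝ ∞ s)
    (h0 : ∀ y, y ∉ K → s y = 0) : Smooth1 (ext1 p s) := by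
  refine Smooth1.of_local (fun x => ?_)
  by_cases h : x ∈ (chartAt E p).source
  · refine ⟨p, h, ?_⟩
    have ht := (chartAt E p).map_source h
    refine hs.contDiffAt.congr_of_eventuallyEq ?_
    filter_upwards [(chartAt E p).open_target.mem_nhds ht] with y hy
    exact rep1_ext1_self hy s
  · refine ⟨x, mem_chart_source E x, ?_⟩
    have hx : (chartAt E x).symm (chartAt E x x) ∉ (chartAt E p).symm '' K := by
      rw [(chartAt E x).left_inv (mem_chart_source E x)]
      exact fun h1 => h (core_subset hKt h1)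
    exact contDiffAt_const.congr_of_eventuallyEq
      (eventually_rep1_zero hK hKt h0 (mem_chart_target E x) hx)

lemma d1_zero_of_ev {s : E → E →L[ℝ] ℝ} {y : E} (h : s =ᶠ[𝓝 y] fun _ => 0) : d1 s y = 0 := by
  rw [d1_congr h]
  unfold d1
  simp

/-- the exterior derivative of an extension by zero. -/
theorem dG_ext1 [T2Space M] {p : M} {K : Set E} (hK : IsCompact K)
    (hKt : K ⊆ (chartAt E p).target) {s : E → E →L[ℝ] ℝ} (hs : ContDiff ℝ ∞ s)
    (h0 : ∀ y, y ∉ K → s y = 0) : dG (ext1 p s) = ext2 p (d1 s) := by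
  have hsm := smooth1_ext1 hK hKt hs h0
  have h0' : ∀ y, y ∉ K → d1 s y = 0 := by
    intro y hy
    refine d1_zero_of_ev ?_
    filter_upwards [hK.isClosed.isOpen_compl.mem_nhds hy] with z hz using h0 z hz
  funext x
  by_cases h : x ∈ (chartAt E p).source
  · have ht := (chartAt E p).map_source h
    have h1 : rep p (dG (ext1 p s)) (chartAt E p x) = rep p (ext2 p (d1 s)) (chartAt E p x) := by
      rw [rep_dG hsm ht, rep_ext2_self ht]
      refine d1_congr ?_
      filter_upwards [(chartAt E p).open_target.mem_nhds ht] with y hy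
      exact rep1_ext1_self hy s
    exact Sm.at2_eq_of_rep h h1
  · have hx : (chartAt E x).symm (chartAt E x x) ∉ (chartAt E p).symm '' K := by
      rw [(chartAt E x).left_inv (mem_chart_source E x)]
      exact fun h1 => h (core_subset hKt h1)
    have h1 := eventually_rep1_zero hK hKt h0 (mem_chart_target E x) hx
    have h2 : at2 (dG (ext1 p s)) x = 0 := by
      show d1 (rep1 x (ext1 p s)) (chartAt E x x) = 0
      exact d1_zero_of_ev h1
    have h3 : at2 (ext2 p (d1 s)) x = 0 := at2_ext2_of_notMem h _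
    exact h2.trans h3.symm

/-! ### functions -/

omit [IsManifold 𝓘(ℝ, E) ∞ M] in
lemma repF_extF_self {p : M} {y : E} (hy : y ∈ (chartAt E p).target) (g : E → ℝ) :
    repF p (extF p g) y = g y := by
  rw [repF, extF, if_pos (symm_mem hy), (chartAt E p).right_inv hy]

omit [IsManifold 𝓘(ℝ, E) ∞ M] in
lemma extF_of_mem {p x : M} (hx : x ∈ (chartAt E p).source) (g : E → ℝ) :
    extF p g x = g (chartAt E p x) := if_pos hx

omit [IsManifold 𝓘(ℝ, E) ∞ M] in
lemma extF_of_notMem {p x : M} (hx : x ∉ (chartAt E p).source) (g : E → ℝ) :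
    extF p g x = 0 := if_neg hx

omit [IsManifold 𝓘(ℝ, E) ∞ M] in
lemma extF_zero {p x : M} {K : Set E} {g : E → ℝ}
    (h0 : ∀ y, y ∉ K → g y = 0) (hx : x ∉ (chartAt E p).symm '' K) : extF p g x = 0 := by
  by_cases h : x ∈ (chartAt E p).source
  · rw [extF_of_mem h, h0 _ fun h1 => hx ⟨_, h1, (chartAt E p).left_inv h⟩]
  · exact extF_of_notMem h g

theorem SmoothF.of_local {f : M → ℝ}
    (h : ∀ x : M, ∃ p : M, x ∈ (chartAt E p).source ∧ ContDiffAt ℝ ∞ (repF p f) (chartAt E p x)) :
    SmoothF E f := by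
  refine fun p => contDiffOn_chart_iff.2 fun y hy => ?_
  obtain ⟨q, hq, hs⟩ := h ((chartAt E p).symm y)
  have := (contMDiffAt_F (symm_mem hy) f).1 ((contMDiffAt_F hq f).2 hs)
  rwa [(chartAt E p).right_inv hy] at this

theorem smoothF_extF [T2Space M] {p : M} {K : Set E} (hK : IsCompact K)
    (hKt : K ⊆ (chartAt E p).target) {g : E → ℝ} (hg : ContDiff ℝ ∞ g)
    (h0 : ∀ y, y ∉ K → g y = 0) : SmoothF E (extF p g) := by
  refine SmoothF.of_local (fun x => ?_)
  by_cases h : x ∈ (chartAt E p).source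
  · refine ⟨p, h, ?_⟩
    have ht := (chartAt E p).map_source h
    refine hg.contDiffAt.congr_of_eventuallyEq ?_
    filter_upwards [(chartAt E p).open_target.mem_nhds ht] with y hy
    exact repF_extF_self hy g
  · refine ⟨x, mem_chart_source E x, ?_⟩
    have hx : (chartAt E x).symm (chartAt E x x) ∉ (chartAt E p).symm '' K := by
      rw [(chartAt E x).left_inv (mem_chart_source E x)]
      exact fun h1 => h (core_subset hKt h1)
    have h1 : ∀ᶠ y' in 𝓝 (chartAt E x x), (chartAt E x).symm y' ∈ ((chartAt E p).symm '' K)ᶜ :=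
      ((chartAt E x).continuousAt_symm (mem_chart_target E x)).eventually
        ((isClosed_core hK hKt).isOpen_compl.mem_nhds hx)
    refine (contDiffAt_const (c := (0 : ℝ))).congr_of_eventuallyEq ?_
    filter_upwards [h1] with y' hy'
    exact extF_zero h0 hy'

/-! ### decomposition -/

/-- a two-form cut off by `χ i` is the extension by zero of its representation. -/
theorem FA.fmul_eq_ext2 (A : FA E M) (i : Fin A.n) (a : F2 E M) :
    ext2 (A.c i) (rep (A.c i) (fmul (A.χ i) a)) = fmul (A.χ i) a := by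
  refine eq_ext2_rep ?_
  intro x hx
  have h : A.χ i x = 0 := by
    by_contra h
    exact hx ((A.χ_supp i (subset_tsupport _ h)).1)
  have h2 : at2 (fmul (A.χ i) a) x = A.χ i x • at2 a x := rfl
  rw [h2, h, zero_smul]

/-- decomposition of a two-form into chart pieces. -/
theorem FA.sum_fmul (A : FA E M) (a : F2 E M) : ∑ i, fmul (A.χ i) a = a := by
  funext x
  rw [Finset.sum_apply]
  have h : ∀ i, fmul (A.χ i) a x = A.χ i x • a x := fun i => rfl
  simp only [h]
  rw [← Finset.sum_smul, A.χ_sum, one_smul]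

theorem FA.sum_fmul1 (A : FA E M) (s : F1 E M) : ∑ i, fmul1 (A.χ i) s = s := by
  funext x
  rw [Finset.sum_apply]
  have h : ∀ i, fmul1 (A.χ i) s x = A.χ i x • s x := fun i => rfl
  simp only [h]
  rw [← Finset.sum_smul, A.χ_sum, one_smul]

end General

/-! ### exact forms -/

section Four

variable {M : Type*} [TopologicalSpace M] [ChartedSpace E4 M] [IsManifold 𝓘(ℝ, E4) ∞ M]

theorem isEx_dG {s : F1 E4 M} (hs : Smooth1 s) : IsEx (dG s) :=
  ⟨s, hs, fun _ _ hy => rep_dG hs hy⟩

theorem isEx_iff {b : F2 E4 M} : IsEx b ↔ ∃ s : F1 E4 M, Smooth1 s ∧ b = dG s := by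
  constructor
  · rintro ⟨s, hs, h⟩
    refine ⟨s, hs, ?_⟩
    funext x
    show at2 b x = at2 (dG s) x
    refine Sm.at2_eq_of_rep (mem_chart_source E4 x) ?_
    rw [h x _ (mem_chart_target E4 x), rep_dG hs (mem_chart_target E4 x)]
  · rintro ⟨s, hs, rfl⟩
    exact isEx_dG hs

/-- extensions by zero of `d s`, `s` smooth with compact support in the chart, are exact. -/
theorem isEx_ext2_d1 [T2Space M] {p : M} {K : Set E4} (hK : IsCompact K)
    (hKt : K ⊆ (chartAt E4 p).target) {s : E4 → E4 →L[ℝ] ℝ} (hs : ContDiff ℝ ∞ s)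
    (h0 : ∀ y, y ∉ K → s y = 0) : IsEx (ext2 p (d1 s)) := by
  rw [← dG_ext1 hK hKt hs h0]
  exact isEx_dG (smooth1_ext1 hK hKt hs h0)

theorem isEx_ext2_d1' [T2Space M] {p : M} {s : E4 → E4 →L[ℝ] ℝ} (hs : ContDiff ℝ ∞ s)
    (hc : HasCompactSupport s) (hsub : tsupport s ⊆ (chartAt E4 p).target) :
    IsEx (ext2 p (d1 s)) :=
  isEx_ext2_d1 hc hsub hs fun _ hy => image_eq_zero_of_notMem_tsupport hy

theorem IsEx.smooth2 {b : F2 E4 M} (hb : IsEx b) : Smooth2 b := by
  obtain ⟨s, hs, rfl⟩ := isEx_iff.1 hb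
  exact Smooth2.dG hs

theorem IsEx.closed2 {b : F2 E4 M} (hb : IsEx b) : Closed2 b := by
  obtain ⟨s, hs, rfl⟩ := isEx_iff.1 hb
  exact Closed2.dG hs

end Four

end

end Crest.Agent.R240.Ch
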