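import Crest.Agent.R240.Lin3

/-!
Row 240, PART L (helper798): pointwise inequalities for two-forms on `(E4, J, F)`.
`Bd J F m M`: `J² = -1`, `F` is `J`-invariant, positive, `m |v|² ≤ F(v, Jv) ≤ M |v|²`.
-/

set_option autoImplicit false

namespace Crest.Agent.R240

noncomputable section

/-- normalisation data at a point -/
structure Bd (J : E4 →L[ℝ] E4) (F : Bil) (m M : ℝ) : Prop where
  sq : ∀ v, J (J v) = -v
  spos : SPos J F
  m_pos : 0 < m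
  lo : ∀ v, m * ‖v‖ ^ 2 ≤ F v (J v)
  hi : ∀ v, F v (J v) ≤ M * ‖v‖ ^ 2

namespace Bd

variable {J : E4 →L[ℝ] E4} {F : Bil} {m M : ℝ}

theorem m_le_M (h : Bd J F m M) : m ≤ M := by
  have h1 := h.lo (ee 0)
  have h2 := h.hi (ee 0)
  rw [norm_ee] at h1 h2
  linarith

theorem M_pos (h : Bd J F m M) : 0 < M := lt_of_lt_of_le h.m_pos h.m_le_M

theorem W_ne (h : Bd J F m M) : W F F ≠ 0 := by
  obtain ⟨A, hA⟩ := exists_frame h.sq h.spos
  exact hA.W_ne h.spos.alt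

/-- frame with norm control -/
theorem frame (h : Bd J F m M) : ∃ A : E4 ≃L[ℝ] E4, IsFrame J F A ∧
    (∀ v, m * ‖A v‖ ^ 2 ≤ ‖v‖ ^ 2) ∧ (∀ v, ‖v‖ ^ 2 ≤ M * ‖A v‖ ^ 2) := by
  obtain ⟨A, hA⟩ := exists_frame h.sq h.spos
  refine ⟨A, hA, ?_, ?_⟩
  · intro v
    have := h.lo (A v)
    rwa [hA.normsq] at this
  · intro v
    have := h.hi (A v)
    rwa [hA.normsq] at this

theorem norm_pull_le (h : Bd J F m M) {A : E4 ≃L[ℝ] E4} (hA : ∀ v, m * ‖A v‖ ^ 2 ≤ ‖v‖ ^ 2)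
    (b : Bil) : ‖pull (A : E4 →L[ℝ] E4) b‖ ≤ ‖b‖ / m := by
  have hm := h.m_pos
  have hn : ∀ v, ‖A v‖ ≤ ‖v‖ / Real.sqrt m := by
    intro v
    rw [le_div_iff₀ (Real.sqrt_pos.2 hm)]
    have h1 := hA v
    have h2 : (‖A v‖ * Real.sqrt m) ^ 2 ≤ ‖v‖ ^ 2 := by
      rw [mul_pow, Real.sq_sqrt hm.le]; linarith
    exact (sq_le_sq₀ (by positivity) (norm_nonneg _)).1 h2
  refine ContinuousLinearMap.opNorm_le_bound₂ _ (by positivity) ?_
  intro u v
  rw [pull_apply]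
  have h1 := b.le_opNorm₂ (A u) (A v)
  have h2 : ‖b‖ * ‖A u‖ * ‖A v‖ ≤ ‖b‖ * (‖u‖ / Real.sqrt m) * (‖v‖ / Real.sqrt m) := by
    have := hn u
    have := hn v
    gcongr
  have h3 : ‖b‖ * (‖u‖ / Real.sqrt m) * (‖v‖ / Real.sqrt m) = ‖b‖ / m * ‖u‖ * ‖v‖ := by
    have := Real.mul_self_sqrt hm.le
    have h4 : (‖b‖ * (‖u‖ / Real.sqrt m) * (‖v‖ / Real.sqrt m)) =
      ‖b‖ * ‖u‖ * ‖v‖ / (Real.sqrt m * Real.sqrt m) := by
      field_simp
    rw [h4, this]; ring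
  rw [← h3]
  exact h1.trans h2

theorem norm_le_pull (h : Bd J F m M) {A : E4 ≃L[ℝ] E4} (hA : ∀ v, ‖v‖ ^ 2 ≤ M * ‖A v‖ ^ 2)
    (b : Bil) : ‖b‖ ≤ M * ‖pull (A : E4 →L[ℝ] E4) b‖ := by
  have hM := h.M_pos
  have hn : ∀ v, ‖A.symm v‖ ≤ Real.sqrt M * ‖v‖ := by
    intro v
    have h1 := hA (A.symm v)
    rw [A.apply_symm_apply] at h1
    have h2 : ‖A.symm v‖ ^ 2 ≤ (Real.sqrt M * ‖v‖) ^ 2 := by
      rw [mul_pow, Real.sq_sqrt hM.le]; exact h1
    exact (sq_le_sq₀ (norm_nonneg _) (by positivity)).1 h2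
  refine ContinuousLinearMap.opNorm_le_bound₂ _ (by positivity) ?_
  intro u v
  have e : b u v = pull (A : E4 →L[ℝ] E4) b (A.symm u) (A.symm v) := by
    rw [pull_apply]; simp
  rw [e]
  have h1 := (pull (A : E4 →L[ℝ] E4) b).le_opNorm₂ (A.symm u) (A.symm v)
  have h2 : ‖pull (A : E4 →L[ℝ] E4) b‖ * ‖A.symm u‖ * ‖A.symm v‖ ≤
      ‖pull (A : E4 →L[ℝ] E4) b‖ * (Real.sqrt M * ‖u‖) * (Real.sqrt M * ‖v‖) := by
    have := hn u
    have := hn v
    gcongr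
  have h3 : ‖pull (A : E4 →L[ℝ] E4) b‖ * (Real.sqrt M * ‖u‖) * (Real.sqrt M * ‖v‖) =
      M * ‖pull (A : E4 →L[ℝ] E4) b‖ * ‖u‖ * ‖v‖ := by
    have := Real.mul_self_sqrt hM.le
    calc _ = (Real.sqrt M * Real.sqrt M) * ‖pull (A : E4 →L[ℝ] E4) b‖ * ‖u‖ * ‖v‖ := by ring
      _ = _ := by rw [this]
  rw [← h3]
  exact h1.trans h2

/-! ### algebra of `q` -/

theorem q_self (h : Bd J F m M) : q F F F = 1 := div_self h.W_ne

end Bd

theorem q_comm (F b c : Bil) : q F b c = q F c b := by unfold q; rw [W_comm]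
theorem q_add_left (F a b c : Bil) : q F (a + b) c = q F a c + q F b c := by
  unfold q; rw [W_add_left]; ring
theorem q_add_right (F a b c : Bil) : q F a (b + c) = q F a b + q F a c := by
  unfold q; rw [W_add_right]; ring
theorem q_sub_left (F a b c : Bil) : q F (a - b) c = q F a c - q F b c := by
  unfold q; rw [W_sub_left]; ring
theorem q_sub_right (F a b c : Bil) : q F a (b - c) = q F a b - q F a c := by
  unfold q; rw [W_sub_right]; ring
theorem q_smul_left (F : Bil) (r : ℝ) (b c : Bil) : q F (r • b) c = r * q F b c := by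
  unfold q; rw [W_smul_left]; ring
theorem q_smul_right (F : Bil) (r : ℝ) (b c : Bil) : q F b (r • c) = r * q F b c := by
  unfold q; rw [W_smul_right]; ring

/-- `q` is invariant under pull-back by invertible maps (chart independence). -/
theorem q_pull {F b c : Bil} (hF : Alt F) (hb : Alt b) (hc : Alt c) {A : E4 →L[ℝ] E4}
    (hA : LinearMap.det (A : E4 →ₗ[ℝ] E4) ≠ 0) :
    q (pull A F) (pull A b) (pull A c) = q F b c := by
  unfold q
  rw [W_pull hb hc, W_pull hF hF, mul_div_mul_left _ _ hA]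

theorem Alt.add {b c : Bil} (hb : Alt b) (hc : Alt c) : Alt (b + c) := by
  intro v
  have : (b + c) v v = b v v + c v v := rfl
  rw [this, hb v, hc v, add_zero]
theorem Alt.sub {b c : Bil} (hb : Alt b) (hc : Alt c) : Alt (b - c) := by
  intro v
  have : (b - c) v v = b v v - c v v := rfl
  rw [this, hb v, hc v, sub_zero]
theorem Alt.smul {b : Bil} (hb : Alt b) (r : ℝ) : Alt (r • b) := by
  intro v
  have : (r • b) v v = r * b v v := rfl
  rw [this, hb v, mul_zero]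
theorem Alt.neg {b : Bil} (hb : Alt b) : Alt (-b) := by
  intro v
  have : (-b) v v = - b v v := rfl
  rw [this, hb v, neg_zero]
theorem Alt.zero : Alt (0 : Bil) := fun _ => rfl

theorem Alt.invp {b : Bil} (hb : Alt b) (J : E4 →L[ℝ] E4) : Alt (invp J b) := by
  intro v; rw [invp_apply, hb v, hb (J v)]; simp
theorem Alt.antip {b : Bil} (hb : Alt b) (J : E4 →L[ℝ] E4) : Alt (antip J b) := by
  intro v; rw [antip_apply, hb v, hb (J v)]; simp

theorem neg_neg_apply (b : Bil) (u v : E4) : b (-u) (-v) = b u v := by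
  rw [map_neg, map_neg, neg_apply, neg_neg]

theorem invp_inv {J : E4 →L[ℝ] E4} (hJ : ∀ v, J (J v) = -v) (b : Bil) (u v : E4) :
    invp J b (J u) (J v) = invp J b u v := by
  rw [invp_apply, invp_apply, hJ, hJ, neg_neg_apply, add_comm]

theorem antip_anti {J : E4 →L[ℝ] E4} (hJ : ∀ v, J (J v) = -v) (b : Bil) (u v : E4) :
    antip J b (J u) (J v) = - antip J b u v := by
  rw [antip_apply, antip_apply, hJ, hJ, neg_neg_apply]; ring

theorem invp_of_inv {J : E4 →L[ℝ] E4} {b : Bil} (hb : ∀ u v, b (J u) (J v) = b u v) :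
    invp J b = b := by
  ext u v; rw [invp_apply, hb]; ring

theorem antip_of_inv {J : E4 →L[ℝ] E4} {b : Bil} (hb : ∀ u v, b (J u) (J v) = b u v) :
    antip J b = 0 := by
  ext u v; rw [antip_apply, hb, sub_self, zero_div]; rfl

theorem antip_of_anti {J : E4 →L[ℝ] E4} {b : Bil} (hb : ∀ u v, b (J u) (J v) = - b u v) :
    antip J b = b := by
  ext u v; rw [antip_apply, hb]; ring

theorem invp_of_anti {J : E4 →L[ℝ] E4} {b : Bil} (hb : ∀ u v, b (J u) (J v) = - b u v) :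
    invp J b = 0 := by
  ext u v; rw [invp_apply, hb, add_neg_cancel, zero_div]; rfl

/-- `b'(v, Jv) = b(v, Jv)`. -/
theorem invp_diag {J : E4 →L[ℝ] E4} (hJ : ∀ v, J (J v) = -v) {b : Bil} (hb : Alt b) (v : E4) :
    invp J b v (J v) = b v (J v) := by
  rw [invp_apply, hJ, map_neg, hb.swap (J v) v]; ring

theorem antip_diag {J : E4 →L[ℝ] E4} (hJ : ∀ v, J (J v) = -v) {b : Bil} (hb : Alt b) (v : E4) :
    antip J b v (J v) = 0 := by
  rw [antip_apply, hJ, map_neg, hb.swap (J v) v]; ring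

namespace Bd

variable {J : E4 →L[ℝ] E4} {F : Bil} {m M : ℝ}

/-- mixed types are orthogonal: `b ∧ c = 0` for `b` invariant, `c` anti-invariant. -/
theorem q_mixed (h : Bd J F m M) {b c : Bil} (hb' : Alt b) (hc' : Alt c)
    (hb : ∀ u v, b (J u) (J v) = b u v) (hc : ∀ u v, c (J u) (J v) = - c u v) : q F b c = 0 := by
  obtain ⟨A, hA⟩ := exists_frame h.sq h.spos
  rw [hA.q_eq h.spos.alt hb' hc', W_mixed0 (hc'.pull _) (hA.pull_inv hb) (hA.pull_anti hc), zero_div]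

theorem q_mixed' (h : Bd J F m M) {b c : Bil} (hb' : Alt b) (hc' : Alt c)
    (hb : ∀ u v, b (J u) (J v) = b u v) (hc : ∀ u v, c (J u) (J v) = - c u v) : q F c b = 0 := by
  rw [q_comm]; exact h.q_mixed hb' hc' hb hc

/-- `q(b,c) = q(b',c') + q(b'',c'')`. -/
theorem q_split (h : Bd J F m M) {b c : Bil} (hb : Alt b) (hc : Alt c) :
    q F b c = q F (invp J b) (invp J c) + q F (antip J b) (antip J c) := by
  conv_lhs => rw [← invp_add_antip J b, ← invp_add_antip J c]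
  rw [q_add_left, q_add_right, q_add_right,
    h.q_mixed (hb.invp J) (hc.antip J) (invp_inv h.sq b) (antip_anti h.sq c),
    h.q_mixed' (hc.invp J) (hb.antip J) (invp_inv h.sq c) (antip_anti h.sq b)]
  ring

/-- lower bound: `|c|² ≤ 2 M² q(c,c)` for anti-invariant `c`. -/
theorem anti_lower (h : Bd J F m M) {c : Bil} (hc' : Alt c)
    (hc : ∀ u v, c (J u) (J v) = - c u v) : ‖c‖ ^ 2 ≤ 2 * M ^ 2 * q F c c := by
  obtain ⟨A, hA, -, h2⟩ := h.frame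
  rw [hA.q_eq h.spos.alt hc' hc', W_anti0 (hc'.pull _) (hc'.pull _) (hA.pull_anti hc)
    (hA.pull_anti hc)]
  have h3 := h.norm_le_pull h2 c
  have h4 := norm_sq_le_N0 (hc'.pull (A : E4 →L[ℝ] E4))
  obtain ⟨e1, e2, e3, e4⟩ := anti0_ent (hc'.pull (A : E4 →L[ℝ] E4)) (hA.pull_anti hc)
  unfold N0 at h4
  rw [e1, e2, e3, e4] at h4
  have h5 : ‖c‖ ^ 2 ≤ M ^ 2 * ‖pull (A : E4 →L[ℝ] E4) c‖ ^ 2 := by
    rw [← mul_pow]
    have : 0 ≤ ‖c‖ := norm_nonneg c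
    gcongr
  have hM := h.M_pos
  calc ‖c‖ ^ 2 ≤ M ^ 2 * ‖pull (A : E4 →L[ℝ] E4) c‖ ^ 2 := h5
    _ ≤ M ^ 2 * (0 ^ 2 + ent (pull (A : E4 →L[ℝ] E4) c) 0 2 ^ 2 + ent (pull (A : E4 →L[ℝ] E4) c) 0 3 ^ 2 +
      ent (pull (A : E4 →L[ℝ] E4) c) 0 3 ^ 2 + (-ent (pull (A : E4 →L[ℝ] E4) c) 0 2) ^ 2 + 0 ^ 2) := by
        gcongr
    _ = _ := by ring

theorem anti_nonneg (h : Bd J F m M) {c : Bil} (hc' : Alt c)
    (hc : ∀ u v, c (J u) (J v) = - c u v) : 0 ≤ q F c c := by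
  have h1 := h.anti_lower hc' hc
  have hM := h.M_pos
  have : 0 ≤ 2 * M ^ 2 * q F c c := (by positivity : (0:ℝ) ≤ ‖c‖ ^ 2).trans h1
  exact nonneg_of_mul_nonneg_right (by linarith) (by positivity : (0:ℝ) < 2 * M ^ 2)

/-- `|q(b,c)| ≤ (3/m²)|b||c|`. -/
theorem abs_q_le (h : Bd J F m M) {b c : Bil} (hb : Alt b) (hc : Alt c) :
    |q F b c| ≤ 3 / m ^ 2 * (‖b‖ * ‖c‖) := by
  obtain ⟨A, hA, h1, -⟩ := h.frame
  have hm := h.m_pos
  rw [hA.q_eq h.spos.alt hb hc]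
  have hb1 := h.norm_pull_le h1 b
  have hc1 := h.norm_pull_le h1 c
  set b' := pull (A : E4 →L[ℝ] E4) b
  set c' := pull (A : E4 →L[ℝ] E4) c
  have hp : ∀ i j k l, |ent b' i j * ent c' k l| ≤ (‖b‖ / m) * (‖c‖ / m) := by
    intro i j k l
    rw [abs_mul]
    have := (abs_ent_le b' i j).trans hb1
    have := (abs_ent_le c' k l).trans hc1
    gcongr
  have h01 := abs_le.1 (hp 0 1 2 3)
  have h02 := abs_le.1 (hp 0 2 1 3)
  have h03 := abs_le.1 (hp 0 3 1 2)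
  have h12 := abs_le.1 (hp 1 2 0 3)
  have h13 := abs_le.1 (hp 1 3 0 2)
  have h23 := abs_le.1 (hp 2 3 0 1)
  have e : 3 / m ^ 2 * (‖b‖ * ‖c‖) = 3 * ((‖b‖ / m) * (‖c‖ / m)) := by
    field_simp
  rw [e, abs_le]
  unfold W
  constructor <;> linarith [h01.1, h01.2, h02.1, h02.2, h03.1, h03.2, h12.1, h12.2, h13.1, h13.2,
    h23.1, h23.2]

/-- two nonnegative forms pair nonnegatively. -/
theorem q_pos_pos (h : Bd J F m M) {P R : Bil} (hP : Pos J P) (hR : Pos J R) : 0 ≤ q F P R := by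
  obtain ⟨A, hA⟩ := exists_frame h.sq h.spos
  rw [hA.q_eq h.spos.alt hP.alt hR.alt, W_inv0 (hA.pull_inv hP.inv) (hA.pull_inv hR.inv)]
  have hpos : ∀ {P : Bil}, Pos J P → ∀ v, 0 ≤ pull (A : E4 →L[ℝ] E4) P v (J0 v) := by
    intro P hP v
    rw [pull_apply]
    simp only [ContinuousLinearEquiv.coe_coe]
    rw [← hA.cplx]
    exact hP.nonneg _
  obtain ⟨a1, a2, a3⟩ := pos0_ent (hP.alt.pull _) (hA.pull_inv hP.inv) (hpos hP)
  obtain ⟨b1, b2, b3⟩ := pos0_ent (hR.alt.pull _) (hA.pull_inv hR.inv) (hpos hR)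
  generalize ent (pull (A : E4 →L[ℝ] E4) P) 0 1 = p at *
  generalize ent (pull (A : E4 →L[ℝ] E4) P) 2 3 = q at *
  generalize ent (pull (A : E4 →L[ℝ] E4) P) 0 2 = x at *
  generalize ent (pull (A : E4 →L[ℝ] E4) P) 0 3 = y at *
  generalize ent (pull (A : E4 →L[ℝ] E4) R) 0 1 = r at *
  generalize ent (pull (A : E4 →L[ℝ] E4) R) 2 3 = s at *
  generalize ent (pull (A : E4 →L[ℝ] E4) R) 0 2 = z at *
  generalize ent (pull (A : E4 →L[ℝ] E4) R) 0 3 = w at *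
  -- (xz+yw)^2 ≤ (x²+y²)(z²+w²) ≤ pq rs ≤ ((ps+qr)/2)²
  have k1 : (x * z + y * w) ^ 2 ≤ (p * q) * (r * s) := by
    calc (x * z + y * w) ^ 2 ≤ (x ^ 2 + y ^ 2) * (z ^ 2 + w ^ 2) := by nlinarith [sq_nonneg (x * w - y * z)]
      _ ≤ (p * q) * (r * s) := by
          apply mul_le_mul a3 b3 (by positivity) (by positivity)
  have k2 : (x * z + y * w) ^ 2 ≤ ((p * s + q * r) / 2) ^ 2 := by
    nlinarith [sq_nonneg (p * s - q * r)]
  have k3 : |x * z + y * w| ≤ (p * s + q * r) / 2 := by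
    apply abs_le_of_sq_le_sq k2
    have := mul_nonneg a1 b2
    have := mul_nonneg a2 b1
    linarith
  have k4 := (abs_le.1 k3).2
  linarith

/-- `|P| ≤ 2 M q(P,F)` for `P ≥ 0`. -/
theorem norm_le_q (h : Bd J F m M) {P : Bil} (hP : Pos J P) : ‖P‖ ≤ 2 * M * q F P F := by
  obtain ⟨A, hA, -, h2⟩ := h.frame
  have e : q F P F = (ent (pull (A : E4 →L[ℝ] E4) P) 0 1 + ent (pull (A : E4 →L[ℝ] E4) P) 2 3) / 2 := by
    rw [hA.q_eq h.spos.alt hP.alt h.spos.alt, hA.pull_form]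
    have h : ∀ i j, ent om0 i j = om0 (ee i) (ee j) := fun i j => rfl
    unfold W
    simp only [h, om0_apply, ee_apply]
    simp
  rw [e]
  have hpos : ∀ v, 0 ≤ pull (A : E4 →L[ℝ] E4) P v (J0 v) := by
    intro v
    rw [pull_apply]
    simp only [ContinuousLinearEquiv.coe_coe]
    rw [← hA.cplx]
    exact hP.nonneg _
  obtain ⟨a1, a2, a3⟩ := pos0_ent (hP.alt.pull _) (hA.pull_inv hP.inv) hpos
  obtain ⟨e1, e2⟩ := inv0_ent (hA.pull_inv hP.inv)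
  have h3 := h.norm_le_pull h2 P
  have h4 := norm_le_sqrt_N0 (hP.alt.pull (A : E4 →L[ℝ] E4))
  have h5 : Real.sqrt (N0 (pull (A : E4 →L[ℝ] E4) P)) ≤
      ent (pull (A : E4 →L[ℝ] E4) P) 0 1 + ent (pull (A : E4 →L[ℝ] E4) P) 2 3 := by
    apply Real.sqrt_le_iff.2
    refine ⟨by linarith, ?_⟩
    unfold N0
    rw [e1, e2]
    nlinarith
  have hM := h.M_pos
  calc ‖P‖ ≤ M * ‖pull (A : E4 →L[ℝ] E4) P‖ := h3
    _ ≤ M * (ent (pull (A : E4 →L[ℝ] E4) P) 0 1 + ent (pull (A : E4 →L[ℝ] E4) P) 2 3) := by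
        gcongr; exact h4.trans h5
    _ = _ := by ring

/-- if `X + sF ≥ 0` (`X` invariant) then `q(X,X) ≥ -2 s q(X,F) - s²`. -/
theorem q_self_ge (h : Bd J F m M) {X : Bil} {s : ℝ} (hX : Pos J (X + s • F)) :
    - 2 * s * q F X F - s ^ 2 ≤ q F X X := by
  have h1 := h.q_pos_pos hX hX
  rw [q_add_left, q_add_right, q_add_right, q_smul_left, q_smul_left, q_smul_right, q_smul_right,
    h.q_self, q_comm F F X] at h1
  linarith

/-- `|X| ≤ 2 M (q(X,F) + s) + s |F|` when `X + sF ≥ 0`. -/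
theorem norm_le_of_pos_add (h : Bd J F m M) {X : Bil} {s : ℝ} (hs : 0 ≤ s)
    (hX : Pos J (X + s • F)) : ‖X‖ ≤ 2 * M * (q F X F + s) + s * ‖F‖ := by
  have h1 := h.norm_le_q hX
  rw [q_add_left, q_smul_left, h.q_self, mul_one] at h1
  have h2 : ‖X‖ ≤ ‖X + s • F‖ + ‖s • F‖ := by
    have := norm_sub_le (X + s • F) (s • F)
    rwa [add_sub_cancel_right] at this
  rw [norm_smul, Real.norm_of_nonneg hs] at h2
  linarith

end Bd

end

end Crest.Agent.R240
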