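import Mathlib
import Crest.Agent.R240.Ch4
import Crest.Agent.R240.Lin4

/-!
Row 240 (S0371), helper456: the spaces `X2` (smooth two-forms), `Z2` (closed ones), `X1` (smooth
one-forms), the linear projections `invM`, `antiM`, the cone `PosM`.
-/

set_option autoImplicit false
set_option maxSynthPendingDepth 3

open Set Function Filter
open scoped Manifold ContDiff Topology

namespace Crest.Agent.R240.Ch

noncomputable section

section Four

variable {M : Type*} [TopologicalSpace M] [ChartedSpace E4 M] [IsManifold 𝓘(ℝ, E4) ∞ M]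

variable (M) in
/-- the space of smooth two-forms. -/
def X2 : Submodule ℝ (F2 E4 M) where
  carrier := {a | Smooth2 a}
  zero_mem' := smooth2_zero
  add_mem' ha hb := Smooth2.add ha hb
  smul_mem' r _ ha := Smooth2.smul r ha

variable (M) in
/-- the space of smooth one-forms. -/
def X1 : Submodule ℝ (F1 E4 M) where
  carrier := {a | Smooth1 a}
  zero_mem' := smooth1_zero
  add_mem' ha hb := Smooth1.add ha hb
  smul_mem' r _ ha := Smooth1.smul r ha

variable (M) in
/-- the space of smooth closed two-forms. -/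
def Z2 : Submodule ℝ (X2 M) where
  carrier := {a | Closed2 a.1}
  zero_mem' := closed2_zero
  add_mem' {a b} ha hb := Closed2.add a.2 b.2 ha hb
  smul_mem' r a ha := Closed2.smul r a.2 ha

lemma mem_Z2 {b : X2 M} : b ∈ Z2 M ↔ Closed2 b.1 := Iff.rfl

/-! ### types -/

lemma rep_bp {J : EndF E4 M} {a : F2 E4 M} {p : M} {y : E4} (hy : y ∈ (chartAt E4 p).target) :
    rep p (bp J a) y = invp (repJ p J y) (rep p a y) := by
  ext u v
  rw [invp_apply, rep_apply, rep_apply, rep_apply, repJ_apply, repJ_apply,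
    tcc_cancel' (symm_mem hy), tcc_cancel' (symm_mem hy)]
  exact invp_apply _ _ _ _

lemma rep_bpp {J : EndF E4 M} {a : F2 E4 M} {p : M} {y : E4} (hy : y ∈ (chartAt E4 p).target) :
    rep p (bpp J a) y = antip (repJ p J y) (rep p a y) := by
  ext u v
  rw [antip_apply, rep_apply, rep_apply, rep_apply, repJ_apply, repJ_apply,
    tcc_cancel' (symm_mem hy), tcc_cancel' (symm_mem hy)]
  exact antip_apply _ _ _ _

lemma contDiffOn_pull {n : WithTop ℕ∞} {s : Set E4} {J : E4 → E4 →L[ℝ] E4} {b : E4 → Bil}
    (hJ : ContDiffOn ℝ n J s) (hb : ContDiffOn ℝ n b s) :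
    ContDiffOn ℝ n (fun y => pull (J y) (b y)) s := by
  unfold pull
  have h1 : ContDiffOn ℝ n (fun y => (ContinuousLinearMap.compL ℝ E4 E4 ℝ).flip (J y)) s :=
    ((ContinuousLinearMap.compL ℝ E4 E4 ℝ).flip.contDiff.comp_contDiffOn hJ)
  exact h1.clm_comp (hb.clm_comp hJ)

lemma Smooth2.bp {J : EndF E4 M} {a : F2 E4 M} (hJ : SmoothJ J) (ha : Smooth2 a) :
    Smooth2 (bp J a) := by
  refine ⟨fun x v => ?_, fun p => ?_⟩
  · have h : at2 (Ch.bp J a) x v v = invp (atJ J x) (at2 a x) v v := rfl
    rw [h, invp_apply, ha.1, ha.1]; norm_num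
  · have h1 : ContDiffOn ℝ ∞ (fun y => invp (repJ p J y) (rep p a y)) (chartAt E4 p).target := by
      unfold invp
      exact ((ha.2 p).add (contDiffOn_pull (hJ p) (ha.2 p))).const_smul _
    exact h1.congr fun y hy => rep_bp hy

lemma Smooth2.bpp {J : EndF E4 M} {a : F2 E4 M} (hJ : SmoothJ J) (ha : Smooth2 a) :
    Smooth2 (bpp J a) := by
  refine ⟨fun x v => ?_, fun p => ?_⟩
  · have h : at2 (Ch.bpp J a) x v v = antip (atJ J x) (at2 a x) v v := rfl
    rw [h, antip_apply, ha.1, ha.1]; norm_num
  · have h1 : ContDiffOn ℝ ∞ (fun y => antip (repJ p J y) (rep p a y)) (chartAt E4 p).target := by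
      unfold antip
      exact ((ha.2 p).sub (contDiffOn_pull (hJ p) (ha.2 p))).const_smul _
    exact h1.congr fun y hy => rep_bpp hy

/-- the projection to the `J`-invariant part. -/
def invM (J : EndF E4 M) (hJ : SmoothJ J) : X2 M →ₗ[ℝ] X2 M where
  toFun a := ⟨bp J a.1, Smooth2.bp hJ a.2⟩
  map_add' a b := by
    apply Subtype.ext
    funext x
    show invp (atJ J x) (at2 a.1 x + at2 b.1 x) =
      invp (atJ J x) (at2 a.1 x) + invp (atJ J x) (at2 b.1 x)
    ext u v
    rw [add_apply, add_apply, invp_apply, invp_apply, invp_apply]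
    simp only [add_apply]
    ring
  map_smul' r a := by
    apply Subtype.ext
    funext x
    show invp (atJ J x) (r • at2 a.1 x) = r • invp (atJ J x) (at2 a.1 x)
    ext u v
    rw [smul_apply, smul_apply, invp_apply, invp_apply]
    simp only [smul_apply, smul_eq_mul]
    ring

/-- the projection to the `J`-anti-invariant part. -/
def antiM (J : EndF E4 M) (hJ : SmoothJ J) : X2 M →ₗ[ℝ] X2 M where
  toFun a := ⟨bpp J a.1, Smooth2.bpp hJ a.2⟩
  map_add' a b := by
    apply Subtype.ext
    funext x
    show antip (atJ J x) (at2 a.1 x + at2 b.1 x) =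
      antip (atJ J x) (at2 a.1 x) + antip (atJ J x) (at2 b.1 x)
    ext u v
    rw [add_apply, add_apply, antip_apply, antip_apply, antip_apply]
    simp only [add_apply]
    ring
  map_smul' r a := by
    apply Subtype.ext
    funext x
    show antip (atJ J x) (r • at2 a.1 x) = r • antip (atJ J x) (at2 a.1 x)
    ext u v
    rw [smul_apply, smul_apply, antip_apply, antip_apply]
    simp only [smul_apply, smul_eq_mul]
    ring

@[simp] lemma invM_coe (J : EndF E4 M) (hJ : SmoothJ J) (a : X2 M) :
    (invM J hJ a).1 = bp J a.1 := rfl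

@[simp] lemma antiM_coe (J : EndF E4 M) (hJ : SmoothJ J) (a : X2 M) :
    (antiM J hJ a).1 = bpp J a.1 := rfl

/-- the cone of semi-positive `J`-invariant smooth forms. -/
def PosM (J : EndF E4 M) : Set (X2 M) := {P | PosG J P.1}

end Four

end

end Crest.Agent.R240.Ch
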