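import Mathlib
import Crest.Agent.R240.XDefs

/-!
Row 240, TOP (helper23): instance shortcuts for the space `X2 M` of smooth two-forms.
-/

set_option autoImplicit false

open scoped Manifold ContDiff Topology

namespace Crest.Agent.R240.Ch

noncomputable section

variable {M : Type*} [TopologicalSpace M] [ChartedSpace E4 M] [IsManifold 𝓘(ℝ, E4) ∞ M]

section
set_option maxSynthPendingDepth 3
instance instX2ACG : AddCommGroup (X2 M) := inferInstance
instance instX2Mod : Module ℝ (X2 M) := inferInstance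
end

theorem X2.coe_add (a b : X2 M) : ((a + b : X2 M) : F2 E4 M) = a.1 + b.1 := rfl
theorem X2.coe_sub (a b : X2 M) : ((a - b : X2 M) : F2 E4 M) = a.1 - b.1 := rfl
theorem X2.coe_smul (r : ℝ) (b : X2 M) : ((r • b : X2 M) : F2 E4 M) = r • b.1 := rfl
theorem X2.coe_zero : ((0 : X2 M) : F2 E4 M) = 0 := rfl
theorem at2_add (a b : F2 E4 M) (x : M) : at2 (a + b) x = at2 a x + at2 b x := rfl
theorem at2_sub (a b : F2 E4 M) (x : M) : at2 (a - b) x = at2 a x - at2 b x := rfl
theorem at2_smul (r : ℝ) (b : F2 E4 M) (x : M) : at2 (r • b) x = r • at2 b x := rfl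
theorem at2_fmul (f : M → ℝ) (b : F2 E4 M) (x : M) : at2 (fmul f b) x = f x • at2 b x := rfl

end

end Crest.Agent.R240.Ch
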