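import Mathlib
import Crest.Agent.R240.XInst
import Crest.Agent.R240.TopDefs

/-!
Row 240 (S0371), TOP (helper23): the frozen interface.  Every node is a `Prop` about the data
`D : Dat M`.  Nodes: STOKES, FUND, N1, N2, N3, N4, N5, N5', N6, N7, N8a.
-/

set_option autoImplicit false
set_option maxSynthPendingDepth 3

open Set Function Filter MeasureTheory Metric
open scoped Manifold ContDiff Topology ENNReal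

namespace Crest.Agent.R240

open Ch

noncomputable section

namespace Dat

variable {M : Type*} [MetricSpace M] [CompactSpace M] [ChartedSpace E4 M]
    [IsManifold 𝓘(ℝ, E4) ∞ M] [MeasurableSpace M] [BorelSpace M]

/-- `b ↦ b'` on smooth forms. -/
def pi' (D : Dat M) : X2 M →ₗ[ℝ] X2 M := invM D.J D.smJ

/-- `b ↦ b''` on smooth forms. -/
def pi'' (D : Dat M) : X2 M →ₗ[ℝ] X2 M := antiM D.J D.smJ

/-- `F` as a smooth form. -/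
def FX (D : Dat M) : X2 M := D.pi' ⟨D.al, D.sm_al⟩

/-- the cone of semi-positive `J`-invariant smooth forms. -/
def Pp (D : Dat M) : Set (X2 M) := {P | PosG D.J (P : F2 E4 M)}

/-- a current of bidegree (1,1): `Φ b = Φ b'`. -/
def IsInv (D : Dat M) (Φ : X2 M →ₗ[ℝ] ℝ) : Prop := ∀ b, Φ b = Φ (D.pi' b)

/-- `Φ ≥ 0` on the cone. -/
def IsNonneg (D : Dat M) (Φ : X2 M →ₗ[ℝ] ℝ) : Prop := ∀ P ∈ D.Pp, 0 ≤ Φ P

/-- `Φ ≥ F` on the cone. -/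
def IsKahler (D : Dat M) (Φ : X2 M →ₗ[ℝ] ℝ) : Prop :=
  ∀ P ∈ D.Pp, D.I (P : F2 E4 M) D.F ≤ Φ P

/-- `Φ` kills exact forms. -/
def KillsExact (Φ : X2 M →ₗ[ℝ] ℝ) : Prop := ∀ b : X2 M, IsEx (b : F2 E4 M) → Φ b = 0

/-- `L` kills closed forms. -/
def KillsClosed (L : X2 M →ₗ[ℝ] ℝ) : Prop := ∀ b ∈ Z2 M, L b = 0

/-- `s` is the trace measure of `Φ` (a functional which is `≥ 0` on the cone). -/
structure IsRM (D : Dat M) (Φ : X2 M →ₗ[ℝ] ℝ) (s : Measure M) : Prop where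
  fin : IsFiniteMeasure s
  trace : ∀ f : M → ℝ, SmoothF E4 f → ∀ b : X2 M, (b : F2 E4 M) = fmul f D.F → Φ b = ∫ x, f x ∂s
  bound : ∀ b : X2 M, |Φ (D.pi' b)| ≤ 2 * ∫ x, D.nr (b : F2 E4 M) x ∂s
  lower : ∀ (b : X2 M) (h : M → ℝ), Continuous h → GeF D.J D.F (b : F2 E4 M) h →
    ∫ x, h x ∂s ≤ Φ (D.pi' b)

/-- two-dimensional growth. -/
def Growth2 (s : Measure M) : Prop := ∃ C : ℝ, ∀ x : M, ∀ r : ℝ, 0 < r → s.real (ball x r) ≤ C * r ^ 2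

/-! ### the nodes -/

/-- STOKES (240). -/
def STOKES (D : Dat M) : Prop :=
  ∀ η ∈ Z2 M, ∀ b : X2 M, IsEx (b : F2 E4 M) → D.I ((η : X2 M) : F2 E4 M) (b : F2 E4 M) = 0

/-- FUND (456): du Bois-Reymond. -/
def FUND (D : Dat M) : Prop :=
  ∀ η : X2 M, (∀ b : X2 M, IsEx (b : F2 E4 M) → D.I (η : F2 E4 M) (b : F2 E4 M) = 0) → η ∈ Z2 M

/-- VG (240): volume growth of balls. -/
def VG (D : Dat M) : Prop := ∃ C : ℝ, ∀ x : M, ∀ r : ℝ, 0 < r → D.μ.real (ball x r) ≤ C * r ^ 4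

/-- N1 (630): the Kaehler current. -/
def N1 (D : Dat M) : Prop := ∃ Φ : X2 M →ₗ[ℝ] ℝ, D.IsInv Φ ∧ D.IsKahler Φ ∧ KillsExact Φ

/-- N2 (630): the dichotomy. -/
def N2 (D : Dat M) : Prop :=
  ∀ (𝒰 : Cover M) (m : ℕ) (ρ : ℝ), 0 < ρ →
    (∃ b ∈ Z2 M, D.pi' b - D.FX ∈ D.Pp ∧ 𝒰.cm m ((D.pi'' b : X2 M) : F2 E4 M) < ρ) ∨
    ∃ L : X2 M →ₗ[ℝ] ℝ, KillsClosed L ∧ D.IsNonneg L ∧ L D.FX = 1 ∧
      ∀ b : X2 M, |L (D.pi'' b)| ≤ ρ⁻¹ * 𝒰.cm m ((D.pi'' b : X2 M) : F2 E4 M)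

/-- N3 (Lemma A; 609 / 267 / 106). -/
def N3 (D : Dat M) : Prop :=
  ∃ (𝒰 : Cover M) (m : ℕ) (C : ℝ), ∀ b ∈ Z2 M, ∃ c ∈ Z2 M, D.pi'' c = D.pi'' b ∧
    ∀ x, D.nr (c : F2 E4 M) x ≤ C * 𝒰.cm m ((D.pi'' b : X2 M) : F2 E4 M)

/-- N4 (710): trace measures. -/
def N4 (D : Dat M) : Prop :=
  ∀ Φ : X2 M →ₗ[ℝ] ℝ, D.IsNonneg Φ → ∃ s : Measure M, D.IsRM Φ s

/-- `L` has finite order on anti-invariant forms. -/
def FinOrd (D : Dat M) (L : X2 M →ₗ[ℝ] ℝ) : Prop :=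
  ∃ (𝒰 : Cover M) (m : ℕ) (C : ℝ), ∀ b : X2 M,
    |L (D.pi'' b)| ≤ C * 𝒰.cm m ((D.pi'' b : X2 M) : F2 E4 M)

/-- N5 (23 + 781): Step 4. -/
def N5 (D : Dat M) : Prop :=
  ∀ (L : X2 M →ₗ[ℝ] ℝ) (s : Measure M), KillsClosed L → D.IsNonneg L → D.FinOrd L → D.IsRM L s →
    Growth2 s ∧ ∃ C : ℝ, ∀ b : X2 M, |L (D.pi'' b)| ≤ C * D.n2 ((D.pi'' b : X2 M) : F2 E4 M)

/-- N5' (23 + 781): Step 4 for a closed (1,1)-current. -/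
def N5' (D : Dat M) : Prop :=
  ∀ (Φ : X2 M →ₗ[ℝ] ℝ) (s : Measure M), D.IsInv Φ → D.IsNonneg Φ → KillsExact Φ → D.IsRM Φ s →
    Growth2 s

/-- the two-dimensional density of `s` vanishes almost everywhere. -/
def ZeroDens (s : Measure M) : Prop :=
  ∀ᵐ x ∂s, Tendsto (fun r : ℝ => s.real (ball x r) / r ^ 2) (𝓝[>] 0) (𝓝 0)

/-- N6 (768): Step 5. -/
def N6 (D : Dat M) : Prop :=
  ∀ (Φ : X2 M →ₗ[ℝ] ℝ) (s : Measure M), D.IsInv Φ → D.IsKahler Φ → KillsExact Φ → D.IsRM Φ s →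
    Growth2 s →
    ∃ (Φ₀ : X2 M →ₗ[ℝ] ℝ) (s₀ : Measure M), D.IsInv Φ₀ ∧ D.IsKahler Φ₀ ∧ KillsExact Φ₀ ∧
      D.IsRM Φ₀ s₀ ∧ Growth2 s₀ ∧ ZeroDens s₀

/-- N7 (369): densities (pure metric measure theory). -/
def N7 (D : Dat M) : Prop :=
  ∀ (s₀ s : Measure M), IsFiniteMeasure s₀ → IsFiniteMeasure s → Growth2 s₀ → Growth2 s →
    ZeroDens s₀ → ∀ K : ℝ, 0 < K →
      Tendsto (fun e : ℝ => ∫ x, s₀.real (ball x (K * e)) / e ^ 2 ∂s) (𝓝[>] 0) (𝓝 0) ∧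
      Tendsto (fun e : ℝ => ∫ x, s₀.real (ball x (K * e)) / e ^ 2 *
        (s₀.real (ball x (K * e)) / e ^ 4) ∂D.μ) (𝓝[>] 0) (𝓝 0)

/-- N8a (548 from N8): smoothing of a closed Kaehler current. -/
def N8a (D : Dat M) : Prop :=
  ∀ (Φ₀ : X2 M →ₗ[ℝ] ℝ) (s₀ : Measure M), D.IsInv Φ₀ → D.IsKahler Φ₀ → KillsExact Φ₀ →
    D.IsRM Φ₀ s₀ →
    ∃ (C e₀ : ℝ), 0 < C ∧ 0 < e₀ ∧ ∀ e : ℝ, 0 < e → e ≤ e₀ →
      ∃ b ∈ Z2 M, ∃ p : M → ℝ, Continuous p ∧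
        (∀ x, 0 ≤ p x ∧ p x ≤ C * (s₀.real (ball x (C * e)) / e ^ 4)) ∧
        GeF D.J D.F (b : F2 E4 M) (fun x => 1 - C * e - C * e ^ 2 * p x) ∧
        ∀ x, D.nr ((D.pi'' b : X2 M) : F2 E4 M) x ≤ C * e * p x

/-- what has to be proved about the data. -/
def Goal (D : Dat M) : Prop :=
  ∃ b ∈ Z2 M, D.pi'' b = 0 ∧ ∀ x v, v ≠ 0 → 0 < at2 ((b : X2 M) : F2 E4 M) x v (atJ D.J x v)

end Dat

end

end Crest.Agent.R240
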