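import Mathlib
import Crest.Agent.R240.Lin1
import Crest.Agent.R240.Ch2

/-!
Row 240, PART INT (helper240): the volume measure `mu F` of a nondegenerate two-form `F` on `M`,
density `|W (rep p F) (rep p F)|` in every chart.
-/

set_option autoImplicit false

open MeasureTheory Set Filter Topology
open scoped Manifold ContDiff ENNReal

namespace Crest.Agent.R240.Int

open Crest.Agent.R240 Crest.Agent.R240.Ch

noncomputable section

variable {M : Type*} [TopologicalSpace M] [ChartedSpace E4 M] [IsManifold 𝓘(ℝ, E4) ∞ M]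

/-- nondegenerate continuous two-form: what is needed to define the volume measure. -/
structure Vol (F : F2 E4 M) : Prop where
  alt : ∀ x, Alt (at2 F x)
  cont : ∀ p, ContinuousOn (rep p F) (chartAt E4 p).target
  ne : ∀ x, W (at2 F x) (at2 F x) ≠ 0

/-- the representative as a pull-back -/
theorem rep_eq_pull (p : M) (a : F2 E4 M) (y : E4) :
    rep p a y = pull (tcc p ((chartAt E4 p).symm y) ((chartAt E4 p).symm y))
      (at2 a ((chartAt E4 p).symm y)) := by
  ext u v
  rw [pull_apply]; rfl

theorem rep_alt {a : F2 E4 M} (ha : ∀ x, Alt (at2 a x)) (p : M) (y : E4) : Alt (rep p a y) := by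
  rw [rep_eq_pull]; exact (ha _).pull _

theorem rep_trans_pull {p q : M} {y : E4} (hy : y ∈ (chartAt E4 p).target)
    (hq : (chartAt E4 p).symm y ∈ (chartAt E4 q).source) (a : F2 E4 M) :
    rep p a y = pull (fderiv ℝ (chartAt E4 q ∘ (chartAt E4 p).symm) y)
      (rep q a ((chartAt E4 q ∘ (chartAt E4 p).symm) y)) := by
  ext u v
  rw [pull_apply]; exact rep_pullback hy hq a u v

theorem det_tcc_ne {p x : M} (hx : x ∈ (chartAt E4 p).source) :
    LinearMap.det ((tcc p x x : E4 →L[ℝ] E4) : E4 →ₗ[ℝ] E4) ≠ 0 := by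
  have h : ((tcc p x x : E4 →L[ℝ] E4) : E4 →ₗ[ℝ] E4) ∘ₗ
      ((tcc x p x : E4 →L[ℝ] E4) : E4 →ₗ[ℝ] E4) = LinearMap.id := by
    apply LinearMap.ext
    intro v; exact tcc_cancel' hx v
  have h2 := congrArg LinearMap.det h
  rw [LinearMap.det_comp, LinearMap.det_id] at h2
  intro h0
  rw [h0, zero_mul] at h2
  exact zero_ne_one h2

/-- chart independence of the wedge ratio. -/
theorem W_rep {b c : F2 E4 M} (hb : ∀ x, Alt (at2 b x)) (hc : ∀ x, Alt (at2 c x)) (p : M) (y : E4) :
    W (rep p b y) (rep p c y) =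
      LinearMap.det ((tcc p ((chartAt E4 p).symm y) ((chartAt E4 p).symm y) : E4 →L[ℝ] E4) :
        E4 →ₗ[ℝ] E4) *
        W (at2 b ((chartAt E4 p).symm y)) (at2 c ((chartAt E4 p).symm y)) := by
  rw [rep_eq_pull, rep_eq_pull, W_pull (hb _) (hc _)]

/-- volume density in the chart at `p`. -/
def dens (F : F2 E4 M) (p : M) (y : E4) : ℝ := |W (rep p F y) (rep p F y)|

theorem dens_nonneg (F : F2 E4 M) (p : M) (y : E4) : 0 ≤ dens F p y := abs_nonneg _

theorem Vol.rep_ne {F : F2 E4 M} (hF : Vol F) {p : M} {y : E4} (hy : y ∈ (chartAt E4 p).target) :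
    W (rep p F y) (rep p F y) ≠ 0 := by
  rw [W_rep hF.alt hF.alt]
  exact mul_ne_zero (det_tcc_ne (symm_mem hy)) (hF.ne _)

theorem Vol.dens_pos {F : F2 E4 M} (hF : Vol F) {p : M} {y : E4}
    (hy : y ∈ (chartAt E4 p).target) : 0 < dens F p y := abs_pos.mpr (hF.rep_ne hy)

theorem continuousOn_ent {X : Type*} [TopologicalSpace X] {f : X → Bil} {s : Set X}
    (hf : ContinuousOn f s) (i j : Fin 4) : ContinuousOn (fun x => ent (f x) i j) s :=
  (hf.clm_apply continuousOn_const).clm_apply continuousOn_const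

theorem continuousOn_W {X : Type*} [TopologicalSpace X] {f g : X → Bil} {s : Set X}
    (hf : ContinuousOn f s) (hg : ContinuousOn g s) :
    ContinuousOn (fun x => W (f x) (g x)) s := by
  have hf' := continuousOn_ent hf
  have hg' := continuousOn_ent hg
  unfold W
  exact (((((((hf' _ _).mul (hg' _ _)).sub ((hf' _ _).mul (hg' _ _))).add
    ((hf' _ _).mul (hg' _ _))).add ((hf' _ _).mul (hg' _ _))).sub
    ((hf' _ _).mul (hg' _ _))).add ((hf' _ _).mul (hg' _ _)))

theorem Vol.continuousOn_dens {F : F2 E4 M} (hF : Vol F) (p : M) :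
    ContinuousOn (dens F p) (chartAt E4 p).target :=
  (continuousOn_W (hF.cont p) (hF.cont p)).abs

/-- transition law of the density. -/
theorem dens_trans {F : F2 E4 M} (hF : Vol F) {p q : M} {y : E4}
    (hy : y ∈ (chartAt E4 p).target) (hq : (chartAt E4 p).symm y ∈ (chartAt E4 q).source) :
    dens F p y = |(fderiv ℝ (chartAt E4 q ∘ (chartAt E4 p).symm) y).det| *
      dens F q ((chartAt E4 q ∘ (chartAt E4 p).symm) y) := by
  unfold dens
  rw [rep_trans_pull hy hq, W_pull (rep_alt hF.alt _ _) (rep_alt hF.alt _ _), abs_mul]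

variable [MeasurableSpace M] [BorelSpace M]

/-- density measure in the chart target. -/
def nuc (F : F2 E4 M) (p : M) : Measure E4 :=
  (volume.restrict (chartAt E4 p).target).withDensity (fun y => ENNReal.ofReal (dens F p y))

/-- the measure carried by one chart. -/
def muc (F : F2 E4 M) (p : M) : Measure M := Measure.map (chartAt E4 p).symm (nuc F p)

theorem aemeas_symm (F : F2 E4 M) (p : M) : AEMeasurable (chartAt E4 p).symm (nuc F p) := by
  have h : AEMeasurable (chartAt E4 p).symm (volume.restrict (chartAt E4 p).target) :=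
    (chartAt E4 p).continuousOn_symm.aemeasurable (chartAt E4 p).open_target.measurableSet
  exact h.mono_ac (withDensity_absolutelyContinuous _ _)

theorem aemeas_dens {F : F2 E4 M} (hF : Vol F) (p : M) :
    AEMeasurable (fun y => ENNReal.ofReal (dens F p y))
      (volume.restrict (chartAt E4 p).target) :=
  ((hF.continuousOn_dens p).aemeasurable
    (chartAt E4 p).open_target.measurableSet).ennreal_ofReal

/-- preimage in the chart target -/
def cimg (p : M) (s : Set M) : Set E4 := (chartAt E4 p).target ∩ (chartAt E4 p).symm ⁻¹' s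

theorem measurableSet_cimg (p : M) {s : Set M} (hs : MeasurableSet s) :
    MeasurableSet (cimg p s) := by
  have h := (chartAt E4 p).continuousOn_symm
  have hm : Measurable ((chartAt E4 p).target.domRestrict (chartAt E4 p).symm) :=
    (continuousOn_iff_continuous_domRestrict.mp h).measurable
  have h2 : cimg p s = Subtype.val '' (((chartAt E4 p).target.domRestrict (chartAt E4 p).symm) ⁻¹' s) := by
    ext y
    constructor
    · rintro ⟨hy, hys⟩
      exact ⟨⟨y, hy⟩, hys, rfl⟩
    · rintro ⟨⟨z, hz⟩, hzs, rfl⟩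
      exact ⟨hz, hzs⟩
  rw [h2]
  exact MeasurableSet.subtype_image (chartAt E4 p).open_target.measurableSet (hm hs)

theorem muc_apply (F : F2 E4 M) (p : M) {s : Set M} (hs : MeasurableSet s) :
    muc F p s = ∫⁻ y in cimg p s, ENNReal.ofReal (dens F p y) := by
  unfold muc
  rw [Measure.map_apply_of_aemeasurable (aemeas_symm F p) hs]
  have h1 : nuc F p ((chartAt E4 p).symm ⁻¹' s) = nuc F p (cimg p s) := by
    apply measure_congr
    have h0 : ∀ᵐ y ∂(nuc F p), y ∈ (chartAt E4 p).target := by
      have : ∀ᵐ y ∂(volume.restrict (chartAt E4 p).target), y ∈ (chartAt E4 p).target :=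
        ae_restrict_mem (chartAt E4 p).open_target.measurableSet
      exact (withDensity_absolutelyContinuous _ _).ae_le this
    filter_upwards [h0] with y hy
    apply propext
    exact ⟨fun h => ⟨hy, h⟩, fun h => h.2⟩
  rw [h1]
  unfold nuc
  rw [withDensity_apply _ (measurableSet_cimg p hs), Measure.restrict_restrict (measurableSet_cimg p hs)]
  congr 2
  unfold cimg
  ext y; constructor
  · rintro ⟨h, _⟩; exact h
  · intro h; exact ⟨h, h.1⟩

/-- the two chart measures agree on the intersection of the chart domains. -/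
theorem muc_agree {F : F2 E4 M} (hF : Vol F) (p q : M) {s : Set M} (hs : MeasurableSet s)
    (hp : s ⊆ (chartAt E4 p).source) (hq : s ⊆ (chartAt E4 q).source) :
    muc F p s = muc F q s := by
  rw [muc_apply F p hs, muc_apply F q hs]
  set τ : E4 → E4 := chartAt E4 q ∘ (chartAt E4 p).symm with hτ
  have himg : cimg q s = τ '' (cimg p s) := by
    ext z
    constructor
    · rintro ⟨hz, hzs⟩
      refine ⟨chartAt E4 p ((chartAt E4 q).symm z), ⟨(chartAt E4 p).map_source (hp hzs), ?_⟩, ?_⟩
      · show (chartAt E4 p).symm (chartAt E4 p ((chartAt E4 q).symm z)) ∈ s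
        rw [(chartAt E4 p).left_inv (hp hzs)]; exact hzs
      · show chartAt E4 q ((chartAt E4 p).symm (chartAt E4 p ((chartAt E4 q).symm z))) = z
        rw [(chartAt E4 p).left_inv (hp hzs), (chartAt E4 q).right_inv hz]
    · rintro ⟨y, ⟨hy, hys⟩, rfl⟩
      refine ⟨(chartAt E4 q).map_source (hq hys), ?_⟩
      show (chartAt E4 q).symm (chartAt E4 q ((chartAt E4 p).symm y)) ∈ s
      rw [(chartAt E4 q).left_inv (hq hys)]; exact hys
  have hinj : InjOn τ (cimg p s) := by
    intro y hy z hz hyz
    have h1 : (chartAt E4 p).symm y = (chartAt E4 p).symm z :=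
      (chartAt E4 q).injOn (hq hy.2) (hq hz.2) hyz
    exact (chartAt E4 p).symm.injOn hy.1 hz.1 h1
  have hder : ∀ y ∈ cimg p s, HasFDerivWithinAt τ (fderiv ℝ τ y) (cimg p s) y := by
    intro y hy
    have hda : DifferentiableAt ℝ τ y :=
      (trans_contDiffAt hy.1 (hq hy.2)).differentiableAt (by norm_num)
    exact hda.hasFDerivAt.hasFDerivWithinAt
  rw [himg, lintegral_image_eq_lintegral_abs_det_fderiv_mul volume (measurableSet_cimg p hs) hder hinj]
  apply setLIntegral_congr_fun (measurableSet_cimg p hs)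
  intro y hy
  show ENNReal.ofReal (dens F p y) = ENNReal.ofReal |(fderiv ℝ τ y).det| * ENNReal.ofReal (dens F q (τ y))
  rw [← ENNReal.ofReal_mul (abs_nonneg _), ← dens_trans hF hy.1 (hq hy.2)]

end

end Crest.Agent.R240.Int
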