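import Mathlib
import Crest.Agent.R240.IntMeas

/-!
Row 240, PART INT (helper240): finite smooth partition of unity subordinate to the chart domains and
the global volume measure `mu F`.
-/

set_option autoImplicit false

open MeasureTheory Set Filter Topology Function
open scoped Manifold ContDiff ENNReal

namespace Crest.Agent.R240.Int

open Crest.Agent.R240 Crest.Agent.R240.Ch

noncomputable section

section PUsec

variable (M : Type*) [TopologicalSpace M] [ChartedSpace E4 M]

/-- finite smooth partition of unity subordinate to the chart domains. -/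
structure PU where
  t : Finset M
  χ : M → M → ℝ
  smooth : ∀ p, ContMDiff 𝓘(ℝ, E4) 𝓘(ℝ, ℝ) ∞ (χ p)
  nonneg : ∀ p x, 0 ≤ χ p x
  sum_one : ∀ x, ∑ p ∈ t, χ p x = 1
  supp : ∀ p ∈ t, tsupport (χ p) ⊆ (chartAt E4 p).source

theorem nonempty_PU [IsManifold 𝓘(ℝ, E4) ∞ M] [T2Space M] [CompactSpace M] : Nonempty (PU M) := by
  obtain ⟨f, hf⟩ := SmoothPartitionOfUnity.exists_isSubordinate_chartAt_source 𝓘(ℝ, E4) M
  have hfin : {i | (support (f i)).Nonempty}.Finite :=
    f.locallyFinite.finite_nonempty_of_compact
  refine ⟨⟨hfin.toFinset, fun p x => f p x, fun p => (f p).contMDiff, fun p x => f.nonneg p x,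
    fun x => ?_, fun p _ => hf p⟩⟩
  have h1 := f.sum_eq_one (mem_univ x)
  rw [finsum_eq_sum_of_support_subset] at h1
  · exact h1
  · intro p hp
    rw [Set.Finite.coe_toFinset]
    exact ⟨x, hp⟩

end PUsec

variable {M : Type*} [TopologicalSpace M] [ChartedSpace E4 M]

theorem PU.continuous (P : PU M) (p : M) : Continuous (P.χ p) := (P.smooth p).continuous

variable [IsManifold 𝓘(ℝ, E4) ∞ M]
variable [MeasurableSpace M] [BorelSpace M]

theorem muc_inter_source (F : F2 E4 M) (q : M) {s : Set M} (hs : MeasurableSet s) :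
    muc F q (s ∩ (chartAt E4 q).source) = muc F q s := by
  rw [muc_apply F q hs, muc_apply F q (hs.inter (chartAt E4 q).open_source.measurableSet)]
  congr 2
  ext y
  exact ⟨fun h => ⟨h.1, h.2.1⟩, fun h => ⟨h.1, h.2, (chartAt E4 q).map_target h.1⟩⟩

theorem muc_restrict_agree {F : F2 E4 M} (hF : Vol F) (p q : M) :
    (muc F p).restrict ((chartAt E4 p).source ∩ (chartAt E4 q).source)
      = (muc F q).restrict ((chartAt E4 p).source ∩ (chartAt E4 q).source) := by
  have hm : MeasurableSet ((chartAt E4 p).source ∩ (chartAt E4 q).source) :=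
    (chartAt E4 p).open_source.measurableSet.inter (chartAt E4 q).open_source.measurableSet
  ext s hs
  rw [Measure.restrict_apply hs, Measure.restrict_apply hs]
  exact muc_agree hF p q (hs.inter hm) (fun x hx => hx.2.1) (fun x hx => hx.2.2)

/-- the measure with respect to a given partition of unity. -/
def muP (P : PU M) (F : F2 E4 M) : Measure M :=
  ∑ p ∈ P.t, (muc F p).withDensity (fun x => ENNReal.ofReal (P.χ p x))

theorem muP_apply_of_subset (P : PU M) {F : F2 E4 M} (hF : Vol F) (q : M) {s : Set M}
    (hs : MeasurableSet s) (hq : s ⊆ (chartAt E4 q).source) : muP P F s = muc F q s := by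
  unfold muP
  rw [Measure.finsetSum_apply]
  have h1 : ∀ p ∈ P.t, (muc F p).withDensity (fun x => ENNReal.ofReal (P.χ p x)) s
      = ∫⁻ x in s, ENNReal.ofReal (P.χ p x) ∂(muc F q) := by
    intro p hp
    rw [withDensity_apply _ hs]
    have hm : MeasurableSet ((chartAt E4 p).source ∩ (chartAt E4 q).source) :=
      (chartAt E4 p).open_source.measurableSet.inter (chartAt E4 q).open_source.measurableSet
    have h2 : ∀ ν : Measure M, ∫⁻ x in s, ENNReal.ofReal (P.χ p x) ∂ν =
        ∫⁻ x in s ∩ ((chartAt E4 p).source ∩ (chartAt E4 q).source), ENNReal.ofReal (P.χ p x) ∂ν := by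
      intro ν
      rw [← lintegral_indicator hs, ← lintegral_indicator (hs.inter hm)]
      congr 1; funext x
      by_cases hx : x ∈ s
      · by_cases hxp : x ∈ (chartAt E4 p).source
        · have hx' : x ∈ s ∩ ((chartAt E4 p).source ∩ (chartAt E4 q).source) := ⟨hx, hxp, hq hx⟩
          rw [indicator_of_mem hx, indicator_of_mem hx']
        · have h0 : P.χ p x = 0 := by
            by_contra hne
            exact hxp (P.supp p hp (subset_tsupport _ hne))
          rw [indicator_of_mem hx, indicator_of_notMem (fun h => hxp h.2.1)]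
          simp [h0]
      · rw [indicator_of_notMem hx, indicator_of_notMem (fun h => hx h.1)]
    rw [h2 (muc F p), h2 (muc F q), ← Measure.restrict_restrict hs, ← Measure.restrict_restrict hs,
      muc_restrict_agree hF p q]
  rw [Finset.sum_congr rfl h1]
  have hmeas : ∀ p ∈ P.t, Measurable (fun x => ENNReal.ofReal (P.χ p x)) := fun p _ =>
    (P.continuous p).measurable.ennreal_ofReal
  rw [← lintegral_finsetSum P.t hmeas]
  have h3 : (fun x => ∑ p ∈ P.t, ENNReal.ofReal (P.χ p x)) = fun _ => 1 := by
    funext x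
    rw [← ENNReal.ofReal_sum_of_nonneg (fun p _ => P.nonneg p x), P.sum_one x, ENNReal.ofReal_one]
  rw [h3]
  simp

/-- **chart formula**: on the domain of the chart at `q` the measure is the chart measure. -/
theorem muP_restrict (P : PU M) {F : F2 E4 M} (hF : Vol F) (q : M) :
    (muP P F).restrict (chartAt E4 q).source = muc F q := by
  ext s hs
  rw [Measure.restrict_apply hs, muP_apply_of_subset P hF q
    (hs.inter (chartAt E4 q).open_source.measurableSet) inter_subset_right, muc_inter_source F q hs]

theorem lintegral_muc {F : F2 E4 M} (hF : Vol F) (q : M) {f : M → ℝ≥0∞} (hf : Measurable f) :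
    ∫⁻ x, f x ∂(muc F q) =
      ∫⁻ y in (chartAt E4 q).target, ENNReal.ofReal (dens F q y) * f ((chartAt E4 q).symm y) := by
  unfold muc
  rw [lintegral_map' hf.aemeasurable (aemeas_symm F q)]
  unfold nuc
  rw [lintegral_withDensity_eq_lintegral_mul₀ (aemeas_dens hF q)]
  · rfl
  · exact hf.comp_aemeasurable ((chartAt E4 q).continuousOn_symm.aemeasurable
      (chartAt E4 q).open_target.measurableSet)

/-- chart formula for lower integrals. -/
theorem lintegral_muP (P : PU M) {F : F2 E4 M} (hF : Vol F) (q : M) {f : M → ℝ≥0∞}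
    (hf : Measurable f) :
    ∫⁻ x in (chartAt E4 q).source, f x ∂(muP P F) =
      ∫⁻ y in (chartAt E4 q).target, ENNReal.ofReal (dens F q y) * f ((chartAt E4 q).symm y) := by
  rw [muP_restrict P hF q, lintegral_muc hF q hf]

variable {G : Type*} [NormedAddCommGroup G] [NormedSpace ℝ G]

theorem integral_muc {F : F2 E4 M} (hF : Vol F) (q : M) {f : M → G}
    (hf : AEStronglyMeasurable f (muc F q)) :
    ∫ x, f x ∂(muc F q) =
      ∫ y in (chartAt E4 q).target, dens F q y • f ((chartAt E4 q).symm y) := by
  unfold muc at hf ⊢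
  rw [integral_map (aemeas_symm F q) hf]
  unfold nuc
  rw [integral_withDensity_eq_integral_toReal_smul₀ (aemeas_dens hF q)
    (Eventually.of_forall fun _ => ENNReal.ofReal_lt_top)]
  congr 1
  funext y
  rw [ENNReal.toReal_ofReal (dens_nonneg F q y)]

/-- chart formula for Bochner integrals. -/
theorem integral_muP (P : PU M) {F : F2 E4 M} (hF : Vol F) (q : M) {f : M → G}
    (hf : AEStronglyMeasurable f (muP P F)) :
    ∫ x in (chartAt E4 q).source, f x ∂(muP P F) =
      ∫ y in (chartAt E4 q).target, dens F q y • f ((chartAt E4 q).symm y) := by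
  have h : AEStronglyMeasurable f (muc F q) := by
    rw [← muP_restrict P hF q]; exact hf.restrict
  rw [muP_restrict P hF q, integral_muc hF q h]

/-- chart formula for functions vanishing outside a chart domain. -/
theorem integral_muP_of_supp (P : PU M) {F : F2 E4 M} (hF : Vol F) (q : M) {f : M → G}
    (hf : AEStronglyMeasurable f (muP P F)) (h0 : ∀ x, x ∉ (chartAt E4 q).source → f x = 0) :
    ∫ x, f x ∂(muP P F) =
      ∫ y in (chartAt E4 q).target, dens F q y • f ((chartAt E4 q).symm y) := by
  rw [← integral_muP P hF q hf]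
  exact (setIntegral_eq_integral_of_forall_compl_eq_zero h0).symm

/-- independence of the partition of unity. -/
theorem muP_eq [T2Space M] [CompactSpace M] (P P' : PU M) {F : F2 E4 M} (hF : Vol F) :
    muP P F = muP P' F := by
  ext s hs
  have key : ∀ P₁ : PU M, ∀ ν : Measure M, ν s = ∑ p ∈ P'.t,
      ∫⁻ x in s ∩ (chartAt E4 p).source, ENNReal.ofReal (P'.χ p x) ∂ν := by
    intro P₁ ν
    have h2 : ∀ p ∈ P'.t, ∫⁻ x in s ∩ (chartAt E4 p).source, ENNReal.ofReal (P'.χ p x) ∂ν =
        ∫⁻ x in s, ENNReal.ofReal (P'.χ p x) ∂ν := by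
      intro p hp
      rw [← lintegral_indicator hs, ← lintegral_indicator
        (hs.inter (chartAt E4 p).open_source.measurableSet)]
      congr 1; funext x
      by_cases hx : x ∈ s
      · by_cases hxp : x ∈ (chartAt E4 p).source
        · rw [indicator_of_mem hx, indicator_of_mem (show x ∈ s ∩ _ from ⟨hx, hxp⟩)]
        · have h0 : P'.χ p x = 0 := by
            by_contra hne
            exact hxp (P'.supp p hp (subset_tsupport _ hne))
          rw [indicator_of_mem hx, indicator_of_notMem (fun h => hxp h.2)]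
          simp [h0]
      · rw [indicator_of_notMem hx, indicator_of_notMem (fun h => hx h.1)]
    rw [Finset.sum_congr rfl h2, ← lintegral_finsetSum P'.t
      (fun p _ => (P'.continuous p).measurable.ennreal_ofReal)]
    have h3 : (fun x => ∑ p ∈ P'.t, ENNReal.ofReal (P'.χ p x)) = fun _ => 1 := by
      funext x
      rw [← ENNReal.ofReal_sum_of_nonneg (fun p _ => P'.nonneg p x), P'.sum_one x,
        ENNReal.ofReal_one]
    rw [h3]
    simp
  rw [key P, key P']
  refine Finset.sum_congr rfl fun p _ => ?_
  rw [← Measure.restrict_restrict hs, ← Measure.restrict_restrict hs, muP_restrict P hF p,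
    muP_restrict P' hF p]

variable [T2Space M] [CompactSpace M]

/-- **the volume measure** of a nondegenerate two-form. -/
def mu (F : F2 E4 M) : Measure M := muP (Classical.choice (nonempty_PU M)) F

theorem mu_eq (P : PU M) {F : F2 E4 M} (hF : Vol F) : mu F = muP P F := muP_eq _ _ hF

theorem mu_restrict {F : F2 E4 M} (hF : Vol F) (q : M) :
    (mu F).restrict (chartAt E4 q).source = muc F q := muP_restrict _ hF q

theorem mu_apply {F : F2 E4 M} (hF : Vol F) (q : M) {s : Set M} (hs : MeasurableSet s)
    (hq : s ⊆ (chartAt E4 q).source) :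
    mu F s = ∫⁻ y in (chartAt E4 q).target ∩ (chartAt E4 q).symm ⁻¹' s,
      ENNReal.ofReal (dens F q y) :=
  (muP_apply_of_subset _ hF q hs hq).trans (muc_apply F q hs)

theorem lintegral_mu {F : F2 E4 M} (hF : Vol F) (q : M) {f : M → ℝ≥0∞} (hf : Measurable f) :
    ∫⁻ x in (chartAt E4 q).source, f x ∂(mu F) =
      ∫⁻ y in (chartAt E4 q).target, ENNReal.ofReal (dens F q y) * f ((chartAt E4 q).symm y) :=
  lintegral_muP _ hF q hf

theorem integral_mu {F : F2 E4 M} (hF : Vol F) (q : M) {f : M → G}
    (hf : AEStronglyMeasurable f (mu F)) :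
    ∫ x in (chartAt E4 q).source, f x ∂(mu F) =
      ∫ y in (chartAt E4 q).target, dens F q y • f ((chartAt E4 q).symm y) :=
  integral_muP _ hF q hf

theorem integral_mu_of_supp {F : F2 E4 M} (hF : Vol F) (q : M) {f : M → G}
    (hf : AEStronglyMeasurable f (mu F)) (h0 : ∀ x, x ∉ (chartAt E4 q).source → f x = 0) :
    ∫ x, f x ∂(mu F) =
      ∫ y in (chartAt E4 q).target, dens F q y • f ((chartAt E4 q).symm y) :=
  integral_muP_of_supp _ hF q hf h0

theorem isLocallyFinite_mu {F : F2 E4 M} (hF : Vol F) : IsLocallyFiniteMeasure (mu F) := by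
  refine ⟨fun x => ?_⟩
  have hy : chartAt E4 x x ∈ (chartAt E4 x).target := mem_chart_target E4 x
  obtain ⟨K, hKc, hK1, hK2⟩ := exists_compact_subset (chartAt E4 x).open_target hy
  set s : Set M := (chartAt E4 x).source ∩ chartAt E4 x ⁻¹' (interior K) with hs
  have hso : IsOpen s := (chartAt E4 x).isOpen_inter_preimage isOpen_interior
  refine ⟨s, hso.mem_nhds ⟨mem_chart_source E4 x, hK1⟩, ?_⟩
  rw [mu_apply hF x hso.measurableSet inter_subset_left]
  obtain ⟨C, hC⟩ := (hKc.image_of_continuousOn ((hF.continuousOn_dens x).mono hK2)).bddAbove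
  have hsub : (chartAt E4 x).target ∩ (chartAt E4 x).symm ⁻¹' s ⊆ K := by
    rintro y ⟨hy1, hy2⟩
    have := hy2.2
    rw [mem_preimage, (chartAt E4 x).right_inv hy1] at this
    exact interior_subset this
  calc ∫⁻ y in (chartAt E4 x).target ∩ (chartAt E4 x).symm ⁻¹' s, ENNReal.ofReal (dens F x y)
      ≤ ∫⁻ y in K, ENNReal.ofReal (dens F x y) := lintegral_mono_set hsub
    _ ≤ ∫⁻ _ in K, ENNReal.ofReal C := by
        apply setLIntegral_mono' hKc.measurableSet
        intro y hy
        exact ENNReal.ofReal_le_ofReal (hC (mem_image_of_mem _ hy))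
    _ = ENNReal.ofReal C * volume K := by simp
    _ < ⊤ := ENNReal.mul_lt_top ENNReal.ofReal_lt_top hKc.measure_lt_top

theorem isFinite_mu {F : F2 E4 M} (hF : Vol F) : IsFiniteMeasure (mu F) := by
  have := isLocallyFinite_mu hF
  exact ⟨isCompact_univ.measure_lt_top⟩

theorem isOpenPos_mu {F : F2 E4 M} (hF : Vol F) : (mu F).IsOpenPosMeasure := by
  refine ⟨fun U hU hne h0 => ?_⟩
  obtain ⟨x, hx⟩ := hne
  set s : Set M := U ∩ (chartAt E4 x).source with hs
  have hso : IsOpen s := hU.inter (chartAt E4 x).open_source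
  have h1 : mu F s = 0 := measure_mono_null inter_subset_left h0
  rw [mu_apply hF x hso.measurableSet inter_subset_right] at h1
  set T : Set E4 := (chartAt E4 x).target ∩ (chartAt E4 x).symm ⁻¹' s with hT
  have hTo : IsOpen T := (chartAt E4 x).isOpen_inter_preimage_symm hso
  have hTne : chartAt E4 x x ∈ T := by
    refine ⟨mem_chart_target E4 x, ?_⟩
    rw [mem_preimage, (chartAt E4 x).left_inv (mem_chart_source E4 x)]
    exact ⟨hx, mem_chart_source E4 x⟩
  have hmeas : AEMeasurable (fun y => ENNReal.ofReal (dens F x y)) (volume.restrict T) :=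
    (((hF.continuousOn_dens x).mono inter_subset_left).aemeasurable
      hTo.measurableSet).ennreal_ofReal
  rw [lintegral_eq_zero_iff' hmeas] at h1
  have h2 : ∀ᵐ y ∂(volume.restrict T), False := by
    filter_upwards [h1, ae_restrict_mem hTo.measurableSet] with y hy hyT
    have := hF.dens_pos hyT.1
    simp only [Pi.zero_apply, ENNReal.ofReal_eq_zero] at hy
    linarith
  have h3 : volume T = 0 := by
    have := ae_iff.mp h2
    simpa using this
  exact (hTo.measure_pos volume ⟨_, hTne⟩).ne' h3

end

end Crest.Agent.R240.Int
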