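import Mathlib
import Crest.Agent.R240.Lin1
import Crest.Agent.R240.Ch3

/-!
Row 240, PART INT (helper240): Stokes on `ℝ⁴` in the form `∫ W (dS) c = 0`.
-/

set_option autoImplicit false

open MeasureTheory Set Filter Topology

namespace Crest.Agent.R240.Int

open Crest.Agent.R240 Crest.Agent.R240.Ch

noncomputable section

theorem d1_alt (S : E4 → E4 →L[ℝ] ℝ) (y : E4) : Alt (Ch.d1 S y) := by
  intro v; simp [Ch.d1_apply]

/-- closedness of a two-form at a point (cyclic sum of derivatives). -/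
def ClAt (c : E4 → Bil) (y : E4) : Prop :=
  ∀ u v w, Ch.dd c y u v w = 0

/-- the integral of a derivative of a compactly supported function vanishes. -/
theorem integral_fderiv_zero {V : E4 → ℝ} (hV : ContDiff ℝ 1 V) (hc : HasCompactSupport V)
    (v : E4) : ∫ y, fderiv ℝ V y v = 0 := by
  have hcont : Continuous (fun y => fderiv ℝ V y v) :=
    (hV.continuous_fderiv (by norm_num)).clm_apply continuous_const
  have hcs : HasCompactSupport (fun y => fderiv ℝ V y v) := by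
    have := hc.fderiv (𝕜 := ℝ)
    exact this.comp_left (g := fun L : E4 →L[ℝ] ℝ => L v) (by simp)
  have h := integral_mul_fderiv_eq_neg_fderiv_mul_of_integrable (𝕜 := ℝ) (μ := (volume : Measure E4))
    (f := fun _ => (1 : ℝ)) (g := V) (v := v) (by simp)
    (by simpa using hcont.integrable_of_hasCompactSupport hcs)
    (by simpa using hV.continuous.integrable_of_hasCompactSupport hc)
    (by intro x _; exact differentiableAt_const _) (by intro x _; exact hV.differentiable (by norm_num) x)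
  simpa using h

theorem comp1_diff {S : E4 → E4 →L[ℝ] ℝ} {y : E4} (h : DifferentiableAt ℝ S y) (j : Fin 4) :
    DifferentiableAt ℝ (fun z => S z (ee j)) y ∧
      ∀ v, fderiv ℝ (fun z => S z (ee j)) y v = fderiv ℝ S y v (ee j) := by
  have h1 := h.hasFDerivAt.clm_apply (hasFDerivAt_const (ee j) y)
  refine ⟨h1.differentiableAt, fun v => ?_⟩
  rw [h1.fderiv]
  simp

theorem comp2_diff {c : E4 → Bil} {y : E4} (h : DifferentiableAt ℝ c y) (k l : Fin 4) :
    DifferentiableAt ℝ (fun z => ent (c z) k l) y ∧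
      ∀ v, fderiv ℝ (fun z => ent (c z) k l) y v = fderiv ℝ c y v (ee k) (ee l) := by
  have h1 := (h.hasFDerivAt.clm_apply (hasFDerivAt_const (ee k) y)).clm_apply
    (hasFDerivAt_const (ee l) y)
  refine ⟨h1.differentiableAt, fun v => ?_⟩
  have h2 : fderiv ℝ (fun z => ent (c z) k l) y = _ := h1.fderiv
  rw [h2]
  simp

/-- elementary product of a component of `S` and a component of `c`. -/
def Pr (S : E4 → E4 →L[ℝ] ℝ) (c : E4 → Bil) (j k l : Fin 4) (z : E4) : ℝ :=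
  S z (ee j) * ent (c z) k l

theorem fderiv_Pr {S : E4 → E4 →L[ℝ] ℝ} {c : E4 → Bil} {y : E4} (hS : DifferentiableAt ℝ S y)
    (hc : DifferentiableAt ℝ c y) (j k l : Fin 4) (v : E4) :
    fderiv ℝ (Pr S c j k l) y v =
      fderiv ℝ S y v (ee j) * ent (c y) k l + S y (ee j) * fderiv ℝ c y v (ee k) (ee l) := by
  obtain ⟨d1', e1⟩ := comp1_diff hS j
  obtain ⟨d2', e2⟩ := comp2_diff hc k l
  have h2 : fderiv ℝ (Pr S c j k l) y = _ := (d1'.hasFDerivAt.mul d2'.hasFDerivAt).fderiv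
  rw [h2]
  simp only [add_apply, smul_apply, smul_eq_mul, e1, e2]
  ring

theorem contDiff_Pr {S : E4 → E4 →L[ℝ] ℝ} {c : E4 → Bil} {U : Set E4} (hU : IsOpen U)
    (hS : ContDiff ℝ 1 S) (hsupp : tsupport S ⊆ U) (hc : ContDiffOn ℝ 1 c U) (j k l : Fin 4) :
    ContDiff ℝ 1 (Pr S c j k l) := by
  rw [contDiff_iff_contDiffAt]
  intro y
  by_cases hy : y ∈ tsupport S
  · have hcy : ContDiffAt ℝ 1 c y := (hc y (hsupp hy)).contDiffAt (hU.mem_nhds (hsupp hy))
    have h1 : ContDiffAt ℝ 1 (fun z => S z (ee j)) y :=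
      hS.contDiffAt.clm_apply contDiffAt_const
    have h2 : ContDiffAt ℝ 1 (fun z => ent (c z) k l) y :=
      (hcy.clm_apply contDiffAt_const).clm_apply contDiffAt_const
    exact h1.mul h2
  · have : Pr S c j k l =ᶠ[𝓝 y] fun _ => 0 := by
      have h0 := notMem_tsupport_iff_eventuallyEq.mp hy
      filter_upwards [h0] with z hz
      simp [Pr, hz]
    exact (contDiffAt_const).congr_of_eventuallyEq this

theorem compact_Pr {S : E4 → E4 →L[ℝ] ℝ} {c : E4 → Bil} (hS : HasCompactSupport S) (j k l : Fin 4) :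
    HasCompactSupport (Pr S c j k l) := by
  refine hS.mono' ?_
  intro y hy
  apply subset_tsupport
  rw [Function.mem_support] at hy ⊢
  intro h0
  apply hy
  simp [Pr, h0]

theorem integral_Pr_zero {S : E4 → E4 →L[ℝ] ℝ} {c : E4 → Bil} {U : Set E4} (hU : IsOpen U)
    (hS : ContDiff ℝ 1 S) (hcs : HasCompactSupport S) (hsupp : tsupport S ⊆ U)
    (hc : ContDiffOn ℝ 1 c U) (j k l i : Fin 4) :
    ∫ y, fderiv ℝ (Pr S c j k l) y (ee i) = 0 ∧
      Integrable (fun y => fderiv ℝ (Pr S c j k l) y (ee i)) := by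
  have h1 := contDiff_Pr hU hS hsupp hc j k l
  have h2 := compact_Pr (c := c) hcs j k l
  refine ⟨integral_fderiv_zero h1 h2 _, ?_⟩
  have hcont : Continuous (fun y => fderiv ℝ (Pr S c j k l) y (ee i)) :=
    (h1.continuous_fderiv (by norm_num)).clm_apply continuous_const
  have hcs : HasCompactSupport (fun y => fderiv ℝ (Pr S c j k l) y (ee i)) := by
    have := h2.fderiv (𝕜 := ℝ)
    exact this.comp_left (g := fun L : E4 →L[ℝ] ℝ => L (ee i)) (by simp)
  exact hcont.integrable_of_hasCompactSupport hcs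

/-- integrable with zero integral -/
def IZ (f : E4 → ℝ) : Prop := Integrable f ∧ ∫ y, f y = 0

theorem IZ.add {f g : E4 → ℝ} (hf : IZ f) (hg : IZ g) : IZ (fun y => f y + g y) :=
  ⟨hf.1.add hg.1, by rw [integral_add hf.1 hg.1, hf.2, hg.2, add_zero]⟩

theorem IZ.sub {f g : E4 → ℝ} (hf : IZ f) (hg : IZ g) : IZ (fun y => f y - g y) :=
  ⟨hf.1.sub hg.1, by rw [integral_sub hf.1 hg.1, hf.2, hg.2, sub_zero]⟩

theorem IZ.neg {f : E4 → ℝ} (hf : IZ f) : IZ (fun y => - f y) :=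
  ⟨hf.1.neg, by rw [integral_neg, hf.2, neg_zero]⟩

/-- pointwise: `W (dS) c` is a divergence when `c` is closed. -/
theorem W_d1_eq {S : E4 → E4 →L[ℝ] ℝ} {c : E4 → Bil} {y : E4} (hS : DifferentiableAt ℝ S y)
    (hc : DifferentiableAt ℝ c y) (hcl : ClAt c y) :
    W (d1 S y) (c y) =
      (fderiv ℝ (Pr S c 1 2 3) y (ee 0) - fderiv ℝ (Pr S c 2 1 3) y (ee 0)
        + fderiv ℝ (Pr S c 3 1 2) y (ee 0))
      + (- fderiv ℝ (Pr S c 0 2 3) y (ee 1) + fderiv ℝ (Pr S c 2 0 3) y (ee 1)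
        - fderiv ℝ (Pr S c 3 0 2) y (ee 1))
      + (fderiv ℝ (Pr S c 0 1 3) y (ee 2) - fderiv ℝ (Pr S c 1 0 3) y (ee 2)
        + fderiv ℝ (Pr S c 3 0 1) y (ee 2))
      + (- fderiv ℝ (Pr S c 0 1 2) y (ee 3) + fderiv ℝ (Pr S c 1 0 2) y (ee 3)
        - fderiv ℝ (Pr S c 2 0 1) y (ee 3)) := by
  simp only [fderiv_Pr hS hc]
  have e1 : ∀ i j, ent (d1 S y) i j = fderiv ℝ S y (ee i) (ee j) - fderiv ℝ S y (ee j) (ee i) :=
    fun i j => d1_apply _ _ _ _
  unfold W
  simp only [e1]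
  have h123 := hcl (ee 1) (ee 2) (ee 3)
  have h023 := hcl (ee 0) (ee 2) (ee 3)
  have h013 := hcl (ee 0) (ee 1) (ee 3)
  have h012 := hcl (ee 0) (ee 1) (ee 2)
  unfold Ch.dd at h123 h023 h013 h012
  linear_combination (S y (ee 0)) * h123 - (S y (ee 1)) * h023 + (S y (ee 2)) * h013
    - (S y (ee 3)) * h012

/-- **Stokes on `ℝ⁴`**: `∫ dS ∧ c = 0` for `S` of class `C¹` with compact support in the open set
`U` on which `c` is `C¹` and closed. -/
theorem stokes_R4 {S : E4 → E4 →L[ℝ] ℝ} {c : E4 → Bil} {U : Set E4} (hU : IsOpen U)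
    (hS : ContDiff ℝ 1 S) (hcs : HasCompactSupport S) (hsupp : tsupport S ⊆ U)
    (hc : ContDiffOn ℝ 1 c U) (hcl : ∀ y ∈ U, ClAt c y) :
    IZ (fun y => W (d1 S y) (c y)) := by
  have key : (fun y => W (d1 S y) (c y)) = fun y =>
      (fderiv ℝ (Pr S c 1 2 3) y (ee 0) - fderiv ℝ (Pr S c 2 1 3) y (ee 0)
        + fderiv ℝ (Pr S c 3 1 2) y (ee 0))
      + (- fderiv ℝ (Pr S c 0 2 3) y (ee 1) + fderiv ℝ (Pr S c 2 0 3) y (ee 1)
        - fderiv ℝ (Pr S c 3 0 2) y (ee 1))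
      + (fderiv ℝ (Pr S c 0 1 3) y (ee 2) - fderiv ℝ (Pr S c 1 0 3) y (ee 2)
        + fderiv ℝ (Pr S c 3 0 1) y (ee 2))
      + (- fderiv ℝ (Pr S c 0 1 2) y (ee 3) + fderiv ℝ (Pr S c 1 0 2) y (ee 3)
        - fderiv ℝ (Pr S c 2 0 1) y (ee 3)) := by
    funext y
    by_cases hy : y ∈ tsupport S
    · have hcy : DifferentiableAt ℝ c y :=
        ((hc y (hsupp hy)).contDiffAt (hU.mem_nhds (hsupp hy))).differentiableAt (by norm_num)
      exact W_d1_eq (hS.differentiable (by norm_num) y) hcy (hcl y (hsupp hy))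
    · have h0 := notMem_tsupport_iff_eventuallyEq.mp hy
      have hf : fderiv ℝ S y = 0 := by
        rw [h0.fderiv_eq]; simp
      have hd : d1 S y = 0 := by
        ext u v
        rw [d1_apply, hf]; simp
      have hP : ∀ j k l, fderiv ℝ (Pr S c j k l) y = 0 := by
        intro j k l
        have : Pr S c j k l =ᶠ[𝓝 y] fun _ => 0 := by
          filter_upwards [h0] with z hz
          simp [Pr, hz]
        rw [this.fderiv_eq]; simp
      simp [hd, hP, W, ent]
  have I : ∀ j k l i, IZ (fun y => fderiv ℝ (Pr S c j k l) y (ee i)) := fun j k l i =>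
    ⟨(integral_Pr_zero hU hS hcs hsupp hc j k l i).2, (integral_Pr_zero hU hS hcs hsupp hc j k l i).1⟩
  rw [key]
  exact (((((I 1 2 3 0).sub (I 2 1 3 0)).add (I 3 1 2 0)).add
    (((I 0 2 3 1).neg.add (I 2 0 3 1)).sub (I 3 0 2 1))).add
    (((I 0 1 3 2).sub (I 1 0 3 2)).add (I 3 0 1 2))).add
    (((I 0 1 2 3).neg.add (I 1 0 2 3)).sub (I 2 0 1 3))

end

end Crest.Agent.R240.Int
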