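import Crest.Agent.R240.XDefs
import Crest.Agent.R240.TopDefs

/-!
Row 240 (S0371), helper456: abbreviations for the Hodge norm of 23's `TopDefs` and the star.
-/

set_option autoImplicit false
set_option maxSynthPendingDepth 3

open scoped Manifold ContDiff Topology

namespace Crest.Agent.R240

noncomputable section

/-- Hodge norm (`= nr` of `TopDefs`). -/
abbrev pn (J : E4 →L[ℝ] E4) (F b : Bil) : ℝ := nr J F b

/-- Hodge star. -/
def hstar (J : E4 →L[ℝ] E4) (F b : Bil) : Bil := (2 * q F b F) • F - invp J b + antip J b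

namespace Ch

variable {M : Type*} [TopologicalSpace M] [ChartedSpace E4 M] [IsManifold 𝓘(ℝ, E4) ∞ M]

/-- pointwise inner product on `M`. -/
def ipM (J : EndF E4 M) (F b c : F2 E4 M) (x : M) : ℝ := ip (atJ J x) (at2 F x) (at2 b x) (at2 c x)

/-- pointwise squared norm on `M`. -/
abbrev nsqM (J : EndF E4 M) (F b : F2 E4 M) (x : M) : ℝ := nsqG J F b x

/-- pointwise norm on `M`. -/
abbrev nrm (J : EndF E4 M) (F b : F2 E4 M) (x : M) : ℝ := nrG J F b x

/-- Hodge star on `M`. -/
def hstarM (J : EndF E4 M) (F b : F2 E4 M) : F2 E4 M := fun x =>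
  (hstar (atJ J x) (at2 F x) (at2 b x) : Bil)

end Ch

end

end Crest.Agent.R240
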