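import Crest.Agent.R240.Lin5
import Crest.Agent.R240.NrmDefs

/-!
Row 240, PART L (helper798): the Hodge inner product `ip J F`, the fibre norm `nsq J F` (proposal of
helper744), the star operator, comparison with the operator norm, self-duality of the positive cone.
-/

set_option autoImplicit false
set_option synthInstance.maxHeartbeats 400000
set_option maxSynthPendingDepth 3
set_option linter.unusedSimpArgs false
set_option linter.unusedVariables false

namespace Crest.Agent.R240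

noncomputable section

theorem invp_add (J : E4 →L[ℝ] E4) (b c : Bil) : invp J (b + c) = invp J b + invp J c := by
  ext u v
  have h : (invp J b + invp J c) u v = invp J b u v + invp J c u v := rfl
  rw [h, invp_apply, invp_apply, invp_apply]
  simp only [add_apply]; ring

theorem invp_sub (J : E4 →L[ℝ] E4) (b c : Bil) : invp J (b - c) = invp J b - invp J c := by
  ext u v
  have h : (invp J b - invp J c) u v = invp J b u v - invp J c u v := rfl
  rw [h, invp_apply, invp_apply, invp_apply]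
  simp only [sub_apply]; ring

theorem invp_smul (J : E4 →L[ℝ] E4) (r : ℝ) (c : Bil) : invp J (r • c) = r • invp J c := by
  ext u v
  have h : (r • invp J c) u v = r * invp J c u v := rfl
  rw [h, invp_apply, invp_apply]
  simp only [smul_apply, smul_eq_mul]; ring

theorem antip_add (J : E4 →L[ℝ] E4) (b c : Bil) : antip J (b + c) = antip J b + antip J c := by
  ext u v
  have h : (antip J b + antip J c) u v = antip J b u v + antip J c u v := rfl
  rw [h, antip_apply, antip_apply, antip_apply]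
  simp only [add_apply]; ring

theorem antip_sub (J : E4 →L[ℝ] E4) (b c : Bil) : antip J (b - c) = antip J b - antip J c := by
  ext u v
  have h : (antip J b - antip J c) u v = antip J b u v - antip J c u v := rfl
  rw [h, antip_apply, antip_apply, antip_apply]
  simp only [sub_apply]; ring

theorem antip_smul (J : E4 →L[ℝ] E4) (r : ℝ) (c : Bil) : antip J (r • c) = r • antip J c := by
  ext u v
  have h : (r • antip J c) u v = r * antip J c u v := rfl
  rw [h, antip_apply, antip_apply]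
  simp only [smul_apply, smul_eq_mul]; ring

theorem ip_comm (J : E4 →L[ℝ] E4) (F b c : Bil) : ip J F b c = ip J F c b := by
  unfold ip
  rw [q_comm F (invp J b), q_comm F (antip J b)]; ring

theorem ip_add_left (J : E4 →L[ℝ] E4) (F a b c : Bil) :
    ip J F (a + b) c = ip J F a c + ip J F b c := by
  unfold ip
  rw [invp_add, antip_add, q_add_left, q_add_left, q_add_left]; ring

theorem ip_add_right (J : E4 →L[ℝ] E4) (F a b c : Bil) :
    ip J F a (b + c) = ip J F a b + ip J F a c := by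
  rw [ip_comm, ip_add_left, ip_comm J F b, ip_comm J F c]

theorem ip_sub_left (J : E4 →L[ℝ] E4) (F a b c : Bil) :
    ip J F (a - b) c = ip J F a c - ip J F b c := by
  unfold ip
  rw [invp_sub, antip_sub, q_sub_left, q_sub_left, q_sub_left]; ring

theorem ip_sub_right (J : E4 →L[ℝ] E4) (F a b c : Bil) :
    ip J F a (b - c) = ip J F a b - ip J F a c := by
  rw [ip_comm, ip_sub_left, ip_comm J F b, ip_comm J F c]

theorem ip_smul_left (J : E4 →L[ℝ] E4) (F : Bil) (r : ℝ) (b c : Bil) :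
    ip J F (r • b) c = r * ip J F b c := by
  unfold ip
  rw [invp_smul, antip_smul, q_smul_left, q_smul_left, q_smul_left]; ring

theorem ip_smul_right (J : E4 →L[ℝ] E4) (F : Bil) (r : ℝ) (b c : Bil) :
    ip J F b (r • c) = r * ip J F b c := by
  rw [ip_comm, ip_smul_left, ip_comm]

theorem nsq_smul (J : E4 →L[ℝ] E4) (F : Bil) (r : ℝ) (b : Bil) :
    nsq J F (r • b) = r ^ 2 * nsq J F b := by
  unfold nsq; rw [ip_smul_left, ip_smul_right]; ring

theorem nsq_add (J : E4 →L[ℝ] E4) (F b c : Bil) :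
    nsq J F (b + c) = nsq J F b + 2 * ip J F b c + nsq J F c := by
  unfold nsq; rw [ip_add_left, ip_add_right, ip_add_right, ip_comm J F c b]; ring

theorem nsq_sub (J : E4 →L[ℝ] E4) (F b c : Bil) :
    nsq J F (b - c) = nsq J F b - 2 * ip J F b c + nsq J F c := by
  unfold nsq; rw [ip_sub_left, ip_sub_right, ip_sub_right, ip_comm J F c b]; ring

theorem ent_pull_invp {J : E4 →L[ℝ] E4} {F : Bil} {A : E4 ≃L[ℝ] E4} (hA : IsFrame J F A) (b : Bil) :
    pull (A : E4 →L[ℝ] E4) (invp J b) = invp J0 (pull (A : E4 →L[ℝ] E4) b) := by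
  ext u v
  rw [pull_apply, invp_apply, invp_apply, pull_apply, pull_apply]
  simp only [ContinuousLinearEquiv.coe_coe, hA.cplx]

theorem ent_pull_antip {J : E4 →L[ℝ] E4} {F : Bil} {A : E4 ≃L[ℝ] E4} (hA : IsFrame J F A) (b : Bil) :
    pull (A : E4 →L[ℝ] E4) (antip J b) = antip J0 (pull (A : E4 →L[ℝ] E4) b) := by
  ext u v
  rw [pull_apply, antip_apply, antip_apply, pull_apply, pull_apply]
  simp only [ContinuousLinearEquiv.coe_coe, hA.cplx]

/-- `ip` in a unitary frame. -/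
theorem ip_frame {J : E4 →L[ℝ] E4} (hJ : ∀ v, J (J v) = -v) {F : Bil} (hF : Alt F)
    {A : E4 ≃L[ℝ] E4} (hA : IsFrame J F A) {b c : Bil} (hb : Alt b) (hc : Alt c) :
    ip J F b c = (ent (pull (A : E4 →L[ℝ] E4) b) 0 1 * ent (pull (A : E4 →L[ℝ] E4) c) 0 1
      + ent (pull (A : E4 →L[ℝ] E4) b) 0 2 * ent (pull (A : E4 →L[ℝ] E4) c) 0 2
      + ent (pull (A : E4 →L[ℝ] E4) b) 0 3 * ent (pull (A : E4 →L[ℝ] E4) c) 0 3
      + ent (pull (A : E4 →L[ℝ] E4) b) 1 2 * ent (pull (A : E4 →L[ℝ] E4) c) 1 2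
      + ent (pull (A : E4 →L[ℝ] E4) b) 1 3 * ent (pull (A : E4 →L[ℝ] E4) c) 1 3
      + ent (pull (A : E4 →L[ℝ] E4) b) 2 3 * ent (pull (A : E4 →L[ℝ] E4) c) 2 3) / 2 := by
  unfold ip
  rw [hA.q_eq hF hb hF, hA.q_eq hF hc hF, hA.q_eq hF (hb.invp J) (hc.invp J),
    hA.q_eq hF (hb.antip J) (hc.antip J), hA.pull_form, ent_pull_invp hA, ent_pull_invp hA,
    ent_pull_antip hA, ent_pull_antip hA]
  have hb' := hb.pull (A : E4 →L[ℝ] E4)
  have hc' := hc.pull (A : E4 →L[ℝ] E4)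
  generalize pull (A : E4 →L[ℝ] E4) b = β at *
  generalize pull (A : E4 →L[ℝ] E4) c = γ at *
  have h1 : ∀ (b : Bil) i j, ent (invp J0 b) i j = (ent b i j + b (J0 (ee i)) (J0 (ee j))) / 2 :=
    fun b i j => invp_apply J0 b (ee i) (ee j)
  have h2 : ∀ (b : Bil) i j, ent (antip J0 b) i j = (ent b i j - b (J0 (ee i)) (J0 (ee j))) / 2 :=
    fun b i j => antip_apply J0 b (ee i) (ee j)
  have h3 : ∀ i j, ent om0 i j = om0 (ee i) (ee j) := fun i j => rfl
  have e : ∀ (b : Bil) i j, b (ee i) (ee j) = ent b i j := fun b i j => rfl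
  have s10 : ∀ {b : Bil}, Alt b → ent b 1 0 = - ent b 0 1 := fun h => h.ent_swap 1 0
  have s20 : ∀ {b : Bil}, Alt b → ent b 2 0 = - ent b 0 2 := fun h => h.ent_swap 2 0
  have s30 : ∀ {b : Bil}, Alt b → ent b 3 0 = - ent b 0 3 := fun h => h.ent_swap 3 0
  have s21 : ∀ {b : Bil}, Alt b → ent b 2 1 = - ent b 1 2 := fun h => h.ent_swap 2 1
  have s31 : ∀ {b : Bil}, Alt b → ent b 3 1 = - ent b 1 3 := fun h => h.ent_swap 3 1
  have s32 : ∀ {b : Bil}, Alt b → ent b 3 2 = - ent b 2 3 := fun h => h.ent_swap 3 2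
  have hW1 : W β om0 = ent β 0 1 + ent β 2 3 := by
    unfold W; simp only [h3, om0_apply, ee_apply]; simp
  have hW2 : W γ om0 = ent γ 0 1 + ent γ 2 3 := by
    unfold W; simp only [h3, om0_apply, ee_apply]; simp
  rw [hW1, hW2]
  unfold W
  simp only [h1, h2, J0_ee0, J0_ee1, J0_ee2, J0_ee3, map_neg, neg_apply, e, s10 hb', s20 hb',
    s30 hb', s21 hb', s31 hb', s32 hb', s10 hc', s20 hc', s30 hc', s21 hc', s31 hc', s32 hc']
  ring

theorem nsq_frame {J : E4 →L[ℝ] E4} (hJ : ∀ v, J (J v) = -v) {F : Bil} (hF : Alt F)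
    {A : E4 ≃L[ℝ] E4} (hA : IsFrame J F A) {b : Bil} (hb : Alt b) :
    nsq J F b = N0 (pull (A : E4 →L[ℝ] E4) b) / 2 := by
  unfold nsq
  rw [ip_frame hJ hF hA hb hb]
  unfold N0; ring

namespace Bd

variable {J : E4 →L[ℝ] E4} {F : Bil} {m M : ℝ}

theorem nsq_nonneg (h : Bd J F m M) {b : Bil} (hb : Alt b) : 0 ≤ nsq J F b := by
  obtain ⟨A, hA⟩ := exists_frame h.sq h.spos
  rw [nsq_frame h.sq h.spos.alt hA hb]
  have := N0_nonneg (pull (A : E4 →L[ℝ] E4) b)
  positivity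

/-- comparison with the operator norm -/
theorem norm_sq_le_nsq (h : Bd J F m M) {b : Bil} (hb : Alt b) :
    ‖b‖ ^ 2 ≤ 2 * M ^ 2 * nsq J F b := by
  obtain ⟨A, hA, -, h2⟩ := h.frame
  rw [nsq_frame h.sq h.spos.alt hA hb]
  have h3 := h.norm_le_pull h2 b
  have h4 := norm_sq_le_N0 (hb.pull (A : E4 →L[ℝ] E4))
  have hM := h.M_pos
  calc ‖b‖ ^ 2 ≤ (M * ‖pull (A : E4 →L[ℝ] E4) b‖) ^ 2 := by
        have : 0 ≤ ‖b‖ := norm_nonneg b
        gcongr
    _ = M ^ 2 * ‖pull (A : E4 →L[ℝ] E4) b‖ ^ 2 := by ring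
    _ ≤ M ^ 2 * N0 (pull (A : E4 →L[ℝ] E4) b) := by gcongr
    _ = _ := by ring

theorem nsq_le_norm_sq (h : Bd J F m M) {b : Bil} (hb : Alt b) :
    nsq J F b ≤ 3 / m ^ 2 * ‖b‖ ^ 2 := by
  obtain ⟨A, hA, h1, -⟩ := h.frame
  rw [nsq_frame h.sq h.spos.alt hA hb]
  have h3 := h.norm_pull_le h1 b
  have h4 := N0_le (pull (A : E4 →L[ℝ] E4) b)
  have hm := h.m_pos
  calc N0 (pull (A : E4 →L[ℝ] E4) b) / 2 ≤ (6 * ‖pull (A : E4 →L[ℝ] E4) b‖ ^ 2) / 2 := by gcongr
    _ ≤ (6 * (‖b‖ / m) ^ 2) / 2 := by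
      have : 0 ≤ ‖pull (A : E4 →L[ℝ] E4) b‖ := norm_nonneg _
      gcongr
    _ = _ := by field_simp; ring

theorem nsq_eq_zero (h : Bd J F m M) {b : Bil} (hb : Alt b) (h0 : nsq J F b = 0) : b = 0 := by
  have h1 := h.norm_sq_le_nsq hb
  rw [h0, mul_zero] at h1
  have h2 : ‖b‖ = 0 := by
    have : ‖b‖ ^ 2 = 0 := le_antisymm h1 (by positivity)
    exact pow_eq_zero_iff (n := 2) (by norm_num) |>.1 this
  exact norm_eq_zero.1 h2

theorem ip_sq_le (h : Bd J F m M) {b c : Bil} (hb : Alt b) (hc : Alt c) :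
    ip J F b c ^ 2 ≤ nsq J F b * nsq J F c := by
  obtain ⟨A, hA⟩ := exists_frame h.sq h.spos
  rw [nsq_frame h.sq h.spos.alt hA hb, nsq_frame h.sq h.spos.alt hA hc,
    ip_frame h.sq h.spos.alt hA hb hc]
  have := cs6 (ent (pull (A : E4 →L[ℝ] E4) c) 0 1) (ent (pull (A : E4 →L[ℝ] E4) c) 0 2)
    (ent (pull (A : E4 →L[ℝ] E4) c) 0 3) (ent (pull (A : E4 →L[ℝ] E4) c) 1 2)
    (ent (pull (A : E4 →L[ℝ] E4) c) 1 3) (ent (pull (A : E4 →L[ℝ] E4) c) 2 3)
    (ent (pull (A : E4 →L[ℝ] E4) b) 0 1) (ent (pull (A : E4 →L[ℝ] E4) b) 0 2)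
    (ent (pull (A : E4 →L[ℝ] E4) b) 0 3) (ent (pull (A : E4 →L[ℝ] E4) b) 1 2)
    (ent (pull (A : E4 →L[ℝ] E4) b) 1 3) (ent (pull (A : E4 →L[ℝ] E4) b) 2 3)
  unfold N0
  rw [div_pow, div_mul_div_comm]
  have h4 : (2:ℝ) ^ 2 = 2 * 2 := by norm_num
  rw [h4]
  apply div_le_div_of_nonneg_right _ (by norm_num)
  linarith

theorem abs_ip_le (h : Bd J F m M) {b c : Bil} (hb : Alt b) (hc : Alt c) :
    |ip J F b c| ≤ Real.sqrt (nsq J F b) * Real.sqrt (nsq J F c) := by
  rw [← Real.sqrt_mul (h.nsq_nonneg hb)]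
  exact Real.abs_le_sqrt (h.ip_sq_le hb hc)

/-- triangle inequality for `√nsq`. -/
theorem sqrt_nsq_add_le (h : Bd J F m M) {b c : Bil} (hb : Alt b) (hc : Alt c) :
    Real.sqrt (nsq J F (b + c)) ≤ Real.sqrt (nsq J F b) + Real.sqrt (nsq J F c) := by
  apply Real.sqrt_le_iff.2
  refine ⟨by positivity, ?_⟩
  rw [nsq_add]
  have h1 := (abs_le.1 (h.abs_ip_le hb hc)).2
  have h2 := Real.sq_sqrt (h.nsq_nonneg hb)
  have h3 := Real.sq_sqrt (h.nsq_nonneg hc)
  nlinarith

theorem nsq_anti (h : Bd J F m M) {c : Bil} (hc' : Alt c)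
    (hc : ∀ u v, c (J u) (J v) = - c u v) : nsq J F c = q F c c := by
  unfold nsq ip
  rw [h.q_mixed' h.spos.alt hc' h.spos.inv hc, invp_of_anti hc, antip_of_anti hc]
  have : q F (0 : Bil) 0 = 0 := by
    have := q_smul_left F 0 0 0
    rw [zero_smul, zero_mul] at this; exact this
  rw [this]; ring

theorem nsq_inv (h : Bd J F m M) {c : Bil} 
    (hc : ∀ u v, c (J u) (J v) = c u v) : nsq J F c = 2 * q F c F ^ 2 - q F c c := by
  unfold nsq ip
  rw [invp_of_inv hc, antip_of_inv hc]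
  have : q F (0 : Bil) 0 = 0 := by
    have := q_smul_left F 0 0 0
    rw [zero_smul, zero_mul] at this; exact this
  rw [this]; ring

/-- `nsq b = nsq b' + nsq b''`. -/
theorem nsq_split (h : Bd J F m M) {b : Bil} (hb : Alt b) :
    nsq J F b = nsq J F (invp J b) + nsq J F (antip J b) := by
  rw [h.nsq_anti (hb.antip J) (antip_anti h.sq b), h.nsq_inv (invp_inv h.sq b)]
  unfold nsq ip
  have e : q F b F = q F (invp J b) F := by
    rw [q_comm, h.q_inv_left h.spos.alt h.spos.inv hb, q_comm]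
  rw [e]; ring

/-- `q(b'',b'') = nsq b''`. -/
theorem q_anti_self (h : Bd J F m M) {b : Bil} (hb : Alt b) :
    q F (antip J b) (antip J b) = nsq J F (antip J b) :=
  (h.nsq_anti (hb.antip J) (antip_anti h.sq b)).symm

theorem nsq_F (h : Bd J F m M) : nsq J F F = 1 := by
  rw [h.nsq_inv h.spos.inv, h.q_self]; norm_num

theorem nsq_invp_le (h : Bd J F m M) {b : Bil} (hb : Alt b) : nsq J F (invp J b) ≤ nsq J F b := by
  rw [h.nsq_split hb]
  have := h.nsq_nonneg (hb.antip J)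
  linarith

theorem nsq_antip_le (h : Bd J F m M) {b : Bil} (hb : Alt b) : nsq J F (antip J b) ≤ nsq J F b := by
  rw [h.nsq_split hb]
  have := h.nsq_nonneg (hb.invp J)
  linarith

theorem star_alt (h : Bd J F m M) {c : Bil} (hc : Alt c) : Alt (hstar J F c) := by
  unfold hstar
  exact ((h.spos.alt.smul _).sub (hc.invp J)).add (hc.antip J)

theorem invp_star (h : Bd J F m M) (c : Bil) :
    invp J (hstar J F c) = (2 * q F c F) • F - invp J c := by
  unfold hstar
  rw [invp_add, invp_sub, invp_smul, invp_of_inv h.spos.inv, invp_of_inv (invp_inv h.sq c),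
    invp_of_anti (antip_anti h.sq c), add_zero]

theorem antip_star (h : Bd J F m M) (c : Bil) : antip J (hstar J F c) = antip J c := by
  unfold hstar
  rw [antip_add, antip_sub, antip_smul, antip_of_inv h.spos.inv, antip_of_inv (invp_inv h.sq c),
    antip_of_anti (antip_anti h.sq c), smul_zero, sub_zero, zero_add]

theorem q_invp_F (h : Bd J F m M) {b : Bil} (hb : Alt b) : q F (invp J b) F = q F b F := by
  rw [q_comm, ← h.q_inv_left h.spos.alt h.spos.inv hb, q_comm]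

theorem q_antip_F (h : Bd J F m M) {b : Bil} (hb : Alt b) : q F (antip J b) F = 0 :=
  h.q_mixed' h.spos.alt (hb.antip J) h.spos.inv (antip_anti h.sq b)

theorem q_star_F (h : Bd J F m M) {c : Bil} (hc : Alt c) : q F (hstar J F c) F = q F c F := by
  unfold hstar
  rw [q_add_left, q_sub_left, q_smul_left, h.q_self, h.q_invp_F hc, h.q_antip_F hc]; ring

/-- `q(b,c) = ip b (star c)`. -/
theorem q_eq_ip_star (h : Bd J F m M) {b c : Bil} (hb : Alt b) (hc : Alt c) :
    q F b c = ip J F b (hstar J F c) := by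
  unfold ip
  rw [h.q_star_F hc, h.invp_star, h.antip_star, q_sub_right, q_smul_right, h.q_invp_F hb,
    h.q_split hb hc]
  ring

theorem nsq_star (h : Bd J F m M) {c : Bil} (hc : Alt c) : nsq J F (hstar J F c) = nsq J F c := by
  unfold nsq ip
  rw [h.q_star_F hc, h.invp_star, h.antip_star, q_sub_left, q_sub_right, q_sub_right, q_smul_left,
    q_smul_left, q_smul_right, q_smul_right, h.q_self, q_comm F F (invp J c), h.q_invp_F hc]
  ring

theorem q_star_self (h : Bd J F m M) {c : Bil} (hc : Alt c) :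
    q F c (hstar J F c) = nsq J F c := by
  unfold hstar nsq ip
  rw [q_add_right, q_sub_right, q_smul_right]
  have e1 : q F c (invp J c) = q F (invp J c) (invp J c) := by
    rw [q_comm, h.q_inv_left (hc.invp J) (invp_inv h.sq c) hc]
  have e2 : q F c (antip J c) = q F (antip J c) (antip J c) := by
    rw [q_comm, h.q_anti_left (hc.antip J) (antip_anti h.sq c) hc]
  rw [e1, e2]

/-- `|q(b,c)| ≤ |b||c|` for the Hodge norm. -/
theorem q_abs_le (h : Bd J F m M) {b c : Bil} (hb : Alt b) (hc : Alt c) :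
    |q F b c| ≤ Real.sqrt (nsq J F b) * Real.sqrt (nsq J F c) := by
  rw [h.q_eq_ip_star hb hc, ← h.nsq_star hc]
  exact h.abs_ip_le hb (h.star_alt hc)

/-- `|P| ≤ √2 q(P,F)` for `P ≥ 0`. -/
theorem pos_sqrt_nsq_le (h : Bd J F m M) {P : Bil} (hP : Pos J P) :
    Real.sqrt (nsq J F P) ≤ Real.sqrt 2 * q F P F := by
  have h1 : 0 ≤ q F P F := h.q_pos_pos hP ⟨h.spos.alt, h.spos.inv, fun v => by
    have := h.lo v
    have := h.m_pos
    have : 0 ≤ m * ‖v‖ ^ 2 := by positivity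
    linarith [h.lo v]⟩
  apply Real.sqrt_le_iff.2
  refine ⟨by positivity, ?_⟩
  rw [h.nsq_inv hP.inv, mul_pow, Real.sq_sqrt (by norm_num)]
  have := h.q_pos_pos hP hP
  linarith

/-- `P' + √2 |P| F ≥ 0` for every two-form. -/
theorem pos_add_nsq (h : Bd J F m M) {P : Bil} (hP : Alt P) :
    Pos J (invp J P + (Real.sqrt 2 * Real.sqrt (nsq J F P)) • F) where
  alt := (hP.invp J).add (h.spos.alt.smul _)
  inv u v := by
    have e : ∀ a b, (invp J P + (Real.sqrt 2 * Real.sqrt (nsq J F P)) • F) a b =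
      invp J P a b + (Real.sqrt 2 * Real.sqrt (nsq J F P)) * F a b := fun a b => rfl
    rw [e, e, invp_inv h.sq, h.spos.inv]
  nonneg v := by
    have e : (invp J P + (Real.sqrt 2 * Real.sqrt (nsq J F P)) • F) v (J v) =
      invp J P v (J v) + (Real.sqrt 2 * Real.sqrt (nsq J F P)) * F v (J v) := rfl
    rw [e]
    obtain ⟨A, hA⟩ := exists_frame h.sq h.spos
    obtain ⟨w, rfl⟩ := A.surjective v
    rw [hA.normsq]
    have h1 : (invp J P (A w) (J (A w))) ^ 2 ≤ (2 * nsq J F (invp J P)) * (‖w‖ ^ 2 * ‖w‖ ^ 2) := by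
      have h2 := alt_apply_sq_le ((hP.invp J).pull (A : E4 →L[ℝ] E4)) w (J0 w)
      rw [pull_apply] at h2
      simp only [ContinuousLinearEquiv.coe_coe] at h2
      rw [← hA.cplx, ← om0_J0 (J0 w), om0_inv, om0_J0] at h2
      rw [nsq_frame h.sq h.spos.alt hA (hP.invp J)]
      calc _ ≤ _ := h2
        _ = _ := by ring
    have h3 : (invp J P (A w) (J (A w))) ^ 2 ≤
        (Real.sqrt 2 * Real.sqrt (nsq J F P) * ‖w‖ ^ 2) ^ 2 := by
      rw [mul_pow, mul_pow, Real.sq_sqrt (by norm_num), Real.sq_sqrt (h.nsq_nonneg hP)]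
      have h4 := h.nsq_invp_le hP
      calc _ ≤ _ := h1
        _ ≤ (2 * nsq J F P) * (‖w‖ ^ 2 * ‖w‖ ^ 2) := by gcongr
        _ = _ := by ring
    have h5 := abs_le_of_sq_le_sq h3 (by positivity)
    have h6 := (abs_le.1 h5).1
    linarith

/-- the positive cone is self-dual. -/
theorem pos_of_q_nonneg (h : Bd J F m M) {X : Bil} (hX : Alt X)
    (hq : ∀ P, Pos J P → 0 ≤ q F X P) : Pos J (invp J X) where
  alt := hX.invp J
  inv := invp_inv h.sq X
  nonneg v := by
    obtain ⟨A, hA⟩ := exists_frame h.sq h.spos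
    obtain ⟨w, rfl⟩ := A.surjective v
    -- the covector
    set ξ : E4 →L[ℝ] ℝ := w 2 • pr 0 - w 3 • pr 1 - w 0 • pr 2 + w 1 • pr 3 with hξ
    have hξa : ∀ u : E4, ξ u = w 2 * u 0 - w 3 * u 1 - w 0 * u 2 + w 1 * u 3 := by
      intro u; rw [hξ]; simp
    set P0 : Bil := wed ξ (Jc J0 ξ) with hP0
    set P : Bil := pull (A.symm : E4 →L[ℝ] E4) P0 with hP
    have hP0' : Pos J0 P0 := wed_Jc_pos J0_J0 ξ
    have hPP : Pos J P := by
      refine ⟨hP0'.alt.pull _, ?_, ?_⟩
      · intro u v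
        rw [hP, pull_apply, pull_apply]
        simp only [ContinuousLinearEquiv.coe_coe]
        rw [← hA.J_symm, ← hA.J_symm, hP0'.inv]
      · intro v
        rw [hP, pull_apply]
        simp only [ContinuousLinearEquiv.coe_coe]
        rw [← hA.J_symm]
        exact hP0'.nonneg _
    have h1 := hq P hPP
    have e0 : pull (A : E4 →L[ℝ] E4) P = P0 := by
      ext u v
      rw [pull_apply, hP, pull_apply]; simp
    rw [q_comm, h.q_inv_left hPP.alt hPP.inv hX, q_comm, hA.q_eq h.spos.alt (hX.invp J) hPP.alt, e0] at h1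
    rw [W_inv0 (hA.pull_inv (invp_inv h.sq X)) hP0'.inv] at h1
    have e1 : invp J X (A w) (J (A w)) = pull (A : E4 →L[ℝ] E4) (invp J X) w (J0 w) := by
      rw [pull_apply]; simp only [ContinuousLinearEquiv.coe_coe]; rw [hA.cplx]
    rw [e1]
    obtain ⟨h13, h12⟩ := inv0_ent (hA.pull_inv (invp_inv h.sq X))
    rw [alt_expand ((hX.invp J).pull _), h13, h12]
    have p01 : ent P0 0 1 = w 2 ^ 2 + w 3 ^ 2 := by
      change P0 (ee 0) (ee 1) = _
      rw [hP0, wed_apply, Jc_apply, Jc_apply, J0_ee0, J0_ee1, map_neg, hξa, hξa]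
      simp; ring
    have p23 : ent P0 2 3 = w 0 ^ 2 + w 1 ^ 2 := by
      change P0 (ee 2) (ee 3) = _
      rw [hP0, wed_apply, Jc_apply, Jc_apply, J0_ee2, J0_ee3, map_neg, hξa, hξa]
      simp; ring
    have p02 : ent P0 0 2 = w 0 * w 3 - w 1 * w 2 := by
      change P0 (ee 0) (ee 2) = _
      rw [hP0, wed_apply, Jc_apply, Jc_apply, J0_ee0, J0_ee2, hξa, hξa, hξa, hξa]
      simp; ring
    have p03 : ent P0 0 3 = - (w 0 * w 2 + w 1 * w 3) := by
      change P0 (ee 0) (ee 3) = _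
      rw [hP0, wed_apply, Jc_apply, Jc_apply, J0_ee0, J0_ee3, map_neg, hξa, hξa, hξa, hξa]
      simp; ring
    rw [p01, p23, p02, p03] at h1
    simp only [J0_0, J0_1, J0_2, J0_3]
    linarith

end Bd

end

end Crest.Agent.R240
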