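import Mathlib

/-!
# Abstract Hahn-Banach statements for row 240 (helper710)

`exists_linear_of_rel` : the common core. `hb1` = Step 1, `hb2` = Step 2 of note 10247.
Mathlib only; no topology on spaces of forms.
-/

set_option autoImplicit false

namespace Crest.Agent.R240.HB

variable {X : Type*} [AddCommGroup X] [Module ℝ X]

/-- A sublinear relation `S x r` ("`r` is an upper bound offered for `x`") that only offers
nonnegative values at `0` dominates a linear functional. -/
theorem exists_linear_of_rel (S : X → ℝ → Prop)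
    (hne : ∀ x, ∃ r, S x r)
    (hadd : ∀ x y r s, S x r → S y s → S (x + y) (r + s))
    (hsmul : ∀ c : ℝ, 0 < c → ∀ x r, S x r → S (c • x) (c * r))
    (h0 : ∀ r, S 0 r → 0 ≤ r) :
    ∃ Φ : X →ₗ[ℝ] ℝ, ∀ x r, S x r → Φ x ≤ r := by
  have hbdd : ∀ x, BddBelow {r | S x r} := by
    intro x
    obtain ⟨s, hs⟩ := hne (-x)
    refine ⟨-s, ?_⟩
    intro r hr
    have h1 := hadd _ _ _ _ hr hs
    rw [add_neg_cancel] at h1
    have h2 := h0 _ h1
    linarith
  have hnon : ∀ x, ({r | S x r} : Set ℝ).Nonempty := hne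
  obtain ⟨g, -, hg⟩ := exists_extension_of_le_sublinear
    (⟨(⊥ : Submodule ℝ X), 0⟩ : X →ₗ.[ℝ] ℝ) (fun x => sInf {r | S x r})
    (by
      intro c hc x
      have hle : ∀ c : ℝ, 0 < c → ∀ x, sInf {r | S (c • x) r} ≤ c * sInf {r | S x r} := by
        intro c hc x
        have hcinv : c⁻¹ * sInf {r | S (c • x) r} ≤ sInf {r | S x r} := by
          apply le_csInf (hnon x)
          intro r hr
          have h1 : sInf {r | S (c • x) r} ≤ c * r := csInf_le (hbdd _) (hsmul c hc x r hr)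
          calc c⁻¹ * sInf {r | S (c • x) r} ≤ c⁻¹ * (c * r) :=
                mul_le_mul_of_nonneg_left h1 (inv_nonneg.2 hc.le)
            _ = r := by field_simp
        calc sInf {r | S (c • x) r} = c * (c⁻¹ * sInf {r | S (c • x) r}) := by field_simp
          _ ≤ c * sInf {r | S x r} := mul_le_mul_of_nonneg_left hcinv hc.le
      apply le_antisymm (hle c hc x)
      have h2 := hle c⁻¹ (inv_pos.2 hc) (c • x)
      rw [smul_smul, inv_mul_cancel₀ hc.ne', one_smul] at h2
      calc c * sInf {r | S x r} ≤ c * (c⁻¹ * sInf {r | S (c • x) r}) :=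
            mul_le_mul_of_nonneg_left h2 hc.le
        _ = sInf {r | S (c • x) r} := by field_simp)
    (by
      intro x y
      have h1 : sInf {r | S (x + y) r} - sInf {r | S y r} ≤ sInf {r | S x r} := by
        apply le_csInf (hnon x)
        intro r hr
        have h2 : sInf {r | S (x + y) r} - r ≤ sInf {r | S y r} := by
          apply le_csInf (hnon y)
          intro s hs
          have := csInf_le (hbdd (x + y)) (hadd x y r s hr hs)
          linarith
        linarith
      show sInf {r | S (x + y) r} ≤ sInf {r | S x r} + sInf {r | S y r}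
      linarith)
    (by
      rintro ⟨x, hx⟩
      have hx0 : x = 0 := (Submodule.mem_bot ℝ).1 hx
      subst hx0
      show (0 : ℝ) ≤ _
      exact le_csInf (hnon 0) (fun r hr => h0 r hr))
  refine ⟨g, fun x r hr => (hg x).trans (csInf_le (hbdd x) hr)⟩

/-- HB1 = Step 1 of 10247. `P` = nonnegative elements, `a` = order unit (`α'`),
`V` = the space `{(dS)'}`, `lam` = the functional `P ↦ ∫ P ∧ F`. -/
theorem hb1 (P : Set X) (h0 : (0 : X) ∈ P) (hadd : ∀ x ∈ P, ∀ y ∈ P, x + y ∈ P)
    (hsmul : ∀ c : ℝ, 0 < c → ∀ x ∈ P, c • x ∈ P)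
    (a : X) (hunit : ∀ x : X, ∃ t : ℝ, t • a - x ∈ P)
    (V : Submodule ℝ X) (lam : X →ₗ[ℝ] ℝ) (C : ℝ)
    (hC : ∀ p ∈ P, ∀ t : ℝ, ∀ v ∈ V, p = t • a + v → lam p ≤ C * t) :
    ∃ Φ : X →ₗ[ℝ] ℝ, (∀ p ∈ P, lam p ≤ Φ p) ∧ (∀ v ∈ V, Φ v = 0) ∧ Φ a ≤ C := by
  obtain ⟨Φ, hΦ⟩ := exists_linear_of_rel
    (fun x r => ∃ t : ℝ, ∃ v ∈ V, ∃ q ∈ P, x = t • a + v - q ∧ r = C * t - lam q)
    (by
      intro x
      obtain ⟨t, ht⟩ := hunit x
      exact ⟨_, t, 0, V.zero_mem, _, ht, by simp, rfl⟩)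
    (by
      rintro x y r s ⟨t, v, hv, q, hq, rfl, rfl⟩ ⟨t', v', hv', q', hq', rfl, rfl⟩
      refine ⟨t + t', v + v', V.add_mem hv hv', q + q', hadd _ hq _ hq', ?_, ?_⟩
      · rw [add_smul]; abel
      · rw [map_add]; ring)
    (by
      rintro c hc x r ⟨t, v, hv, q, hq, rfl, rfl⟩
      refine ⟨c * t, c • v, V.smul_mem c hv, c • q, hsmul c hc _ hq, ?_, ?_⟩
      · rw [smul_sub, smul_add, smul_smul]
      · rw [map_smul, smul_eq_mul]; ring)
    (by
      rintro r ⟨t, v, hv, q, hq, hx, rfl⟩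
      have hq' : q = t • a + v := (sub_eq_zero.1 hx.symm).symm
      have := hC q hq t v hv hq'
      linarith)
  refine ⟨Φ, ?_, ?_, ?_⟩
  · intro p hp
    have h := hΦ (-p) (-lam p) ⟨0, 0, V.zero_mem, p, hp, by simp, by simp⟩
    rw [map_neg] at h
    linarith
  · intro v hv
    have h1 := hΦ v 0 ⟨0, v, hv, 0, h0, by simp, by simp⟩
    have h2 := hΦ (-v) 0 ⟨0, -v, V.neg_mem hv, 0, h0, by simp, by simp⟩
    rw [map_neg] at h2
    linarith
  · exact (hΦ a C ⟨1, 0, V.zero_mem, 0, h0, by simp, by simp⟩)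

/-- HB2 = Step 2 of 10247 in the form of note 10414 (a). `X` = all (smooth) 2-forms, `Z` = closed
ones, `jp b = b'`, `jm b = b''`, `P` = nonnegative (J-invariant) elements, `F` the positive form,
`ν` = the seminorm `‖·‖_{C^m}` used on J-anti-invariant forms. -/
theorem hb2 (Z : Submodule ℝ X) (jp jm : X →ₗ[ℝ] X)
    (P : Set X) (h0 : (0 : X) ∈ P) (hadd : ∀ x ∈ P, ∀ y ∈ P, x + y ∈ P)
    (hsmul : ∀ c : ℝ, 0 < c → ∀ x ∈ P, c • x ∈ P)
    (F : X) (hF : jp F = F) (hFm : jm F = 0) (hunit : ∀ x : X, ∃ t : ℝ, t • F - jp x ∈ P)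
    (ν : Seminorm ℝ X) (ρ : ℝ) (hρ : 0 < ρ)
    (hno : ∀ z ∈ Z, jp z - F ∈ P → ρ ≤ ν (jm z)) :
    ∃ T : X →ₗ[ℝ] ℝ, (∀ z ∈ Z, T z = 0) ∧ T F = 1 ∧
      (∀ p ∈ P, jp p = p → jm p = 0 → 0 ≤ T p) ∧
      (∀ g : X, jp g = 0 → jm g = g → |T g| ≤ ρ⁻¹ * ν g) := by
  obtain ⟨T, hT⟩ := exists_linear_of_rel
    (fun x r => ∃ z ∈ Z, ∃ t s : ℝ, t • F - jp (x - z) ∈ P ∧ ν (jm (x - z)) ≤ s ∧
      r = t + ρ⁻¹ * s)
    (by
      intro x
      obtain ⟨t, ht⟩ := hunit x
      exact ⟨_, 0, Z.zero_mem, t, ν (jm x), by simpa using ht, by simp, rfl⟩)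
    (by
      rintro x y r s ⟨z, hz, t, u, h1, h2, rfl⟩ ⟨z', hz', t', u', h1', h2', rfl⟩
      refine ⟨z + z', Z.add_mem hz hz', t + t', u + u', ?_, ?_, by ring⟩
      · have := hadd _ h1 _ h1'
        have he : (t + t') • F - jp (x + y - (z + z'))
            = t • F - jp (x - z) + (t' • F - jp (y - z')) := by
          rw [add_smul]
          simp only [map_sub, map_add]
          abel
        rw [he]; exact this
      · have he : jm (x + y - (z + z')) = jm (x - z) + jm (y - z') := by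
          simp only [map_sub, map_add]
          abel
        rw [he]
        exact (map_add_le_add ν _ _).trans (add_le_add h2 h2'))
    (by
      rintro c hc x r ⟨z, hz, t, u, h1, h2, rfl⟩
      refine ⟨c • z, Z.smul_mem c hz, c * t, c * u, ?_, ?_, by ring⟩
      · have he : (c * t) • F - jp (c • x - c • z) = c • (t • F - jp (x - z)) := by
          rw [← smul_sub, map_smul, smul_sub, smul_smul]
        rw [he]; exact hsmul c hc _ h1
      · rw [← smul_sub, map_smul, map_smul_eq_mul, Real.norm_of_nonneg hc.le]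
        exact mul_le_mul_of_nonneg_left h2 hc.le)
    (by
      rintro r ⟨z, hz, t, u, h1, h2, rfl⟩
      have hu : 0 ≤ u := (apply_nonneg ν _).trans h2
      rcases le_or_gt 0 t with ht | ht
      · positivity
      · -- `t < 0`
        set c : ℝ := (-t)⁻¹ with hc
        have hcpos : 0 < c := inv_pos.2 (by linarith)
        have hct : c * t = -1 := by
          rw [hc]
          have : t ≠ 0 := ht.ne
          field_simp
        have hm : c • z ∈ Z := Z.smul_mem c hz
        have hP : jp (c • z) - F ∈ P := by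
          have := hsmul c hcpos _ h1
          have he : c • (t • F - jp (0 - z)) = jp (c • z) - F := by
            rw [zero_sub, map_neg, sub_neg_eq_add, smul_add, smul_smul, hct, map_smul, neg_one_smul]
            abel
          rwa [he] at this
        have h3 := hno _ hm hP
        have h4 : ν (jm (c • z)) = c * ν (jm z) := by
          rw [map_smul, map_smul_eq_mul, Real.norm_of_nonneg hcpos.le]
        have h5 : ν (jm (0 - z)) = ν (jm z) := by
          rw [zero_sub, map_neg, map_neg_eq_map]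
        rw [h4] at h3
        rw [h5] at h2
        have h6 : ρ * (-t) ≤ u := by
          have : ρ ≤ c * u := h3.trans (mul_le_mul_of_nonneg_left h2 hcpos.le)
          have h7 : ρ * (-t) ≤ c * u * (-t) := mul_le_mul_of_nonneg_right this (by linarith)
          calc ρ * (-t) ≤ c * u * (-t) := h7
            _ = -(c * t) * u := by ring
            _ = u := by rw [hct]; ring
        have h8 : -t ≤ ρ⁻¹ * u := by
          rw [← div_eq_inv_mul, le_div_iff₀ hρ]; linarith
        linarith)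
  have hTz : ∀ z ∈ Z, T z = 0 := by
    intro z hz
    have h1 := hT z 0 ⟨z, hz, 0, 0, by simpa using h0, by simp, by simp⟩
    have h2 := hT (-z) 0 ⟨-z, Z.neg_mem hz, 0, 0, by simpa using h0, by simp, by simp⟩
    rw [map_neg] at h2
    linarith
  refine ⟨T, hTz, ?_, ?_, ?_⟩
  · have h1 := hT F 1 ⟨0, Z.zero_mem, 1, 0, by simpa [hF] using h0, by simp [hFm], by simp⟩
    have h2 := hT (-F) (-1) ⟨0, Z.zero_mem, -1, 0, by simpa [hF] using h0, by simp [hFm], by simp⟩
    rw [map_neg] at h2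
    linarith
  · intro p hp hjp hjm
    have h := hT (-p) 0 ⟨0, Z.zero_mem, 0, 0, by simpa [hjp] using hp, by simp [hjm], by simp⟩
    rw [map_neg] at h
    linarith
  · intro g hjp hjm
    have h1 := hT g (ρ⁻¹ * ν g) ⟨0, Z.zero_mem, 0, ν g, by simpa [hjp] using h0, by simp [hjm],
      by simp⟩
    have h2 := hT (-g) (ρ⁻¹ * ν g) ⟨0, Z.zero_mem, 0, ν g, by simpa [hjp] using h0, by simp [hjm],
      by simp⟩
    rw [map_neg] at h2
    rw [abs_le]
    constructor <;> linarith

end Crest.Agent.R240.HB
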