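import Mathlib
import Crest.Agent.R240.HB

/-!
# Riesz measure of a positive functional defined on few functions (row 240, helper710)

`A` is any real vector space of "test functions" on a compact Hausdorff space `M`, evaluated by a
linear map `ev : A →ₗ[ℝ] (M → ℝ)` (for instance the smooth functions on a compact manifold).
-/

set_option autoImplicit false
set_option linter.unusedSectionVars false

open MeasureTheory Set
open scoped Manifold ContDiff

namespace Crest.Agent.R240.HB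

section General

variable {M : Type*} [TopologicalSpace M] [CompactSpace M] [T2Space M] [MeasurableSpace M]
  [BorelSpace M]
variable {A : Type*} [AddCommGroup A] [Module ℝ A]

/-- A positive linear functional on a space of continuous functions containing the constant `1`
is integration against a finite regular Borel measure. -/
theorem exists_measure (ev : A →ₗ[ℝ] (M → ℝ)) (hcont : ∀ f, Continuous (ev f))
    (e : A) (he : ∀ x, ev e x = 1) (Λ : A →ₗ[ℝ] ℝ) (hpos : ∀ f, (∀ x, 0 ≤ ev f x) → 0 ≤ Λ f) :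
    ∃ μ : Measure M, IsFiniteMeasure μ ∧ μ.Regular ∧ ∀ f, ∫ x, ev f x ∂μ = Λ f := by
  -- M. Riesz extension to all continuous functions
  obtain ⟨Φ, hΦ⟩ := exists_linear_of_rel (X := C(M, ℝ))
    (fun f r => ∃ g : A, (∀ x, f x ≤ ev g x) ∧ r = Λ g)
    (by
      intro f
      refine ⟨_, ‖f‖ • e, ?_, rfl⟩
      intro x
      rw [map_smul, Pi.smul_apply, he, smul_eq_mul, mul_one]
      exact (le_abs_self _).trans (ContinuousMap.norm_coe_le_norm f x))
    (by
      rintro f f' r s ⟨g, hg, rfl⟩ ⟨g', hg', rfl⟩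
      refine ⟨g + g', fun x => ?_, by rw [map_add]⟩
      rw [map_add, Pi.add_apply, ContinuousMap.add_apply]
      exact add_le_add (hg x) (hg' x))
    (by
      rintro c hc f r ⟨g, hg, rfl⟩
      refine ⟨c • g, fun x => ?_, by rw [map_smul, smul_eq_mul]⟩
      rw [map_smul, Pi.smul_apply, ContinuousMap.smul_apply]
      exact mul_le_mul_of_nonneg_left (hg x) hc.le)
    (by
      rintro r ⟨g, hg, rfl⟩
      exact hpos g hg)
  have hΦpos : ∀ f : C(M, ℝ), (∀ x, 0 ≤ f x) → 0 ≤ Φ f := by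
    intro f hf
    have h := hΦ (-f) 0 ⟨0, fun x => by simpa using hf x, by simp⟩
    rw [map_neg] at h
    linarith
  -- the functional on `C_c(M, ℝ)`
  let incl : CompactlySupportedContinuousMap M ℝ →ₗ[ℝ] C(M, ℝ) :=
    { toFun := fun f => f.toContinuousMap
      map_add' := fun f g => rfl
      map_smul' := fun c f => rfl }
  let L : CompactlySupportedContinuousMap M ℝ →ₚ[ℝ] ℝ :=
    PositiveLinearMap.mk₀ (Φ.comp incl) (by
      intro f hf
      exact hΦpos _ (fun x => hf x))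
  refine ⟨RealRMK.rieszMeasure L, ?_, inferInstance, ?_⟩
  · refine ⟨?_⟩
    exact IsCompact.measure_lt_top isCompact_univ
  · intro f
    let fc : CompactlySupportedContinuousMap M ℝ :=
      ⟨⟨ev f, hcont f⟩, HasCompactSupport.of_compactSpace _⟩
    have h1 : ∫ x, fc x ∂(RealRMK.rieszMeasure L) = L fc := RealRMK.integral_rieszMeasure L fc
    have h2 : L fc = Φ ⟨ev f, hcont f⟩ := rfl
    have h3 : Φ ⟨ev f, hcont f⟩ = Λ f := by
      apply le_antisymm
      · exact hΦ _ _ ⟨f, fun x => le_rfl, rfl⟩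
      · have h := hΦ (-⟨ev f, hcont f⟩) (Λ (-f)) ⟨-f, fun x => by simp, rfl⟩
        rw [map_neg, map_neg] at h
        linarith
    rw [h2, h3] at h1
    exact h1

/-- Passing from smooth majorants to the integral of a continuous majorant. -/
theorem le_integral_of_dominates (ev : A →ₗ[ℝ] (M → ℝ)) (hcont : ∀ f, Continuous (ev f))
    (hdense : ∀ f : M → ℝ, Continuous f → ∀ ε > 0, ∃ g, ∀ x, |ev g x - f x| < ε)
    (Λ : A →ₗ[ℝ] ℝ) (μ : Measure M) [IsFiniteMeasure μ] (hμ : ∀ f, ∫ x, ev f x ∂μ = Λ f)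
    (r : ℝ) (k : M → ℝ) (hk : Continuous k)
    (hr : ∀ g, (∀ x, k x ≤ ev g x) → r ≤ Λ g) : r ≤ ∫ x, k x ∂μ := by
  have hint : ∀ f : M → ℝ, Continuous f → Integrable f μ := fun f hf =>
    hf.integrable_of_hasCompactSupport (HasCompactSupport.of_compactSpace _)
  apply le_of_forall_pos_le_add
  intro ε hε
  set m : ℝ := μ.real univ with hm
  have hm0 : 0 ≤ m := measureReal_nonneg
  set δ : ℝ := ε / (2 * (m + 1)) with hδ
  have hδ0 : 0 < δ := by positivity
  obtain ⟨g, hg⟩ := hdense (fun x => k x + δ) (hk.add continuous_const) δ hδ0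
  have hg1 : ∀ x, k x ≤ ev g x := by
    intro x
    have := abs_lt.1 (hg x)
    linarith
  have hg2 : ∀ x, ev g x ≤ k x + 2 * δ := by
    intro x
    have := abs_lt.1 (hg x)
    linarith
  calc r ≤ Λ g := hr g hg1
    _ = ∫ x, ev g x ∂μ := (hμ g).symm
    _ ≤ ∫ x, (k x + 2 * δ) ∂μ :=
        integral_mono (hint _ (hcont g)) (hint _ (hk.add continuous_const)) hg2
    _ = ∫ x, k x ∂μ + 2 * δ * m := by
        rw [integral_add (hint _ hk) (integrable_const _), integral_const, smul_eq_mul, hm]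
        ring
    _ ≤ ∫ x, k x ∂μ + ε := by
        have : 2 * δ * m ≤ ε := by
          have h1 : 2 * δ * (m + 1) = ε := by
            rw [hδ]; field_simp
          nlinarith
        linarith

end General

section Smooth

variable {E H M : Type*} [NormedAddCommGroup E] [NormedSpace ℝ E] [FiniteDimensional ℝ E]
  [TopologicalSpace H] (I : ModelWithCorners ℝ E H)
  [TopologicalSpace M] [ChartedSpace H M] [IsManifold I ∞ M] [CompactSpace M] [T2Space M]

/-- Evaluation of smooth functions. -/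
noncomputable def evSmooth : C^∞⟮I, M; 𝓘(ℝ, ℝ), ℝ⟯ →ₗ[ℝ] (M → ℝ) where
  toFun f := f
  map_add' _ _ := rfl
  map_smul' _ _ := rfl

@[simp] theorem evSmooth_apply (f : C^∞⟮I, M; 𝓘(ℝ, ℝ), ℝ⟯) (x : M) : evSmooth I f x = f x := rfl

theorem evSmooth_dense (f : M → ℝ) (hf : Continuous f) (ε : ℝ) (hε : 0 < ε) :
    ∃ g : C^∞⟮I, M; 𝓘(ℝ, ℝ), ℝ⟯, ∀ x, |evSmooth I g x - f x| < ε := by
  obtain ⟨g, hg, -⟩ := hf.exists_contMDiff_approx I (⊤ : ℕ∞) (ε := fun _ => ε) continuous_const
    (fun _ => hε)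
  refine ⟨g, fun x => ?_⟩
  have := hg x
  rwa [Real.dist_eq] at this

variable [MeasurableSpace M] [BorelSpace M]

/-- The measure of a positive functional on smooth functions, together with the domination
principle for continuous majorants. -/
theorem exists_measure_smooth (Λ : C^∞⟮I, M; 𝓘(ℝ, ℝ), ℝ⟯ →ₗ[ℝ] ℝ)
    (hpos : ∀ f : C^∞⟮I, M; 𝓘(ℝ, ℝ), ℝ⟯, (∀ x, 0 ≤ f x) → 0 ≤ Λ f) :
    ∃ μ : Measure M, IsFiniteMeasure μ ∧ μ.Regular ∧
      (∀ f : C^∞⟮I, M; 𝓘(ℝ, ℝ), ℝ⟯, ∫ x, f x ∂μ = Λ f) ∧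
      (∀ (r : ℝ) (k : M → ℝ), Continuous k →
        (∀ g : C^∞⟮I, M; 𝓘(ℝ, ℝ), ℝ⟯, (∀ x, k x ≤ g x) → r ≤ Λ g) → r ≤ ∫ x, k x ∂μ) := by
  obtain ⟨μ, h1, h2, h3⟩ := exists_measure (evSmooth I (M := M))
    (fun f => f.contMDiff.continuous) (ContMDiffMap.const 1) (fun x => rfl) Λ hpos
  refine ⟨μ, h1, h2, h3, fun r k hk hr => ?_⟩
  exact le_integral_of_dominates (evSmooth I (M := M)) (fun f => f.contMDiff.continuous)
    (fun f hf ε hε => evSmooth_dense I f hf ε hε) Λ μ h3 r k hk hr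

end Smooth

end Crest.Agent.R240.HB
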