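import Mathlib
import Crest.Agent.R240.FormDefs
import Crest.Agent.R240.Riesz

/-!
Row 240 (S0371), node N4 (helper710): the Riesz measure of a functional which is nonnegative on
the semi-positive `J`-invariant smooth forms of the compact manifold `M`.
-/

set_option autoImplicit false
set_option maxSynthPendingDepth 3
set_option synthInstance.maxHeartbeats 200000

open Set Function Filter Bundle MeasureTheory
open scoped Manifold ContDiff Topology
open Crest.GeometryTopology.TwoForm

namespace Crest.Agent.R240.N4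

open Crest.Agent.R240.Ch

noncomputable section

section SFun

variable {E : Type*} [NormedAddCommGroup E] [NormedSpace ℝ E]
variable {M : Type*} [TopologicalSpace M] [ChartedSpace E M] [IsManifold 𝓘(ℝ, E) ∞ M]

/-- `SmoothF` is the smoothness of Mathlib. -/
theorem smoothF_iff_contMDiff (f : M → ℝ) : SmoothF E f ↔ ContMDiff 𝓘(ℝ, E) 𝓘(ℝ, ℝ) ∞ f := by
  have h := forall_chart_iff (E := E) (M := M)
    (P := fun p y => ContDiffAt ℝ ∞ (repF (E := E) p f) y)
    (Q := fun x => ContMDiffAt 𝓘(ℝ, E) 𝓘(ℝ, ℝ) ∞ f x)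
    (fun p x hx => contMDiffAt_of_eq hx (fun z hz => by
      show f z = f ((chartAt E p).symm (chartAt E p z))
      rw [(chartAt E p).left_inv hz]))
  constructor
  · intro h2
    exact h.2 fun p => contDiffOn_chart_iff.1 (h2 p)
  · intro h2 p
    exact contDiffOn_chart_iff.2 (h.1 h2 p)

theorem continuous_of_smoothF {f : M → ℝ} (h : SmoothF E f) : Continuous f :=
  ((smoothF_iff_contMDiff f).1 h).continuous

/-- multiplication of a form by a smooth function (private copy, see `Ch4`). -/
theorem smooth2_fmul' {f : M → ℝ} (hf : SmoothF E f) {a : F2 E M} (ha : Smooth2 a) :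
    Smooth2 (fmul f a) := by
  refine ⟨fun x v => ?_, fun p => ?_⟩
  · have h : at2 (fmul f a) x v v = f x • at2 a x v v := rfl
    rw [h, ha.1 x v, smul_zero]
  · have h : rep p (fmul f a) = fun y => repF (E := E) p f y • rep p a y := by
      funext y
      ext u v
      rfl
    rw [h]
    exact (hf p).smul (ha.2 p)

end SFun

section N4

variable {M : Type*} [TopologicalSpace M] [ChartedSpace E4 M] [IsManifold 𝓘(ℝ, E4) ∞ M]
  [CompactSpace M] [T2Space M] [MeasurableSpace M] [BorelSpace M]

/-- **N4, core, one-sided**.  `X` = the space of smooth two-forms, `F` a smooth semi-positive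
`J`-invariant form, `L` a functional on `X` which is nonnegative on the cone. Then `f ↦ L (f F)` is
a finite regular Borel measure `s`, and `L b ≤ ∫ k ds` as soon as `k` is continuous and `k F - b` is
semi-positive. -/
theorem n4_core1 (J : EndF E4 M) (F : F2 E4 M) (hF : Smooth2 F) (hFp : PosG J F)
    (X : Submodule ℝ (F2 E4 M)) (hX : ∀ a, a ∈ X ↔ Smooth2 a)
    (L : X →ₗ[ℝ] ℝ) (hL : ∀ P : X, PosG J P.1 → 0 ≤ L P) :
    ∃ s : Measure M, IsFiniteMeasure s ∧ s.Regular ∧
      (∀ (f : M → ℝ), SmoothF E4 f → ∀ g : X, g.1 = fmul f F → ∫ x, f x ∂s = L g) ∧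
      (∀ (b : X) (k : M → ℝ), Continuous k →
        (∀ x, Pos (atJ J x) (k x • at2 F x - at2 b.1 x)) → L b ≤ ∫ x, k x ∂s) := by
  -- the functional on smooth functions
  let mulF : C^∞⟮𝓘(ℝ, E4), M; 𝓘(ℝ, ℝ), ℝ⟯ →ₗ[ℝ] X :=
    { toFun := fun f => ⟨fmul f F, (hX _).2
        (smooth2_fmul' ((smoothF_iff_contMDiff _).2 f.contMDiff) hF)⟩
      map_add' := fun f g => by
        apply Subtype.ext
        funext x
        show (f x + g x) • F x = f x • F x + g x • F x
        rw [add_smul]
      map_smul' := fun c f => by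
        apply Subtype.ext
        funext x
        show (c • f x) • F x = c • (f x • F x)
        rw [smul_assoc] }
  have hpos_mul : ∀ (f : M → ℝ), (∀ x, 0 ≤ f x) → PosG J (fmul f F) := by
    intro f hf x
    have h := hFp x
    have e : at2 (fmul f F) x = f x • at2 F x := rfl
    rw [e]
    refine ⟨fun v => ?_, fun u v => ?_, fun v => ?_⟩
    · show f x • at2 F x v v = 0
      rw [h.alt v, smul_zero]
    · show f x • at2 F x _ _ = f x • at2 F x u v
      rw [h.inv]
    · show 0 ≤ f x • at2 F x v _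
      exact mul_nonneg (hf x) (h.nonneg v)
  obtain ⟨s, hs1, hs2, hs3, hs4⟩ := HB.exists_measure_smooth (𝓘(ℝ, E4)) (M := M) (L.comp mulF)
    (fun f hf => hL _ (hpos_mul f hf))
  refine ⟨s, hs1, hs2, ?_, ?_⟩
  · intro f hf g hg
    have h := hs3 ⟨f, (smoothF_iff_contMDiff f).1 hf⟩
    have e : mulF ⟨f, (smoothF_iff_contMDiff f).1 hf⟩ = g := Subtype.ext hg.symm
    rw [← e]
    exact h
  · intro b k hk h1
    refine hs4 _ k hk fun g hg => ?_
    have key : 0 ≤ L (mulF g - b) := by
      apply hL
      intro x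
      have e : ∀ u v : E4, at2 (mulF g - b).1 x u v
          = (k x • at2 F x - at2 b.1 x) u v + (g x - k x) * at2 F x u v := by
        intro u v
        have h1 : at2 (mulF g - b).1 x u v = g x * at2 F x u v - at2 b.1 x u v := rfl
        have h2 : (k x • at2 F x - at2 b.1 x) u v = k x * at2 F x u v - at2 b.1 x u v := rfl
        rw [h1, h2]; ring
      have hg' : 0 ≤ g x - k x := sub_nonneg.2 (hg x)
      refine ⟨fun v => ?_, fun u v => ?_, fun v => ?_⟩
      · refine (e v v).trans ?_
        rw [(h1 x).alt v, (hFp x).alt v, mul_zero, add_zero]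
      · refine (e _ _).trans (Eq.trans ?_ (e u v).symm)
        rw [(h1 x).inv, (hFp x).inv]
      · refine le_of_le_of_eq ?_ (e v _).symm
        exact add_nonneg ((h1 x).nonneg v) (mul_nonneg hg' ((hFp x).nonneg v))
    rw [map_sub] at key
    show L b ≤ L (mulF g)
    linarith

/-- **N4, core**.  `X` = the space of smooth two-forms, `F` a smooth semi-positive `J`-invariant
form, `L` a functional on `X` which is nonnegative on the cone. Then `f ↦ L (f F)` is a finite
regular Borel measure `s`, and `|L b| ≤ ∫ k ds` as soon as `k` is continuous and `k F ± b` is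
semi-positive. -/
theorem n4_core (J : EndF E4 M) (F : F2 E4 M) (hF : Smooth2 F) (hFp : PosG J F)
    (X : Submodule ℝ (F2 E4 M)) (hX : ∀ a, a ∈ X ↔ Smooth2 a)
    (L : X →ₗ[ℝ] ℝ) (hL : ∀ P : X, PosG J P.1 → 0 ≤ L P) :
    ∃ s : Measure M, IsFiniteMeasure s ∧ s.Regular ∧
      (∀ (f : M → ℝ), SmoothF E4 f → ∀ g : X, g.1 = fmul f F → ∫ x, f x ∂s = L g) ∧
      (∀ (b : X) (k : M → ℝ), Continuous k →
        (∀ x, Pos (atJ J x) (k x • at2 F x + at2 b.1 x)) →
        (∀ x, Pos (atJ J x) (k x • at2 F x - at2 b.1 x)) → |L b| ≤ ∫ x, k x ∂s) := by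
  obtain ⟨s, h1, h2, h3, h4⟩ := n4_core1 J F hF hFp X hX L hL
  refine ⟨s, h1, h2, h3, fun b k hk hp hm => abs_le.2 ⟨?_, h4 b k hk hm⟩⟩
  have h := h4 (-b) k hk (fun x => by
    have e : k x • at2 F x - at2 (-b).1 x = k x • at2 F x + at2 b.1 x := by
      have : at2 (-b).1 x = - at2 b.1 x := rfl
      rw [this, sub_neg_eq_add]
    rw [e]; exact hp x)
  rw [map_neg] at h
  linarith

end N4

end

end Crest.Agent.R240.N4
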