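import Mathlib
import Crest.Agent.R240.En1

/-!
Row 240 (S0371), helper768: the statement of the LOCAL POLES THEOREM in `E4` (definitions only).
-/

set_option autoImplicit false

open MeasureTheory Metric
open scoped ContDiff ENNReal Manifold

namespace Crest.Agent.R240

open Crest.Agent.R240.En

noncomputable section

/-- the potential `w(x) = ∫ d(x,y)^{-2} ds(y)` with values in `[0,∞]`. -/
def wpot {X : Type*} [PseudoEMetricSpace X] [MeasurableSpace X] (s : Measure X) (x : X) : ℝ≥0∞ :=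
  ∫⁻ y, (edist x y ^ 2)⁻¹ ∂s

/-- background data on `E4`: a smooth almost complex structure and a smooth positive two-form,
both constant outside a ball. -/
structure Bg (J : E4 → E4 →L[ℝ] E4) (F : E4 → Bil) : Prop where
  smJ : ContDiff ℝ ∞ J
  smF : ContDiff ℝ ∞ F
  sq : ∀ y v, J y (J y v) = -v
  pos : ∀ y, SPos (J y) (F y)
  cst : ∃ (R : ℝ) (J0 : E4 →L[ℝ] E4) (F0 : Bil), ∀ y, R ≤ ‖y‖ → J y = J0 ∧ F y = F0

/-- a measurable field of normalised positive `(1,1)`-forms. -/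
structure Dens (J : E4 → E4 →L[ℝ] E4) (F : E4 → Bil) (φ : E4 → Bil) : Prop where
  meas : Measurable φ
  pos : ∀ y, Pos (J y) (φ y)
  nrm : ∀ y, q (F y) (φ y) (F y) = 1

/-- `∫ q(φ, dS) ds = 0` for all test 1-forms `S` with compact support in `U`:
the current `φ s` is closed in `U`. -/
def ClosedIn (F : E4 → Bil) (s : Measure E4) (φ : E4 → Bil) (U : Set E4) : Prop :=
  ∀ S : E4 → Cov, ContDiff ℝ ∞ S → HasCompactSupport S → tsupport S ⊆ U →
    ∫ y, q (F y) (φ y) (d1 S y) ∂s = 0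

/-- THE LOCAL POLES THEOREM (Step 5 in `E4`). -/
def LocalPoles : Prop :=
  ∀ (J : E4 → E4 →L[ℝ] E4) (F : E4 → Bil), Bg J F →
  ∀ (x0 : E4) (R : ℝ), 0 < R →
  ∀ (s : Measure E4), IsFiniteMeasure s →
  ∀ (C : ℝ), (∀ y r, 0 < r → s (ball y r) ≤ ENNReal.ofReal (C * r ^ 2)) →
  ∀ (φ : E4 → Bil), Dens J F φ →
  ClosedIn F s φ (ball x0 (2 * R)) →
  ClosedIn F (s.restrict {y | wpot s y < ⊤}) φ (ball x0 R)

end

end Crest.Agent.R240
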