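import Mathlib
import Crest.Agent.R240.LocDef
import Crest.Agent.R240.Met

/-!
Row 240 (S0371), node N6 (helper768): potentials on `M` versus potentials in a chart.
-/

set_option autoImplicit false
set_option linter.unusedSectionVars false

open MeasureTheory Metric Set Filter
open scoped ContDiff ENNReal Manifold Topology

namespace Crest.Agent.R240.Pol

open Crest.Agent.R240

section General

variable {X Y : Type*} [MetricSpace X] [MeasurableSpace X] [BorelSpace X]
  [MetricSpace Y] [MeasurableSpace Y] [BorelSpace Y]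

/-- the potential is measurable. -/
theorem measurable_wpot [SecondCountableTopology X] (s : Measure X) [SFinite s] :
    Measurable (wpot s) := by
  unfold wpot
  apply Measurable.lintegral_prod_right'
    (f := fun z : X × X => (edist z.1 z.2 ^ 2)⁻¹)
  exact ((measurable_fst.edist measurable_snd).pow_const 2).inv

theorem wpot_mono {s s' : Measure X} (h : s ≤ s') (x : X) : wpot s x ≤ wpot s' x :=
  lintegral_mono' h le_rfl

/-- potential of the push-forward measure. -/
theorem wpot_map_le {A : Set X} (hA : MeasurableSet A) {f : X → Y}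
    {s : Measure X} (hf : AEMeasurable f (s.restrict A)) {c : ℝ} (hc : 0 < c)
    (hbi : ∀ x ∈ A, ∀ x' ∈ A, c * dist x x' ≤ dist (f x) (f x')) {x : X} (hx : x ∈ A) :
    wpot ((s.restrict A).map f) (f x) ≤ ENNReal.ofReal (c⁻¹ ^ 2) * wpot s x := by
  unfold wpot
  rw [lintegral_map' _ hf]
  · calc ∫⁻ x', (edist (f x) (f x') ^ 2)⁻¹ ∂(s.restrict A)
        ≤ ∫⁻ x', ENNReal.ofReal (c⁻¹ ^ 2) * (edist x x' ^ 2)⁻¹ ∂(s.restrict A) := by
          apply setLIntegral_mono' hA
          intro x' hx'
          have h := hbi x hx x' hx'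
          have h1 : ENNReal.ofReal c * edist x x' ≤ edist (f x) (f x') := by
            rw [edist_dist, edist_dist, ← ENNReal.ofReal_mul hc.le]
            exact ENNReal.ofReal_le_ofReal h
          have hc0 : ENNReal.ofReal c ≠ 0 := by simpa using hc
          have hct : ENNReal.ofReal c ≠ ⊤ := ENNReal.ofReal_ne_top
          calc (edist (f x) (f x') ^ 2)⁻¹ ≤ ((ENNReal.ofReal c * edist x x') ^ 2)⁻¹ := by
                apply ENNReal.inv_le_inv.2
                gcongr
            _ = ENNReal.ofReal (c⁻¹ ^ 2) * (edist x x' ^ 2)⁻¹ := by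
                rw [mul_pow, ENNReal.mul_inv (Or.inl (by positivity)) (Or.inl (by finiteness))]
                congr 1
                rw [← ENNReal.ofReal_pow hc.le, ← ENNReal.ofReal_inv_of_pos (by positivity),
                  inv_pow]
      _ ≤ ∫⁻ x', ENNReal.ofReal (c⁻¹ ^ 2) * (edist x x' ^ 2)⁻¹ ∂s :=
          lintegral_mono' Measure.restrict_le_self le_rfl
      _ = _ := by
          rw [lintegral_const_mul']
          exact ENNReal.ofReal_ne_top
  · exact (measurable_edist_right.pow_const 2).inv.aemeasurable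

/-- the potential on `X` from the potential of the push-forward. -/
theorem wpot_le_map {A : Set X} (hA : MeasurableSet A) {f : X → Y}
    {s : Measure X} (hf : AEMeasurable f (s.restrict A)) {C : ℝ} (hC : 0 < C)
    (hbi : ∀ x ∈ A, ∀ x' ∈ A, dist (f x) (f x') ≤ C * dist x x') {x : X} (hx : x ∈ A)
    {δ : ℝ} (hδ : 0 < δ) (hball : ∀ x', x' ∉ A → δ ≤ dist x x') :
    wpot s x ≤ ENNReal.ofReal (C ^ 2) * wpot ((s.restrict A).map f) (f x)
      + ENNReal.ofReal (δ⁻¹ ^ 2) * s univ := by
  unfold wpot
  rw [← lintegral_add_compl _ hA]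
  gcongr
  · rw [lintegral_map' _ hf]
    · rw [← lintegral_const_mul' _ _ ENNReal.ofReal_ne_top]
      apply setLIntegral_mono' hA
      intro x' hx'
      have h := hbi x hx x' hx'
      have h1 : edist (f x) (f x') ≤ ENNReal.ofReal C * edist x x' := by
        rw [edist_dist, edist_dist, ← ENNReal.ofReal_mul hC.le]
        exact ENNReal.ofReal_le_ofReal h
      have hC0 : ENNReal.ofReal C ≠ 0 := by simpa using hC
      have hCt : ENNReal.ofReal C ≠ ⊤ := ENNReal.ofReal_ne_top
      calc (edist x x' ^ 2)⁻¹
          = ENNReal.ofReal (C ^ 2) * ((ENNReal.ofReal C * edist x x') ^ 2)⁻¹ := by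
            rw [mul_pow, ENNReal.mul_inv (Or.inl (by positivity)) (Or.inl (by finiteness)),
              ENNReal.ofReal_pow hC.le, ← mul_assoc, ENNReal.mul_inv_cancel (by positivity)
                (by finiteness), one_mul]
        _ ≤ ENNReal.ofReal (C ^ 2) * (edist (f x) (f x') ^ 2)⁻¹ := by
            gcongr
    · exact (measurable_edist_right.pow_const 2).inv.aemeasurable
  · calc ∫⁻ x', (edist x x' ^ 2)⁻¹ ∂(s.restrict Aᶜ)
        ≤ ∫⁻ x', ENNReal.ofReal (δ⁻¹ ^ 2) ∂(s.restrict Aᶜ) := by
          apply setLIntegral_mono' hA.compl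
          intro x' hx'
          have h := hball x' hx'
          have h1 : ENNReal.ofReal δ ≤ edist x x' := by
            rw [edist_dist]; exact ENNReal.ofReal_le_ofReal h
          calc (edist x x' ^ 2)⁻¹ ≤ (ENNReal.ofReal δ ^ 2)⁻¹ := by
                apply ENNReal.inv_le_inv.2
                gcongr
            _ = ENNReal.ofReal (δ⁻¹ ^ 2) := by
                rw [← ENNReal.ofReal_pow hδ.le, ← ENNReal.ofReal_inv_of_pos (by positivity),
                  inv_pow]
      _ ≤ _ := by
          rw [lintegral_const]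
          gcongr
          exact Measure.restrict_le_self

/-- the two potentials are finite at the same points. -/
theorem wpot_map_lt_top_iff {A : Set X} (hA : MeasurableSet A) {f : X → Y}
    {s : Measure X} [IsFiniteMeasure s] (hf : AEMeasurable f (s.restrict A)) {c C : ℝ} (hc : 0 < c)
    (hC : 0 < C) (hbi : ∀ x ∈ A, ∀ x' ∈ A, c * dist x x' ≤ dist (f x) (f x'))
    (hbi' : ∀ x ∈ A, ∀ x' ∈ A, dist (f x) (f x') ≤ C * dist x x') {x : X}
    (hx : x ∈ interior A) :
    wpot ((s.restrict A).map f) (f x) < ⊤ ↔ wpot s x < ⊤ := by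
  have hxA : x ∈ A := interior_subset hx
  constructor
  · intro h
    obtain ⟨δ, hδ, hb⟩ := Metric.mem_nhds_iff.1 (mem_interior_iff_mem_nhds.1 hx)
    refine (wpot_le_map hA hf hC hbi' hxA hδ ?_).trans_lt ?_
    · intro x' hx'
      by_contra hlt
      push Not at hlt
      exact hx' (hb (by rwa [mem_ball, dist_comm]))
    · have h1 : s univ < ⊤ := measure_lt_top s univ
      exact ENNReal.add_lt_top.2 ⟨ENNReal.mul_lt_top ENNReal.ofReal_lt_top h,
        ENNReal.mul_lt_top ENNReal.ofReal_lt_top h1⟩
  · intro h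
    exact (wpot_map_le hA hf hc hbi hxA).trans_lt (ENNReal.mul_lt_top ENNReal.ofReal_lt_top h)

/-- quadratic growth of the push-forward. -/
theorem map_ball_le {A : Set X} (hA : MeasurableSet A) {f : X → Y}
    {s : Measure X} (hf : AEMeasurable f (s.restrict A)) {c : ℝ} (hc : 0 < c)
    (hbi : ∀ x ∈ A, ∀ x' ∈ A, c * dist x x' ≤ dist (f x) (f x')) {D : ℝ}
    (hs : ∀ x r, 0 < r → s (ball x r) ≤ ENNReal.ofReal (D * r ^ 2)) (y : Y) (r : ℝ) (hr : 0 < r) :
    ((s.restrict A).map f) (ball y r) ≤ ENNReal.ofReal (D * (2 * c⁻¹) ^ 2 * r ^ 2) := by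
  rw [Measure.map_apply_of_aemeasurable hf measurableSet_ball,
    Measure.restrict_apply' hA]
  by_cases hne : (f ⁻¹' ball y r ∩ A).Nonempty
  · obtain ⟨x, hx1, hx2⟩ := hne
    calc s (f ⁻¹' ball y r ∩ A) ≤ s (ball x (2 * c⁻¹ * r)) := by
          apply measure_mono
          rintro x' ⟨h1, h2⟩
          have h3 := hbi x' h2 x hx2
          have h4 : dist (f x') (f x) < 2 * r := by
            have := dist_triangle_right (f x') (f x) y
            have h5 : dist (f x') y < r := h1
            have h6 : dist (f x) y < r := hx1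
            linarith
          rw [mem_ball]
          have h7 : c * dist x' x < 2 * r := lt_of_le_of_lt h3 h4
          calc dist x' x = c⁻¹ * (c * dist x' x) := by field_simp
            _ < c⁻¹ * (2 * r) := by gcongr
            _ = 2 * c⁻¹ * r := by ring
      _ ≤ ENNReal.ofReal (D * (2 * c⁻¹ * r) ^ 2) := hs _ _ (by positivity)
      _ = _ := by congr 1; ring
  · rw [not_nonempty_iff_eq_empty] at hne
    rw [hne, measure_empty]
    exact bot_le

end General

end Crest.Agent.R240.Pol
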