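import Mathlib
import Crest.Agent.R240.LocDef
import Crest.Agent.R240.Lin4

/-!
Row 240 (S0371), node N6 (helper768): reduction of the local poles theorem for `J`, `F` smooth on
an open set to the case of globally defined `J`, `F`.
-/

set_option autoImplicit false
set_option linter.unusedSectionVars false
set_option maxSynthPendingDepth 3

open MeasureTheory Metric Set Filter
open scoped ContDiff ENNReal Manifold Topology

namespace Crest.Agent.R240.Pol

open Crest.Agent.R240 Crest.Agent.R240.En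

/-- a smooth map of `E4` into a ball, equal to the identity on a smaller ball. -/
theorem exists_retr (x0 : E4) {R : ℝ} (hR : 0 < R) :
    ∃ r : E4 → E4, ContDiff ℝ ∞ r ∧ (∀ y ∈ closedBall x0 (2 * R), r y = y) ∧
      (∀ y, r y ∈ ball x0 (3 * R)) ∧ ∀ y, ‖x0‖ + 3 * R ≤ ‖y‖ → r y = x0 := by
  let χ : ContDiffBump x0 := ⟨2 * R, 3 * R, by positivity, by linarith⟩
  refine ⟨fun y => x0 + χ y • (y - x0), ?_, ?_, ?_, ?_⟩
  · exact contDiff_const.add (χ.contDiff.smul (contDiff_id.sub contDiff_const))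
  · intro y hy
    have h1 : χ y = 1 := χ.one_of_mem_closedBall hy
    simp [h1]
  · intro y
    rw [mem_ball, dist_eq_norm, add_sub_cancel_left]
    by_cases hy : y ∈ ball x0 (3 * R)
    · rw [norm_smul, Real.norm_of_nonneg χ.nonneg]
      have h1 : ‖y - x0‖ < 3 * R := by rwa [mem_ball, dist_eq_norm] at hy
      have h2 : χ y ≤ 1 := χ.le_one
      have h3 : 0 ≤ χ y := χ.nonneg
      calc χ y * ‖y - x0‖ ≤ 1 * ‖y - x0‖ := by gcongr
        _ < 3 * R := by linarith
    · have h1 : χ y = 0 := by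
        apply χ.zero_of_le_dist
        change 3 * R ≤ dist y x0
        rw [mem_ball] at hy; linarith
      simp [h1, hR]
  · intro y hy
    have h1 : χ y = 0 := by
      apply χ.zero_of_le_dist
      change 3 * R ≤ dist y x0
      rw [dist_eq_norm]
      have := norm_sub_norm_le y x0
      linarith
    simp [h1]

/-- composition with the retraction gives global background data. -/
theorem bg_comp {J : E4 → E4 →L[ℝ] E4} {F : E4 → Bil} {U : Set E4} (hU : IsOpen U)
    (hJ : ContDiffOn ℝ ∞ J U) (hF : ContDiffOn ℝ ∞ F U) (hsq : ∀ y ∈ U, ∀ v, J y (J y v) = -v)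
    (hpos : ∀ y ∈ U, SPos (J y) (F y)) {r : E4 → E4} (hr : ContDiff ℝ ∞ r) (hrU : ∀ y, r y ∈ U)
    {R' : ℝ} {x0 : E4} (hcst : ∀ y, R' ≤ ‖y‖ → r y = x0) :
    Bg (fun y => J (r y)) (fun y => F (r y)) where
  smJ := by
    rw [contDiff_iff_contDiffAt]
    intro y
    exact (hJ.contDiffAt (hU.mem_nhds (hrU y))).comp y hr.contDiffAt
  smF := by
    rw [contDiff_iff_contDiffAt]
    intro y
    exact (hF.contDiffAt (hU.mem_nhds (hrU y))).comp y hr.contDiffAt
  sq y v := hsq _ (hrU y) v
  pos y := hpos _ (hrU y)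
  cst := ⟨R', J x0, F x0, fun y hy => by simp [hcst y hy]⟩

/-- `q F F F = 1`. -/
theorem q_self_of_spos {J : E4 →L[ℝ] E4} (hJ : ∀ v, J (J v) = -v) {F : Bil} (hF : SPos J F) :
    q F F F = 1 := by
  obtain ⟨A, hA⟩ := exists_frame hJ hF
  exact div_self (hA.W_ne hF.alt)

/-- the local poles theorem for data which are only defined on an open set. -/
theorem closedIn_core (LP : LocalPoles) {J : E4 → E4 →L[ℝ] E4} {F : E4 → Bil} {U : Set E4}
    (hU : IsOpen U)
    (hJ : ContDiffOn ℝ ∞ J U) (hF : ContDiffOn ℝ ∞ F U) (hsq : ∀ y ∈ U, ∀ v, J y (J y v) = -v)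
    (hpos : ∀ y ∈ U, SPos (J y) (F y)) {x0 : E4} {R : ℝ} (hR : 0 < R)
    (hKU : closedBall x0 (3 * R) ⊆ U) {s : Measure E4} [IsFiniteMeasure s]
    (hs0 : s (closedBall x0 (2 * R))ᶜ = 0) {C : ℝ}
    (hs : ∀ y r, 0 < r → s (ball y r) ≤ ENNReal.ofReal (C * r ^ 2)) {φ : E4 → Bil}
    (hφ : Measurable φ) (hφp : ∀ y ∈ closedBall x0 (2 * R), Pos (J y) (φ y))
    (hφn : ∀ y ∈ closedBall x0 (2 * R), q (F y) (φ y) (F y) = 1)
    (hcl : ClosedIn F s φ (ball x0 (2 * R))) :
    ClosedIn F (s.restrict {y | wpot s y < ⊤}) φ (ball x0 R) := by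
  classical
  obtain ⟨r, hr, hr1, hr2, hr3⟩ := exists_retr x0 hR
  have hrU : ∀ y, r y ∈ U := fun y => hKU (ball_subset_closedBall (hr2 y))
  have hbg := bg_comp hU hJ hF hsq hpos hr hrU hr3
  set K : Set E4 := closedBall x0 (2 * R) with hK
  have hKm : MeasurableSet K := isClosed_closedBall.measurableSet
  set φ' : E4 → Bil := fun y => if y ∈ K then φ y else F (r y) with hφ'
  have hd : Dens (fun y => J (r y)) (fun y => F (r y)) φ' := by
    refine ⟨?_, ?_, ?_⟩
    · exact Measurable.ite hKm hφ hbg.smF.continuous.measurable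
    · intro y
      by_cases hy : y ∈ K
      · simp only [hφ', if_pos hy, hr1 y hy]
        exact hφp y hy
      · simp only [hφ', if_neg hy]
        have h := hbg.pos y
        exact ⟨h.alt, h.inv, fun v => by
          by_cases hv : v = 0
          · simp [hv]
          · exact (h.pos v hv).le⟩
    · intro y
      by_cases hy : y ∈ K
      · simp only [hφ', if_pos hy, hr1 y hy]
        exact hφn y hy
      · simp only [hφ', if_neg hy]
        exact q_self_of_spos (hbg.sq y) (hbg.pos y)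
  have hae : ∀ᵐ y ∂s, y ∈ K := by
    rw [ae_iff]
    exact hs0
  have heq : ∀ S : E4 → Cov, ∀ s' : Measure E4, s' ≤ s →
      ∫ y, q (F (r y)) (φ' y) (d1 S y) ∂s' = ∫ y, q (F y) (φ y) (d1 S y) ∂s' := by
    intro S s' hs'
    apply integral_congr_ae
    have hae' : ∀ᵐ y ∂s', y ∈ K := (Measure.absolutelyContinuous_of_le hs').ae_le hae
    filter_upwards [hae'] with y hy
    simp only [hφ', if_pos hy, hr1 y hy]
  have h := LP _ _ hbg x0 R hR s inferInstance C hs φ' hd (by
    intro S h1 h2 h3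
    rw [heq S s le_rfl]
    exact hcl S h1 h2 h3)
  intro S h1 h2 h3
  have := h S h1 h2 h3
  rw [heq S _ Measure.restrict_le_self] at this
  exact this

end Crest.Agent.R240.Pol
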