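import Mathlib
import Crest.Agent.R240.Pol1
import Crest.Agent.R240.Pol2
import Crest.Agent.R240.FormDefs

/-!
Row 240 (S0371), node N6 (helper768): the local poles theorem transported to a chart of `M`.
-/

set_option autoImplicit false
set_option linter.unusedSectionVars false
set_option maxSynthPendingDepth 3

open MeasureTheory Metric Set Filter
open scoped ContDiff ENNReal Manifold Topology

namespace Crest.Agent.R240.Pol

open Crest.Agent.R240 Crest.Agent.R240.Ch

variable {M : Type*} [MetricSpace M] [CompactSpace M] [MeasurableSpace M] [BorelSpace M]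
  [ChartedSpace E4 M] [IsManifold 𝓘(ℝ, E4) ∞ M]

/-- the core of a chart. -/
def core (p : M) (K : Set E4) : Set M := (chartAt E4 p).symm '' K

/-- push-forward of `s`, restricted to a core, to the model space. -/
noncomputable def chMeas (p : M) (K : Set E4) (s : Measure M) : Measure E4 :=
  (s.restrict (core p K)).map (chartAt E4 p)

variable {p : M} {K : Set E4}

theorem core_sub (hKt : K ⊆ (chartAt E4 p).target) : core p K ⊆ (chartAt E4 p).source := by
  rintro _ ⟨y, hy, rfl⟩
  exact symm_mem (hKt hy)

theorem core_compact (hK : IsCompact K) (hKt : K ⊆ (chartAt E4 p).target) :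
    IsCompact (core p K) :=
  hK.image_of_continuousOn ((chartAt E4 p).continuousOn_symm.mono hKt)

theorem core_meas (hK : IsCompact K) (hKt : K ⊆ (chartAt E4 p).target) :
    MeasurableSet (core p K) := (core_compact hK hKt).measurableSet

theorem chart_core_mem (hKt : K ⊆ (chartAt E4 p).target) {x : M} (hx : x ∈ core p K) :
    chartAt E4 p x ∈ K := by
  obtain ⟨y, hy, rfl⟩ := hx
  rwa [(chartAt E4 p).right_inv (hKt hy)]

theorem mem_core_iff (hKt : K ⊆ (chartAt E4 p).target) {x : M}
    (hx : x ∈ (chartAt E4 p).source) : x ∈ core p K ↔ chartAt E4 p x ∈ K := by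
  constructor
  · exact chart_core_mem hKt
  · intro h
    exact ⟨_, h, (chartAt E4 p).left_inv hx⟩

theorem aemeas_chart (hK : IsCompact K) (hKt : K ⊆ (chartAt E4 p).target) (s : Measure M) :
    AEMeasurable (chartAt E4 p) (s.restrict (core p K)) :=
  ((chartAt E4 p).continuousOn.mono (core_sub hKt)).aemeasurable (core_meas hK hKt)

instance (s : Measure M) [IsFiniteMeasure s] : IsFiniteMeasure (chMeas p K s) := by
  unfold chMeas; infer_instance

theorem chMeas_compl (hK : IsCompact K) (hKt : K ⊆ (chartAt E4 p).target) (s : Measure M) :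
    chMeas p K s Kᶜ = 0 := by
  unfold chMeas
  rw [Measure.map_apply_of_aemeasurable (aemeas_chart hK hKt s) hK.measurableSet.compl,
    Measure.restrict_apply' (core_meas hK hKt)]
  convert measure_empty (μ := s)
  ext x
  simp only [mem_inter_iff, mem_preimage, mem_compl_iff, mem_empty_iff_false, iff_false, not_and]
  intro h1 h2
  exact h1 (chart_core_mem hKt h2)

theorem interior_core (hKt : K ⊆ (chartAt E4 p).target) {x : M}
    (hx : x ∈ (chartAt E4 p).source) (hy : chartAt E4 p x ∈ interior K) :
    x ∈ interior (core p K) := by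
  rw [mem_interior]
  refine ⟨(chartAt E4 p).symm '' interior K, image_mono interior_subset, ?_, ?_⟩
  · exact (chartAt E4 p).isOpen_image_symm_of_subset_target isOpen_interior
      (interior_subset.trans hKt)
  · exact ⟨_, hy, (chartAt E4 p).left_inv hx⟩

theorem bilip_core (hb : Met.BiLip E4 M) (hK : IsCompact K) (hKt : K ⊆ (chartAt E4 p).target) :
    ∃ c C : ℝ, 0 < c ∧ 0 < C ∧ (∀ x ∈ core p K, ∀ x' ∈ core p K,
      c * dist x x' ≤ dist (chartAt E4 p x) (chartAt E4 p x')) ∧
      (∀ x ∈ core p K, ∀ x' ∈ core p K,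
      dist (chartAt E4 p x) (chartAt E4 p x') ≤ C * dist x x') := by
  obtain ⟨c, C, hc, hC, h⟩ := hb p K hK hKt
  refine ⟨C⁻¹, c⁻¹, by positivity, by positivity, ?_, ?_⟩
  · rintro _ ⟨y, hy, rfl⟩ _ ⟨z, hz, rfl⟩
    rw [(chartAt E4 p).right_inv (hKt hy), (chartAt E4 p).right_inv (hKt hz), dist_eq_norm y z]
    rw [inv_mul_le_iff₀ hC]
    exact (h y hy z hz).2
  · rintro _ ⟨y, hy, rfl⟩ _ ⟨z, hz, rfl⟩
    rw [(chartAt E4 p).right_inv (hKt hy), (chartAt E4 p).right_inv (hKt hz), dist_eq_norm y z]
    rw [le_inv_mul_iff₀ hc]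
    exact (h y hy z hz).1

theorem wpot_chMeas_iff (hb : Met.BiLip E4 M) (hK : IsCompact K)
    (hKt : K ⊆ (chartAt E4 p).target) (s : Measure M) [IsFiniteMeasure s] {x : M}
    (hx : x ∈ (chartAt E4 p).source) (hy : chartAt E4 p x ∈ interior K) :
    wpot (chMeas p K s) (chartAt E4 p x) < ⊤ ↔ wpot s x < ⊤ := by
  obtain ⟨c, C, hc, hC, h1, h2⟩ := bilip_core hb hK hKt
  exact wpot_map_lt_top_iff (core_meas hK hKt) (aemeas_chart hK hKt s) hc hC h1 h2
    (interior_core hKt hx hy)

theorem chMeas_ball_le (hb : Met.BiLip E4 M) (hK : IsCompact K)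
    (hKt : K ⊆ (chartAt E4 p).target) {s : Measure M} {D : ℝ}
    (hs : ∀ x r, 0 < r → s (ball x r) ≤ ENNReal.ofReal (D * r ^ 2)) :
    ∃ D' : ℝ, ∀ y r, 0 < r → chMeas p K s (ball y r) ≤ ENNReal.ofReal (D' * r ^ 2) := by
  obtain ⟨c, C, hc, hC, h1, h2⟩ := bilip_core hb hK hKt
  exact ⟨_, fun y r hr => map_ball_le (core_meas hK hKt) (aemeas_chart hK hKt s) hc h1 hs y r hr⟩

theorem integral_chMeas (hK : IsCompact K) (hKt : K ⊆ (chartAt E4 p).target) (s : Measure M)
    {g : E4 → ℝ} (hg : AEStronglyMeasurable g (chMeas p K s)) :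
    ∫ y, g y ∂(chMeas p K s) = ∫ x in core p K, g (chartAt E4 p x) ∂s := by
  unfold chMeas
  rw [integral_map (aemeas_chart hK hKt s) hg]

/-! ### transport of pointwise properties to the chart -/

theorem repJ_sq {J : EndF E4 M} (hJ2 : ∀ x v, atJ J x (atJ J x v) = -v) {y : E4}
    (hy : y ∈ (chartAt E4 p).target) (v : E4) : repJ p J y (repJ p J y v) = -v := by
  rw [repJ_apply, repJ_apply, tcc_cancel' (symm_mem hy), hJ2, map_neg, tcc_cancel (symm_mem hy)]

theorem spos_rep {J : EndF E4 M} {F : F2 E4 M} (hF : SPosG J F) {y : E4}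
    (hy : y ∈ (chartAt E4 p).target) : SPos (repJ p J y) (rep p F y) := by
  have h := hF ((chartAt E4 p).symm y)
  refine ⟨fun v => ?_, fun u v => ?_, fun v hv => ?_⟩
  · rw [rep_apply]; exact h.alt _
  · rw [rep_apply, repJ_apply, repJ_apply, tcc_cancel' (symm_mem hy), tcc_cancel' (symm_mem hy),
      h.inv, rep_apply]
  · rw [rep_apply, repJ_apply, tcc_cancel' (symm_mem hy)]
    apply h.pos
    intro h0
    apply hv
    have := tcc_cancel (E := E4) (symm_mem hy) v
    rw [h0, map_zero] at this
    exact this.symm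

/-! ### measurability -/

theorem measurable_ent {X : Type*} [MeasurableSpace X] {f : X → Bil} (hf : Measurable f)
    (i j : Fin 4) : Measurable fun x => ent (f x) i j := by
  have h : Continuous fun b : Bil => b (ee i) (ee j) := by fun_prop
  exact h.measurable.comp hf

theorem measurable_W {X : Type*} [MeasurableSpace X] {f g : X → Bil} (hf : Measurable f)
    (hg : Measurable g) : Measurable fun x => W (f x) (g x) := by
  have h := measurable_ent hf
  have h' := measurable_ent hg
  unfold W
  exact (((((((h 0 1).mul (h' 2 3)).sub ((h 0 2).mul (h' 1 3))).add ((h 0 3).mul (h' 1 2))).add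
    ((h 1 2).mul (h' 0 3))).sub ((h 1 3).mul (h' 0 2))).add ((h 2 3).mul (h' 0 1)))

theorem measurable_q {X : Type*} [MeasurableSpace X] {f g k : X → Bil} (hf : Measurable f)
    (hg : Measurable g) (hk : Measurable k) : Measurable fun x => q (f x) (g x) (k x) :=
  (measurable_W hg hk).div (measurable_W hf hf)

/-- the integrand of the chart formula is a.e.-measurable. -/
theorem aesm_integrand {F : F2 E4 M} (hF : Smooth2 F) {x0 : E4} {R : ℝ} (hR : 0 < R)
    (hKt : closedBall x0 (3 * R) ⊆ (chartAt E4 p).target) (s : Measure M) {φ : E4 → Bil}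
    (hφ : Measurable φ) {β : E4 → Bil} (hβ : Measurable β) :
    AEStronglyMeasurable (fun y => q (rep p F y) (φ y) (β y))
      (chMeas p (closedBall x0 (2 * R)) s) := by
  obtain ⟨r, hr, hr1, hr2, hr3⟩ := exists_retr x0 hR
  have hsub : closedBall x0 (2 * R) ⊆ (chartAt E4 p).target :=
    (closedBall_subset_closedBall (by linarith)).trans hKt
  have hFr : Continuous fun y => rep p F (r y) := by
    rw [continuous_iff_continuousAt]
    intro y
    have hy : r y ∈ (chartAt E4 p).target := hKt (ball_subset_closedBall (hr2 y))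
    have h1 : ContinuousAt (rep p F) (r y) :=
      ((hF.2 p).continuousOn).continuousAt ((chartAt E4 p).open_target.mem_nhds hy)
    exact h1.comp hr.continuous.continuousAt
  refine ⟨fun y => q (rep p F (r y)) (φ y) (β y),
    (measurable_q hFr.measurable hφ hβ).stronglyMeasurable, ?_⟩
  have hae : ∀ᵐ y ∂(chMeas p (closedBall x0 (2 * R)) s), y ∈ closedBall x0 (2 * R) := by
    rw [ae_iff]
    exact chMeas_compl (isCompact_closedBall _ _) hsub s
  filter_upwards [hae] with y hy
  rw [hr1 y hy]

/-- **the local poles theorem in a chart of `M`.** -/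
theorem chart_zero (LP : LocalPoles) (hb : Met.BiLip E4 M) {J : EndF E4 M} (hJ : SmoothJ J)
    (hJ2 : ∀ x v, atJ J x (atJ J x v) = -v) {F : F2 E4 M} (hF : Smooth2 F) (hpos : SPosG J F)
    {x0 : E4} {R : ℝ} (hR : 0 < R) (hKt : closedBall x0 (3 * R) ⊆ (chartAt E4 p).target)
    (s : Measure M) [IsFiniteMeasure s] {D : ℝ}
    (hs : ∀ x r, 0 < r → s (ball x r) ≤ ENNReal.ofReal (D * r ^ 2)) {φ : E4 → Bil}
    (hφ : Measurable φ) (hφp : ∀ y ∈ closedBall x0 (2 * R), Pos (repJ p J y) (φ y))
    (hφn : ∀ y ∈ closedBall x0 (2 * R), q (rep p F y) (φ y) (rep p F y) = 1)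
    (hcl : ∀ S : E4 → En.Cov, ContDiff ℝ ∞ S → HasCompactSupport S → tsupport S ⊆ ball x0 (2 * R) →
      ∫ x in core p (closedBall x0 (2 * R)), q (rep p F (chartAt E4 p x)) (φ (chartAt E4 p x))
        (En.d1 S (chartAt E4 p x)) ∂s = 0)
    {S : E4 → En.Cov} (hS : ContDiff ℝ ∞ S) (hSc : HasCompactSupport S)
    (hSs : tsupport S ⊆ ball x0 R) :
    ∫ x in {x | wpot s x < ⊤}, (core p (closedBall x0 (2 * R))).indicator
      (fun x => q (rep p F (chartAt E4 p x)) (φ (chartAt E4 p x))
        (En.d1 S (chartAt E4 p x))) x ∂s = 0 := by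
  set K : Set E4 := closedBall x0 (2 * R) with hKdef
  have hK : IsCompact K := isCompact_closedBall _ _
  have hKsub : K ⊆ (chartAt E4 p).target :=
    (closedBall_subset_closedBall (by linarith)).trans hKt
  obtain ⟨D', hD'⟩ := chMeas_ball_le hb hK hKsub hs
  have hSm : ∀ S : E4 → En.Cov, ContDiff ℝ ∞ S → Measurable (En.d1 S) := by
    intro S hS
    have h1 : Continuous (fderiv ℝ S) := hS.continuous_fderiv (by simp)
    have h2 : Continuous fun y => fderiv ℝ S y - (fderiv ℝ S y).flip :=
      h1.sub ((ContinuousLinearMap.flipₗᵢ ℝ E4 E4 ℝ).continuous.comp h1)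
    exact h2.measurable
  have hcore := closedIn_core LP (chartAt E4 p).open_target (hJ p) (hF.2 p)
    (fun y hy v => repJ_sq hJ2 hy v) (fun y hy => spos_rep hpos hy) hR hKt
    (chMeas_compl hK hKsub s) hD' hφ hφp hφn (by
      intro S h1 h2 h3
      rw [integral_chMeas hK hKsub s (aesm_integrand hF hR hKt s hφ (hSm S h1))]
      exact hcl S h1 h2 h3)
  have h0 := hcore S hS hSc hSs
  have hwm : MeasurableSet {y | wpot (chMeas p K s) y < ⊤} :=
    measurableSet_lt (measurable_wpot _) measurable_const
  have hGm : MeasurableSet {x | wpot s x < ⊤} :=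
    measurableSet_lt (measurable_wpot _) measurable_const
  have hA : MeasurableSet (core p K) := core_meas hK hKsub
  rw [← integral_indicator hwm, integral_chMeas hK hKsub s
    ((aesm_integrand hF hR hKt s hφ (hSm S hS)).indicator hwm), ← integral_indicator hA] at h0
  rw [← integral_indicator hGm, ← h0]
  congr 1
  ext x
  by_cases hxA : x ∈ core p K
  · rw [indicator_of_mem hxA]
    by_cases hxS : chartAt E4 p x ∈ tsupport S
    · have hi : chartAt E4 p x ∈ interior K := by
        apply mem_interior.2 ⟨ball x0 (2 * R), ball_subset_closedBall, isOpen_ball, ?_⟩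
        exact ball_subset_ball (by linarith) (hSs hxS)
      have hiff := wpot_chMeas_iff hb hK hKsub s (core_sub hKsub hxA) hi
      by_cases hw : wpot s x < ⊤
      · rw [indicator_of_mem (by exact hw), indicator_of_mem hxA, indicator_of_mem]
        exact hiff.2 hw
      · rw [indicator_of_notMem (by exact hw), indicator_of_notMem]
        intro h
        exact hw (hiff.1 h)
    · have hz : En.d1 S (chartAt E4 p x) = 0 := by
        have h1 : fderiv ℝ S (chartAt E4 p x) = 0 := by
          have := support_fderiv_subset ℝ (f := S)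
          by_contra hne
          exact hxS (this hne)
        unfold En.d1
        rw [h1]
        simp
      have hz' : ∀ F φ : Bil, q F φ 0 = 0 := by
        intro F φ; simp [q, W, ent]
      by_cases hw : wpot s x < ⊤
      · rw [indicator_of_mem (by exact hw), indicator_of_mem hxA, hz, hz']
        by_cases hw' : chartAt E4 p x ∈ {y | wpot (chMeas p K s) y < ⊤}
        · rw [indicator_of_mem hw', hz, hz']
        · rw [indicator_of_notMem hw']
      · rw [indicator_of_notMem (by exact hw)]
        by_cases hw' : chartAt E4 p x ∈ {y | wpot (chMeas p K s) y < ⊤}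
        · rw [indicator_of_mem hw', hz, hz']
        · rw [indicator_of_notMem hw']
  · rw [indicator_of_notMem hxA]
    by_cases hw : wpot s x < ⊤
    · rw [indicator_of_mem (by exact hw), indicator_of_notMem hxA]
    · rw [indicator_of_notMem (by exact hw)]

end Crest.Agent.R240.Pol
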