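import Crest.Agent.R240.DensM
import Crest.Agent.R240.Iface
import Crest.Agent.R240.IntPair
import Crest.Agent.R240.Lin6
import Crest.Agent.R240.Pol3
import Crest.Agent.R240.Ch6
import Crest.Agent.R240.N4

/-!
Row 240 (S0371), node N6, PART D3 (helper703): the chart density of a positive closed current,
in the form used by `Pol5`.
-/

set_option autoImplicit false
set_option maxSynthPendingDepth 3

open Set Function Filter Topology MeasureTheory Metric
open scoped Manifold ContDiff Topology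

namespace Crest.Agent.R240.ChDens

open Crest.Agent.R240 Crest.Agent.R240.Ch Crest.Agent.R240.Pol

noncomputable section

variable {M : Type*} [MetricSpace M] [CompactSpace M] [ChartedSpace E4 M]
    [IsManifold 𝓘(ℝ, E4) ∞ M] [MeasurableSpace M] [BorelSpace M] (D : Dat M)

theorem smF : Smooth2 D.F := Smooth2.bp D.smJ D.sm_al

theorem spos (x : M) : SPos (atJ D.J x) (at2 D.F x) where
  alt := (Alt.invp (D.sm_al.1 x) _)
  inv := invp_inv (D.sq x) _
  pos v hv := by
    have h : at2 D.F x v (atJ D.J x v) = at2 D.al x v (atJ D.J x v) :=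
      invp_diag (D.sq x) (D.sm_al.1 x) v
    have h2 := D.tames x v hv
    rw [← h] at h2
    exact h2

theorem W_ne (x : M) : W (at2 D.F x) (at2 D.F x) ≠ 0 := by
  obtain ⟨A, hA⟩ := exists_frame (D.sq x) (spos D x)
  exact hA.W_ne (spos D x).alt

theorem vol : Int.Vol D.F where
  alt := fun x => (spos D x).alt
  cont := fun p => ((smF D).2 p).continuousOn
  ne := W_ne D

/-- the pointwise norm in a chart. -/
theorem nr_chart {b : F2 E4 M} (hb : Smooth2 b) {p : M} {y : E4}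
    (hy : y ∈ (chartAt E4 p).target) :
    D.nr b ((chartAt E4 p).symm y) = nr (repJ p D.J y) (rep p D.F y) (rep p b y) := by
  have hF := smF D
  have hb' : Smooth2 (bp D.J b) := hb.bp D.smJ
  have hb'' : Smooth2 (bpp D.J b) := hb.bpp D.smJ
  have h1 := Int.qG_chart (vol D) hb.1 hF.1 hy
  have h2 := Int.qG_chart (vol D) hb'.1 hb'.1 hy
  have h3 := Int.qG_chart (vol D) hb''.1 hb''.1 hy
  rw [rep_bp hy] at h2
  rw [rep_bpp hy] at h3
  unfold Dat.nr nrG nr nsq ip
  rw [← h1, ← h2, ← h3]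
  rfl

theorem exists_Bd (p : M) {K : Set E4} (hK : IsCompact K) (hKt : K ⊆ (chartAt E4 p).target) :
    ∃ m M' : ℝ, ∀ y ∈ K, Bd (repJ p D.J y) (rep p D.F y) m M' := by
  have hF := smF D
  obtain ⟨c, hc, h1⟩ := unif_pos_quad (Smooth2.continuousOn hF p) (SmoothJ.continuousOn D.smJ p)
    hK hKt (fun y hy v hv => (DensM.spos_rep (spos D) (hKt hy)).pos v hv)
  obtain ⟨A, hA, h2⟩ := bdd_on (Smooth2.continuousOn hF p) hK hKt
  obtain ⟨B, hB, h3⟩ := bdd_on (SmoothJ.continuousOn D.smJ p) hK hKt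
  refine ⟨c, A * B, fun y hy => ⟨fun v => DensM.repJ_sq D.sq (hKt hy) v,
    DensM.spos_rep (spos D) (hKt hy), hc, h1 y hy, fun v => ?_⟩⟩
  calc rep p D.F y v (repJ p D.J y v) ≤ ‖rep p D.F y v (repJ p D.J y v)‖ := Real.le_norm_self _
    _ ≤ ‖rep p D.F y‖ * ‖v‖ * ‖repJ p D.J y v‖ := (rep p D.F y).le_opNorm₂ v _
    _ ≤ A * ‖v‖ * (B * ‖v‖) := by
        have h4 := h2 y hy
        have h5 := h3 y hy
        have h6 : ‖repJ p D.J y v‖ ≤ ‖repJ p D.J y‖ * ‖v‖ := (repJ p D.J y).le_opNorm v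
        have h7 := norm_nonneg v
        gcongr
        exact h6.trans (by gcongr)
    _ = A * B * ‖v‖ ^ 2 := by ring

theorem nr_le (p : M) {K : Set E4} (hK : IsCompact K) (hKt : K ⊆ (chartAt E4 p).target) :
    ∃ C : ℝ, ∀ b : X2 M, ∀ y ∈ K, D.nr b.1 ((chartAt E4 p).symm y) ≤ C * ‖rep p b.1 y‖ := by
  obtain ⟨m, M', h⟩ := exists_Bd D p hK hKt
  refine ⟨√(3 / m ^ 2), fun b y hy => ?_⟩
  rw [nr_chart D b.2 (hKt hy)]
  unfold nr
  have hb : Smooth2 b.1 := b.2
  have h1 := (h y hy).nsq_le_norm_sq (Int.rep_alt hb.1 p y)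
  calc √(nsq (repJ p D.J y) (rep p D.F y) (rep p b.1 y))
      ≤ √(3 / m ^ 2 * ‖rep p b.1 y‖ ^ 2) := Real.sqrt_le_sqrt h1
    _ = _ := by rw [Real.sqrt_mul (by positivity), Real.sqrt_sq (norm_nonneg _)]

theorem nr_zero {b : F2 E4 M} {x : M} (h : at2 b x = 0) : D.nr b x = 0 := by
  unfold Dat.nr nrG nr nsq ip
  rw [h]
  have h1 : invp (atJ D.J x) 0 = 0 := by
    ext u v
    rw [invp_apply]
    simp
  have h2 : antip (atJ D.J x) 0 = 0 := by
    ext u v
    rw [antip_apply]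
    simp
  rw [h1, h2]
  have h3 : ∀ c : Bil, q (at2 D.F x) 0 c = 0 := by
    intro c
    simp [q, W, ent_zero]
  rw [h3, h3]
  simp

/-- **the chart density** (node for `Pol5`). -/
theorem chartDens : ∀ (D : Dat M) (Φ : X2 M →ₗ[ℝ] ℝ) (s : Measure M), D.IsInv Φ → D.IsNonneg Φ →
    D.IsRM Φ s → ∀ (p : M) (x0 : E4) (R : ℝ), 0 < R →
    closedBall x0 (3 * R) ⊆ (chartAt E4 p).target →
    ∃ φ : E4 → Bil, Measurable φ ∧
      (∀ y ∈ closedBall x0 (2 * R), Pos (repJ p D.J y) (φ y)) ∧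
      (∀ y ∈ closedBall x0 (2 * R), q (rep p D.F y) (φ y) (rep p D.F y) = 1) ∧
      (∃ C, ∀ y ∈ closedBall x0 (2 * R), ‖φ y‖ ≤ C) ∧
      ∀ b : X2 M, (∀ x, x ∉ core p (closedBall x0 (2 * R)) → at2 (b : F2 E4 M) x = 0) →
        Φ b = ∫ x in core p (closedBall x0 (2 * R)),
          q (rep p D.F (chartAt E4 p x)) (φ (chartAt E4 p x))
            (rep p (b : F2 E4 M) (chartAt E4 p x)) ∂s := by
  classical
  intro D Φ s hinv hpos hs p x0 R hR hKt
  have hfin : IsFiniteMeasure s := hs.fin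
  set K : Set E4 := closedBall x0 (2 * R) with hKdef
  have hK : IsCompact K := isCompact_closedBall _ _
  have hKsub : K ⊆ (chartAt E4 p).target :=
    (closedBall_subset_closedBall (by linarith)).trans hKt
  have hmass : ∀ f : Vm.SF M, Φ (Vm.mulX M f ⟨D.F, smF D⟩) = ∫ x, f x ∂s := by
    intro f
    exact hs.trace f ((smoothF_iff _).1 f.contMDiff) _ rfl
  have hdom : ∀ b : X2 M, |Φ b| ≤ ∫ x, 2 * D.nr (b : F2 E4 M) x ∂s := by
    intro b
    rw [integral_const_mul, hinv b]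
    exact hs.bound b
  obtain ⟨φ, C', hφm, hφb, hφp, hφ1, hφ⟩ := DensM.exists_density_M D.smJ D.sq (smF D) (spos D) Φ
    hinv hpos s hmass (fun b x => 2 * D.nr (b : F2 E4 M) x)
    (fun b x => mul_nonneg (by norm_num) (Real.sqrt_nonneg _))
    (fun b x hx => by
      have := nr_zero D hx
      simp only [this, mul_zero])
    (fun p K hK hKt => by
      obtain ⟨C, hC⟩ := nr_le D p hK hKt
      refine ⟨2 * C, fun b y hy => ?_⟩
      have := hC b y hy
      linarith)
    hdom p hK hKsub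
  refine ⟨φ, hφm, hφp, hφ1, ⟨C', fun y _ => hφb y⟩, ?_⟩
  intro b hb
  rw [hφ b hb]
  -- replace `rep p b` by a measurable function
  set β : E4 → Bil := (chartAt E4 p).target.indicator (rep p (b : F2 E4 M)) with hβ
  have hβm : Measurable β := by
    have h1 : β = (chartAt E4 p).target.piecewise (rep p (b : F2 E4 M)) (fun _ => 0) := by
      funext y
      by_cases hyt : y ∈ (chartAt E4 p).target
      · rw [hβ, indicator_of_mem hyt, piecewise_eq_of_mem _ _ _ hyt]
      · rw [hβ, indicator_of_notMem hyt, piecewise_eq_of_notMem _ _ _ hyt]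
    rw [h1]
    exact ((b.2 : Smooth2 b.1).2 p).continuousOn.measurable_piecewise continuousOn_const
      (chartAt E4 p).open_target.measurableSet
  have e1 : ∫ y, q (rep p D.F y) (φ y) (rep p (b : F2 E4 M) y) ∂(Vm.smap s (chartAt E4 p) K)
      = ∫ y, q (rep p D.F y) (φ y) (β y) ∂(chMeas p K s) := by
    apply integral_congr_ae
    have h2 : ∀ᵐ y ∂(Vm.smap s (chartAt E4 p) K), y ∈ K := Vm.ae_mem_smap hK hKsub
    filter_upwards [h2] with y hy
    rw [hβ, indicator_of_mem (hKsub hy)]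
  have e2 : ∫ y, q (rep p D.F y) (φ y) (β y) ∂(chMeas p K s)
      = ∫ x in core p K, q (rep p D.F (chartAt E4 p x)) (φ (chartAt E4 p x))
        (β (chartAt E4 p x)) ∂s :=
    integral_chMeas hK hKsub s (aesm_integrand (smF D) hR hKt s hφm hβm)
  rw [e1, e2]
  apply setIntegral_congr_fun (core_meas hK hKsub)
  intro x hx
  have hy : chartAt E4 p x ∈ (chartAt E4 p).target := hKsub (chart_core_mem hKsub hx)
  simp only [hβ, indicator_of_mem hy]

end

end Crest.Agent.R240.ChDens
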