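import Mathlib
import Crest.Agent.R240.Ch6
import Crest.Agent.R240.TopDefs

/-!
Row 240 (S0371), CH (helper955): comparison of the `C^l` norms of a form in different charts;
elementary properties of `Cover.cm`.
-/

set_option autoImplicit false
set_option maxSynthPendingDepth 3
set_option linter.unusedSectionVars false

open Set Function Filter Topology
open scoped Manifold ContDiff

namespace Crest.Agent.R240.Ch

noncomputable section

section Euclid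

variable {E : Type*} [NormedAddCommGroup E] [NormedSpace ℝ E]

/-- pull-back of bilinear forms as a continuous linear map. -/
def pbL (D : E →L[ℝ] E) : (E →L[ℝ] E →L[ℝ] ℝ) →L[ℝ] (E →L[ℝ] E →L[ℝ] ℝ) :=
  (ContinuousLinearMap.compL ℝ E (E →L[ℝ] ℝ) (E →L[ℝ] ℝ)
    ((ContinuousLinearMap.compL ℝ E E ℝ).flip D)).comp
    ((ContinuousLinearMap.compL ℝ E E (E →L[ℝ] ℝ)).flip D)

lemma pbL_apply (D : E →L[ℝ] E) (b : E →L[ℝ] E →L[ℝ] ℝ) (u v : E) :
    pbL D b u v = b (D u) (D v) := rfl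

lemma contDiff_pbL {n : WithTop ℕ∞} : ContDiff ℝ n (pbL (E := E)) := by
  unfold pbL
  have h1 : ContDiff ℝ n (fun D : E →L[ℝ] E => ContinuousLinearMap.compL ℝ E (E →L[ℝ] ℝ) (E →L[ℝ] ℝ)
    ((ContinuousLinearMap.compL ℝ E E ℝ).flip D)) :=
    (ContinuousLinearMap.contDiff _).comp
      ((ContinuousLinearMap.compL ℝ E E ℝ).flip.contDiff)
  have h2 : ContDiff ℝ n (fun D : E →L[ℝ] E =>
      (ContinuousLinearMap.compL ℝ E E (E →L[ℝ] ℝ)).flip D) :=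
    (ContinuousLinearMap.compL ℝ E E (E →L[ℝ] ℝ)).flip.contDiff
  exact h1.clm_comp h2

lemma iterWithin_eq {F : Type*} [NormedAddCommGroup F] [NormedSpace ℝ F] {f : E → F} {U : Set E}
    (hU : IsOpen U) {y : E} (hy : y ∈ U) (j : ℕ) :
    iteratedFDerivWithin ℝ j f U y = iteratedFDeriv ℝ j f y :=
  iteratedFDerivWithin_of_isOpen j hU hy

/-- derivative bounds of a pulled-back form. -/
theorem pull_bound {U V K : Set E} (hU : IsOpen U) (hV : IsOpen V) {τ : E → E}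
    (hτ : ContDiffOn ℝ ∞ τ U) (hUV : MapsTo τ U V) (hK : IsCompact K) (hKU : K ⊆ U) (l : ℕ) :
    ∃ C : ℝ, 0 ≤ C ∧ ∀ b : E → E →L[ℝ] E →L[ℝ] ℝ, ContDiffOn ℝ ∞ b V → ∀ B : ℝ, 0 ≤ B →
      (∀ j ≤ l, ∀ y ∈ K, ‖iteratedFDeriv ℝ j b (τ y)‖ ≤ B) → ∀ j ≤ l, ∀ y ∈ K,
      ‖iteratedFDeriv ℝ j (fun y => pbL (fderiv ℝ τ y) (b (τ y))) y‖ ≤ C * B := by
  have hΦ : ContDiffOn ℝ ∞ (fun y => pbL (fderiv ℝ τ y)) U := by
    refine contDiff_pbL.comp_contDiffOn ?_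
    exact hτ.fderiv_of_isOpen hU (by simp)
  obtain ⟨A, hA, hA'⟩ := bdd_iter hU hΦ hK hKU l
  obtain ⟨D₀, hD₀, hD₀'⟩ := bdd_iter hU hτ hK hKU l
  set D := max 1 D₀ with hD
  have hD1 : 1 ≤ D := le_max_left _ _
  set c : ℕ → ℝ := fun n => ∑ i ∈ Finset.range (n + 1),
    ((n.choose i : ℝ) * A * (((n - i).factorial : ℝ) * D ^ (n - i))) with hc
  have hc0 : ∀ n, 0 ≤ c n := fun n => Finset.sum_nonneg fun i _ => by positivity
  refine ⟨∑ n ∈ Finset.range (l + 1), c n, Finset.sum_nonneg fun n _ => hc0 n, ?_⟩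
  intro b hb B hB hbB n hn y hy
  have hyU := hKU hy
  have hbτ : ContDiffOn ℝ ∞ (b ∘ τ) U := hb.comp hτ hUV
  have hn' : (n : WithTop ℕ∞) ≤ ∞ := by exact_mod_cast le_top
  have h1 := norm_iteratedFDerivWithin_clm_apply hΦ hbτ hU.uniqueDiffOn hyU hn'
  rw [iterWithin_eq hU hyU] at h1
  have h2 : ∀ m ≤ l, ‖iteratedFDerivWithin ℝ m (b ∘ τ) U y‖ ≤ (m.factorial : ℝ) * B * D ^ m := by
    intro m hm
    refine norm_iteratedFDerivWithin_comp_le hb hτ (by exact_mod_cast le_top) hV.uniqueDiffOn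
      hU.uniqueDiffOn hUV hyU ?_ ?_
    · intro i hi
      rw [iterWithin_eq hV (hUV hyU)]
      exact hbB i (hi.trans hm) y hy
    · intro i hi1 hi2
      rw [iterWithin_eq hU hyU]
      calc ‖iteratedFDeriv ℝ i τ y‖ ≤ D₀ := hD₀' i (hi2.trans hm) y hy
        _ ≤ D := le_max_right _ _
        _ = D ^ 1 := (pow_one D).symm
        _ ≤ D ^ i := pow_le_pow_right₀ hD1 hi1
  calc ‖iteratedFDeriv ℝ n (fun y => pbL (fderiv ℝ τ y) (b (τ y))) y‖
      ≤ ∑ i ∈ Finset.range (n + 1), (n.choose i : ℝ) *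
          ‖iteratedFDerivWithin ℝ i (fun y => pbL (fderiv ℝ τ y)) U y‖ *
          ‖iteratedFDerivWithin ℝ (n - i) (b ∘ τ) U y‖ := h1
    _ ≤ ∑ i ∈ Finset.range (n + 1), (n.choose i : ℝ) * A *
          (((n - i).factorial : ℝ) * B * D ^ (n - i)) := by
        refine Finset.sum_le_sum fun i hi => ?_
        have hi' : i ≤ n := Nat.lt_succ_iff.1 (Finset.mem_range.1 hi)
        have h3 : ‖iteratedFDerivWithin ℝ i (fun y => pbL (fderiv ℝ τ y)) U y‖ ≤ A := by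
          rw [iterWithin_eq hU hyU]; exact hA' i (hi'.trans hn) y hy
        have h4 := h2 (n - i) ((Nat.sub_le n i).trans hn)
        gcongr
    _ = c n * B := by
        rw [hc, Finset.sum_mul]
        refine Finset.sum_congr rfl fun i _ => by ring
    _ ≤ (∑ n ∈ Finset.range (l + 1), c n) * B := by
        refine mul_le_mul_of_nonneg_right ?_ hB
        exact Finset.single_le_sum (f := c) (fun i _ => hc0 i)
          (Finset.mem_range.2 (Nat.lt_succ_of_le hn))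

end Euclid

section Manifold

variable {E : Type*} [NormedAddCommGroup E] [NormedSpace ℝ E]
variable {M : Type*} [TopologicalSpace M] [ChartedSpace E M] [IsManifold 𝓘(ℝ, E) ∞ M]

lemma rep_eq_pbL {p q : M} {y : E} (hy : y ∈ (chartAt E p).target)
    (hq : (chartAt E p).symm y ∈ (chartAt E q).source) (a : F2 E M) :
    rep p a y = pbL (fderiv ℝ (trans (E := E) p q) y) (rep q a (trans (E := E) p q y)) := by
  ext u v
  exact rep_pullback hy hq a u v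

/-- local comparison of charts. -/
lemma cmp_local [FiniteDimensional ℝ E] {p q : M} {K : Set E} (hKq : K ⊆ (chartAt E q).target)
    {y₀ : E} (hy₀ : y₀ ∈ (chartAt E p).target)
    (hq : (chartAt E p).symm y₀ ∈ (chartAt E q).source)
    (hK : chartAt E q ((chartAt E p).symm y₀) ∈ interior K) (l : ℕ) :
    ∃ t ∈ 𝓝 y₀, ∃ C : ℝ, 0 ≤ C ∧ ∀ b : F2 E M, Smooth2 b → ∀ B : ℝ, 0 ≤ B →
      (∀ j ≤ l, ∀ z ∈ K, ‖iteratedFDeriv ℝ j (rep q b) z‖ ≤ B) → ∀ j ≤ l, ∀ y ∈ t,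
      ‖iteratedFDeriv ℝ j (rep p b) y‖ ≤ C * B := by
  set τ : E → E := trans (E := E) p q with hτdef
  set U₁ : Set E := (chartAt E p).target ∩ (chartAt E p).symm ⁻¹' (chartAt E q).source with hU₁
  have ho₁ : IsOpen U₁ := (chartAt E p).isOpen_inter_preimage_symm (chartAt E q).open_source
  have hτ₁ : ContDiffOn ℝ ∞ τ U₁ := fun y hy => (trans_contDiffAt hy.1 hy.2).contDiffWithinAt
  set U : Set E := U₁ ∩ τ ⁻¹' interior K with hU
  have ho : IsOpen U := hτ₁.continuousOn.isOpen_inter_preimage ho₁ isOpen_interior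
  have hτ : ContDiffOn ℝ ∞ τ U := hτ₁.mono inter_subset_left
  have hmaps : MapsTo τ U (interior K) := fun y hy => hy.2
  have hy₀U : y₀ ∈ U := ⟨⟨hy₀, hq⟩, hK⟩
  obtain ⟨ε, hε, hball⟩ := Metric.nhds_basis_closedBall.mem_iff.1 (ho.mem_nhds hy₀U)
  obtain ⟨C, hC, h⟩ := pull_bound ho isOpen_interior hτ hmaps (isCompact_closedBall y₀ ε) hball l
  refine ⟨_, Metric.closedBall_mem_nhds y₀ hε, C, hC, fun b hb B hB hbB j hj y hy => ?_⟩
  have h1 := h (rep q b) ((hb.2 q).mono (interior_subset.trans hKq)) B hB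
    (fun j hj y hy => hbB j hj _ (interior_subset (hball hy).2)) j hj y hy
  have hev : rep p b =ᶠ[𝓝 y] fun y => pbL (fderiv ℝ τ y) (rep q b (τ y)) := by
    filter_upwards [ho.mem_nhds (hball hy)] with z hz
    exact rep_eq_pbL hz.1.1 hz.1.2 b
  rw [(hev.iteratedFDeriv ℝ j).eq_of_nhds]
  exact h1

/-- COMPARISON OF NORMS: derivatives in any chart, on any compact subset of the target, are
controlled by the derivatives in a finite family of charts with cores whose interiors cover. -/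
theorem cmp_family [FiniteDimensional ℝ E] {ι : Type*} [Finite ι] (c : ι → M) (K : ι → Set E)
    (hK : ∀ i, K i ⊆ (chartAt E (c i)).target)
    (hcov : ∀ x : M, ∃ i, x ∈ (chartAt E (c i)).source ∧ chartAt E (c i) x ∈ interior (K i))
    (p : M) {L : Set E} (hL : IsCompact L) (hLp : L ⊆ (chartAt E p).target) (l : ℕ) :
    ∃ C : ℝ, 0 ≤ C ∧ ∀ b : F2 E M, Smooth2 b → ∀ B : ℝ, 0 ≤ B →
      (∀ i, ∀ j ≤ l, ∀ z ∈ K i, ‖iteratedFDeriv ℝ j (rep (c i) b) z‖ ≤ B) → ∀ j ≤ l, ∀ y ∈ L,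
      ‖iteratedFDeriv ℝ j (rep p b) y‖ ≤ C * B := by
  refine hL.induction_on (p := fun L : Set E => ∃ C : ℝ, 0 ≤ C ∧ ∀ b : F2 E M, Smooth2 b →
      ∀ B : ℝ, 0 ≤ B →
      (∀ i, ∀ j ≤ l, ∀ z ∈ K i, ‖iteratedFDeriv ℝ j (rep (c i) b) z‖ ≤ B) → ∀ j ≤ l, ∀ y ∈ L,
      ‖iteratedFDeriv ℝ j (rep p b) y‖ ≤ C * B) ?_ ?_ ?_ ?_
  · exact ⟨0, le_rfl, fun b hb B hB h j hj y hy => hy.elim⟩
  · rintro s t hst ⟨C, hC, h⟩
    exact ⟨C, hC, fun b hb B hB h' j hj y hy => h b hb B hB h' j hj y (hst hy)⟩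
  · rintro s t ⟨C, hC, h⟩ ⟨C', hC', h'⟩
    refine ⟨C + C', add_nonneg hC hC', fun b hb B hB hB' j hj y hy => ?_⟩
    have e1 := mul_nonneg hC hB
    have e2 := mul_nonneg hC' hB
    rcases hy with hy | hy
    · linarith [h b hb B hB hB' j hj y hy]
    · linarith [h' b hb B hB hB' j hj y hy]
  · intro y₀ hy₀
    obtain ⟨i, h1, h2⟩ := hcov ((chartAt E p).symm y₀)
    obtain ⟨t, ht, C, hC, h⟩ := cmp_local (hK i) (hLp hy₀) h1 h2 l
    exact ⟨t, mem_nhdsWithin_of_mem_nhds ht, C, hC, fun b hb B hB hB' j hj y hy =>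
      h b hb B hB (hB' i) j hj y hy⟩

end Manifold

/-! ### elementary properties of `Cover.cm` -/

section Four

variable {M : Type*} [TopologicalSpace M] [ChartedSpace E4 M] [IsManifold 𝓘(ℝ, E4) ∞ M]

/-- the set of values in the definition of `cm`. -/
def cmSet (𝒰 : Cover M) (m : ℕ) (b : F2 E4 M) : Set ℝ :=
  {r : ℝ | ∃ i, ∃ j ≤ m, ∃ y ∈ 𝒰.K i, r = ‖iteratedFDeriv ℝ j (rep (𝒰.p i) b) y‖}

lemma cm_eq (𝒰 : Cover M) (m : ℕ) (b : F2 E4 M) : 𝒰.cm m b = sSup (cmSet 𝒰 m b) := rfl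

lemma cmSet_bdd (𝒰 : Cover M) (m : ℕ) {b : F2 E4 M} (hb : Smooth2 b) :
    BddAbove (cmSet 𝒰 m b) := by
  have h : ∀ i, ∃ C : ℝ, 0 ≤ C ∧ ∀ j ≤ m, ∀ y ∈ 𝒰.K i,
      ‖iteratedFDeriv ℝ j (rep (𝒰.p i) b) y‖ ≤ C :=
    fun i => bdd_rep hb (𝒰.p i) (𝒰.cpt i) (𝒰.sub i) m
  choose C hC h using h
  refine ⟨∑ i, C i, ?_⟩
  rintro r ⟨i, j, hj, y, hy, rfl⟩
  exact (h i j hj y hy).trans (Finset.single_le_sum (f := C) (fun k _ => hC k) (Finset.mem_univ i))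

/-- every derivative is at most `cm`. -/
theorem le_cm (𝒰 : Cover M) {m j : ℕ} (hj : j ≤ m) {b : F2 E4 M} (hb : Smooth2 b) {i : Fin 𝒰.N}
    {y : E4} (hy : y ∈ 𝒰.K i) : ‖iteratedFDeriv ℝ j (rep (𝒰.p i) b) y‖ ≤ 𝒰.cm m b :=
  le_csSup (cmSet_bdd 𝒰 m hb) ⟨i, j, hj, y, hy, rfl⟩

theorem cm_nonneg (𝒰 : Cover M) (m : ℕ) (b : F2 E4 M) : 0 ≤ 𝒰.cm m b := by
  refine Real.sSup_nonneg ?_
  rintro r ⟨i, j, hj, y, hy, rfl⟩
  exact norm_nonneg _

theorem cm_le (𝒰 : Cover M) {m : ℕ} {b : F2 E4 M} {C : ℝ} (hC : 0 ≤ C)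
    (h : ∀ i, ∀ j ≤ m, ∀ y ∈ 𝒰.K i, ‖iteratedFDeriv ℝ j (rep (𝒰.p i) b) y‖ ≤ C) :
    𝒰.cm m b ≤ C := by
  refine Real.sSup_le ?_ hC
  rintro r ⟨i, j, hj, y, hy, rfl⟩
  exact h i j hj y hy

theorem cm_mono (𝒰 : Cover M) {m m' : ℕ} (hm : m ≤ m') {b : F2 E4 M} (hb : Smooth2 b) :
    𝒰.cm m b ≤ 𝒰.cm m' b :=
  cm_le 𝒰 (cm_nonneg _ _ _) fun _ _ hj _ hy => le_cm 𝒰 (hj.trans hm) hb hy

theorem cm_add_le (𝒰 : Cover M) (m : ℕ) {a b : F2 E4 M} (ha : Smooth2 a) (hb : Smooth2 b) :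
    𝒰.cm m (a + b) ≤ 𝒰.cm m a + 𝒰.cm m b := by
  refine cm_le 𝒰 (add_nonneg (cm_nonneg _ _ _) (cm_nonneg _ _ _)) fun i j hj y hy => ?_
  have h1 : rep (𝒰.p i) (a + b) = rep (𝒰.p i) a + rep (𝒰.p i) b := rfl
  have hya := 𝒰.sub i hy
  have hn := (chartAt E4 (𝒰.p i)).open_target.mem_nhds hya
  rw [h1, iteratedFDeriv_add_apply (((ha.2 _).contDiffAt hn).of_le (by exact_mod_cast le_top))
    (((hb.2 _).contDiffAt hn).of_le (by exact_mod_cast le_top))]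
  exact (norm_add_le _ _).trans (add_le_add (le_cm 𝒰 hj ha hy) (le_cm 𝒰 hj hb hy))

theorem cm_smul (𝒰 : Cover M) (m : ℕ) {a : F2 E4 M} (ha : Smooth2 a) (t : ℝ) :
    𝒰.cm m (t • a) = |t| * 𝒰.cm m a := by
  have hle : ∀ (t : ℝ) {a : F2 E4 M}, Smooth2 a → 𝒰.cm m (t • a) ≤ |t| * 𝒰.cm m a := by
    intro t a ha
    refine cm_le 𝒰 (mul_nonneg (abs_nonneg _) (cm_nonneg _ _ _)) fun i j hj y hy => ?_
    have h1 : rep (𝒰.p i) (t • a) = t • rep (𝒰.p i) a := rfl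
    have hn := (chartAt E4 (𝒰.p i)).open_target.mem_nhds (𝒰.sub i hy)
    rw [h1, iteratedFDeriv_const_smul_apply
      (((ha.2 _).contDiffAt hn).of_le (by exact_mod_cast le_top)), norm_smul, Real.norm_eq_abs]
    exact mul_le_mul_of_nonneg_left (le_cm 𝒰 hj ha hy) (abs_nonneg _)
  refine le_antisymm (hle t ha) ?_
  by_cases ht : t = 0
  · subst ht; simpa using cm_nonneg 𝒰 m _
  · have hsm : Smooth2 (t • a) := by
      refine ⟨fun x v => ?_, fun p => ?_⟩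
      · have : at2 (t • a) x v v = t * at2 a x v v := rfl
        rw [this, ha.1, mul_zero]
      · exact (ha.2 p).const_smul t
    have h1 := hle t⁻¹ hsm
    rw [smul_smul, inv_mul_cancel₀ ht, one_smul, abs_inv] at h1
    have h2 : 0 < |t| := abs_pos.2 ht
    calc |t| * 𝒰.cm m a ≤ |t| * (|t|⁻¹ * 𝒰.cm m (t • a)) := by gcongr
      _ = _ := by field_simp

theorem cm_zero (𝒰 : Cover M) (m : ℕ) : 𝒰.cm m (0 : F2 E4 M) = 0 := by
  refine le_antisymm (cm_le 𝒰 le_rfl fun i j hj y hy => ?_) (cm_nonneg _ _ _)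
  have h1 : rep (𝒰.p i) (0 : F2 E4 M) = 0 := rfl
  rw [h1, iteratedFDeriv_zero]; simp

theorem cm_neg (𝒰 : Cover M) (m : ℕ) {a : F2 E4 M} (ha : Smooth2 a) :
    𝒰.cm m (-a) = 𝒰.cm m a := by
  have h := cm_smul 𝒰 m ha (-1)
  rw [neg_one_smul] at h
  rw [h]; simp

/-- COMPARISON: derivatives in any chart on any compact set are controlled by `cm`. -/
theorem cm_compare (𝒰 : Cover M) (p : M) {L : Set E4} (hL : IsCompact L)
    (hLp : L ⊆ (chartAt E4 p).target) (l : ℕ) :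
    ∃ C : ℝ, 0 ≤ C ∧ ∀ b : F2 E4 M, Smooth2 b → ∀ j ≤ l, ∀ y ∈ L,
      ‖iteratedFDeriv ℝ j (rep p b) y‖ ≤ C * 𝒰.cm l b := by
  obtain ⟨C, hC, h⟩ := cmp_family 𝒰.p 𝒰.K 𝒰.sub 𝒰.cov p hL hLp l
  exact ⟨C, hC, fun b hb j hj y hy => h b hb _ (cm_nonneg _ _ _)
    (fun i j hj z hz => le_cm 𝒰 hj hb hz) j hj y hy⟩

/-- different covers give equivalent norms. -/
theorem cm_compare_cover (𝒰 𝒱 : Cover M) (l : ℕ) :
    ∃ C : ℝ, 0 ≤ C ∧ ∀ b : F2 E4 M, Smooth2 b → 𝒱.cm l b ≤ C * 𝒰.cm l b := by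
  have h := fun i : Fin 𝒱.N => cm_compare 𝒰 (𝒱.p i) (𝒱.cpt i) (𝒱.sub i) l
  choose C hC h using h
  refine ⟨∑ i, C i, Finset.sum_nonneg fun i _ => hC i, fun b hb => ?_⟩
  have h0 := cm_nonneg 𝒰 l b
  refine cm_le 𝒱 (mul_nonneg (Finset.sum_nonneg fun i _ => hC i) h0) fun i j hj y hy => ?_
  refine (h i b hb j hj y hy).trans (mul_le_mul_of_nonneg_right ?_ h0)
  exact Finset.single_le_sum (f := C) (fun k _ => hC k) (Finset.mem_univ i)

/-- the cover of a finite atlas. -/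
def FA.toCover (A : FA E4 M) : Cover M where
  N := A.n
  p := A.c
  K := A.K
  cpt := A.isCompact_K
  sub := A.K_sub
  cov := A.cover

theorem exists_Cover [T2Space M] [CompactSpace M] : Nonempty (Cover M) := by
  obtain ⟨A⟩ := exists_FA (E := E4) (M := M)
  exact ⟨A.toCover⟩

end Four

end

end Crest.Agent.R240.Ch
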