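import Mathlib
import Crest.Agent.R240.Cmp
import Crest.Agent.R240.XDefs

/-!
Row 240 (S0371), helper781: the projections `b ↦ b'`, `b ↦ b''` are bounded in the `C^l` norms.
-/

set_option autoImplicit false
set_option maxSynthPendingDepth 3
set_option linter.unusedSectionVars false

open Set Function Filter Topology
open scoped Manifold ContDiff

namespace Crest.Agent.R240.N5

open Crest.Agent.R240 Crest.Agent.R240.Ch

noncomputable section

/-- a smooth family of linear maps acts boundedly in `C^l` on compact sets. -/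
theorem clm_bound {E F G : Type*} [NormedAddCommGroup E] [NormedSpace ℝ E]
    [NormedAddCommGroup F] [NormedSpace ℝ F] [NormedAddCommGroup G] [NormedSpace ℝ G]
    {U K : Set E} (hU : IsOpen U) {T : E → F →L[ℝ] G} (hT : ContDiffOn ℝ ∞ T U)
    (hK : IsCompact K) (hKU : K ⊆ U) (l : ℕ) :
    ∃ C : ℝ, 0 ≤ C ∧ ∀ b : E → F, ContDiffOn ℝ ∞ b U → ∀ B : ℝ, 0 ≤ B →
      (∀ j ≤ l, ∀ y ∈ K, ‖iteratedFDeriv ℝ j b y‖ ≤ B) → ∀ j ≤ l, ∀ y ∈ K,
      ‖iteratedFDeriv ℝ j (fun y => T y (b y)) y‖ ≤ C * B := by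
  obtain ⟨A, hA, hA'⟩ := bdd_iter hU hT hK hKU l
  set c : ℕ → ℝ := fun n => ∑ i ∈ Finset.range (n + 1), ((n.choose i : ℝ) * A) with hc
  have hc0 : ∀ n, 0 ≤ c n := fun n => Finset.sum_nonneg fun i _ => by positivity
  refine ⟨∑ n ∈ Finset.range (l + 1), c n, Finset.sum_nonneg fun n _ => hc0 n, ?_⟩
  intro b hb B hB hbB n hn y hy
  have hyU := hKU hy
  have hn' : (n : WithTop ℕ∞) ≤ ∞ := by exact_mod_cast le_top
  have h1 := norm_iteratedFDerivWithin_clm_apply hT hb hU.uniqueDiffOn hyU hn'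
  rw [iterWithin_eq hU hyU] at h1
  calc ‖iteratedFDeriv ℝ n (fun y => T y (b y)) y‖
      ≤ ∑ i ∈ Finset.range (n + 1), (n.choose i : ℝ) *
          ‖iteratedFDerivWithin ℝ i T U y‖ *
          ‖iteratedFDerivWithin ℝ (n - i) b U y‖ := h1
    _ ≤ ∑ i ∈ Finset.range (n + 1), (n.choose i : ℝ) * A * B := by
        refine Finset.sum_le_sum fun i hi => ?_
        have hi' : i ≤ n := Nat.lt_succ_iff.1 (Finset.mem_range.1 hi)
        rw [iterWithin_eq hU hyU, iterWithin_eq hU hyU]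
        have h3 := hA' i (hi'.trans hn) y hy
        have h4 := hbB (n - i) ((Nat.sub_le n i).trans hn) y hy
        gcongr
    _ = c n * B := by
        rw [hc, Finset.sum_mul]
    _ ≤ (∑ n ∈ Finset.range (l + 1), c n) * B := by
        refine mul_le_mul_of_nonneg_right ?_ hB
        exact Finset.single_le_sum (f := c) (fun i _ => hc0 i)
          (Finset.mem_range.2 (Nat.lt_succ_of_le hn))

theorem pull_eq_pbL (A : E4 →L[ℝ] E4) (b : Bil) : pull A b = pbL A b := by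
  ext u v
  rw [pull_apply]
  rfl

/-- `antip J` as a continuous linear map. -/
def antiL (A : E4 →L[ℝ] E4) : Bil →L[ℝ] Bil :=
  (1 / 2 : ℝ) • (ContinuousLinearMap.id ℝ Bil - pbL A)

/-- `invp J` as a continuous linear map. -/
def invL (A : E4 →L[ℝ] E4) : Bil →L[ℝ] Bil :=
  (1 / 2 : ℝ) • (ContinuousLinearMap.id ℝ Bil + pbL A)

theorem antiL_apply (A : E4 →L[ℝ] E4) (b : Bil) : antiL A b = antip A b := by
  unfold antiL antip
  rw [pull_eq_pbL]
  rfl

theorem invL_apply (A : E4 →L[ℝ] E4) (b : Bil) : invL A b = invp A b := by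
  unfold invL invp
  rw [pull_eq_pbL]
  rfl

theorem contDiff_antiL {n : WithTop ℕ∞} : ContDiff ℝ n antiL := by
  unfold antiL
  exact ContDiff.const_smul _ (ContDiff.sub contDiff_const (contDiff_pbL (E := E4)))

theorem contDiff_invL {n : WithTop ℕ∞} : ContDiff ℝ n invL := by
  unfold invL
  exact ContDiff.const_smul _ (ContDiff.add contDiff_const (contDiff_pbL (E := E4)))

variable {M : Type*} [TopologicalSpace M] [ChartedSpace E4 M] [IsManifold 𝓘(ℝ, E4) ∞ M]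

theorem cm_bpp_le (𝒰 : Cover M) {J : EndF E4 M} (hJ : SmoothJ J) (l : ℕ) :
    ∃ C : ℝ, 0 ≤ C ∧ ∀ b : F2 E4 M, Smooth2 b → 𝒰.cm l (bpp J b) ≤ C * 𝒰.cm l b := by
  have h := fun i : Fin 𝒰.N =>
    clm_bound (E := E4) (F := Bil) (G := Bil) (chartAt E4 (𝒰.p i)).open_target
      (T := fun y => antiL (repJ (𝒰.p i) J y))
      (contDiff_antiL.comp_contDiffOn (hJ (𝒰.p i))) (𝒰.cpt i) (𝒰.sub i) l
  choose C hC h using h
  refine ⟨∑ i, C i, Finset.sum_nonneg fun i _ => hC i, fun b hb => ?_⟩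
  have h0 := cm_nonneg 𝒰 l b
  refine cm_le 𝒰 (mul_nonneg (Finset.sum_nonneg fun i _ => hC i) h0) fun i j hj y hy => ?_
  have h1 := h i (rep (𝒰.p i) b) (hb.2 _) (𝒰.cm l b) h0
    (fun j hj y hy => le_cm 𝒰 hj hb hy) j hj y hy
  have hev : rep (𝒰.p i) (bpp J b) =ᶠ[𝓝 y]
      fun y => antiL (repJ (𝒰.p i) J y) (rep (𝒰.p i) b y) := by
    filter_upwards [(chartAt E4 (𝒰.p i)).open_target.mem_nhds (𝒰.sub i hy)] with z hz
    rw [antiL_apply, rep_bpp hz]
  rw [(hev.iteratedFDeriv ℝ j).eq_of_nhds]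
  refine h1.trans (mul_le_mul_of_nonneg_right ?_ h0)
  exact Finset.single_le_sum (f := C) (fun k _ => hC k) (Finset.mem_univ i)

theorem cm_bp_le (𝒰 : Cover M) {J : EndF E4 M} (hJ : SmoothJ J) (l : ℕ) :
    ∃ C : ℝ, 0 ≤ C ∧ ∀ b : F2 E4 M, Smooth2 b → 𝒰.cm l (bp J b) ≤ C * 𝒰.cm l b := by
  have h := fun i : Fin 𝒰.N =>
    clm_bound (E := E4) (F := Bil) (G := Bil) (chartAt E4 (𝒰.p i)).open_target
      (T := fun y => invL (repJ (𝒰.p i) J y))
      (contDiff_invL.comp_contDiffOn (hJ (𝒰.p i))) (𝒰.cpt i) (𝒰.sub i) l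
  choose C hC h using h
  refine ⟨∑ i, C i, Finset.sum_nonneg fun i _ => hC i, fun b hb => ?_⟩
  have h0 := cm_nonneg 𝒰 l b
  refine cm_le 𝒰 (mul_nonneg (Finset.sum_nonneg fun i _ => hC i) h0) fun i j hj y hy => ?_
  have h1 := h i (rep (𝒰.p i) b) (hb.2 _) (𝒰.cm l b) h0
    (fun j hj y hy => le_cm 𝒰 hj hb hy) j hj y hy
  have hev : rep (𝒰.p i) (bp J b) =ᶠ[𝓝 y]
      fun y => invL (repJ (𝒰.p i) J y) (rep (𝒰.p i) b y) := by
    filter_upwards [(chartAt E4 (𝒰.p i)).open_target.mem_nhds (𝒰.sub i hy)] with z hz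
    rw [invL_apply, rep_bp hz]
  rw [(hev.iteratedFDeriv ℝ j).eq_of_nhds]
  refine h1.trans (mul_le_mul_of_nonneg_right ?_ h0)
  exact Finset.single_le_sum (f := C) (fun k _ => hC k) (Finset.mem_univ i)

end

end Crest.Agent.R240.N5
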