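import Crest.Agent.R240.Lin3

/-!
Row 240 (S0371), PART D2 (helper703): pointwise duality. A linear functional on bilinear forms which
kills `J`-anti-invariant forms and is nonnegative on the forms `ξ ∧ Jc ξ` is `q F φ ·` with `φ` a
nonnegative `J`-invariant form.
-/

set_option autoImplicit false
set_option maxSynthPendingDepth 3

namespace Crest.Agent.R240.Dens

open Crest.Agent.R240

noncomputable section

/-- the elementary forms `dx_i ∧ dx_j`. -/
def EE (i j : Fin 4) : Bil := wed (pr i) (pr j)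

theorem EE_apply (i j : Fin 4) (u v : E4) : EE i j u v = u i * v j - u j * v i := by
  rw [EE, wed_apply]; simp only [pr_apply]

theorem EE_alt (i j : Fin 4) : Alt (EE i j) := wed_alt _ _

theorem ent_EE (i j k l : Fin 4) : ent (EE i j) k l =
    (if i = k then (1 : ℝ) else 0) * (if j = l then (1 : ℝ) else 0)
      - (if j = k then (1 : ℝ) else 0) * (if i = l then (1 : ℝ) else 0) := by
  unfold ent
  rw [EE_apply]
  simp only [ee_apply]

theorem alt_sum {b : Bil} (hb : Alt b) : b =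
    ent b 0 1 • EE 0 1 + ent b 0 2 • EE 0 2 + ent b 0 3 • EE 0 3 + ent b 1 2 • EE 1 2
      + ent b 1 3 • EE 1 3 + ent b 2 3 • EE 2 3 := by
  ext u v
  rw [alt_expand hb]
  simp only [add_apply, smul_apply, EE_apply, smul_eq_mul]
  ring

theorem W_EE01 (b : Bil) : W b (EE 0 1) = ent b 2 3 := by
  unfold W; simp only [ent_EE]; simp
theorem W_EE02 (b : Bil) : W b (EE 0 2) = - ent b 1 3 := by
  unfold W; simp only [ent_EE]; simp
theorem W_EE03 (b : Bil) : W b (EE 0 3) = ent b 1 2 := by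
  unfold W; simp only [ent_EE]; simp
theorem W_EE12 (b : Bil) : W b (EE 1 2) = ent b 0 3 := by
  unfold W; simp only [ent_EE]; simp
theorem W_EE13 (b : Bil) : W b (EE 1 3) = - ent b 0 2 := by
  unfold W; simp only [ent_EE]; simp
theorem W_EE23 (b : Bil) : W b (EE 2 3) = ent b 0 1 := by
  unfold W; simp only [ent_EE]; simp

/-- nondegeneracy of `W` on alternating forms. -/
theorem W_nondeg {b : Bil} (hb : Alt b) (h : ∀ c, Alt c → W b c = 0) : b = 0 := by
  have h0 : Alt (0 : Bil) := fun v => by simp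
  have h01 := h _ (EE_alt 0 1)
  have h02 := h _ (EE_alt 0 2)
  have h03 := h _ (EE_alt 0 3)
  have h12 := h _ (EE_alt 1 2)
  have h13 := h _ (EE_alt 1 3)
  have h23 := h _ (EE_alt 2 3)
  rw [W_EE01] at h01
  rw [W_EE02] at h02
  rw [W_EE03] at h03
  rw [W_EE12] at h12
  rw [W_EE13] at h13
  rw [W_EE23] at h23
  refine alt_ext hb h0 ?_ ?_ ?_ ?_ ?_ ?_ <;> rw [ent_zero] <;> linarith

theorem invp_inv {J : E4 →L[ℝ] E4} (hJ : ∀ v, J (J v) = -v) (b : Bil) (u v : E4) :
    invp J b (J u) (J v) = invp J b u v := by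
  rw [invp_apply, invp_apply, hJ, hJ]
  simp only [map_neg, neg_apply, neg_neg]
  ring

theorem antip_anti {J : E4 →L[ℝ] E4} (hJ : ∀ v, J (J v) = -v) (b : Bil) (u v : E4) :
    antip J b (J u) (J v) = - antip J b u v := by
  rw [antip_apply, antip_apply, hJ, hJ]
  simp only [map_neg, neg_apply, neg_neg]
  ring

theorem alt_invp {b : Bil} (hb : Alt b) (J : E4 →L[ℝ] E4) : Alt (invp J b) := by
  intro v; rw [invp_apply, hb, hb]; norm_num

theorem alt_antip {b : Bil} (hb : Alt b) (J : E4 →L[ℝ] E4) : Alt (antip J b) := by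
  intro v; rw [antip_apply, hb, hb]; norm_num

theorem alt_add {b c : Bil} (hb : Alt b) (hc : Alt c) : Alt (b + c) := by
  intro v; simp [hb v, hc v]

theorem alt_smul {b : Bil} (hb : Alt b) (r : ℝ) : Alt (r • b) := by
  intro v; simp [hb v]

theorem alt_sub {b c : Bil} (hb : Alt b) (hc : Alt c) : Alt (b - c) := by
  intro v; simp [hb v, hc v]

theorem alt_zero : Alt (0 : Bil) := fun v => by simp

theorem W_mixed {J : E4 →L[ℝ] E4} (hJ : ∀ v, J (J v) = -v) {F : Bil} (hF : SPos J F)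
    {b c : Bil} (hb' : Alt b) (hc' : Alt c) (hb : ∀ u v, b (J u) (J v) = b u v)
    (hc : ∀ u v, c (J u) (J v) = - c u v) : W b c = 0 := by
  obtain ⟨A, hA⟩ := exists_frame hJ hF
  have h1 := W_pull hb' hc' (A : E4 →L[ℝ] E4)
  rw [W_mixed0 (hc'.pull _) (hA.pull_inv hb) (hA.pull_anti hc)] at h1
  rcases mul_eq_zero.1 h1.symm with h | h
  · exact absurd h (det_ne A)
  · exact h

theorem spos_W_ne {J : E4 →L[ℝ] E4} (hJ : ∀ v, J (J v) = -v) {F : Bil} (hF : SPos J F) :
    W F F ≠ 0 := by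
  obtain ⟨A, hA⟩ := exists_frame hJ hF
  exact hA.W_ne hF.alt

theorem antip_eq_zero_of_W {J : E4 →L[ℝ] E4} (hJ : ∀ v, J (J v) = -v) {F : Bil}
    (hF : SPos J F) {b : Bil} (hb : Alt b) (h : ∀ c, Alt c → W b (antip J c) = 0) :
    antip J b = 0 := by
  apply W_nondeg (alt_antip hb J)
  intro c hc
  have e1 : W (antip J b) c = W (antip J b) (invp J c) + W (antip J b) (antip J c) := by
    rw [← W_add_right, invp_add_antip]
  have e2 : W b (antip J c) = W (invp J b) (antip J c) + W (antip J b) (antip J c) := by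
    rw [← W_add_left, invp_add_antip]
  have e3 : W (antip J b) (invp J c) = 0 := by
    rw [W_comm]
    exact W_mixed hJ hF (alt_invp hc J) (alt_antip hb J) (invp_inv hJ c) (antip_anti hJ b)
  have e4 : W (invp J b) (antip J c) = 0 :=
    W_mixed hJ hF (alt_invp hb J) (alt_antip hc J) (invp_inv hJ b) (antip_anti hJ c)
  rw [e1, e3, zero_add]
  have := h c hc
  rw [e2, e4, zero_add] at this
  exact this

/-- the covector dual to `v` in the standard structure. -/
def xiv (v : E4) : E4 →L[ℝ] ℝ := (-v 2) • pr 0 + v 3 • pr 1 + v 0 • pr 2 + (-v 1) • pr 3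

theorem xiv_apply (v w : E4) : xiv v w = -v 2 * w 0 + v 3 * w 1 + v 0 * w 2 + (-v 1) * w 3 := by
  simp [xiv]

theorem pos_of_W0 {b : Bil} (halt : Alt b) (hb : ∀ u v, b (J0 u) (J0 v) = b u v)
    (h : ∀ ξ : E4 →L[ℝ] ℝ, 0 ≤ W b (wed ξ (Jc J0 ξ))) (v : E4) : 0 ≤ b v (J0 v) := by
  have h1 := h (xiv v)
  have hc : ∀ u w, wed (xiv v) (Jc J0 (xiv v)) (J0 u) (J0 w) = wed (xiv v) (Jc J0 (xiv v)) u w :=
    (wed_Jc_pos J0_J0 (xiv v)).inv
  rw [W_inv0 hb hc] at h1
  obtain ⟨h13, h12⟩ := inv0_ent hb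
  rw [alt_expand halt, h13, h12]
  simp only [J0_0, J0_1, J0_2, J0_3]
  have e : ∀ i j, ent (wed (xiv v) (Jc J0 (xiv v))) i j
      = xiv v (ee i) * (-(xiv v (J0 (ee j)))) - (-(xiv v (J0 (ee i)))) * xiv v (ee j) := by
    intro i j
    unfold ent
    rw [wed_apply, Jc_apply, Jc_apply]
  rw [e, e, e, e] at h1
  simp only [J0_ee0, J0_ee1, J0_ee2, J0_ee3, map_neg, xiv_apply, ee_apply] at h1
  simp at h1
  nlinarith [h1]

/-- positivity of a `J`-invariant form from its pairings with `ξ ∧ Jc ξ`. -/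
theorem pos_of_q {J : E4 →L[ℝ] E4} (hJ : ∀ v, J (J v) = -v) {F : Bil} (hF : SPos J F)
    {b : Bil} (halt : Alt b) (hb : ∀ u v, b (J u) (J v) = b u v)
    (h : ∀ ξ : E4 →L[ℝ] ℝ, 0 ≤ q F b (wed ξ (Jc J ξ))) : Pos J b := by
  refine ⟨halt, hb, ?_⟩
  obtain ⟨A, hA⟩ := exists_frame hJ hF
  have h0 : ∀ v, 0 ≤ pull (A : E4 →L[ℝ] E4) b v (J0 v) := by
    apply pos_of_W0 (halt.pull _) (hA.pull_inv hb)
    intro ξ0
    have h1 := h (ξ0.comp (A.symm : E4 →L[ℝ] E4))
    rw [hA.q_eq hF.alt halt (wed_alt _ _)] at h1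
    have e : pull (A : E4 →L[ℝ] E4) (wed (ξ0.comp (A.symm : E4 →L[ℝ] E4))
        (Jc J (ξ0.comp (A.symm : E4 →L[ℝ] E4)))) = wed ξ0 (Jc J0 ξ0) := by
      ext u v
      rw [pull_apply, wed_apply, wed_apply]
      have e1 : ∀ w : E4, A.symm (J (A w)) = J0 w := by
        intro w
        rw [hA.cplx]
        simp
      simp only [Jc_apply, ContinuousLinearMap.comp_apply, ContinuousLinearEquiv.coe_coe,
        ContinuousLinearEquiv.symm_apply_apply, e1]
    rw [e] at h1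
    linarith
  intro v
  have h2 := h0 (A.symm v)
  rw [pull_apply] at h2
  simp only [ContinuousLinearEquiv.coe_coe, ContinuousLinearEquiv.apply_symm_apply] at h2
  rw [← hA.cplx] at h2
  simpa using h2

/-- the form dual to a linear functional with respect to `q F`. -/
def dq (F : Bil) (l : Bil →L[ℝ] ℝ) : Bil :=
  W F F • (l (EE 2 3) • EE 0 1 + (-(l (EE 1 3))) • EE 0 2 + l (EE 1 2) • EE 0 3
    + l (EE 0 3) • EE 1 2 + (-(l (EE 0 2))) • EE 1 3 + l (EE 0 1) • EE 2 3)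

theorem dq_alt (F : Bil) (l : Bil →L[ℝ] ℝ) : Alt (dq F l) := by
  unfold dq
  exact alt_smul (alt_add (alt_add (alt_add (alt_add (alt_add (alt_smul (EE_alt 0 1) _)
    (alt_smul (EE_alt 0 2) _)) (alt_smul (EE_alt 0 3) _)) (alt_smul (EE_alt 1 2) _))
    (alt_smul (EE_alt 1 3) _)) (alt_smul (EE_alt 2 3) _)) _

theorem q_dq {F : Bil} (hF : W F F ≠ 0) (l : Bil →L[ℝ] ℝ) {b : Bil} (hb : Alt b) :
    q F (dq F l) b = l b := by
  unfold q
  rw [div_eq_iff hF]
  unfold dq
  rw [W_smul_left]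
  simp only [W_add_left, W_smul_left]
  rw [W_comm (EE 0 1), W_comm (EE 0 2), W_comm (EE 0 3), W_comm (EE 1 2), W_comm (EE 1 3),
    W_comm (EE 2 3), W_EE01, W_EE02, W_EE03, W_EE12, W_EE13, W_EE23]
  conv_rhs => rw [alt_sum hb]
  simp only [map_add, map_smul, smul_eq_mul]
  ring

/-- **Pointwise duality.** -/
theorem dq_pos {J : E4 →L[ℝ] E4} (hJ : ∀ v, J (J v) = -v) {F : Bil} (hF : SPos J F)
    (l : Bil →L[ℝ] ℝ) (hl : ∀ b, Alt b → l (antip J b) = 0)
    (hpos : ∀ ξ : E4 →L[ℝ] ℝ, 0 ≤ l (wed ξ (Jc J ξ))) : Pos J (dq F l) := by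
  have hW := spos_W_ne hJ hF
  have h1 : antip J (dq F l) = 0 := by
    apply antip_eq_zero_of_W hJ hF (dq_alt F l)
    intro c hc
    have h2 := q_dq hW l (alt_antip hc J)
    rw [hl c hc] at h2
    unfold q at h2
    rcases div_eq_zero_iff.1 h2 with h | h
    · exact h
    · exact absurd h hW
  have h2 : ∀ u v, dq F l (J u) (J v) = dq F l u v := by
    intro u v
    have h3 : antip J (dq F l) u v = 0 := by rw [h1]; simp
    rw [antip_apply] at h3
    linarith
  refine pos_of_q hJ hF (dq_alt F l) h2 ?_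
  intro ξ
  rw [q_dq hW l (wed_alt _ _)]
  exact hpos ξ

end

end Crest.Agent.R240.Dens
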