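import Mathlib

/-!
# R240, block V: a vector valued Riesz theorem (polar form of a current of order 0)

`exists_density`: a linear functional on a space of (square integrable) fields `X → V`,
bounded by `C ∫ ‖f‖ ds`, is `f ↦ ∫ ⟪φ, f⟫ ds` with `φ` measurable and `‖φ‖ ≤ C` everywhere.
-/

set_option autoImplicit false
set_option linter.unusedSectionVars false
open MeasureTheory Set
open scoped ENNReal NNReal

namespace Crest.Agent.R240.Vm

variable {X : Type*} [MeasurableSpace X] {V : Type*} [NormedAddCommGroup V]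
  [InnerProductSpace ℝ V] [FiniteDimensional ℝ V] [MeasurableSpace V] [BorelSpace V]

/-- square integrable functions as a submodule of all functions. -/
def L2fun (s : Measure X) (V : Type*) [NormedAddCommGroup V]
    [InnerProductSpace ℝ V] : Submodule ℝ (X → V) where
  carrier := {f | MemLp f 2 s}
  add_mem' := fun {_ _} hf hg => hf.add hg
  zero_mem' := MemLp.zero
  smul_mem' := fun c _ hf => hf.const_smul c

theorem mem_L2fun {s : Measure X} {f : X → V} : f ∈ L2fun s V ↔ MemLp f 2 s := Iff.rfl

theorem L2fun_integrable {s : Measure X} [IsFiniteMeasure s] {f : X → V} (hf : f ∈ L2fun s V) :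
    Integrable f s := by
  have h : MemLp f 2 s := hf
  exact (h.mono_exponent (p := 1) (by norm_num)).integrable (le_refl _)

/-- **Vector valued Riesz theorem.** -/
theorem exists_density (s : Measure X) [IsFiniteMeasure s] {C : ℝ} (hC : 0 ≤ C)
    (D : Submodule ℝ (X → V)) (hD : ∀ f ∈ D, MemLp f 2 s)
    (Phi : D →ₗ[ℝ] ℝ) (hPhi : ∀ f : D, Phi f ≤ C * ∫ x, ‖(f : X → V) x‖ ∂s) :
    ∃ φ : X → V, Measurable φ ∧ (∀ x, ‖φ x‖ ≤ C) ∧
      ∀ f : D, Phi f = ∫ x, inner ℝ (φ x) ((f : X → V) x) ∂s := by
  classical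
  have hDle : D ≤ L2fun s V := fun f hf => hD f hf
  -- the partial functional on `L2fun`
  let N : L2fun s V → ℝ := fun f => C * ∫ x, ‖(f : X → V) x‖ ∂s
  let D' : Submodule ℝ (L2fun s V) := D.comap (L2fun s V).subtype
  let ι : D' →ₗ[ℝ] D :=
    { toFun := fun f => ⟨((f : L2fun s V) : X → V), f.2⟩
      map_add' := fun _ _ => rfl
      map_smul' := fun _ _ => rfl }
  let F : L2fun s V →ₗ.[ℝ] ℝ := ⟨D', Phi.comp ι⟩
  obtain ⟨g, hg1, hg2⟩ := exists_extension_of_le_sublinear F N
    (by
      intro c hc f
      simp only [N]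
      have : ∀ x, ‖((c • f : L2fun s V) : X → V) x‖ = c * ‖(f : X → V) x‖ := by
        intro x
        rw [Submodule.coe_smul, Pi.smul_apply, norm_smul, Real.norm_of_nonneg hc.le]
      simp only [this]
      rw [integral_const_mul]; ring)
    (by
      intro f h
      simp only [N]
      rw [← mul_add]
      apply mul_le_mul_of_nonneg_left _ hC
      rw [← integral_add (L2fun_integrable f.2).norm (L2fun_integrable h.2).norm]
      apply integral_mono
      · exact (L2fun_integrable (f + h).2).norm
      · exact (L2fun_integrable f.2).norm.add (L2fun_integrable h.2).norm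
      · intro x
        exact norm_add_le _ _)
    (by
      intro f
      exact hPhi (ι f))
  have hgN : ∀ f, |g f| ≤ N f := by
    intro f
    rw [abs_le]
    constructor
    · have h1 := hg2 (-f)
      have h2 : N (-f) = N f := by
        simp only [N]
        congr 1
        apply integral_congr_ae
        filter_upwards with x
        simp
      rw [map_neg, h2] at h1
      linarith
    · exact hg2 f
  have hgae : ∀ f h : L2fun s V, (f : X → V) =ᵐ[s] (h : X → V) → g f = g h := by
    intro f h hfh
    have h1 := hgN (f - h)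
    have h2 : N (f - h) = 0 := by
      simp only [N]
      have : ∫ x, ‖((f - h : L2fun s V) : X → V) x‖ ∂s = 0 := by
        rw [integral_eq_zero_of_ae]
        filter_upwards [hfh] with x hx
        simp [hx]
      rw [this, mul_zero]
    rw [h2, map_sub] at h1
    have := abs_nonpos_iff.mp h1
    linarith
  -- descend to `Lp`
  let rep : Lp V 2 s → L2fun s V := fun u => ⟨fun x => u x, Lp.memLp u⟩
  let Ψ0 : Lp V 2 s →ₗ[ℝ] ℝ :=
    { toFun := fun u => g (rep u)
      map_add' := by
        intro u v
        rw [← map_add]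
        apply hgae
        exact Lp.coeFn_add u v
      map_smul' := by
        intro c u
        rw [RingHom.id_apply, ← map_smul]
        apply hgae
        exact Lp.coeFn_smul c u }
  have hΨ0 : ∀ u : Lp V 2 s, |Ψ0 u| ≤ C * ∫ x, ‖u x‖ ∂s := fun u => hgN (rep u)
  have hbd : ∀ u : Lp V 2 s, ‖Ψ0 u‖ ≤ (C * Real.sqrt (s.real univ)) * ‖u‖ := by
    intro u
    refine (hΨ0 u).trans ?_
    rw [mul_assoc]
    apply mul_le_mul_of_nonneg_left _ hC
    have hu := Lp.memLp u
    -- Cauchy-Schwarz
    have h1 : ∫ x, ‖u x‖ ∂s ≤ Real.sqrt (∫ x, (1:ℝ) ^ 2 ∂s) * Real.sqrt (∫ x, ‖u x‖ ^ 2 ∂s) := by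
      have hn : MemLp (fun x => ‖u x‖) (ENNReal.ofReal 2) s := by
        simpa using hu.norm
      have ho : MemLp (fun _ : X => (1:ℝ)) (ENNReal.ofReal 2) s := memLp_const _
      have hh := integral_mul_le_Lp_mul_Lq_of_nonneg (μ := s) (f := fun _ => (1:ℝ))
        (g := fun x => ‖u x‖) (p := 2) (q := 2) Real.HolderConjugate.two_two
        (Filter.Eventually.of_forall fun _ => zero_le_one)
        (Filter.Eventually.of_forall fun _ => norm_nonneg _) ho hn
      simp only [one_mul] at hh
      rw [Real.sqrt_eq_rpow, Real.sqrt_eq_rpow]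
      simpa using hh
    have h2 : Real.sqrt (∫ x, ‖u x‖ ^ 2 ∂s) = ‖u‖ := by
      have h3 : ‖u‖ ^ 2 = ∫ x, ‖u x‖ ^ 2 ∂s := by
        have h4 := L2.inner_def (𝕜 := ℝ) u u
        rw [real_inner_self_eq_norm_sq] at h4
        rw [h4]
        apply integral_congr_ae
        filter_upwards with x
        exact real_inner_self_eq_norm_sq _
      rw [← h3, Real.sqrt_sq (norm_nonneg _)]
    rw [h2] at h1
    simpa using h1
  let Ψ : Lp V 2 s →L[ℝ] ℝ := Ψ0.mkContinuous _ hbd
  let φ0 : Lp V 2 s := (InnerProductSpace.toDual ℝ (Lp V 2 s)).symm Ψ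
  have hφ0 : ∀ u : Lp V 2 s, ∫ x, inner ℝ (φ0 x) (u x) ∂s = g (rep u) := by
    intro u
    rw [← L2.inner_def]
    have := InnerProductSpace.toDual_symm_apply (𝕜 := ℝ) (x := u) (y := Ψ)
    exact this
  have hφ0' : ∀ u : L2fun s V, ∫ x, inner ℝ (φ0 x) ((u : X → V) x) ∂s = g u := by
    intro u
    have hm : MemLp (u : X → V) 2 s := u.2
    have h1 := hφ0 (hm.toLp (u : X → V))
    have h2 : (fun x => (hm.toLp (u : X → V)) x) =ᵐ[s] (u : X → V) := hm.coeFn_toLp
    rw [hgae (rep (hm.toLp (u : X → V))) u h2] at h1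
    rw [← h1]
    apply integral_congr_ae
    filter_upwards [h2] with x hx
    rw [hx]
  -- the a.e. bound
  have hsm : StronglyMeasurable (fun x => φ0 x) := Lp.stronglyMeasurable φ0
  have hmeas : Measurable (fun x => φ0 x) := hsm.measurable
  let A : Set X := {x | C < ‖φ0 x‖}
  have hA : MeasurableSet A := measurableSet_lt measurable_const hmeas.norm
  have hA0 : s A = 0 := by
    let u : X → V := A.indicator (fun x => (‖φ0 x‖)⁻¹ • φ0 x)
    have hum : AEStronglyMeasurable u s :=
      ((hsm.norm.inv₀).smul hsm).aestronglyMeasurable.indicator hA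
    have hub : ∀ x, ‖u x‖ ≤ 1 := by
      intro x
      by_cases hx : x ∈ A
      · simp only [u, indicator_of_mem hx, norm_smul, norm_inv, norm_norm]
        by_cases h0 : ‖φ0 x‖ = 0
        · simp [h0]
        · rw [inv_mul_cancel₀ h0]
      · simp [u, indicator_of_notMem hx]
    have hu2 : MemLp u 2 s := MemLp.of_bound hum 1 (Filter.Eventually.of_forall hub)
    have h1 := hφ0' ⟨u, hu2⟩
    have h2 := (abs_le.mp (hgN ⟨u, hu2⟩)).2
    rw [← h1] at h2
    simp only [N] at h2
    -- ⟪φ0,u⟫ = indicator ‖φ0‖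
    have h3 : ∀ x, inner ℝ (φ0 x) (u x) = A.indicator (fun x => ‖φ0 x‖) x := by
      intro x
      by_cases hx : x ∈ A
      · simp only [u, indicator_of_mem hx, inner_smul_right, real_inner_self_eq_norm_sq]
        have h0 : ‖φ0 x‖ ≠ 0 := by
          have : C < ‖φ0 x‖ := hx
          linarith
        field_simp
      · simp [u, indicator_of_notMem hx]
    have h4 : ∀ x, ‖u x‖ = A.indicator (fun _ => (1:ℝ)) x := by
      intro x
      by_cases hx : x ∈ A
      · simp only [u, indicator_of_mem hx, norm_smul, norm_inv, norm_norm]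
        have h0 : ‖φ0 x‖ ≠ 0 := by
          have : C < ‖φ0 x‖ := hx
          linarith
        rw [inv_mul_cancel₀ h0]
      · simp [u, indicator_of_notMem hx]
    simp only [h3, h4] at h2
    have hi1 : Integrable (A.indicator fun x => ‖φ0 x‖) s := by
      have : Integrable (fun x => φ0 x) s :=
        ((Lp.memLp φ0).mono_exponent (p := 1) (by norm_num)).integrable (le_refl _)
      exact this.norm.indicator hA
    have hi2 : Integrable (A.indicator fun _ : X => C) s := (integrable_const C).indicator hA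
    have h5 : C * ∫ x, A.indicator (fun _ => (1:ℝ)) x ∂s = ∫ x, A.indicator (fun _ => C) x ∂s := by
      rw [← integral_const_mul]
      apply integral_congr_ae
      filter_upwards with x
      by_cases hx : x ∈ A <;> simp [hx]
    rw [h5] at h2
    have h6 : ∫ x, (A.indicator (fun x => ‖φ0 x‖) x - A.indicator (fun _ => C) x) ∂s ≤ 0 := by
      rw [integral_sub hi1 hi2]; linarith
    have h7 : 0 ≤ᵐ[s] fun x => (A.indicator (fun x => ‖φ0 x‖) x - A.indicator (fun _ => C) x) := by
      filter_upwards with x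
      by_cases hx : x ∈ A
      · have : C < ‖φ0 x‖ := hx
        simp only [indicator_of_mem hx, Pi.zero_apply]
        linarith
      · simp [indicator_of_notMem hx]
    have h8 : ∫ x, (A.indicator (fun x => ‖φ0 x‖) x - A.indicator (fun _ => C) x) ∂s = 0 :=
      le_antisymm h6 (integral_nonneg_of_ae h7)
    have h9 := (integral_eq_zero_iff_of_nonneg_ae h7 (hi1.sub hi2)).mp h8
    rw [measure_eq_zero_iff_ae_notMem]
    filter_upwards [h9] with x hx hxA
    have : C < ‖φ0 x‖ := hxA
    simp only [indicator_of_mem hxA, Pi.zero_apply] at hx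
    linarith
  refine ⟨fun x => if ‖φ0 x‖ ≤ C then φ0 x else 0, ?_, ?_, ?_⟩
  · exact Measurable.ite (measurableSet_le hmeas.norm measurable_const) hmeas measurable_const
  · intro x
    by_cases hx : ‖φ0 x‖ ≤ C
    · simp [hx]
    · simp [hx, hC]
  · intro f
    have hf2 : MemLp (f : X → V) 2 s := hD f f.2
    have h1 := hφ0' ⟨(f : X → V), hf2⟩
    have h2 : g ⟨(f : X → V), hf2⟩ = Phi f := by
      have := hg1 (⟨⟨(f : X → V), hf2⟩, f.2⟩ : D')
      exact this
    rw [← h2, ← h1]
    apply integral_congr_ae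
    have : ∀ᵐ x ∂s, x ∉ A := measure_eq_zero_iff_ae_notMem.mp hA0
    filter_upwards [this] with x hx
    have hx' : ‖φ0 x‖ ≤ C := not_lt.mp hx
    simp [hx']

end Crest.Agent.R240.Vm
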