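import Crest.Agent.R240.DensA
import Crest.Agent.R240.DensB
import Crest.Agent.R240.Vm1

/-!
Row 240 (S0371), PART D2 (helper703): the density of a positive functional on the smooth two-forms
compactly supported in an open set `U` of `E4`, in `q`-encoding.
-/

set_option autoImplicit false
set_option maxSynthPendingDepth 3

open Set Function Filter Topology MeasureTheory Metric
open scoped Manifold ContDiff Topology

namespace Crest.Agent.R240.Dens

open Crest.Agent.R240

noncomputable section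

/-- smooth two-forms with compact support in `U`. -/
def TF (U : Set E4) : Submodule ℝ (E4 → Bil) where
  carrier := {β | ContDiff ℝ ∞ β ∧ HasCompactSupport β ∧ tsupport β ⊆ U ∧ ∀ y, Alt (β y)}
  add_mem' := by
    rintro a b ⟨ha1, ha2, ha3, ha4⟩ ⟨hb1, hb2, hb3, hb4⟩
    refine ⟨ha1.add hb1, ha2.add hb2, ?_, fun y => alt_add (ha4 y) (hb4 y)⟩
    exact (tsupport_add a b).trans (union_subset ha3 hb3)
  zero_mem' := by
    refine ⟨contDiff_const, ?_, ?_, fun y => alt_zero⟩
    · exact HasCompactSupport.zero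
    · simp [tsupport]
  smul_mem' := by
    rintro c a ⟨ha1, ha2, ha3, ha4⟩
    refine ⟨contDiff_const.smul ha1, ?_, ?_, fun y => alt_smul (ha4 y) c⟩
    · exact ha2.smul_left (f := fun _ => c)
    · refine (closure_mono ?_).trans ha3
      intro y hy hy0
      apply hy
      simp only [Pi.smul_apply, hy0, smul_zero]

theorem mem_TF {U : Set E4} {β : E4 → Bil} : β ∈ TF U ↔
    ContDiff ℝ ∞ β ∧ HasCompactSupport β ∧ tsupport β ⊆ U ∧ ∀ y, Alt (β y) := Iff.rfl

/-- product of a test function with a form smooth on `U`. -/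
theorem contDiff_smul_of_tsupport {V : Type*} [NormedAddCommGroup V] [NormedSpace ℝ V]
    {U : Set E4} (hU : IsOpen U) {g : E4 → ℝ} (hg : ContDiff ℝ ∞ g) (hgU : tsupport g ⊆ U)
    {h : E4 → V} (hh : ContDiffOn ℝ ∞ h U) : ContDiff ℝ ∞ (fun y => g y • h y) := by
  rw [contDiff_iff_contDiffAt]
  intro y
  by_cases hy : y ∈ U
  · exact hg.contDiffAt.smul (hh.contDiffAt (hU.mem_nhds hy))
  · have hy' : y ∉ tsupport g := fun h => hy (hgU h)
    have h0 : (fun y => g y • h y) =ᶠ[𝓝 y] fun _ => (0 : V) := by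
      have h1 := (notMem_tsupport_iff_eventuallyEq).1 hy'
      filter_upwards [h1] with z hz
      simp [hz]
    exact contDiffAt_const.congr_of_eventuallyEq h0

theorem smul_mem_TF {U : Set E4} (hU : IsOpen U) {g : E4 → ℝ} (hg : ContDiff ℝ ∞ g)
    (hgc : HasCompactSupport g) (hgU : tsupport g ⊆ U) {h : E4 → Bil} (hh : ContDiffOn ℝ ∞ h U)
    (halt : ∀ y ∈ U, Alt (h y)) : (fun y => g y • h y) ∈ TF U := by
  have hsub : tsupport (fun y => g y • h y) ⊆ tsupport g := by
    refine closure_mono ?_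
    intro y hy hy0
    apply hy
    simp only [hy0, zero_smul]
  refine ⟨contDiff_smul_of_tsupport hU hg hgU hh, hgc.smul_right, hsub.trans hgU, ?_⟩
  intro y
  by_cases hy : y ∈ U
  · exact alt_smul (halt y hy) _
  · have hy' : g y = 0 := by
      by_contra h0
      exact hy (hgU (subset_tsupport g h0))
    simp only [hy', zero_smul]
    exact alt_zero

/-- Riesz: a functional dominated by a measure is given by a bounded measurable density. -/
theorem exists_functional_density (s : Measure E4) [IsFiniteMeasure s] {C : ℝ}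
    (U : Set E4) (Φ : TF U →ₗ[ℝ] ℝ)
    (hΦ : ∀ β : TF U, |Φ β| ≤ C * ∫ y, ‖(β : E4 → Bil) y‖ ∂s) :
    ∃ l : E4 → (Bil →L[ℝ] ℝ), ∃ C' : ℝ, 0 ≤ C' ∧
      (∀ β : E4 → Bil, Measurable β → Measurable fun y => l y (β y)) ∧
      (∀ y, ‖l y‖ ≤ C') ∧ ∀ β : TF U, Φ β = ∫ y, l y ((β : E4 → Bil) y) ∂s := by
  classical
  let V := EuclideanSpace ℝ (Fin (Module.finrank ℝ Bil))
  let e : Bil ≃L[ℝ] V := ContinuousLinearEquiv.ofFinrankEq (by simp [V])
  let D : Submodule ℝ (E4 → V) := (TF U).map (LinearMap.compLeft (e : Bil →L[ℝ] V).toLinearMap E4)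
  have hDmem : ∀ f ∈ D, (fun y => e.symm (f y)) ∈ TF U := by
    rintro f ⟨β, hβ, rfl⟩
    have : (fun y => e.symm ((LinearMap.compLeft (e : Bil →L[ℝ] V).toLinearMap E4) β y)) = β := by
      ext1 y
      simp [LinearMap.compLeft]
    rw [this]
    exact hβ
  let ι : D →ₗ[ℝ] TF U :=
    { toFun := fun f => ⟨fun y => e.symm ((f : E4 → V) y), hDmem f f.2⟩
      map_add' := fun f g => by
        ext1
        funext y
        simp
      map_smul' := fun c f => by
        ext1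
        funext y
        simp }
  let K : ℝ := ‖(e.symm : V →L[ℝ] Bil)‖
  have hDL2 : ∀ f ∈ D, MemLp f 2 s := by
    rintro f ⟨β, hβ, rfl⟩
    obtain ⟨h1, h2, h3, h4⟩ := hβ
    have hc : Continuous (fun y => e (β y)) := e.continuous.comp h1.continuous
    have hcs : HasCompactSupport (fun y => e (β y)) := by
      apply h2.comp_left (g := fun b => e b)
      simp
    exact hc.memLp_of_hasCompactSupport hcs
  have hbound : ∀ f : D, (Φ.comp ι) f ≤ (|C| * K) * ∫ x, ‖(f : E4 → V) x‖ ∂s := by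
    intro f
    have h1 := hΦ (ι f)
    have h2 : (Φ.comp ι) f ≤ |Φ (ι f)| := le_abs_self _
    refine h2.trans (h1.trans ?_)
    have hi : Integrable (fun x => ‖(f : E4 → V) x‖) s :=
      ((hDL2 f f.2).mono_exponent (p := 1) (by norm_num)).integrable (le_refl _) |>.norm
    have h3 : ∫ y, ‖((ι f : TF U) : E4 → Bil) y‖ ∂s ≤ K * ∫ x, ‖(f : E4 → V) x‖ ∂s := by
      rw [← integral_const_mul]
      apply integral_mono_of_nonneg (Eventually.of_forall fun _ => norm_nonneg _) (hi.const_mul _)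
      refine Eventually.of_forall fun y => ?_
      exact (e.symm : V →L[ℝ] Bil).le_opNorm _
    have h4 : 0 ≤ ∫ y, ‖((ι f : TF U) : E4 → Bil) y‖ ∂s := integral_nonneg fun _ => norm_nonneg _
    calc C * ∫ y, ‖((ι f : TF U) : E4 → Bil) y‖ ∂s
        ≤ |C| * ∫ y, ‖((ι f : TF U) : E4 → Bil) y‖ ∂s :=
          mul_le_mul_of_nonneg_right (le_abs_self C) h4
      _ ≤ |C| * (K * ∫ x, ‖(f : E4 → V) x‖ ∂s) := mul_le_mul_of_nonneg_left h3 (abs_nonneg C)
      _ = _ := by ring
  obtain ⟨φ, hφm, hφb, hφ⟩ := Vm.exists_density s (C := |C| * K)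
    (mul_nonneg (abs_nonneg _) (norm_nonneg _)) D hDL2 (Φ.comp ι) hbound
  refine ⟨fun y => (innerSL ℝ (φ y)).comp (e : Bil →L[ℝ] V), (|C| * K) * ‖(e : Bil →L[ℝ] V)‖,
    by positivity, ?_, ?_, ?_⟩
  · intro β hβ
    have : (fun y => ((innerSL ℝ (φ y)).comp (e : Bil →L[ℝ] V)) (β y))
        = fun y => inner ℝ (φ y) (e (β y)) := rfl
    rw [this]
    exact hφm.inner (e.continuous.measurable.comp hβ)
  · intro y
    refine (ContinuousLinearMap.opNorm_comp_le _ _).trans ?_
    apply mul_le_mul_of_nonneg_right _ (norm_nonneg _)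
    rw [innerSL_apply_norm]
    exact hφb y
  · intro β
    have hmem : (fun y => e ((β : E4 → Bil) y)) ∈ D := ⟨β, β.2, rfl⟩
    have h1 := hφ ⟨_, hmem⟩
    have h2 : ι ⟨_, hmem⟩ = β := by
      ext1
      funext y
      simp [ι]
    rw [LinearMap.comp_apply, h2] at h1
    rw [h1]
    rfl


theorem continuous_ent (i j : Fin 4) : Continuous fun b : Bil => ent b i j := by
  unfold ent
  fun_prop

theorem continuous_W : Continuous fun b : Bil => W b b := by
  unfold W
  have := continuous_ent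
  fun_prop

theorem abs_W_le (F : Bil) : |W F F| ≤ 6 * ‖F‖ ^ 2 := by
  have h := abs_ent_le F
  have e : ∀ a b : ℝ, |a| ≤ ‖F‖ → |b| ≤ ‖F‖ → |a * b| ≤ ‖F‖ ^ 2 := by
    intro a b ha hb
    rw [abs_mul, sq]
    exact mul_le_mul ha hb (abs_nonneg _) (norm_nonneg _)
  have h1 := e _ _ (h 0 1) (h 2 3)
  have h2 := e _ _ (h 0 2) (h 1 3)
  have h3 := e _ _ (h 0 3) (h 1 2)
  have h4 : W F F = 2 * (ent F 0 1 * ent F 2 3) - 2 * (ent F 0 2 * ent F 1 3)
      + 2 * (ent F 0 3 * ent F 1 2) := by unfold W; ring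
  rw [h4]
  rw [abs_le] at h1 h2 h3 ⊢
  constructor <;> linarith [h1.1, h1.2, h2.1, h2.2, h3.1, h3.2]

/-- a constant -/
def KE : ℝ := ‖EE 2 3‖ * ‖EE 0 1‖ + ‖EE 1 3‖ * ‖EE 0 2‖ + ‖EE 1 2‖ * ‖EE 0 3‖
    + ‖EE 0 3‖ * ‖EE 1 2‖ + ‖EE 0 2‖ * ‖EE 1 3‖ + ‖EE 0 1‖ * ‖EE 2 3‖

theorem KE_nonneg : 0 ≤ KE := by unfold KE; positivity

theorem norm_dq_le (F : Bil) (l : Bil →L[ℝ] ℝ) : ‖dq F l‖ ≤ 6 * ‖F‖ ^ 2 * (‖l‖ * KE) := by
  unfold dq
  rw [norm_smul]
  have h0 : ‖W F F‖ ≤ 6 * ‖F‖ ^ 2 := abs_W_le F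
  refine mul_le_mul h0 ?_ (norm_nonneg _) (by positivity)
  have e : ∀ a b : Bil, ‖l a • b‖ ≤ ‖l‖ * (‖a‖ * ‖b‖) := by
    intro a b
    rw [norm_smul, ← mul_assoc]
    exact mul_le_mul_of_nonneg_right (l.le_opNorm a) (norm_nonneg _)
  have e' : ∀ a b : Bil, ‖(-(l a)) • b‖ ≤ ‖l‖ * (‖a‖ * ‖b‖) := by
    intro a b
    rw [neg_smul, norm_neg]
    exact e a b
  unfold KE
  refine (norm_add_le _ _).trans ?_
  refine (add_le_add (norm_add_le _ _) le_rfl).trans ?_
  refine (add_le_add (add_le_add (norm_add_le _ _) le_rfl) le_rfl).trans ?_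
  refine (add_le_add (add_le_add (add_le_add (norm_add_le _ _) le_rfl) le_rfl) le_rfl).trans ?_
  refine (add_le_add (add_le_add (add_le_add (add_le_add (norm_add_le _ _) le_rfl) le_rfl) le_rfl)
    le_rfl).trans ?_
  have := e (EE 2 3) (EE 0 1)
  have := e' (EE 1 3) (EE 0 2)
  have := e (EE 1 2) (EE 0 3)
  have := e (EE 0 3) (EE 1 2)
  have := e' (EE 0 2) (EE 1 3)
  have := e (EE 0 1) (EE 2 3)
  nlinarith

theorem contDiff_pull (b : Bil) : ContDiff ℝ ∞ fun A : E4 →L[ℝ] E4 => pull A b := by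
  unfold pull
  exact ((ContinuousLinearMap.compL ℝ E4 E4 ℝ).flip.contDiff).clm_comp
    ((ContinuousLinearMap.compL ℝ E4 E4 (E4 →L[ℝ] ℝ) b).contDiff)

theorem contDiff_antip (b : Bil) : ContDiff ℝ ∞ fun A : E4 →L[ℝ] E4 => antip A b := by
  unfold antip
  exact (contDiff_const.sub (contDiff_pull b)).const_smul (1/2 : ℝ)

theorem contDiff_wedJ (ξ : E4 →L[ℝ] ℝ) : ContDiff ℝ ∞ fun A : E4 →L[ℝ] E4 => wed ξ (Jc A ξ) := by
  have h1 : ContDiff ℝ ∞ fun A : E4 →L[ℝ] E4 => Jc A ξ := by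
    unfold Jc
    exact (ContinuousLinearMap.compL ℝ E4 E4 ℝ ξ).contDiff.neg
  unfold wed
  refine ContDiff.sub ?_ ?_
  · exact ((ContinuousLinearMap.smulRightL ℝ E4 (E4 →L[ℝ] ℝ) ξ).contDiff).comp h1
  · exact ((ContinuousLinearMap.smulRightL ℝ E4 (E4 →L[ℝ] ℝ)).flip ξ).contDiff.comp h1

theorem continuous_wed (A : E4 →L[ℝ] E4) : Continuous fun ξ : E4 →L[ℝ] ℝ => wed ξ (Jc A ξ) := by
  have h1 : Continuous fun ξ : E4 →L[ℝ] ℝ => Jc A ξ := by
    unfold Jc
    exact (((ContinuousLinearMap.compL ℝ E4 E4 ℝ).flip A).continuous).neg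
  unfold wed
  refine Continuous.sub ?_ ?_
  · exact (ContinuousLinearMap.smulRightL ℝ E4 (E4 →L[ℝ] ℝ)).continuous₂.comp
      (continuous_id.prodMk h1)
  · exact (ContinuousLinearMap.smulRightL ℝ E4 (E4 →L[ℝ] ℝ)).continuous₂.comp
      (h1.prodMk continuous_id)

theorem antip_add (J : E4 →L[ℝ] E4) (a b : Bil) : antip J (a + b) = antip J a + antip J b := by
  ext u v
  simp only [antip_apply, add_apply]
  ring

theorem antip_smul (J : E4 →L[ℝ] E4) (c : ℝ) (b : Bil) : antip J (c • b) = c • antip J b := by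
  ext u v
  simp only [antip_apply, smul_apply, smul_eq_mul]
  ring

theorem l_antip_eq_zero {J : E4 →L[ℝ] E4} {l : Bil →L[ℝ] ℝ}
    (h : ∀ i j : Fin 4, l (antip J (EE i j)) = 0) {b : Bil} (hb : Alt b) : l (antip J b) = 0 := by
  rw [alt_sum hb]
  simp only [antip_add, antip_smul, map_add, map_smul, h, smul_zero, add_zero]

theorem pos_smul {J : E4 →L[ℝ] E4} {b : Bil} (hb : Pos J b) {c : ℝ} (hc : 0 ≤ c) :
    Pos J (c • b) where
  alt := alt_smul hb.alt c
  inv u v := by simp only [smul_apply, hb.inv]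
  nonneg v := by
    simp only [smul_apply, smul_eq_mul]
    exact mul_nonneg hc (hb.nonneg v)

theorem spos_pos {J : E4 →L[ℝ] E4} {F : Bil} (hF : SPos J F) : Pos J F where
  alt := hF.alt
  inv := hF.inv
  nonneg v := by
    by_cases h : v = 0
    · simp [h]
    · exact (hF.pos v h).le

/-- **The chart density**: a functional on the smooth two-forms compactly supported in `U`,
dominated by the finite measure `s`, killing `J`-anti-invariant forms, nonnegative on nonnegative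
forms and with `Φ (g F) = ∫ g ds`, has a bounded measurable nonnegative density `φ` with
`q F φ F = 1` at every point of `U`. -/
theorem exists_chart_density (s : Measure E4) [IsFiniteMeasure s] {C : ℝ} {U : Set E4}
    (hU : IsOpen U) {J : E4 → E4 →L[ℝ] E4} {F : E4 → Bil} (hJs : ContDiffOn ℝ ∞ J U)
    (hJ : ∀ y ∈ U, ∀ v, J y (J y v) = -v) (hFs : ContDiffOn ℝ ∞ F U)
    (hF : ∀ y ∈ U, SPos (J y) (F y)) (Φ : TF U →ₗ[ℝ] ℝ)
    (hΦ : ∀ β : TF U, |Φ β| ≤ C * ∫ y, ‖(β : E4 → Bil) y‖ ∂s)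
    (hanti : ∀ β : TF U, (∀ y ∈ U, ∀ u v, (β : E4 → Bil) y (J y u) (J y v)
      = -(β : E4 → Bil) y u v) → Φ β = 0)
    (hpos : ∀ β : TF U, (∀ y ∈ U, Pos (J y) ((β : E4 → Bil) y)) → 0 ≤ Φ β)
    (hmass : ∀ (β : TF U) (g : E4 → ℝ), ContDiff ℝ ∞ g → HasCompactSupport g → tsupport g ⊆ U →
      (∀ y, (β : E4 → Bil) y = g y • F y) → Φ β = ∫ y, g y ∂s) :
    ∃ φ : E4 → Bil, ∃ C' : ℝ, 0 ≤ C' ∧ Measurable φ ∧ (∀ y ∈ U, Pos (J y) (φ y)) ∧
      (∀ y ∈ U, q (F y) (φ y) (F y) = 1) ∧ (∀ y ∈ U, ‖φ y‖ ≤ C' * (‖F y‖ + ‖F y‖ ^ 2)) ∧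
      (∀ y ∉ U, φ y = 0) ∧
      ∀ β : TF U, Φ β = ∫ y, q (F y) (φ y) ((β : E4 → Bil) y) ∂s := by
  classical
  obtain ⟨l, C', hC', hlm, hlb, hl⟩ := exists_functional_density s U Φ hΦ
  have hUm : MeasurableSet U := hU.measurableSet
  -- global measurable versions
  set J' : E4 → E4 →L[ℝ] E4 := U.piecewise J (fun _ => 0) with hJ'
  set F' : E4 → Bil := U.piecewise F (fun _ => 0) with hF'
  have hJ'U : ∀ y ∈ U, J' y = J y := fun y hy => piecewise_eq_of_mem _ _ _ hy
  have hF'U : ∀ y ∈ U, F' y = F y := fun y hy => piecewise_eq_of_mem _ _ _ hy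
  have hF'n : ∀ y ∉ U, F' y = 0 := fun y hy => piecewise_eq_of_notMem _ _ _ hy
  have hJ'm : Measurable J' :=
    hJs.continuousOn.measurable_piecewise continuousOn_const hUm
  have hF'm : Measurable F' :=
    hFs.continuousOn.measurable_piecewise continuousOn_const hUm
  -- integrability of `l y (β y)` for locally bounded measurable `β`
  have hint : ∀ (β h : E4 → Bil), Measurable β → ContinuousOn h U → (∀ y ∈ U, β y = h y) →
      ∀ K ⊆ U, IsCompact K → IntegrableOn (fun y => l y (β y)) K s := by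
    intro β h hβ hh hβh K hKU hK
    obtain ⟨B, hB⟩ := hK.exists_bound_of_continuousOn (hh.mono hKU)
    refine Measure.integrableOn_of_bounded (M := C' * B) (measure_ne_top s K)
      (hlm β hβ).aestronglyMeasurable ?_
    filter_upwards [ae_restrict_mem hK.measurableSet] with y hy
    refine (ContinuousLinearMap.le_opNorm _ _).trans ?_
    rw [hβh y (hKU hy)]
    exact mul_le_mul (hlb y) (hB y hy) (norm_nonneg _) hC'
  -- (1) anti-invariant forms
  have h1 : ∀ i j : Fin 4, ∀ᵐ y ∂s, y ∈ U → l y (antip (J' y) (EE i j)) = 0 := by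
    intro i j
    have hcd : ContDiffOn ℝ ∞ (fun y => antip (J y) (EE i j)) U :=
      (contDiff_antip (EE i j)).comp_contDiffOn hJs
    have hm : Measurable (fun y => antip (J' y) (EE i j)) :=
      (contDiff_antip (EE i j)).continuous.measurable.comp hJ'm
    refine ae_eq_of_smooth hU (hlm _ hm)
      (hint _ _ hm hcd.continuousOn (fun y hy => by rw [hJ'U y hy])) ?_
    intro g hg hgc hgU
    have hmem : (fun y => g y • antip (J y) (EE i j)) ∈ TF U :=
      smul_mem_TF hU hg hgc hgU hcd (fun y _ => alt_antip (EE_alt i j) _)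
    have e1 : Φ ⟨_, hmem⟩ = 0 := by
      apply hanti
      intro y hy u v
      simp only [smul_apply, antip_anti (hJ y hy), smul_eq_mul, mul_neg]
    rw [hl ⟨_, hmem⟩] at e1
    rw [← e1]
    apply integral_congr_ae
    refine Eventually.of_forall fun y => ?_
    by_cases hy : y ∈ U
    · simp only [map_smul, smul_eq_mul, hJ'U y hy]
    · have h0 : g y = 0 := by
        by_contra h0
        exact hy (hgU (subset_tsupport g h0))
      simp [h0]
  -- (2) positivity
  have h2 : ∀ ξ : E4 →L[ℝ] ℝ, ∀ᵐ y ∂s, y ∈ U → 0 ≤ l y (wed ξ (Jc (J' y) ξ)) := by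
    intro ξ
    have hcd : ContDiffOn ℝ ∞ (fun y => wed ξ (Jc (J y) ξ)) U :=
      (contDiff_wedJ ξ).comp_contDiffOn hJs
    have hm : Measurable (fun y => wed ξ (Jc (J' y) ξ)) :=
      (contDiff_wedJ ξ).continuous.measurable.comp hJ'm
    refine ae_nonneg_of_smooth hU (hlm _ hm)
      (hint _ _ hm hcd.continuousOn (fun y hy => by rw [hJ'U y hy])) ?_
    intro g hg hgc hgU hg0
    have hmem : (fun y => g y • wed ξ (Jc (J y) ξ)) ∈ TF U :=
      smul_mem_TF hU hg hgc hgU hcd (fun y _ => wed_alt _ _)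
    have e1 : 0 ≤ Φ ⟨_, hmem⟩ := by
      apply hpos
      intro y hy
      exact pos_smul (wed_Jc_pos (hJ y hy) ξ) (hg0 y)
    rw [hl ⟨_, hmem⟩] at e1
    refine e1.trans_eq ?_
    apply integral_congr_ae
    refine Eventually.of_forall fun y => ?_
    by_cases hy : y ∈ U
    · simp only [map_smul, smul_eq_mul, hJ'U y hy]
    · have h0 : g y = 0 := by
        by_contra h0
        exact hy (hgU (subset_tsupport g h0))
      simp [h0]
  -- (3) normalisation
  have h3 : ∀ᵐ y ∂s, y ∈ U → l y (F' y) - 1 = 0 := by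
    refine ae_eq_of_smooth hU ((hlm _ hF'm).sub measurable_const) ?_ ?_
    · intro K hKU hK
      exact (hint _ _ hF'm hFs.continuousOn hF'U K hKU hK).sub
        (integrableOn_const (measure_ne_top s K))
    intro g hg hgc hgU
    have hmem : (fun y => g y • F y) ∈ TF U :=
      smul_mem_TF hU hg hgc hgU hFs (fun y hy => (hF y hy).alt)
    have e1 := hmass ⟨_, hmem⟩ g hg hgc hgU (fun y => rfl)
    rw [hl ⟨_, hmem⟩] at e1
    have hgi : Integrable g s := hg.continuous.integrable_of_hasCompactSupport hgc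
    have e2 : ∫ y, g y * (l y (F' y) - 1) ∂s = ∫ y, (l y (g y • F y) - g y) ∂s := by
      apply integral_congr_ae
      refine Eventually.of_forall fun y => ?_
      by_cases hy : y ∈ U
      · simp only [map_smul, smul_eq_mul, hF'U y hy]
        ring
      · have h0 : g y = 0 := by
          by_contra h0
          exact hy (hgU (subset_tsupport g h0))
        simp [h0]
    have hmem' := mem_TF.1 hmem
    have hli : Integrable (fun y => l y (g y • F y)) s := by
      obtain ⟨B, hB⟩ := hmem'.2.1.exists_bound_of_continuous hmem'.1.continuous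
      refine Integrable.of_bound (hlm _ hmem'.1.continuous.measurable).aestronglyMeasurable
        (C' * B) (Eventually.of_forall fun y => ?_)
      exact (ContinuousLinearMap.le_opNorm _ _).trans
        (mul_le_mul (hlb y) (hB y) (norm_nonneg _) hC')
    rw [e2, integral_sub hli hgi]
    simp only at e1
    rw [e1, sub_self]
  -- the good set
  have hgood : ∀ᵐ y ∂s, y ∈ U → ((∀ b, Alt b → l y (antip (J y) b) = 0) ∧
      (∀ ξ : E4 →L[ℝ] ℝ, 0 ≤ l y (wed ξ (Jc (J y) ξ))) ∧ l y (F y) = 1) := by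
    have h1' : ∀ᵐ y ∂s, ∀ i j : Fin 4, y ∈ U → l y (antip (J' y) (EE i j)) = 0 := by
      rw [ae_all_iff]
      intro i
      rw [ae_all_iff]
      exact h1 i
    have h2' : ∀ᵐ y ∂s, ∀ n : ℕ, y ∈ U → 0 ≤ l y (wed (TopologicalSpace.denseSeq (E4 →L[ℝ] ℝ) n)
        (Jc (J' y) (TopologicalSpace.denseSeq (E4 →L[ℝ] ℝ) n))) := by
      rw [ae_all_iff]
      exact fun n => h2 _
    filter_upwards [h1', h2', h3] with y hy1 hy2 hy3 hyU
    rw [hJ'U y hyU] at hy1 hy2
    rw [hF'U y hyU] at hy3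
    refine ⟨fun b hb => l_antip_eq_zero (fun i j => hy1 i j hyU) hb, ?_, by linarith [hy3 hyU]⟩
    have hcl : IsClosed {ξ : E4 →L[ℝ] ℝ | 0 ≤ l y (wed ξ (Jc (J y) ξ))} :=
      isClosed_le continuous_const ((l y).continuous.comp (continuous_wed (J y)))
    intro ξ
    have hd := TopologicalSpace.denseRange_denseSeq (E4 →L[ℝ] ℝ)
    have hsub : closure (range (TopologicalSpace.denseSeq (E4 →L[ℝ] ℝ)))
        ⊆ {ξ : E4 →L[ℝ] ℝ | 0 ≤ l y (wed ξ (Jc (J y) ξ))} := by
      apply closure_minimal _ hcl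
      rintro _ ⟨n, rfl⟩
      exact hy2 n hyU
    exact hsub (hd ξ)
  set N : Set E4 := {y | ¬ (y ∈ U → ((∀ b, Alt b → l y (antip (J y) b) = 0) ∧
      (∀ ξ : E4 →L[ℝ] ℝ, 0 ≤ l y (wed ξ (Jc (J y) ξ))) ∧ l y (F y) = 1))} with hN
  have hN0 : s N = 0 := hgood
  set N' : Set E4 := toMeasurable s N with hN'
  have hN'0 : s N' = 0 := by rw [hN', measure_toMeasurable, hN0]
  set G : Set E4 := U \ N' with hG
  have hGm : MeasurableSet G := hUm.diff (measurableSet_toMeasurable s N)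
  have hGgood : ∀ y ∈ G, (∀ b, Alt b → l y (antip (J y) b) = 0) ∧
      (∀ ξ : E4 →L[ℝ] ℝ, 0 ≤ l y (wed ξ (Jc (J y) ξ))) ∧ l y (F y) = 1 := by
    intro y hy
    have hyN : y ∉ N := fun h => hy.2 (subset_toMeasurable s N h)
    simp only [hN, mem_ofPred_eq, not_not] at hyN
    exact hyN hy.1
  have hWne : ∀ y ∈ U, W (F y) (F y) ≠ 0 := fun y hy => spos_W_ne (hJ y hy) (hF y hy)
  refine ⟨fun y => if y ∈ G then dq (F' y) (l y) else F' y, 6 * C' * KE + 1, ?_, ?_, ?_, ?_, ?_,
    ?_, ?_⟩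
  · have := KE_nonneg
    positivity
  · refine Measurable.ite hGm ?_ hF'm
    have hW : Measurable fun y => W (F' y) (F' y) := continuous_W.measurable.comp hF'm
    have hlE : ∀ i j, Measurable fun y => l y (EE i j) := fun i j =>
      hlm (fun _ => EE i j) measurable_const
    unfold dq
    exact hW.smul ((((((((hlE 2 3).smul_const _).add ((hlE 1 3).neg.smul_const _)).add
      ((hlE 1 2).smul_const _)).add ((hlE 0 3).smul_const _)).add
      ((hlE 0 2).neg.smul_const _)).add ((hlE 0 1).smul_const _)))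
  · intro y hy
    by_cases hyG : y ∈ G
    · simp only [hyG, if_true, hF'U y hy]
      obtain ⟨a1, a2, a3⟩ := hGgood y hyG
      exact dq_pos (hJ y hy) (hF y hy) (l y) a1 a2
    · simp only [hyG, if_false, hF'U y hy]
      exact spos_pos (hF y hy)
  · intro y hy
    by_cases hyG : y ∈ G
    · simp only [hyG, if_true, hF'U y hy]
      obtain ⟨a1, a2, a3⟩ := hGgood y hyG
      rw [q_dq (hWne y hy) _ (hF y hy).alt, a3]
    · simp only [hyG, if_false, hF'U y hy]
      unfold q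
      exact div_self (hWne y hy)
  · intro y hy
    have hK := KE_nonneg
    by_cases hyG : y ∈ G
    · simp only [hyG, if_true, hF'U y hy]
      refine (norm_dq_le _ _).trans ?_
      have e1 : 6 * ‖F y‖ ^ 2 * (‖l y‖ * KE) ≤ 6 * ‖F y‖ ^ 2 * (C' * KE) := by
        apply mul_le_mul_of_nonneg_left _ (by positivity)
        exact mul_le_mul_of_nonneg_right (hlb y) hK
      have e2 : 0 ≤ ‖F y‖ := norm_nonneg _
      have e3 : 0 ≤ C' * KE := mul_nonneg hC' hK
      have e4 : 0 ≤ C' * KE * ‖F y‖ := mul_nonneg e3 e2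
      nlinarith [sq_nonneg ‖F y‖]
    · simp only [hyG, if_false, hF'U y hy]
      have e2 : 0 ≤ ‖F y‖ := norm_nonneg _
      have e3 : 0 ≤ C' * KE := mul_nonneg hC' hK
      have e4 : 0 ≤ C' * KE * ‖F y‖ := mul_nonneg e3 e2
      have e5 : 0 ≤ C' * KE * ‖F y‖ ^ 2 := by positivity
      nlinarith [sq_nonneg ‖F y‖]
  · intro y hy
    have hyG : y ∉ G := fun h => hy h.1
    simp only [hyG, if_false, hF'n y hy]
  · intro β
    rw [hl β]
    apply integral_congr_ae
    have hNae : ∀ᵐ y ∂s, y ∉ N' := measure_eq_zero_iff_ae_notMem.1 hN'0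
    filter_upwards [hNae] with y hyN
    by_cases hy : y ∈ U
    · have hyG : y ∈ G := ⟨hy, hyN⟩
      simp only [hyG, if_true, hF'U y hy]
      rw [q_dq (hWne y hy) _ (β.2.2.2.2 y)]
    · have h0 : (β : E4 → Bil) y = 0 := by
        by_contra h0
        exact hy (β.2.2.2.1 (subset_tsupport _ h0))
      rw [h0, map_zero]
      unfold q W
      simp [ent_zero]

end

end Crest.Agent.R240.Dens
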