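import Mathlib

/-!
Row 240 (S0371), PART D2 (helper703): a bounded function whose integrals against nonnegative smooth
functions compactly supported in an open set `U` are nonnegative, is a.e. nonnegative on `U`.
-/

set_option autoImplicit false

open Set Function Filter Topology MeasureTheory Metric
open scoped Manifold ContDiff Topology

namespace Crest.Agent.R240.Dens

noncomputable section

variable {E : Type*} [NormedAddCommGroup E] [NormedSpace ℝ E] [FiniteDimensional ℝ E]
  [MeasurableSpace E] [BorelSpace E]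

/-- approximation of the integral over a compact subset of `U` by smooth functions. -/
theorem setIntegral_nonneg_of_smooth {s : Measure E} [IsFiniteMeasure s] {U : Set E}
    (hU : IsOpen U) {f : E → ℝ} (hf : Measurable f)
    (hfi : ∀ K ⊆ U, IsCompact K → IntegrableOn f K s)
    (h : ∀ g : E → ℝ, ContDiff ℝ ∞ g → HasCompactSupport g → tsupport g ⊆ U → (∀ x, 0 ≤ g x) →
      0 ≤ ∫ x, g x * f x ∂s) {K : Set E} (hK : IsCompact K) (hKU : K ⊆ U) :
    0 ≤ ∫ x in K, f x ∂s := by
  obtain ⟨δ, δpos, hδU⟩ : ∃ δ, 0 < δ ∧ cthickening δ K ⊆ U := hK.exists_cthickening_subset_open hU hKU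
  have hδ : IsCompact (cthickening δ K) := hK.cthickening
  obtain ⟨u, -, u_pos, u_lim⟩ : ∃ u, StrictAnti u ∧ (∀ (n : ℕ), u n ∈ Ioo 0 δ)
    ∧ Tendsto u atTop (𝓝 0) := exists_seq_strictAnti_tendsto' δpos
  let v : ℕ → Set E := fun n ↦ thickening (u n) K
  have vK : ∀ n, v n ⊆ cthickening δ K :=
    fun n ↦ thickening_subset_cthickening_of_le (u_pos n).2.le _
  have : ∀ n, ∃ (g : E → ℝ), support g = v n ∧ ContDiff ℝ ∞ g ∧ Set.range g ⊆ Set.Icc 0 1
          ∧ ∀ x ∈ K, g x = 1 := by
    intro n
    rcases exists_contMDiff_support_eq_eq_one_iff 𝓘(ℝ, E) isOpen_thickening hK.isClosed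
      (self_subset_thickening (u_pos n).1 K) with ⟨g, g_smooth, g_range, g_supp, hg⟩
    exact ⟨g, g_supp, g_smooth.contDiff, g_range, fun x hx ↦ (hg x).1 hx⟩
  choose g g_supp g_diff g_range hg using this
  have hg0 : ∀ n x, 0 ≤ g n x := fun n x => (g_range n (mem_range_self x)).1
  have hg1 : ∀ n x, g n x ≤ 1 := fun n x => (g_range n (mem_range_self x)).2
  have hts : ∀ n, tsupport (g n) ⊆ cthickening δ K := by
    intro n
    refine closure_minimal ?_ isClosed_cthickening
    rw [g_supp]
    exact vK n
  have L : Tendsto (fun n ↦ ∫ x, g n x * f x ∂s) atTop (𝓝 (∫ x in K, f x ∂s)) := by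
    rw [← integral_indicator hK.measurableSet]
    have hbi : Integrable ((cthickening δ K).indicator fun x => ‖f x‖) s := by
      rw [integrable_indicator_iff hδ.measurableSet]
      exact (hfi _ hδU hδ).norm
    refine tendsto_integral_of_dominated_convergence _ ?_ hbi ?_ ?_
    · exact fun n ↦ (g_diff n).continuous.aestronglyMeasurable.mul hf.aestronglyMeasurable
    · intro n
      filter_upwards with x
      rw [norm_mul]
      by_cases hx : x ∈ cthickening δ K
      · rw [indicator_of_mem hx]
        refine mul_le_of_le_one_left (norm_nonneg _) ?_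
        rw [Real.norm_of_nonneg (hg0 n x)]
        exact hg1 n x
      · have h0 : g n x = 0 := by
          by_contra h0
          exact hx (hts n (subset_tsupport _ h0))
        simp [h0, indicator_of_notMem hx]
    · filter_upwards with x
      by_cases hxs : x ∈ K
      · have : ∀ n, g n x = 1 := fun n ↦ hg n x hxs
        simp [this, indicator_of_mem hxs f]
      · simp_rw [indicator_of_notMem hxs f]
        apply tendsto_const_nhds.congr'
        suffices H : ∀ᶠ n in atTop, g n x = 0 by
          filter_upwards [H] with n hn using by simp [hn]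
        obtain ⟨ε, εpos, hε⟩ : ∃ ε, 0 < ε ∧ x ∉ thickening ε K := by
          rw [← hK.isClosed.closure_eq, closure_eq_iInter_thickening K] at hxs
          simpa using hxs
        filter_upwards [(tendsto_order.1 u_lim).2 _ εpos] with n hn
        rw [← notMem_support, g_supp]
        contrapose hε
        exact thickening_mono hn.le K hε
  refine ge_of_tendsto' L fun n => h (g n) (g_diff n) ?_ ((hts n).trans hδU) (hg0 n)
  exact HasCompactSupport.of_support_subset_isCompact hδ (by rw [g_supp]; exact vK n)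

/-- a function with nonnegative integrals against nonnegative test functions is nonnegative. -/
theorem ae_nonneg_of_smooth {s : Measure E} [IsFiniteMeasure s] {U : Set E}
    (hU : IsOpen U) {f : E → ℝ} (hf : Measurable f)
    (hfi : ∀ K ⊆ U, IsCompact K → IntegrableOn f K s)
    (h : ∀ g : E → ℝ, ContDiff ℝ ∞ g → HasCompactSupport g → tsupport g ⊆ U → (∀ x, 0 ≤ g x) →
      0 ≤ ∫ x, g x * f x ∂s) :
    ∀ᵐ x ∂s, x ∈ U → 0 ≤ f x := by
  have key : ∀ n : ℕ, s ({x | f x < -(1 / ((n : ℝ) + 1))} ∩ U) = 0 := by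
    intro n
    by_contra hne
    set A : Set E := {x | f x < -(1 / ((n : ℝ) + 1))} ∩ U with hA
    have hAm : MeasurableSet A :=
      (measurableSet_lt hf measurable_const).inter hU.measurableSet
    have hpos : 0 < s A := pos_iff_ne_zero.2 hne
    obtain ⟨K, hKA, hK, hKpos⟩ := hAm.exists_lt_isCompact_of_ne_top (measure_ne_top s A) hpos
    have hKU : K ⊆ U := hKA.trans inter_subset_right
    have h1 := setIntegral_nonneg_of_smooth hU hf hfi h hK hKU
    have h2 : ∫ x in K, f x ∂s ≤ ∫ x in K, -(1 / ((n : ℝ) + 1)) ∂s := by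
      refine setIntegral_mono_on (hfi K hKU hK) (integrableOn_const (measure_ne_top s K))
        hK.measurableSet fun x hx => ?_
      exact (hKA hx).1.le
    rw [setIntegral_const, smul_eq_mul] at h2
    have h3 : 0 < s.real K := by
      rw [measureReal_def]
      exact ENNReal.toReal_pos hKpos.ne' (measure_ne_top s K)
    have h4 : (0 : ℝ) < 1 / ((n : ℝ) + 1) := Nat.one_div_pos_of_nat
    nlinarith
  have key2 : s (⋃ n : ℕ, ({x | f x < -(1 / ((n : ℝ) + 1))} ∩ U)) = 0 := measure_iUnion_null key
  rw [ae_iff]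
  refine measure_mono_null ?_ key2
  intro x hx
  simp only [mem_ofPred_eq, Classical.not_imp, not_le] at hx
  obtain ⟨hxU, hx0⟩ := hx
  obtain ⟨n, hn⟩ := exists_nat_one_div_lt (neg_pos.2 hx0)
  have hn' : f x < -(1 / ((n : ℝ) + 1)) := by linarith
  exact mem_iUnion.2 ⟨n, hn', hxU⟩

theorem ae_eq_of_smooth {s : Measure E} [IsFiniteMeasure s] {U : Set E}
    (hU : IsOpen U) {f : E → ℝ} (hf : Measurable f)
    (hfi : ∀ K ⊆ U, IsCompact K → IntegrableOn f K s)
    (h : ∀ g : E → ℝ, ContDiff ℝ ∞ g → HasCompactSupport g → tsupport g ⊆ U →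
      ∫ x, g x * f x ∂s = 0) :
    ∀ᵐ x ∂s, x ∈ U → f x = 0 := by
  have h1 := ae_nonneg_of_smooth hU hf hfi (fun g h1 h2 h3 _ => (h g h1 h2 h3).ge)
  have h2 := ae_nonneg_of_smooth hU hf.neg (fun K h1 h2 => (hfi K h1 h2).neg) (fun g h1 h2 h3 _ => by
    have := h g h1 h2 h3
    simp only [Pi.neg_apply, mul_neg, integral_neg, this, neg_zero, le_refl])
  filter_upwards [h1, h2] with x hx1 hx2 hxU
  exact le_antisymm (by simpa using hx2 hxU) (hx1 hxU)

end

end Crest.Agent.R240.Dens
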