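import Mathlib

/-!
# R240, block V: restriction of a functional of order 0 to a Borel set

Abstract setting: `A` = smooth functions on `M` (evaluated by `ev`), `X` = smooth forms, with a
pointwise norm `N b : M → ℝ` and a multiplication `mul f : X →ₗ X`.  A functional `Φ` on `X` with
`|Φ b| ≤ ∫ N b ds` is restricted to a Borel set `S`: `Φ_S b = lim Φ (χ_n b)`, `χ_n → 1_S` in
`L¹(s)`.
-/

set_option autoImplicit false
set_option linter.unusedSectionVars false
open MeasureTheory Set Filter Topology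

namespace Crest.Agent.R240.Vm

variable {M : Type*} [TopologicalSpace M] [CompactSpace M] [T2Space M] [MeasurableSpace M]
  [BorelSpace M]
variable {A X : Type*} [AddCommGroup A] [Module ℝ A] [AddCommGroup X] [Module ℝ X]

/-- a sequence of test functions with values in `[0,1]` converging to the indicator of `S` in
`L¹(s)`. -/
structure Cut (s : Measure M) (ev : A →ₗ[ℝ] (M → ℝ)) (S : Set M) (χ : ℕ → A) : Prop where
  nonneg : ∀ n x, 0 ≤ ev (χ n) x
  le_one : ∀ n x, ev (χ n) x ≤ 1
  lim : Tendsto (fun n => ∫ x, |ev (χ n) x - S.indicator (fun _ => (1:ℝ)) x| ∂s) atTop (𝓝 0)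

theorem Cut.mono {s s' : Measure M} [IsFiniteMeasure s'] {ev : A →ₗ[ℝ] (M → ℝ)}
    (hcont : ∀ f, Continuous (ev f)) {S : Set M} (hS : MeasurableSet S) {χ : ℕ → A}
    (h : Cut s' ev S χ) (hss : s ≤ s') : Cut s ev S χ := by
  refine ⟨h.nonneg, h.le_one, ?_⟩
  refine squeeze_zero (fun n => integral_nonneg fun x => abs_nonneg _) (fun n => ?_) h.lim
  apply integral_mono_measure hss
  · exact Eventually.of_forall fun x => abs_nonneg _
  · have h1 : Integrable (ev (χ n)) s' :=
      (hcont _).integrable_of_hasCompactSupport (HasCompactSupport.of_compactSpace _)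
    have h2 : Integrable (S.indicator fun _ => (1:ℝ)) s' := (integrable_const 1).indicator hS
    exact (h1.sub h2).abs

/-- existence of cutting sequences. -/
theorem exists_cut (s : Measure M) [IsFiniteMeasure s] [s.Regular]
    (ev : A →ₗ[ℝ] (M → ℝ)) (hcont : ∀ f, Continuous (ev f))
    (hdense : ∀ f : M → ℝ, Continuous f → (∀ x, 0 ≤ f x) → (∀ x, f x ≤ 1) →
      ∀ ε > 0, ∃ g, (∀ x, 0 ≤ ev g x) ∧ (∀ x, ev g x ≤ 1) ∧ ∀ x, |ev g x - f x| < ε)
    {S : Set M} (hS : MeasurableSet S) : ∃ χ : ℕ → A, Cut s ev S χ := by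
  have key : ∀ n : ℕ, ∃ g : A, (∀ x, 0 ≤ ev g x) ∧ (∀ x, ev g x ≤ 1) ∧
      ∫ x, |ev g x - S.indicator (fun _ => (1:ℝ)) x| ∂s ≤ 1 / ((n:ℝ) + 1) := by
    intro n
    have hn : (0:ℝ) < 1 / ((n:ℝ) + 1) := by positivity
    set ε : ℝ := 1 / ((n:ℝ) + 1) with hε
    -- compact inside, open outside
    obtain ⟨K, hKS, hK, hK'⟩ := hS.exists_isCompact_lt_add (μ := s) (measure_ne_top s S)
      (ε := ENNReal.ofReal (ε / 4)) (by simpa using (by positivity : 0 < ε / 4))
    obtain ⟨U, hSU, hU, hU'⟩ := S.exists_isOpen_lt_add (μ := s) (measure_ne_top s S)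
      (ε := ENNReal.ofReal (ε / 4)) (by simpa using (by positivity : 0 < ε / 4))
    -- Urysohn
    obtain ⟨f, hf1, hf0, hf⟩ := exists_continuous_zero_one_of_isClosed (s := Uᶜ) (t := K)
      hU.isClosed_compl hK.isClosed (by
        rw [Set.disjoint_left]; intro x hx hxK; exact hx (hSU (hKS hxK)))
    set δ : ℝ := ε / (4 * (s.real univ + 1)) with hδ
    have hm0 : 0 ≤ s.real univ := measureReal_nonneg
    have hδ0 : 0 < δ := by positivity
    obtain ⟨g, hg0, hg1, hg⟩ := hdense f f.continuous (fun x => (hf x).1) (fun x => (hf x).2) δ hδ0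
    refine ⟨g, hg0, hg1, ?_⟩
    have hSi : Integrable (S.indicator fun _ => (1:ℝ)) s := (integrable_const 1).indicator hS
    have hfi : Integrable (fun x => f x) s :=
      f.continuous.integrable_of_hasCompactSupport (HasCompactSupport.of_compactSpace _)
    have hgi : Integrable (fun x => ev g x) s :=
      (hcont g).integrable_of_hasCompactSupport (HasCompactSupport.of_compactSpace _)
    have hUK : MeasurableSet (U \ K) := hU.measurableSet.diff hK.measurableSet
    have h1 : ∀ x, |ev g x - S.indicator (fun _ => (1:ℝ)) x| ≤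
        δ + (U \ K).indicator (fun _ => (1:ℝ)) x := by
      intro x
      have h2 := (hg x).le
      have h3 : |f x - S.indicator (fun _ => (1:ℝ)) x| ≤ (U \ K).indicator (fun _ => (1:ℝ)) x := by
        by_cases hxK : x ∈ K
        · have hxS : x ∈ S := hKS hxK
          have : f x = 1 := hf0 hxK
          simp [hxS, hxK, this]
        · by_cases hxU : x ∈ U
          · rw [indicator_of_mem (show x ∈ U \ K from ⟨hxU, hxK⟩)]
            have := hf x
            by_cases hxS : x ∈ S
            · rw [indicator_of_mem hxS, abs_le]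
              constructor <;> linarith [this.1, this.2]
            · rw [indicator_of_notMem hxS, abs_le]
              constructor <;> linarith [this.1, this.2]
          · have hxS : x ∉ S := fun h => hxU (hSU h)
            have : f x = 0 := hf1 hxU
            simp [hxS, this, hxU]
      calc |ev g x - S.indicator (fun _ => (1:ℝ)) x|
          ≤ |ev g x - f x| + |f x - S.indicator (fun _ => (1:ℝ)) x| := abs_sub_le _ _ _
        _ ≤ _ := add_le_add h2 h3
    have hUKm : s.real (U \ K) ≤ ε / 2 := by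
      have h4 : s (U \ K) ≤ ENNReal.ofReal (ε / 2) := by
        have hKU : K ⊆ U := hKS.trans hSU
        rw [measure_sdiff hKU hK.measurableSet.nullMeasurableSet (measure_ne_top s K)]
        rw [tsub_le_iff_right]
        calc s U ≤ s S + ENNReal.ofReal (ε / 4) := hU'.le
          _ ≤ (s K + ENNReal.ofReal (ε / 4)) + ENNReal.ofReal (ε / 4) := by
              gcongr
          _ = ENNReal.ofReal (ε / 2) + s K := by
              rw [add_assoc, ← ENNReal.ofReal_add (by positivity) (by positivity), add_comm]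
              congr 2; ring
      rw [Measure.real]
      exact ENNReal.toReal_le_of_le_ofReal (by positivity) h4
    calc ∫ x, |ev g x - S.indicator (fun _ => (1:ℝ)) x| ∂s
        ≤ ∫ x, (δ + (U \ K).indicator (fun _ => (1:ℝ)) x) ∂s := by
          apply integral_mono (hgi.sub hSi).abs
            ((integrable_const δ).add ((integrable_const (1:ℝ)).indicator hUK)) h1
      _ = δ * s.real univ + s.real (U \ K) := by
          rw [integral_add (integrable_const δ) ((integrable_const (1:ℝ)).indicator hUK),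
            integral_const, integral_indicator hUK, setIntegral_const]
          simp [mul_comm]
      _ ≤ ε / 4 + ε / 2 := by
          apply add_le_add _ hUKm
          have h5 : δ * (4 * (s.real univ + 1)) = ε := by
            rw [hδ]; field_simp
          nlinarith
      _ ≤ ε := by linarith
  choose χ h0 h1 h2 using key
  refine ⟨χ, h0, h1, ?_⟩
  refine squeeze_zero (fun n => integral_nonneg fun x => abs_nonneg _) h2 ?_
  exact tendsto_one_div_add_atTop_nhds_zero_nat

variable (s : Measure M) [IsFiniteMeasure s] (ev : A →ₗ[ℝ] (M → ℝ))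
  (mul : A →ₗ[ℝ] X →ₗ[ℝ] X) (N : X → M → ℝ)

/-- **Restriction of a functional to a Borel set.** -/
theorem exists_restrict (hcont : ∀ f, Continuous (ev f)) (hNc : ∀ b, Continuous (N b))
    (hN0 : ∀ b x, 0 ≤ N b x) (hNm : ∀ f b x, N (mul f b) x = |ev f x| * N b x)
    (Phi : X →ₗ[ℝ] ℝ) (hPhi : ∀ b, |Phi b| ≤ ∫ x, N b x ∂s)
    {S : Set M} (hS : MeasurableSet S) (hcut : ∃ χ : ℕ → A, Cut s ev S χ) :
    ∃ PS : X →ₗ[ℝ] ℝ, (∀ χ : ℕ → A, Cut s ev S χ → ∀ b,
      Tendsto (fun n => Phi (mul (χ n) b)) atTop (𝓝 (PS b))) ∧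
      ∀ b, |PS b| ≤ ∫ x in S, N b x ∂s := by
  have hint : ∀ f : M → ℝ, Continuous f → Integrable f s := fun f hf =>
    hf.integrable_of_hasCompactSupport (HasCompactSupport.of_compactSpace _)
  -- a bound for `N b`
  have hNb : ∀ b, ∃ C, 0 ≤ C ∧ ∀ x, N b x ≤ C := by
    intro b
    obtain ⟨C, hC⟩ := (isCompact_univ.image (hNc b)).isBounded.bddAbove
    exact ⟨max C 0, le_max_right _ _, fun x =>
      (hC ⟨x, mem_univ _, rfl⟩).trans (le_max_left _ _)⟩
  -- difference estimate
  have hdiff : ∀ (b : X) (C : ℝ), 0 ≤ C → (∀ x, N b x ≤ C) → ∀ f g : A,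
      |Phi (mul f b) - Phi (mul g b)| ≤ C * ∫ x, |ev f x - ev g x| ∂s := by
    intro b C hC hCb f g
    have h1 : Phi (mul f b) - Phi (mul g b) = Phi (mul (f - g) b) := by
      rw [map_sub, LinearMap.sub_apply, map_sub]
    rw [h1]
    refine (hPhi _).trans ?_
    rw [← integral_const_mul]
    apply integral_mono (hint _ (hNc _))
    · exact (((hint _ (hcont f)).sub (hint _ (hcont g))).abs).const_mul C
    · intro x
      simp only
      rw [hNm, map_sub, Pi.sub_apply, mul_comm C]
      exact mul_le_mul_of_nonneg_left (hCb x) (abs_nonneg _)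
  have hSi : Integrable (S.indicator fun _ => (1:ℝ)) s := (integrable_const 1).indicator hS
  -- two cutting sequences
  have hcmp : ∀ χ χ' : ℕ → A, Cut s ev S χ → Cut s ev S χ' → ∀ b, ∀ ε > 0, ∃ n0, ∀ n ≥ n0,
      ∀ m ≥ n0, |Phi (mul (χ n) b) - Phi (mul (χ' m) b)| < ε := by
    intro χ χ' h h' b ε hε
    obtain ⟨C, hC0, hC⟩ := hNb b
    have hε' : 0 < ε / (2 * (C + 1)) := by positivity
    obtain ⟨n1, hn1⟩ := (Metric.tendsto_atTop.mp h.lim) _ hε'
    obtain ⟨n2, hn2⟩ := (Metric.tendsto_atTop.mp h'.lim) _ hε'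
    refine ⟨max n1 n2, fun n hn m hm => ?_⟩
    have a1 := hn1 n ((le_max_left _ _).trans hn)
    have a2 := hn2 m ((le_max_right _ _).trans hm)
    rw [Real.dist_eq, sub_zero, abs_of_nonneg (integral_nonneg fun x => abs_nonneg _)] at a1 a2
    have h3 : ∫ x, |ev (χ n) x - ev (χ' m) x| ∂s ≤
        ∫ x, |ev (χ n) x - S.indicator (fun _ => (1:ℝ)) x| ∂s +
        ∫ x, |ev (χ' m) x - S.indicator (fun _ => (1:ℝ)) x| ∂s := by
      have i1 : Integrable (fun x => |ev (χ n) x - S.indicator (fun _ => (1:ℝ)) x|) s :=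
        ((hint _ (hcont _)).sub hSi).abs
      have i2 : Integrable (fun x => |ev (χ' m) x - S.indicator (fun _ => (1:ℝ)) x|) s :=
        ((hint _ (hcont _)).sub hSi).abs
      rw [← integral_add i1 i2]
      apply integral_mono ((hint _ (hcont _)).sub (hint _ (hcont _))).abs (i1.add i2)
      intro x
      simp only [Pi.add_apply, Pi.sub_apply]
      calc |ev (χ n) x - ev (χ' m) x|
          ≤ |ev (χ n) x - S.indicator (fun _ => (1:ℝ)) x|
            + |S.indicator (fun _ => (1:ℝ)) x - ev (χ' m) x| := abs_sub_le _ _ _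
        _ = _ := by rw [abs_sub_comm (S.indicator (fun _ => (1:ℝ)) x)]
    calc |Phi (mul (χ n) b) - Phi (mul (χ' m) b)|
        ≤ C * ∫ x, |ev (χ n) x - ev (χ' m) x| ∂s := hdiff b C hC0 hC _ _
      _ ≤ C * (ε / (2 * (C + 1)) + ε / (2 * (C + 1))) := by
          apply mul_le_mul_of_nonneg_left _ hC0
          linarith
      _ = ε * (C / (C + 1)) := by field_simp; ring
      _ < ε * 1 := by
          apply mul_lt_mul_of_pos_left _ hε
          rw [div_lt_one (by positivity)]; linarith
      _ = ε := mul_one _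
  obtain ⟨χ0, hχ0⟩ := hcut
  have hcau : ∀ b, CauchySeq fun n => Phi (mul (χ0 n) b) := by
    intro b
    rw [Metric.cauchySeq_iff]
    intro ε hε
    obtain ⟨n0, h⟩ := hcmp χ0 χ0 hχ0 hχ0 b ε hε
    exact ⟨n0, fun m hm n hn => by rw [Real.dist_eq]; exact h m hm n hn⟩
  choose L hL using fun b => cauchySeq_tendsto_of_complete (hcau b)
  have hLlin : ∀ b c, L (b + c) = L b + L c := by
    intro b c
    refine tendsto_nhds_unique (hL (b + c)) ?_
    have := (hL b).add (hL c)
    refine this.congr fun n => ?_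
    rw [map_add, map_add]
  have hLsm : ∀ (t : ℝ) b, L (t • b) = t * L b := by
    intro t b
    refine tendsto_nhds_unique (hL (t • b)) ?_
    have := (hL b).const_mul t
    refine this.congr fun n => ?_
    rw [map_smul, map_smul, smul_eq_mul]
  have hLall : ∀ χ : ℕ → A, Cut s ev S χ → ∀ b,
      Tendsto (fun n => Phi (mul (χ n) b)) atTop (𝓝 (L b)) := by
    intro χ hχ b
    have h1 := hL b
    have h2 : Tendsto (fun n => Phi (mul (χ n) b) - Phi (mul (χ0 n) b)) atTop (𝓝 0) := by
      rw [Metric.tendsto_atTop]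
      intro ε hε
      obtain ⟨n0, h⟩ := hcmp χ χ0 hχ hχ0 b ε hε
      exact ⟨n0, fun n hn => by rw [Real.dist_eq, sub_zero]; exact h n hn n hn⟩
    have := h2.add h1
    simpa using this
  refine ⟨⟨⟨L, hLlin⟩, fun t b => by rw [RingHom.id_apply, smul_eq_mul]; exact hLsm t b⟩,
    hLall, ?_⟩
  intro b
  change |L b| ≤ _
  obtain ⟨C, hC0, hC⟩ := hNb b
  have h1 : Tendsto (fun n => |Phi (mul (χ0 n) b)|) atTop (𝓝 |L b|) := (hL b).abs
  have h2 : Tendsto (fun n => ∫ x in S, N b x ∂s +
      C * ∫ x, |ev (χ0 n) x - S.indicator (fun _ => (1:ℝ)) x| ∂s) atTop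
      (𝓝 (∫ x in S, N b x ∂s + C * 0)) := (hχ0.lim.const_mul C).const_add _
  rw [mul_zero, add_zero] at h2
  refine le_of_tendsto_of_tendsto' h1 h2 fun n => ?_
  refine (hPhi _).trans ?_
  rw [← integral_indicator hS, ← integral_const_mul, ← integral_add]
  · apply integral_mono (hint _ (hNc _))
    · exact ((hint _ (hNc b)).indicator hS).add
        ((((hint _ (hcont (χ0 n))).sub hSi).abs).const_mul C)
    · intro x
      simp only
      rw [hNm, abs_of_nonneg (hχ0.nonneg n x)]
      by_cases hx : x ∈ S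
      · rw [indicator_of_mem hx, indicator_of_mem hx]
        have h3 : ev (χ0 n) x * N b x ≤ 1 * N b x :=
          mul_le_mul_of_nonneg_right (hχ0.le_one n x) (hN0 b x)
        have h4 : 0 ≤ C * |ev (χ0 n) x - 1| := by positivity
        linarith
      · rw [indicator_of_notMem hx, indicator_of_notMem hx, sub_zero,
          abs_of_nonneg (hχ0.nonneg n x), zero_add, mul_comm]
        exact mul_le_mul_of_nonneg_right (hC x) (hχ0.nonneg n x)
  · exact (hint _ (hNc b)).indicator hS
  · exact (((hint _ (hcont (χ0 n))).sub hSi).abs).const_mul C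

end Crest.Agent.R240.Vm
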