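import Mathlib
import Crest.Agent.R240.Vm2

/-!
# R240, block V: inherited properties of the restricted functional (abstract form)
-/

set_option autoImplicit false
set_option linter.unusedSectionVars false
open MeasureTheory Set Filter Topology

namespace Crest.Agent.R240.Vm

variable {M : Type*} [TopologicalSpace M] [CompactSpace M] [T2Space M] [MeasurableSpace M]
  [BorelSpace M]
variable {A X : Type*} [AddCommGroup A] [Module ℝ A] [AddCommGroup X] [Module ℝ X]

/-- `PS` is the restriction of `Phi` to `S` (with respect to the measure `s`). -/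
def IsRestr (s : Measure M) (ev : A →ₗ[ℝ] (M → ℝ)) (mul : A →ₗ[ℝ] X →ₗ[ℝ] X)
    (Phi PS : X →ₗ[ℝ] ℝ) (S : Set M) : Prop :=
  ∀ χ : ℕ → A, Cut s ev S χ → ∀ b, Tendsto (fun n => Phi (mul (χ n) b)) atTop (𝓝 (PS b))

section
variable {s : Measure M} [IsFiniteMeasure s] {ev : A →ₗ[ℝ] (M → ℝ)}
  {mul : A →ₗ[ℝ] X →ₗ[ℝ] X} {Phi PS : X →ₗ[ℝ] ℝ} {S : Set M}

theorem Cut.tendsto_integral {ν : Measure M} [IsFiniteMeasure ν] {χ : ℕ → A}
    (hcont : ∀ f, Continuous (ev f)) (hS : MeasurableSet S) (h : Cut ν ev S χ) {g : M → ℝ} {C : ℝ}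
    (hg : AEStronglyMeasurable g ν) (hgC : ∀ x, |g x| ≤ C) :
    Tendsto (fun n => ∫ x, ev (χ n) x * g x ∂ν) atTop (𝓝 (∫ x in S, g x ∂ν)) := by
  have hint : ∀ f : M → ℝ, Continuous f → Integrable f ν := fun f hf =>
    hf.integrable_of_hasCompactSupport (HasCompactSupport.of_compactSpace _)
  have hgi : Integrable g ν := Integrable.mono' (integrable_const C) hg
    (Eventually.of_forall fun x => by rw [Real.norm_eq_abs]; exact hgC x)
  have hSi : Integrable (S.indicator fun _ => (1:ℝ)) ν := (integrable_const 1).indicator hS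
  have hi1 : ∀ n, Integrable (fun x => ev (χ n) x * g x) ν := by
    intro n
    refine hgi.bdd_mul (c := 1) (hcont _).aestronglyMeasurable (Eventually.of_forall fun x => ?_)
    rw [Real.norm_eq_abs, abs_of_nonneg (h.nonneg n x)]
    exact h.le_one n x
  have hi2 : Integrable (S.indicator g) ν := hgi.indicator hS
  rw [tendsto_iff_dist_tendsto_zero]
  have hlim : Tendsto (fun n => C * ∫ x, |ev (χ n) x - S.indicator (fun _ => (1:ℝ)) x| ∂ν) atTop
      (𝓝 0) := by
    simpa using h.lim.const_mul C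
  refine squeeze_zero (fun _ => dist_nonneg) (fun n => ?_) hlim
  rw [Real.dist_eq, ← integral_indicator hS, ← integral_sub (hi1 n) hi2]
  refine (abs_integral_le_integral_abs).trans ?_
  rw [← integral_const_mul]
  apply integral_mono ((hi1 n).sub hi2).abs
  · exact (((hint _ (hcont (χ n))).sub hSi).abs).const_mul C
  · intro x
    simp only [Pi.sub_apply]
    have : ev (χ n) x * g x - S.indicator g x =
        (ev (χ n) x - S.indicator (fun _ => (1:ℝ)) x) * g x := by
      by_cases hx : x ∈ S <;> simp [hx, sub_mul]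
    rw [this, abs_mul, mul_comm]
    exact mul_le_mul_of_nonneg_right (hgC x) (abs_nonneg _)

/-- If `Phi (f b) = ∫ f g ds` then `PS b = ∫_S g ds`. -/
theorem IsRestr.eq_setIntegral (h : IsRestr s ev mul Phi PS S)
    (hcont : ∀ f, Continuous (ev f)) (hS : MeasurableSet S) (hcut : ∃ χ : ℕ → A, Cut s ev S χ)
    {b : X} {g : M → ℝ} {C : ℝ} (hg : AEStronglyMeasurable g s) (hgC : ∀ x, |g x| ≤ C)
    (hb : ∀ f, Phi (mul f b) = ∫ x, ev f x * g x ∂s) : PS b = ∫ x in S, g x ∂s := by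
  obtain ⟨χ, hχ⟩ := hcut
  have h1 := h χ hχ b
  simp only [hb] at h1
  exact tendsto_nhds_unique h1 (hχ.tendsto_integral hcont hS hg hgC)

/-- If `Phi (f b) = 0` for all `f` then `PS b = 0`. -/
theorem IsRestr.eq_zero (h : IsRestr s ev mul Phi PS S) (hcut : ∃ χ : ℕ → A, Cut s ev S χ)
    {b : X} (hb : ∀ f, Phi (mul f b) = 0) : PS b = 0 := by
  obtain ⟨χ, hχ⟩ := hcut
  have h1 := h χ hχ b
  simp only [hb] at h1
  exact tendsto_nhds_unique h1 tendsto_const_nhds

/-- Lower bounds are inherited: if `Phi (f b) ≥ ∫ f k dμ` for `f ≥ 0` then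
`PS b ≥ ∫_S k dμ`. -/
theorem IsRestr.ge_setIntegral (h : IsRestr s ev mul Phi PS S) {μ : Measure M}
    [IsFiniteMeasure μ]
    (hcont : ∀ f, Continuous (ev f)) (hS : MeasurableSet S)
    (hcut : ∃ χ : ℕ → A, Cut (s + μ) ev S χ)
    {b : X} {k : M → ℝ} {C : ℝ} (hk : AEStronglyMeasurable k μ) (hkC : ∀ x, |k x| ≤ C)
    (hb : ∀ f, (∀ x, 0 ≤ ev f x) → ∫ x, ev f x * k x ∂μ ≤ Phi (mul f b)) :
    ∫ x in S, k x ∂μ ≤ PS b := by
  obtain ⟨χ, hχ⟩ := hcut
  have hχs : Cut s ev S χ := hχ.mono hcont hS (Measure.le_add_right le_rfl)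
  have hχμ : Cut μ ev S χ := hχ.mono hcont hS (Measure.le_add_left le_rfl)
  have h1 := h χ hχs b
  have h2 := hχμ.tendsto_integral hcont hS hk hkC
  exact le_of_tendsto_of_tendsto' h2 h1 fun n => hb _ (hχ.nonneg n)

/-- Positivity is inherited. -/
theorem IsRestr.nonneg (h : IsRestr s ev mul Phi PS S) (hcut : ∃ χ : ℕ → A, Cut s ev S χ)
    {b : X} (hb : ∀ f, (∀ x, 0 ≤ ev f x) → 0 ≤ Phi (mul f b)) : 0 ≤ PS b := by
  obtain ⟨χ, hχ⟩ := hcut
  exact ge_of_tendsto' (h χ hχ b) fun n => hb _ (hχ.nonneg n)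

/-- Equality of restrictions on two vectors. -/
theorem IsRestr.congr (h : IsRestr s ev mul Phi PS S) (hcut : ∃ χ : ℕ → A, Cut s ev S χ)
    {b c : X} (hb : ∀ f, Phi (mul f b) = Phi (mul f c)) : PS b = PS c := by
  obtain ⟨χ, hχ⟩ := hcut
  have h1 := h χ hχ b
  simp only [hb] at h1
  exact tendsto_nhds_unique h1 (h χ hχ c)

end

end Crest.Agent.R240.Vm
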