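import Mathlib
import Crest.Agent.R240.Riesz
import Crest.Agent.R240.Vm3

/-!
# R240, block V: smooth cutting sequences on a compact manifold
-/

set_option autoImplicit false
set_option linter.unusedSectionVars false
open MeasureTheory Set Filter Topology
open scoped Manifold ContDiff

namespace Crest.Agent.R240.Vm

open Crest.Agent.R240.HB

variable {E H M : Type*} [NormedAddCommGroup E] [NormedSpace ℝ E] [FiniteDimensional ℝ E]
  [TopologicalSpace H] (I : ModelWithCorners ℝ E H)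
  [TopologicalSpace M] [ChartedSpace H M] [IsManifold I ∞ M] [CompactSpace M] [T2Space M]

/-- smooth approximation with values in `[0,1]`. -/
theorem evSmooth_dense01 (f : M → ℝ) (hf : Continuous f) (h0 : ∀ x, 0 ≤ f x)
    (h1 : ∀ x, f x ≤ 1) (ε : ℝ) (hε : 0 < ε) :
    ∃ g : C^∞⟮I, M; 𝓘(ℝ, ℝ), ℝ⟯, (∀ x, 0 ≤ evSmooth I g x) ∧ (∀ x, evSmooth I g x ≤ 1) ∧
      ∀ x, |evSmooth I g x - f x| < ε := by
  set δ : ℝ := min (ε / 4) (1 / 4) with hδ
  have hδ0 : 0 < δ := by positivity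
  have hδ1 : δ ≤ ε / 4 := min_le_left _ _
  have hδ2 : δ ≤ 1 / 4 := min_le_right _ _
  obtain ⟨g, hg⟩ := evSmooth_dense I (fun x => (1 - 2 * δ) * f x + δ)
    ((continuous_const.mul hf).add continuous_const) δ hδ0
  refine ⟨g, fun x => ?_, fun x => ?_, fun x => ?_⟩
  · have h2 := abs_lt.mp (hg x)
    have h3 : 0 ≤ (1 - 2 * δ) * f x := mul_nonneg (by linarith) (h0 x)
    linarith [h2.1]
  · have h2 := abs_lt.mp (hg x)
    have h3 : (1 - 2 * δ) * f x ≤ (1 - 2 * δ) * 1 :=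
      mul_le_mul_of_nonneg_left (h1 x) (by linarith)
    linarith [h2.2]
  · have h2 := abs_lt.mp (hg x)
    have h3 : δ * f x ≤ δ * 1 := mul_le_mul_of_nonneg_left (h1 x) hδ0.le
    have h4 : 0 ≤ δ * f x := mul_nonneg hδ0.le (h0 x)
    rw [abs_lt]
    constructor <;> nlinarith [h2.1, h2.2]

theorem evSmooth_continuous (f : C^∞⟮I, M; 𝓘(ℝ, ℝ), ℝ⟯) : Continuous (evSmooth I f) :=
  f.contMDiff.continuous

variable [MeasurableSpace M] [BorelSpace M]

/-- existence of smooth cutting sequences. -/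
theorem exists_cut_smooth (s : Measure M) [IsFiniteMeasure s] [s.Regular] {S : Set M}
    (hS : MeasurableSet S) :
    ∃ χ : ℕ → C^∞⟮I, M; 𝓘(ℝ, ℝ), ℝ⟯, Cut s (evSmooth I (M := M)) S χ :=
  exists_cut s (evSmooth I (M := M)) (evSmooth_continuous I)
    (fun f hf h0 h1 ε hε => evSmooth_dense01 I f hf h0 h1 ε hε) hS

end Crest.Agent.R240.Vm
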