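import Mathlib
import Crest.Agent.R240.Vm3

/-!
# R240, block V: push-forward of a measure to a chart core, chart formula of the restriction
-/

set_option autoImplicit false
set_option linter.unusedSectionVars false
open MeasureTheory Set Filter Topology

namespace Crest.Agent.R240.Vm

variable {M : Type*} [TopologicalSpace M] [T2Space M] [MeasurableSpace M]
  [BorelSpace M]
variable {E : Type*} [TopologicalSpace E] [T2Space E] [MeasurableSpace E] [BorelSpace E]

/-- push-forward of `s` restricted to the core `e.symm '' K`. -/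
noncomputable def smap (s : Measure M) (e : OpenPartialHomeomorph M E) (K : Set E) : Measure E :=
  (s.restrict (e.symm '' K)).map e

section
variable {s : Measure M} {e : OpenPartialHomeomorph M E} {K : Set E}

theorem isCompact_core (hK : IsCompact K) (hKe : K ⊆ e.target) : IsCompact (e.symm '' K) :=
  hK.image_of_continuousOn (e.continuousOn_symm.mono hKe)

theorem core_subset (hKe : K ⊆ e.target) : e.symm '' K ⊆ e.source := by
  rintro x ⟨y, hy, rfl⟩
  exact e.map_target (hKe hy)

theorem mem_core_iff (hKe : K ⊆ e.target) {x : M} (hx : x ∈ e.source) :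
    x ∈ e.symm '' K ↔ e x ∈ K := by
  constructor
  · rintro ⟨y, hy, rfl⟩
    rwa [e.right_inv (hKe hy)]
  · intro h
    exact ⟨e x, h, e.left_inv hx⟩

theorem measurableSet_core (hK : IsCompact K) (hKe : K ⊆ e.target) :
    MeasurableSet (e.symm '' K) := (isCompact_core hK hKe).measurableSet

theorem aemeasurable_chart (hK : IsCompact K) (hKe : K ⊆ e.target) :
    AEMeasurable e (s.restrict (e.symm '' K)) :=
  (e.continuousOn.mono (core_subset hKe)).aemeasurable (measurableSet_core hK hKe)

instance smap_finite [IsFiniteMeasure s] : IsFiniteMeasure (smap s e K) := by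
  unfold smap; infer_instance

theorem ae_mem_smap (hK : IsCompact K) (hKe : K ⊆ e.target) : ∀ᵐ y ∂(smap s e K), y ∈ K := by
  unfold smap
  refine (ae_map_iff (p := fun y => y ∈ K) (aemeasurable_chart hK hKe) hK.measurableSet).mpr ?_
  filter_upwards [ae_restrict_mem (measurableSet_core hK hKe)] with x hx
  exact (mem_core_iff hKe (core_subset hKe hx)).mp hx

theorem smap_compl (hK : IsCompact K) (hKe : K ⊆ e.target) : smap s e K Kᶜ = 0 :=
  (measure_eq_zero_iff_ae_notMem.mpr (by
    filter_upwards [ae_mem_smap (s := s) hK hKe] with y hy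
    simpa using hy))

theorem smap_apply (hK : IsCompact K) (hKe : K ⊆ e.target) {B : Set E} (hB : MeasurableSet B) :
    smap s e K B = s (e.symm '' (K ∩ B)) := by
  unfold smap
  rw [Measure.map_apply_of_aemeasurable (aemeasurable_chart hK hKe) hB,
    Measure.restrict_apply' (measurableSet_core hK hKe)]
  congr 1
  ext x
  constructor
  · rintro ⟨hx1, y, hy, rfl⟩
    refine ⟨y, ⟨hy, ?_⟩, rfl⟩
    simpa [e.right_inv (hKe hy)] using hx1
  · rintro ⟨y, ⟨hy, hyB⟩, rfl⟩
    refine ⟨?_, y, hy, rfl⟩
    simpa [e.right_inv (hKe hy)] using hyB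

theorem integral_smap (hK : IsCompact K) (hKe : K ⊆ e.target) {G : E → ℝ}
    (hG : AEStronglyMeasurable G (smap s e K)) :
    ∫ y, G y ∂(smap s e K) = ∫ x in e.symm '' K, G (e x) ∂s := by
  unfold smap at hG ⊢
  exact integral_map (aemeasurable_chart hK hKe) hG

theorem measurableSet_preimage_core (hK : IsCompact K) (hKe : K ⊆ e.target) {S : Set M}
    (hS : MeasurableSet S) : MeasurableSet {y | y ∈ K ∧ e.symm y ∈ S} := by
  have h1 : ContinuousOn e.symm K := e.continuousOn_symm.mono hKe
  have h2 : Measurable (K.domRestrict e.symm) := (continuousOn_iff_continuous_domRestrict.mp h1).measurable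
  have h3 := hK.measurableSet.subtype_image (h2 hS)
  have h4 : {y | y ∈ K ∧ e.symm y ∈ S} = Subtype.val '' (K.domRestrict e.symm ⁻¹' S) := by
    ext y
    constructor
    · rintro ⟨hy, hyS⟩
      exact ⟨⟨y, hy⟩, hyS, rfl⟩
    · rintro ⟨⟨z, hz⟩, hzS, rfl⟩
      exact ⟨hz, hzS⟩
  rw [h4]
  exact h3

theorem setIntegral_smap (hK : IsCompact K) (hKe : K ⊆ e.target) {S : Set M}
    (hS : MeasurableSet S) {G : E → ℝ} (hG : AEStronglyMeasurable G (smap s e K)) :
    ∫ y in {y | y ∈ K ∧ e.symm y ∈ S}, G y ∂(smap s e K) = ∫ x in e.symm '' K ∩ S, G (e x) ∂s := by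
  have hB := measurableSet_preimage_core (e := e) hK hKe hS
  rw [← integral_indicator hB]
  have h1 : AEStronglyMeasurable ({y | y ∈ K ∧ e.symm y ∈ S}.indicator G) (smap s e K) :=
    hG.indicator hB
  rw [integral_smap hK hKe h1]
  have h2 : ∫ x in e.symm '' K, {y | y ∈ K ∧ e.symm y ∈ S}.indicator G (e x) ∂s =
      ∫ x in e.symm '' K, S.indicator (fun x => G (e x)) x ∂s := by
    apply setIntegral_congr_fun (measurableSet_core hK hKe)
    intro x hx
    have hxs := core_subset hKe hx
    have hxK : e x ∈ K := (mem_core_iff hKe hxs).mp hx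
    simp only
    by_cases hxS : x ∈ S
    · rw [indicator_of_mem hxS, indicator_of_mem]
      exact ⟨hxK, by rwa [e.left_inv hxs]⟩
    · rw [indicator_of_notMem hxS, indicator_of_notMem]
      rintro ⟨-, h⟩
      rw [e.left_inv hxs] at h
      exact hxS h
  rw [h2, setIntegral_indicator hS]

/-- restriction of the push-forward. -/
theorem smap_restrict (hK : IsCompact K) (hKe : K ⊆ e.target) {S : Set M}
    (hS : MeasurableSet S) :
    smap (s.restrict S) e K = (smap s e K).restrict {y | y ∈ K ∧ e.symm y ∈ S} := by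
  have hB := measurableSet_preimage_core (e := e) hK hKe hS
  ext B hBm
  rw [Measure.restrict_apply' hB, smap_apply hK hKe hBm, smap_apply hK hKe (hBm.inter hB),
    Measure.restrict_apply' hS]
  congr 1
  ext x
  constructor
  · rintro ⟨⟨y, ⟨hy, hyB⟩, rfl⟩, hyS⟩
    exact ⟨y, ⟨hy, hyB, hy, hyS⟩, rfl⟩
  · rintro ⟨y, ⟨hy, hyB, _, hyS⟩, rfl⟩
    exact ⟨⟨y, ⟨hy, hyB⟩, rfl⟩, hyS⟩

end

section restr
variable [CompactSpace M]
variable {A X : Type*} [AddCommGroup A] [Module ℝ A] [AddCommGroup X] [Module ℝ X]
variable {s : Measure M} [IsFiniteMeasure s] {ev : A →ₗ[ℝ] (M → ℝ)}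
  {mul : A →ₗ[ℝ] X →ₗ[ℝ] X} {Phi PS : X →ₗ[ℝ] ℝ} {S : Set M}
  {e : OpenPartialHomeomorph M E} {K : Set E}

/-- **Chart formula of the restriction.** -/
theorem IsRestr.chart (h : IsRestr s ev mul Phi PS S)
    (hcont : ∀ f, Continuous (ev f)) (hS : MeasurableSet S) (hcut : ∃ χ : ℕ → A, Cut s ev S χ)
    (hK : IsCompact K) (hKe : K ⊆ e.target)
    {b : X} {G : E → ℝ} {C : ℝ} (hG : Measurable G) (hGC : ∀ y, |G y| ≤ C)
    (hb : ∀ f, Phi (mul f b) = ∫ y, ev f (e.symm y) * G y ∂(smap s e K)) :
    PS b = ∫ y in {y | y ∈ K ∧ e.symm y ∈ S}, G y ∂(smap s e K) := by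
  have hcore := measurableSet_core (e := e) hK hKe
  have hm : AEMeasurable (fun x => G (e x)) (s.restrict (e.symm '' K)) :=
    hG.comp_aemeasurable (aemeasurable_chart hK hKe)
  have hgm : AEStronglyMeasurable ((e.symm '' K).indicator fun x => G (e x)) s :=
    (aestronglyMeasurable_indicator_iff hcore).mpr hm.aestronglyMeasurable
  have hC0 : 0 ≤ |C| := abs_nonneg C
  have hgC : ∀ x, |(e.symm '' K).indicator (fun x => G (e x)) x| ≤ |C| := by
    intro x
    by_cases hx : x ∈ e.symm '' K
    · rw [indicator_of_mem hx]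
      exact (hGC _).trans (le_abs_self C)
    · rw [indicator_of_notMem hx, abs_zero]; exact hC0
  have h1 := h.eq_setIntegral hcont hS hcut hgm hgC (b := b) (by
    intro f
    rw [hb f]
    have hsm : AEStronglyMeasurable (fun y => ev f (e.symm y) * G y) (smap s e K) := by
      have hc : ContinuousOn (fun y => ev f (e.symm y)) K :=
        (hcont f).comp_continuousOn (e.continuousOn_symm.mono hKe)
      have h2 : AEStronglyMeasurable (fun y => ev f (e.symm y)) ((smap s e K).restrict K) :=
        (hc.aemeasurable hK.measurableSet).aestronglyMeasurable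
      have h3 : (smap s e K).restrict K = smap s e K := by
        apply Measure.restrict_eq_self_of_ae_mem
        exact ae_mem_smap hK hKe
      rw [h3] at h2
      exact h2.mul hG.aestronglyMeasurable
    rw [integral_smap hK hKe hsm, ← integral_indicator hcore]
    congr 1
    ext x
    by_cases hx : x ∈ e.symm '' K
    · rw [indicator_of_mem hx, indicator_of_mem hx, e.left_inv (core_subset hKe hx)]
    · rw [indicator_of_notMem hx, indicator_of_notMem hx, mul_zero])
  rw [h1, setIntegral_smap hK hKe hS hG.aestronglyMeasurable, setIntegral_indicator hcore,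
    inter_comm]

end restr

end Crest.Agent.R240.Vm
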