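import Mathlib
import Crest.Agent.R240.Vm4
import Crest.Agent.R240.Vm5

/-!
# R240, block V: the restriction of a current to a Borel set, all properties (abstract forms)
-/

set_option autoImplicit false
set_option linter.unusedSectionVars false
open MeasureTheory Set Filter Topology

namespace Crest.Agent.R240.Vm

variable {M : Type*} [TopologicalSpace M] [CompactSpace M] [T2Space M] [MeasurableSpace M]
  [BorelSpace M]
variable {A X : Type*} [AddCommGroup A] [Module ℝ A] [AddCommGroup X] [Module ℝ X]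

/-- All properties of the restriction. -/
structure Restr (s μ : Measure M) (ev : A →ₗ[ℝ] (M → ℝ)) (mul : A →ₗ[ℝ] X →ₗ[ℝ] X)
    (N : X → M → ℝ) (Phi Phi0 : X →ₗ[ℝ] ℝ) (G : Set M) : Prop where
  isRestr : IsRestr s ev mul Phi Phi0 G
  bound : ∀ b, |Phi0 b| ≤ ∫ x in G, N b x ∂s
  congr : ∀ b c, (∀ f, Phi (mul f b) = Phi (mul f c)) → Phi0 b = Phi0 c
  lower : ∀ b (k : M → ℝ) (C : ℝ), AEStronglyMeasurable k μ → (∀ x, |k x| ≤ C) →
    (∀ f, (∀ x, 0 ≤ ev f x) → ∫ x, ev f x * k x ∂μ ≤ Phi (mul f b)) → ∫ x in G, k x ∂μ ≤ Phi0 b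
  repr : ∀ b (g : M → ℝ) (C : ℝ), AEStronglyMeasurable g s → (∀ x, |g x| ≤ C) →
    (∀ f, Phi (mul f b) = ∫ x, ev f x * g x ∂s) → Phi0 b = ∫ x in G, g x ∂s

theorem exists_Restr (s μ : Measure M) [IsFiniteMeasure s] [IsFiniteMeasure μ]
    (ev : A →ₗ[ℝ] (M → ℝ)) (mul : A →ₗ[ℝ] X →ₗ[ℝ] X) (N : X → M → ℝ)
    (hcont : ∀ f, Continuous (ev f)) (hNc : ∀ b, Continuous (N b))
    (hN0 : ∀ b x, 0 ≤ N b x) (hNm : ∀ f b x, N (mul f b) x = |ev f x| * N b x)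
    (Phi : X →ₗ[ℝ] ℝ) (hPhi : ∀ b, |Phi b| ≤ ∫ x, N b x ∂s)
    {G : Set M} (hG : MeasurableSet G) (hcut : ∃ χ : ℕ → A, Cut (s + μ) ev G χ) :
    ∃ Phi0 : X →ₗ[ℝ] ℝ, Restr s μ ev mul N Phi Phi0 G := by
  have hcut' : ∃ χ : ℕ → A, Cut s ev G χ := by
    obtain ⟨χ, hχ⟩ := hcut
    exact ⟨χ, hχ.mono hcont hG (Measure.le_add_right le_rfl)⟩
  obtain ⟨PS, h1, h2⟩ := exists_restrict s ev mul N hcont hNc hN0 hNm Phi hPhi hG hcut'
  have h1' : IsRestr s ev mul Phi PS G := h1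
  refine ⟨PS, h1', h2, ?_, ?_, ?_⟩
  · intro b c h
    exact h1'.congr hcut' h
  · intro b k C hk hkC h
    exact h1'.ge_setIntegral hcont hG hcut hk hkC h
  · intro b g C hg hgC h
    exact h1'.eq_setIntegral hcont hG hcut' hg hgC h

end Crest.Agent.R240.Vm
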