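import Mathlib
import Crest.Agent.R240.Vm6
import Crest.Agent.R240.XDefs
import Crest.Agent.R240.TopDefs

/-!
# R240: restriction of a current on `M` to a Borel set (helper168)

`mulX f b = f b` (smooth function times smooth form) and `PhiR_exists`.
-/

set_option autoImplicit false
set_option linter.unusedSectionVars false
set_option maxSynthPendingDepth 3
open MeasureTheory Set Filter Topology
open scoped Manifold ContDiff

namespace Crest.Agent.R240.Vm

open Crest.Agent.R240.Ch Crest.Agent.R240.HB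

noncomputable section

section Mul

variable {M : Type*} [TopologicalSpace M] [ChartedSpace E4 M] [IsManifold 𝓘(ℝ, E4) ∞ M]

variable (M) in
/-- smooth functions. -/
abbrev SF := C^∞⟮𝓘(ℝ, E4), M; 𝓘(ℝ, ℝ), ℝ⟯

theorem rep_fmul (p : M) (f : M → ℝ) (a : F2 E4 M) (y : E4) :
    rep p (fmul f a) y = f ((chartAt E4 p).symm y) • rep p a y := by
  ext u v
  rw [rep_apply, smul_apply, smul_apply, rep_apply]
  rfl

theorem contDiffOn_symm (f : SF M) (p : M) :
    ContDiffOn ℝ ∞ (fun y => f ((chartAt E4 p).symm y)) (chartAt E4 p).target := by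
  have h1 : ContMDiffOn 𝓘(ℝ, E4) 𝓘(ℝ, ℝ) ∞ (fun y => f ((chartAt E4 p).symm y))
      (chartAt E4 p).target := by
    have h2 : ContMDiffOn 𝓘(ℝ, E4) 𝓘(ℝ, E4) ∞ (chartAt E4 p).symm (chartAt E4 p).target :=
      contMDiffOn_chart_symm
    exact f.contMDiff.comp_contMDiffOn h2
  exact h1.contDiffOn

theorem Smooth2.fmul (f : SF M) {a : F2 E4 M} (ha : Smooth2 a) : Smooth2 (Ch.fmul f a) := by
  refine ⟨fun x v => ?_, fun p => ?_⟩
  · have : at2 (Ch.fmul f a) x v v = f x * at2 a x v v := rfl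
    rw [this, ha.1, mul_zero]
  · have : rep p (Ch.fmul f a) = fun y => f ((chartAt E4 p).symm y) • rep p a y :=
      funext (rep_fmul p f a)
    rw [this]
    exact (contDiffOn_symm f p).smul (ha.2 p)

variable (M) in
/-- multiplication of smooth forms by smooth functions. -/
def mulX : SF M →ₗ[ℝ] X2 M →ₗ[ℝ] X2 M :=
  LinearMap.mk₂ ℝ (fun f b => ⟨Ch.fmul f b.1, Smooth2.fmul f b.2⟩)
    (by
      intro f g b
      apply Subtype.ext
      funext x
      exact add_smul (f x) (g x) (b.1 x))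
    (by
      intro c f b
      apply Subtype.ext
      funext x
      exact mul_smul c (f x) (b.1 x))
    (by
      intro f b c
      apply Subtype.ext
      funext x
      exact smul_add (f x) (b.1 x) (c.1 x))
    (by
      intro c f b
      apply Subtype.ext
      funext x
      exact smul_comm (f x) c (b.1 x))

@[simp] theorem mulX_coe (f : SF M) (b : X2 M) : (mulX M f b).1 = Ch.fmul f b.1 := rfl

theorem at2_mulX (f : SF M) (b : X2 M) (x : M) : at2 (mulX M f b).1 x = f x • at2 b.1 x := rfl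

theorem invM_mulX (J : EndF E4 M) (hJ : SmoothJ J) (f : SF M) (b : X2 M) :
    invM J hJ (mulX M f b) = mulX M f (invM J hJ b) := by
  apply Subtype.ext
  funext x
  change invp (atJ J x) (f x • at2 b.1 x) = f x • invp (atJ J x) (at2 b.1 x)
  ext u v
  rw [smul_apply, smul_apply, invp_apply, invp_apply]
  simp only [smul_apply, smul_eq_mul]
  ring

theorem antiM_mulX (J : EndF E4 M) (hJ : SmoothJ J) (f : SF M) (b : X2 M) :
    antiM J hJ (mulX M f b) = mulX M f (antiM J hJ b) := by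
  apply Subtype.ext
  funext x
  change antip (atJ J x) (f x • at2 b.1 x) = f x • antip (atJ J x) (at2 b.1 x)
  ext u v
  rw [smul_apply, smul_apply, antip_apply, antip_apply]
  simp only [smul_apply, smul_eq_mul]
  ring

theorem Pos.smul {J : E4 →L[ℝ] E4} {P : Bil} (hP : Pos J P) {r : ℝ} (hr : 0 ≤ r) :
    Pos J (r • P) := by
  refine ⟨fun v => ?_, fun u v => ?_, fun v => ?_⟩
  · rw [smul_apply, smul_apply, hP.alt, smul_zero]
  · simp only [smul_apply]
    rw [hP.inv]
  · simp only [smul_apply, smul_eq_mul]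
    exact mul_nonneg hr (hP.nonneg v)

theorem PosM.mulX {J : EndF E4 M} {f : SF M} (hf : ∀ x, 0 ≤ f x) {P : X2 M} (hP : P ∈ PosM J) :
    mulX M f P ∈ PosM J := fun x => Pos.smul (hP x) (hf x)

theorem qG_fmul_left (F b c : F2 E4 M) (f : M → ℝ) (x : M) :
    qG F (Ch.fmul f b) c x = f x * qG F b c x :=
  q_smul_left (at2 F x) (f x) (at2 b x) (at2 c x)

end Mul

section Main

variable {M : Type*} [MetricSpace M] [CompactSpace M] [ChartedSpace E4 M]
    [IsManifold 𝓘(ℝ, E4) ∞ M] [MeasurableSpace M] [BorelSpace M]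

set_option maxHeartbeats 1000000 in
/-- **Restriction of a current to a Borel set** (N6, first part). -/
theorem PhiR_exists (D : Dat M) (hqc : ∀ P : X2 M, Continuous (qG D.F P.1 D.F))
    (N : X2 M → M → ℝ) (hNc : ∀ b, Continuous (N b)) (hN0 : ∀ b x, 0 ≤ N b x)
    (hNm : ∀ (f : SF M) b x, N (mulX M f b) x = |f x| * N b x)
    (Phi : X2 M →ₗ[ℝ] ℝ) (hinv : ∀ b, Phi b = Phi (invM D.J D.smJ b))
    (hpos : ∀ P ∈ PosM D.J, D.I P.1 D.F ≤ Phi P)
    (s : Measure M) [IsFiniteMeasure s] (hb : ∀ b, |Phi b| ≤ ∫ x, N b x ∂s)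
    (G : Set M) (hG : MeasurableSet G) (hGμ : D.μ Gᶜ = 0) :
    ∃ Phi0 : X2 M →ₗ[ℝ] ℝ,
      (∀ b, Phi0 b = Phi0 (invM D.J D.smJ b)) ∧
      (∀ P ∈ PosM D.J, D.I P.1 D.F ≤ Phi0 P) ∧
      (∀ b, |Phi0 b| ≤ ∫ x in G, N b x ∂s) ∧
      (∀ b (g : M → ℝ) (C : ℝ), AEStronglyMeasurable g s → (∀ x, |g x| ≤ C) →
        (∀ f : SF M, Phi (mulX M f b) = ∫ x, f x * g x ∂s) → Phi0 b = ∫ x in G, g x ∂s) ∧
      (∀ F0 : X2 M, (∀ f : SF M, Phi (mulX M f F0) = ∫ x, f x ∂s) →
        ∀ f : SF M, Phi0 (mulX M f F0) = ∫ x in G, f x ∂s) := by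
  have := D.fin
  have hcont : ∀ f : SF M, Continuous (evSmooth 𝓘(ℝ, E4) f) := evSmooth_continuous 𝓘(ℝ, E4)
  obtain ⟨Phi0, hR⟩ := exists_Restr (A := SF M) (X := X2 M) s D.μ (evSmooth 𝓘(ℝ, E4) (M := M))
    (mulX M) N hcont hNc hN0 hNm Phi hb hG
    (exists_cut_smooth 𝓘(ℝ, E4) (s + D.μ) hG)
  have hbd : ∀ g : M → ℝ, Continuous g → ∃ C, ∀ x, |g x| ≤ C := by
    intro g hg
    obtain ⟨C, hC⟩ := (isCompact_univ.image hg.abs).isBounded.bddAbove
    exact ⟨C, fun x => hC ⟨x, mem_univ _, rfl⟩⟩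
  have hrepr : ∀ b (g : M → ℝ) (C : ℝ), AEStronglyMeasurable g s → (∀ x, |g x| ≤ C) →
      (∀ f : SF M, Phi (mulX M f b) = ∫ x, f x * g x ∂s) → Phi0 b = ∫ x in G, g x ∂s :=
    fun b g C h1 h2 h3 => hR.repr b g C h1 h2 h3
  refine ⟨Phi0, ?_, ?_, hR.bound, hrepr, ?_⟩
  · intro b
    apply hR.congr
    intro f
    rw [hinv (mulX M f b), invM_mulX]
  · intro P hP
    obtain ⟨C, hC⟩ := hbd _ (hqc P)
    have h1 := hR.lower P (qG D.F P.1 D.F) C (hqc P).aestronglyMeasurable hC (by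
      intro f hf
      have h2 := hpos (mulX M f P) (PosM.mulX hf hP)
      refine le_of_eq_of_le ?_ h2
      unfold Dat.I IG
      apply integral_congr_ae
      filter_upwards with x
      exact (qG_fmul_left D.F P.1 D.F f x).symm)
    have h3 : ∫ x in G, qG D.F P.1 D.F x ∂D.μ = D.I P.1 D.F := by
      unfold Dat.I IG
      have : D.μ.restrict G = D.μ := by
        apply Measure.restrict_eq_self_of_ae_mem
        rw [ae_iff]
        exact hGμ
      rw [this]
    rw [h3] at h1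
    exact h1
  · intro F0 hF0 f
    obtain ⟨C, hC⟩ := hbd _ (hcont f)
    apply hrepr _ _ C (hcont f).aestronglyMeasurable hC
    intro g
    have h1 : mulX M g (mulX M f F0) = mulX M (g * f) F0 := by
      apply Subtype.ext
      funext x
      exact smul_smul (g x) (f x) (F0.1 x)
    rw [h1, hF0]
    rfl

end Main

end

end Crest.Agent.R240.Vm
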