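import Crest.Agent.R240.Dens
import Crest.Agent.R240.PhiR

/-!
Row 240 (S0371), PART D2 (helper703): the chart density of a positive functional on the smooth
two-forms of `M`.
-/

set_option autoImplicit false
set_option maxSynthPendingDepth 3

open Set Function Filter Topology MeasureTheory Metric
open scoped Manifold ContDiff Topology

namespace Crest.Agent.R240.DensM

open Crest.Agent.R240 Crest.Agent.R240.Ch Crest.Agent.R240.Dens

noncomputable section

section Ext

variable {M : Type*} [TopologicalSpace M] [ChartedSpace E4 M] [IsManifold 𝓘(ℝ, E4) ∞ M]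

theorem at2_ext2_mem {p x : M} (hx : x ∈ (chartAt E4 p).source) (β : E4 → Bil) (u v : E4) :
    at2 (ext2 p β) x u v = β (chartAt E4 p x) (tcc x p x u) (tcc x p x v) := by
  unfold at2 ext2
  rw [if_pos hx]
  rfl

theorem at2_ext2_notMem {p x : M} (hx : x ∉ (chartAt E4 p).source) (β : E4 → Bil) :
    at2 (ext2 p β) x = 0 := by
  unfold at2 ext2
  rw [if_neg hx]

theorem at2_ext2_zero {p x : M} {β : E4 → Bil} (hx : β (chartAt E4 p x) = 0) :
    at2 (ext2 p β) x = 0 := by
  by_cases h : x ∈ (chartAt E4 p).source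
  · ext u v
    rw [at2_ext2_mem h, hx]
    rfl
  · exact at2_ext2_notMem h β

theorem tcc_cancel2 {p x : M} (hx : x ∈ (chartAt E4 p).source) (v : E4) :
    tcc x p x (tcc p x x v) = v := by
  rw [tcc_comp hx (mem_chart_source _ x) hx, tcc_self hx]

theorem rep_ext2_self {p : M} {y : E4} (hy : y ∈ (chartAt E4 p).target) (β : E4 → Bil) :
    rep p (ext2 p β) y = β y := by
  ext u v
  rw [rep_apply, at2_ext2_mem (symm_mem hy), (chartAt E4 p).right_inv hy, tcc_cancel2 (symm_mem hy),
    tcc_cancel2 (symm_mem hy)]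

/-- extension by zero of a smooth form with compact support in the chart target. -/
theorem smooth2_ext2 [T2Space M] [MeasurableSpace M] [BorelSpace M] {p : M} {β : E4 → Bil} (hβ : ContDiffOn ℝ ∞ β (chartAt E4 p).target)
    (halt : ∀ y, Alt (β y)) {K : Set E4} (hK : IsCompact K) (hKt : K ⊆ (chartAt E4 p).target)
    (h0 : ∀ y ∉ K, β y = 0) : Smooth2 (ext2 p β) := by
  refine Smooth2.of_local ?_ ?_
  · intro x v
    by_cases hx : x ∈ (chartAt E4 p).source
    · rw [at2_ext2_mem hx]
      exact halt _ _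
    · rw [at2_ext2_notMem hx]
      rfl
  · intro x
    by_cases hx : x ∈ (chartAt E4 p).source
    · refine ⟨p, hx, ?_⟩
      have hy := (chartAt E4 p).map_source hx
      have h1 : ContDiffAt ℝ ∞ β (chartAt E4 p x) :=
        hβ.contDiffAt ((chartAt E4 p).open_target.mem_nhds hy)
      refine h1.congr_of_eventuallyEq ?_
      filter_upwards [(chartAt E4 p).open_target.mem_nhds hy] with y hy'
      exact rep_ext2_self hy' β
    · refine ⟨x, mem_chart_source E4 x, ?_⟩
      have hcl : IsClosed ((chartAt E4 p).symm '' K) := (Vm.isCompact_core hK hKt).isClosed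
      have hx' : x ∉ (chartAt E4 p).symm '' K := fun h => hx (Vm.core_subset hKt h)
      have hxt := (chartAt E4 x).map_source (mem_chart_source E4 x)
      have hcont : ContinuousAt (chartAt E4 x).symm (chartAt E4 x x) :=
        (chartAt E4 x).continuousAt_symm hxt
      have hnh : ((chartAt E4 p).symm '' K)ᶜ ∈ 𝓝 ((chartAt E4 x).symm (chartAt E4 x x)) := by
        rw [(chartAt E4 x).left_inv (mem_chart_source E4 x)]
        exact hcl.isOpen_compl.mem_nhds hx'
      have hev : rep x (ext2 p β) =ᶠ[𝓝 (chartAt E4 x x)] fun _ => (0 : Bil) := by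
        filter_upwards [hcont hnh] with y hy
        have hz : at2 (ext2 p β) ((chartAt E4 x).symm y) = 0 := by
          by_cases hs : (chartAt E4 x).symm y ∈ (chartAt E4 p).source
          · apply at2_ext2_zero
            apply h0
            intro hmem
            exact hy ((Vm.mem_core_iff hKt hs).2 hmem)
          · exact at2_ext2_notMem hs β
        ext u v
        rw [rep_apply, hz]
        rfl
      exact contDiffAt_const.congr_of_eventuallyEq hev

theorem ext2_add (p : M) (β γ : E4 → Bil) : ext2 p (β + γ) = ext2 p β + ext2 p γ := by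
  funext x
  by_cases hx : x ∈ (chartAt E4 p).source
  · have h : ∀ u v, at2 (ext2 p (β + γ)) x u v = (at2 (ext2 p β) x + at2 (ext2 p γ) x) u v := by
      intro u v
      rw [add_apply, add_apply, at2_ext2_mem hx, at2_ext2_mem hx, at2_ext2_mem hx]
      rfl
    exact ContinuousLinearMap.ext fun u => ContinuousLinearMap.ext fun v => h u v
  · have h : at2 (ext2 p (β + γ)) x = at2 (ext2 p β) x + at2 (ext2 p γ) x := by
      rw [at2_ext2_notMem hx, at2_ext2_notMem hx, at2_ext2_notMem hx]
      ext u v
      simp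
    exact h

theorem ext2_smul (p : M) (c : ℝ) (β : E4 → Bil) : ext2 p (c • β) = c • ext2 p β := by
  funext x
  by_cases hx : x ∈ (chartAt E4 p).source
  · have h : ∀ u v, at2 (ext2 p (c • β)) x u v = (c • at2 (ext2 p β) x) u v := by
      intro u v
      rw [smul_apply, smul_apply, at2_ext2_mem hx, at2_ext2_mem hx]
      rfl
    exact ContinuousLinearMap.ext fun u => ContinuousLinearMap.ext fun v => h u v
  · have h : at2 (ext2 p (c • β)) x = c • at2 (ext2 p β) x := by
      rw [at2_ext2_notMem hx, at2_ext2_notMem hx]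
      ext u v
      simp
    exact h

/-- a form vanishing off the chart core is the extension of its representation. -/
theorem eq_ext2 {p : M} {b : F2 E4 M} (h0 : ∀ x ∉ (chartAt E4 p).source, at2 b x = 0)
    {β : E4 → Bil} (hβ : ∀ y ∈ (chartAt E4 p).target, β y = rep p b y) : b = ext2 p β := by
  funext x
  by_cases hx : x ∈ (chartAt E4 p).source
  · have h : ∀ u v, at2 b x u v = at2 (ext2 p β) x u v := by
      intro u v
      rw [at2_ext2_mem hx, hβ _ ((chartAt E4 p).map_source hx), ← apply_eq_rep hx]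
    exact ContinuousLinearMap.ext fun u => ContinuousLinearMap.ext fun v => h u v
  · have h : at2 b x = at2 (ext2 p β) x := by
      rw [h0 x hx, at2_ext2_notMem hx]
    exact h

end Ext


theorem measurable_q {F b c : E4 → Bil} (hF : Measurable F) (hb : Measurable b)
    (hc : Measurable c) : Measurable fun y => q (F y) (b y) (c y) := by
  have he : ∀ {a : E4 → Bil}, Measurable a → ∀ i j, Measurable fun y => ent (a y) i j :=
    fun ha i j => (continuous_ent i j).measurable.comp ha
  unfold q W
  have h1 := he hF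
  have h2 := he hb
  have h3 := he hc
  fun_prop

section Tr

variable {M : Type*} [TopologicalSpace M] [ChartedSpace E4 M] [IsManifold 𝓘(ℝ, E4) ∞ M]

/-- transfer of `Pos` from the chart to `M`. -/
theorem pos_ext2 {p : M} {J : EndF E4 M} {β : E4 → Bil}
    (h : ∀ y ∈ (chartAt E4 p).target, Pos (repJ p J y) (β y)) : PosG J (ext2 p β) := by
  intro x
  by_cases hx : x ∈ (chartAt E4 p).source
  · have hy := h _ ((chartAt E4 p).map_source hx)
    refine ⟨fun v => ?_, fun u v => ?_, fun v => ?_⟩
    · rw [at2_ext2_mem hx]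
      exact hy.alt _
    · rw [at2_ext2_mem hx, at2_ext2_mem hx, apply_eq_repJ hx, apply_eq_repJ hx]
      exact hy.inv _ _
    · rw [at2_ext2_mem hx, apply_eq_repJ hx]
      exact hy.nonneg _
  · rw [at2_ext2_notMem hx]
    refine ⟨fun v => rfl, fun u v => rfl, fun v => le_rfl⟩

theorem repJ_sq {J : EndF E4 M} (hsq : ∀ x v, atJ J x (atJ J x v) = -v) {p : M} {y : E4}
    (hy : y ∈ (chartAt E4 p).target) (v : E4) : repJ p J y (repJ p J y v) = -v := by
  rw [repJ_apply, repJ_apply, tcc_cancel' (symm_mem hy), hsq, map_neg,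
    tcc_cancel2 (symm_mem hy)]

theorem spos_rep {J : EndF E4 M} {F : F2 E4 M} (hFp : ∀ x, SPos (atJ J x) (at2 F x)) {p : M}
    {y : E4} (hy : y ∈ (chartAt E4 p).target) : SPos (repJ p J y) (rep p F y) := by
  have h := hFp ((chartAt E4 p).symm y)
  refine ⟨fun v => ?_, fun u v => ?_, fun v hv => ?_⟩
  · rw [rep_apply]
    exact h.alt _
  · rw [rep_apply, rep_apply, repJ_apply, repJ_apply, tcc_cancel' (symm_mem hy),
      tcc_cancel' (symm_mem hy)]
    exact h.inv _ _
  · rw [rep_apply, repJ_apply, tcc_cancel' (symm_mem hy)]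
    apply h.pos
    intro h0
    apply hv
    have := congrArg (tcc ((chartAt E4 p).symm y) p ((chartAt E4 p).symm y)) h0
    rwa [tcc_cancel2 (symm_mem hy), map_zero] at this

theorem bp_ext2 {p : M} {J : EndF E4 M} {β : E4 → Bil} :
    bp J (ext2 p β) = ext2 p (fun y => invp (repJ p J y) (β y)) := by
  apply eq_ext2
  · intro x hx
    have h : at2 (bp J (ext2 p β)) x = invp (atJ J x) (at2 (ext2 p β) x) := rfl
    rw [h, at2_ext2_notMem hx]
    ext u v
    rw [invp_apply]
    simp
  · intro y hy
    rw [rep_bp hy, rep_ext2_self hy]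

theorem ext2_zero' {p : M} {β : E4 → Bil} (h : ∀ y ∈ (chartAt E4 p).target, β y = 0) :
    ext2 p β = 0 := by
  funext x
  by_cases hx : x ∈ (chartAt E4 p).source
  · exact at2_ext2_zero (h _ ((chartAt E4 p).map_source hx))
  · exact at2_ext2_notMem hx β

end Tr

section Main

variable {M : Type*} [TopologicalSpace M] [T2Space M] [ChartedSpace E4 M]
  [IsManifold 𝓘(ℝ, E4) ∞ M] [MeasurableSpace M] [BorelSpace M]

/-- extension by zero of a function. -/
theorem contMDiff_extF {p : M} {g : E4 → ℝ} (hg : ContDiff ℝ ∞ g) {K : Set E4} (hK : IsCompact K)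
    (hKt : K ⊆ (chartAt E4 p).target) (h0 : ∀ y ∉ K, g y = 0) :
    ContMDiff 𝓘(ℝ, E4) 𝓘(ℝ, ℝ) ∞ (extF (E := E4) p g) := by
  intro x
  by_cases hx : x ∈ (chartAt E4 p).source
  · have h1 : ContMDiffAt 𝓘(ℝ, E4) 𝓘(ℝ, ℝ) ∞ (g ∘ chartAt E4 p) x :=
      hg.contMDiff.contMDiffAt.comp x
        (contMDiffAt_of_mem_maximalAtlas (IsManifold.chart_mem_maximalAtlas p) hx)
    refine h1.congr_of_eventuallyEq ?_
    filter_upwards [(chartAt E4 p).open_source.mem_nhds hx] with z hz
    unfold extF
    rw [if_pos hz]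
    rfl
  · have hcl : IsClosed ((chartAt E4 p).symm '' K) := (Vm.isCompact_core hK hKt).isClosed
    have hx' : x ∉ (chartAt E4 p).symm '' K := fun h => hx (Vm.core_subset hKt h)
    have hev : extF (E := E4) p g =ᶠ[𝓝 x] fun _ => (0 : ℝ) := by
      filter_upwards [hcl.isOpen_compl.mem_nhds hx'] with z hz
      unfold extF
      split_ifs with hs
      · apply h0
        intro hmem
        exact hz ((Vm.mem_core_iff hKt hs).2 hmem)
      · rfl
    exact contMDiffAt_const.congr_of_eventuallyEq hev

/-- **The chart density of a positive current on `M`.** -/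
theorem exists_density_M {J : EndF E4 M} (hJ : SmoothJ J) (hsq : ∀ x v, atJ J x (atJ J x v) = -v)
    {F : F2 E4 M} (hF : Smooth2 F) (hFp : ∀ x, SPos (atJ J x) (at2 F x))
    (Φ : X2 M →ₗ[ℝ] ℝ) (hinv : ∀ b, Φ b = Φ (invM J hJ b)) (hpos : ∀ P ∈ PosM J, 0 ≤ Φ P)
    (s : Measure M) [IsFiniteMeasure s]
    (hmass : ∀ f : Vm.SF M, Φ (Vm.mulX M f ⟨F, hF⟩) = ∫ x, f x ∂s)
    (N : X2 M → M → ℝ) (hN0 : ∀ b x, 0 ≤ N b x) (hNz : ∀ b x, at2 b.1 x = 0 → N b x = 0)
    (hNle : ∀ (p : M) (K : Set E4), IsCompact K → K ⊆ (chartAt E4 p).target →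
      ∃ C : ℝ, ∀ b : X2 M, ∀ y ∈ K, N b ((chartAt E4 p).symm y) ≤ C * ‖rep p b.1 y‖)
    (hdom : ∀ b, |Φ b| ≤ ∫ x, N b x ∂s)
    (p : M) {K : Set E4} (hK : IsCompact K) (hKt : K ⊆ (chartAt E4 p).target) :
    ∃ φ : E4 → Bil, ∃ C' : ℝ, Measurable φ ∧ (∀ y, ‖φ y‖ ≤ C') ∧
      (∀ y ∈ K, Pos (repJ p J y) (φ y)) ∧
      (∀ y ∈ K, q (rep p F y) (φ y) (rep p F y) = 1) ∧
      ∀ b : X2 M, (∀ x ∉ (chartAt E4 p).symm '' K, at2 b.1 x = 0) →
        Φ b = ∫ y, q (rep p F y) (φ y) (rep p b.1 y) ∂(Vm.smap s (chartAt E4 p) K) := by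
  classical
  have htop : IsOpen (chartAt E4 p).target := (chartAt E4 p).open_target
  obtain ⟨δ, δpos, hδt⟩ : ∃ δ, 0 < δ ∧ cthickening δ K ⊆ (chartAt E4 p).target :=
    hK.exists_cthickening_subset_open htop hKt
  set V : Set E4 := thickening δ K with hVdef
  set K1 : Set E4 := cthickening δ K with hK1def
  have hVo : IsOpen V := isOpen_thickening
  have hK1 : IsCompact K1 := hK.cthickening
  have hKV : K ⊆ V := self_subset_thickening δpos K
  have hVK1 : V ⊆ K1 := thickening_subset_cthickening δ K
  have hVt : V ⊆ (chartAt E4 p).target := hVK1.trans hδt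
  have hKK1 : K ⊆ K1 := hKV.trans hVK1
  -- the functional in the chart
  have hTF0 : ∀ β : TF V, ∀ y ∉ K1, (β : E4 → Bil) y = 0 := by
    intro β y hy
    by_contra h
    exact hy (hVK1 (β.2.2.2.1 (subset_tsupport _ h)))
  have hsm : ∀ β : TF V, Smooth2 (ext2 p (β : E4 → Bil)) := fun β =>
    smooth2_ext2 β.2.1.contDiffOn β.2.2.2.2 hK1 hδt (hTF0 β)
  let Ψ : TF V →ₗ[ℝ] ℝ :=
    { toFun := fun β => Φ ⟨ext2 p (β : E4 → Bil), hsm β⟩
      map_add' := by
        intro β γ
        rw [← map_add]
        congr 1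
        apply Subtype.ext
        exact ext2_add p _ _
      map_smul' := by
        intro c β
        rw [RingHom.id_apply, ← map_smul]
        congr 1
        apply Subtype.ext
        exact ext2_smul p c _ }
  have hΨ : ∀ β : TF V, Ψ β = Φ ⟨ext2 p (β : E4 → Bil), hsm β⟩ := fun β => rfl
  obtain ⟨C1, hC1⟩ := hNle p K1 hK1 hδt
  set sV : Measure E4 := Vm.smap s (chartAt E4 p) K1 with hsV
  have hcore1 : MeasurableSet ((chartAt E4 p).symm '' K1) := Vm.measurableSet_core hK1 hδt
  -- domination
  have hΦdom : ∀ β : TF V, |Ψ β| ≤ |C1| * ∫ y, ‖(β : E4 → Bil) y‖ ∂sV := by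
    intro β
    rw [hΨ]
    refine (hdom _).trans ?_
    have hcont : Continuous fun y => ‖(β : E4 → Bil) y‖ := β.2.1.continuous.norm
    have hi : Integrable (fun y => ‖(β : E4 → Bil) y‖) sV :=
      hcont.integrable_of_hasCompactSupport β.2.2.1.norm
    have hi2 : Integrable (fun x => ‖(β : E4 → Bil) (chartAt E4 p x)‖)
        (s.restrict ((chartAt E4 p).symm '' K1)) := by
      have := (integrable_map_measure hi.aestronglyMeasurable
        (Vm.aemeasurable_chart (s := s) hK1 hδt)).1 hi
      exact this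
    have hi3 : Integrable (((chartAt E4 p).symm '' K1).indicator
        (fun x => |C1| * ‖(β : E4 → Bil) (chartAt E4 p x)‖)) s := by
      rw [integrable_indicator_iff hcore1]
      exact hi2.const_mul _
    have h1 : ∫ x, N ⟨ext2 p (β : E4 → Bil), hsm β⟩ x ∂s ≤
        ∫ x, ((chartAt E4 p).symm '' K1).indicator
          (fun x => |C1| * ‖(β : E4 → Bil) (chartAt E4 p x)‖) x ∂s := by
      apply integral_mono_of_nonneg (Eventually.of_forall fun x => hN0 _ x) hi3
      refine Eventually.of_forall fun x => ?_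
      by_cases hx : x ∈ (chartAt E4 p).symm '' K1
      · simp only [indicator_of_mem hx]
        obtain ⟨y, hy, rfl⟩ := hx
        have h2 := hC1 ⟨ext2 p (β : E4 → Bil), hsm β⟩ y hy
        simp only [rep_ext2_self (hδt hy)] at h2
        rw [(chartAt E4 p).right_inv (hδt hy)]
        exact h2.trans (mul_le_mul_of_nonneg_right (le_abs_self _) (norm_nonneg _))
      · simp only [indicator_of_notMem hx]
        apply le_of_eq
        apply hNz
        by_cases hs : x ∈ (chartAt E4 p).source
        · apply at2_ext2_zero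
          apply hTF0
          intro hmem
          exact hx ((Vm.mem_core_iff hδt hs).2 hmem)
        · exact at2_ext2_notMem hs _
    refine h1.trans (le_of_eq ?_)
    rw [integral_indicator hcore1, integral_const_mul, hsV,
      Vm.integral_smap hK1 hδt hcont.aestronglyMeasurable]
  -- anti-invariant forms
  have hanti : ∀ β : TF V, (∀ y ∈ V, ∀ u v, (β : E4 → Bil) y (repJ p J y u) (repJ p J y v)
      = -(β : E4 → Bil) y u v) → Ψ β = 0 := by
    intro β hβ
    rw [hΨ, hinv]
    have h0 : invM J hJ ⟨ext2 p (β : E4 → Bil), hsm β⟩ = 0 := by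
      apply Subtype.ext
      rw [invM_coe]
      change bp J (ext2 p (β : E4 → Bil)) = 0
      rw [bp_ext2]
      apply ext2_zero'
      intro y _
      ext u v
      rw [invp_apply]
      by_cases hy : y ∈ V
      · rw [hβ y hy]
        simp
      · have : (β : E4 → Bil) y = 0 := by
          by_contra h
          exact hy (β.2.2.2.1 (subset_tsupport _ h))
        rw [this]
        simp
    rw [h0, map_zero]
  -- positivity
  have hposV : ∀ β : TF V, (∀ y ∈ V, Pos (repJ p J y) ((β : E4 → Bil) y)) → 0 ≤ Ψ β := by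
    intro β hβ
    rw [hΨ]
    apply hpos
    apply pos_ext2
    intro y _
    by_cases hy : y ∈ V
    · exact hβ y hy
    · have : (β : E4 → Bil) y = 0 := by
        by_contra h
        exact hy (β.2.2.2.1 (subset_tsupport _ h))
      rw [this]
      exact ⟨fun v => rfl, fun u v => rfl, fun v => le_rfl⟩
  -- mass
  have hmassV : ∀ (β : TF V) (g : E4 → ℝ), ContDiff ℝ ∞ g → HasCompactSupport g →
      tsupport g ⊆ V → (∀ y, (β : E4 → Bil) y = g y • rep p F y) → Ψ β = ∫ y, g y ∂sV := by
    intro β g hg hgc hgV hβ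
    have hg0 : ∀ y ∉ K1, g y = 0 := by
      intro y hy
      by_contra h
      exact hy (hVK1 (hgV (subset_tsupport _ h)))
    have hf := contMDiff_extF (p := p) hg hK1 hδt hg0
    have h1 : (⟨ext2 p (β : E4 → Bil), hsm β⟩ : X2 M)
        = Vm.mulX M ⟨extF (E := E4) p g, hf⟩ ⟨F, hF⟩ := by
      apply Subtype.ext
      change ext2 p (β : E4 → Bil) = fmul (extF (E := E4) p g) F
      funext x
      by_cases hx : x ∈ (chartAt E4 p).source
      · have h : ∀ u v, at2 (ext2 p (β : E4 → Bil)) x u v
            = at2 (fmul (extF (E := E4) p g) F) x u v := by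
          intro u v
          have e1 : at2 (fmul (extF (E := E4) p g) F) x u v
              = extF (E := E4) p g x * at2 F x u v := rfl
          have e2 : extF (E := E4) p g x = g (chartAt E4 p x) := by
            unfold extF; rw [if_pos hx]
          rw [at2_ext2_mem hx, hβ, e1, e2, apply_eq_rep hx]
          rfl
        exact ContinuousLinearMap.ext fun u => ContinuousLinearMap.ext fun v => h u v
      · have h : at2 (ext2 p (β : E4 → Bil)) x = at2 (fmul (extF (E := E4) p g) F) x := by
          have e1 : at2 (fmul (extF (E := E4) p g) F) x = extF (E := E4) p g x • at2 F x := rfl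
          have e2 : extF (E := E4) p g x = 0 := by
            unfold extF; rw [if_neg hx]
          rw [at2_ext2_notMem hx, e1, e2]
          ext u v
          simp
        exact h
    rw [hΨ, h1]
    refine (hmass ⟨extF (E := E4) p g, hf⟩).trans ?_
    rw [hsV, Vm.integral_smap hK1 hδt hg.continuous.aestronglyMeasurable]
    rw [← integral_indicator hcore1]
    apply integral_congr_ae
    refine Eventually.of_forall fun x => ?_
    change extF (E := E4) p g x = _
    by_cases hx : x ∈ (chartAt E4 p).source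
    · have e2 : extF (E := E4) p g x = g (chartAt E4 p x) := by
        unfold extF; rw [if_pos hx]
      rw [e2]
      by_cases hc : x ∈ (chartAt E4 p).symm '' K1
      · rw [indicator_of_mem hc]
      · rw [indicator_of_notMem hc]
        apply hg0
        intro hmem
        exact hc ((Vm.mem_core_iff hδt hx).2 hmem)
    · have e2 : extF (E := E4) p g x = 0 := by
        unfold extF; rw [if_neg hx]
      rw [e2, indicator_of_notMem]
      exact fun h => hx (Vm.core_subset hδt h)
  have hJV : ∀ y ∈ V, ∀ v, repJ p J y (repJ p J y v) = -v := fun y hy v =>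
    repJ_sq hsq (hVt hy) v
  have hFV : ∀ y ∈ V, SPos (repJ p J y) (rep p F y) := fun y hy => spos_rep hFp (hVt hy)
  obtain ⟨φ, C', hC', hφm, hφpos, hφF, hφb, hφ0, hφ⟩ := exists_chart_density sV hVo
    ((hJ p).mono hVt) hJV ((hF.2 p).mono hVt) hFV Ψ hΦdom hanti hposV hmassV
  obtain ⟨BF, hBF⟩ := hK1.exists_bound_of_continuousOn ((hF.2 p).continuousOn.mono hδt)
  have hBF0 : ∀ y ∈ V, ‖rep p F y‖ ≤ |BF| := fun y hy =>
    (hBF y (hVK1 hy)).trans (le_abs_self _)
  refine ⟨φ, C' * (|BF| + |BF| ^ 2), hφm, ?_, fun y hy => hφpos y (hKV hy),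
    fun y hy => hφF y (hKV hy), ?_⟩
  · intro y
    by_cases hy : y ∈ V
    · refine (hφb y hy).trans ?_
      apply mul_le_mul_of_nonneg_left _ hC'
      have h1 := hBF0 y hy
      have h2 := norm_nonneg (rep p F y)
      have h3 : ‖rep p F y‖ ^ 2 ≤ |BF| ^ 2 := by gcongr
      linarith
    · rw [hφ0 y hy, norm_zero]
      positivity
  intro b hb
  -- the representation of `b`
  set β : E4 → Bil := (chartAt E4 p).target.indicator (rep p b.1) with hβdef
  have hβt : ∀ y ∈ (chartAt E4 p).target, β y = rep p b.1 y := fun y hy =>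
    indicator_of_mem hy _
  have hβ0 : ∀ y ∉ K, β y = 0 := by
    intro y hy
    by_cases hyt : y ∈ (chartAt E4 p).target
    · rw [hβt y hyt]
      have h0 : at2 b.1 ((chartAt E4 p).symm y) = 0 := by
        apply hb
        rintro ⟨z, hz, hzy⟩
        apply hy
        have : z = y := (chartAt E4 p).symm.injOn (hKt hz) hyt hzy
        rwa [← this]
      ext u v
      rw [rep_apply, h0]
      rfl
    · exact indicator_of_notMem hyt _
  have hβsupp : tsupport β ⊆ K := by
    apply closure_minimal _ hK.isClosed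
    intro y hy
    by_contra h
    exact hy (hβ0 y h)
  have hβc : HasCompactSupport β := HasCompactSupport.of_support_subset_isCompact hK (by
    intro y hy
    by_contra h
    exact hy (hβ0 y h))
  have hβs : ContDiff ℝ ∞ β := by
    rw [contDiff_iff_contDiffAt]
    intro y
    by_cases hyt : y ∈ (chartAt E4 p).target
    · refine (((b.2 : Smooth2 b.1).2 p).contDiffAt (htop.mem_nhds hyt)).congr_of_eventuallyEq ?_
      filter_upwards [htop.mem_nhds hyt] with z hz
      exact hβt z hz
    · have hyK : y ∉ K := fun h => hyt (hKt h)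
      have hev : β =ᶠ[𝓝 y] fun _ => (0 : Bil) := by
        filter_upwards [hK.isClosed.isOpen_compl.mem_nhds hyK] with z hz
        exact hβ0 z hz
      exact contDiffAt_const.congr_of_eventuallyEq hev
  have hβa : ∀ y, Alt (β y) := by
    intro y
    by_cases hyt : y ∈ (chartAt E4 p).target
    · rw [hβt y hyt]
      intro v
      rw [rep_apply]
      exact (b.2 : Smooth2 b.1).1 _ _
    · have : β y = 0 := indicator_of_notMem hyt _
      rw [this]
      exact alt_zero
  have hβTF : β ∈ TF V := ⟨hβs, hβc, hβsupp.trans hKV, hβa⟩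
  have hbext : b.1 = ext2 p β := by
    apply eq_ext2
    · intro x hx
      apply hb
      exact fun h => hx (Vm.core_subset hKt h)
    · exact hβt
  have hΦb : Φ b = Ψ ⟨β, hβTF⟩ := by
    rw [hΨ]
    congr 1
    apply Subtype.ext
    exact hbext
  rw [hΦb, hφ ⟨β, hβTF⟩]
  -- measurability of the integrand
  set F'' : E4 → Bil := (chartAt E4 p).target.indicator (rep p F) with hF''
  have hF''m : Measurable F'' := by
    have h1 : F'' = (chartAt E4 p).target.piecewise (rep p F) (fun _ => 0) := by
      funext y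
      by_cases hyt : y ∈ (chartAt E4 p).target
      · rw [hF'', indicator_of_mem hyt, piecewise_eq_of_mem _ _ _ hyt]
      · rw [hF'', indicator_of_notMem hyt, piecewise_eq_of_notMem _ _ _ hyt]
    rw [h1]
    exact (hF.2 p).continuousOn.measurable_piecewise continuousOn_const htop.measurableSet
  have hGm : Measurable fun y => q (F'' y) (φ y) (β y) :=
    measurable_q hF''m hφm hβs.continuous.measurable
  have hq0 : ∀ A B : Bil, q A B 0 = 0 := by
    intro A B
    unfold q W
    simp [ent_zero]
  have hG1 : ∀ y, q (rep p F y) (φ y) (β y) = q (F'' y) (φ y) (β y) := by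
    intro y
    by_cases hyt : y ∈ (chartAt E4 p).target
    · rw [hF'', indicator_of_mem hyt]
    · have : β y = 0 := indicator_of_notMem hyt _
      rw [this, hq0, hq0]
  have e1 : ∫ y, q (rep p F y) (φ y) (((⟨β, hβTF⟩ : TF V) : E4 → Bil) y) ∂sV
      = ∫ x in (chartAt E4 p).symm '' K1, q (F'' (chartAt E4 p x)) (φ (chartAt E4 p x))
        (β (chartAt E4 p x)) ∂s := by
    have : (fun y => q (rep p F y) (φ y) (((⟨β, hβTF⟩ : TF V) : E4 → Bil) y))
        = fun y => q (F'' y) (φ y) (β y) := by
      funext y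
      exact hG1 y
    rw [this, hsV, Vm.integral_smap hK1 hδt hGm.aestronglyMeasurable]
  have e2 : ∫ y, q (rep p F y) (φ y) (rep p b.1 y) ∂(Vm.smap s (chartAt E4 p) K)
      = ∫ x in (chartAt E4 p).symm '' K, q (F'' (chartAt E4 p x)) (φ (chartAt E4 p x))
        (β (chartAt E4 p x)) ∂s := by
    have : ∫ y, q (rep p F y) (φ y) (rep p b.1 y) ∂(Vm.smap s (chartAt E4 p) K)
        = ∫ y, q (F'' y) (φ y) (β y) ∂(Vm.smap s (chartAt E4 p) K) := by
      apply integral_congr_ae
      filter_upwards [Vm.ae_mem_smap (s := s) hK hKt] with y hy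
      rw [← hG1 y, hβt y (hKt hy)]
    rw [this, Vm.integral_smap hK hKt hGm.aestronglyMeasurable]
  rw [e1, e2]
  apply setIntegral_eq_of_subset_of_forall_sdiff_eq_zero hcore1 (image_mono hKK1)
  rintro x ⟨hx1, hx2⟩
  have hxs := Vm.core_subset hδt hx1
  have : β (chartAt E4 p x) = 0 := by
    apply hβ0
    intro hmem
    exact hx2 ((Vm.mem_core_iff hKt hxs).2 hmem)
  rw [this, hq0]

end Main

end

end Crest.Agent.R240.DensM
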