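import Mathlib
import Crest.Agent.R240.Lin1

/-!
Row 240, Lemma A, team K, part K2 (helper610): pointwise algebra.
Key identity: for `J² = -1`, `G` symmetric positive definite `J`-invariant, `R` alternating and
`J`-anti-invariant:  `antip J (G v ∧ R v) = (1/2) G v v • R`.
-/

set_option autoImplicit false

namespace Crest.Agent.R240.KLoc

open Crest.Agent.R240

noncomputable section

theorem anti_self {J : E4 →L[ℝ] E4} (hJ : ∀ v, J (J v) = -v) {R : Bil} (hR : Alt R)
    (ha : ∀ u v, R (J u) (J v) = - R u v) (v : E4) : R v (J v) = 0 := by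
  have h1 := ha v (J v)
  rw [hJ, map_neg, hR.swap (J v) v] at h1
  linarith

theorem anti_left {J : E4 →L[ℝ] E4} (hJ : ∀ v, J (J v) = -v) {R : Bil}
    (ha : ∀ u v, R (J u) (J v) = - R u v) (u v : E4) : R (J u) v = R u (J v) := by
  have h1 := ha u (J v)
  rw [hJ, map_neg] at h1
  linarith

/-- if `v ≠ 0` there is `w` such that `v, Jv, w, Jw` span. -/
theorem exists_span {J : E4 →L[ℝ] E4} (hJ : ∀ v, J (J v) = -v) {v : E4} (hv : v ≠ 0) :
    ∃ w, Submodule.span ℝ (Set.range ![v, J v, w, J w]) = ⊤ := by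
  have hne : Submodule.span ℝ ({v, J v} : Set E4) ≠ ⊤ := by
    intro h
    have h1 : Module.finrank ℝ (Submodule.span ℝ ({v, J v} : Set E4)) ≤ 2 := by
      have := finrank_span_le_card (R := ℝ) ({v, J v} : Set E4)
      refine this.trans ?_
      have : ({v, J v} : Set E4).toFinset.card ≤ 2 := by
        rw [Set.toFinset_insert, Set.toFinset_singleton]
        exact Finset.card_le_two
      exact this
    rw [h, finrank_top, finrank_euclideanSpace_fin] at h1
    omega
  obtain ⟨w, hw⟩ : ∃ w, w ∉ Submodule.span ℝ ({v, J v} : Set E4) := by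
    by_contra hcon
    push Not at hcon
    exact hne (eq_top_iff.2 fun x _ => hcon x)
  refine ⟨w, ?_⟩
  have hmem : ∀ a b : ℝ, a • v + b • J v ∈ Submodule.span ℝ ({v, J v} : Set E4) := by
    intro a b
    exact Submodule.mem_span_pair.2 ⟨a, b, rfl⟩
  have hli : LinearIndependent ℝ ![v, J v, w, J w] := by
    rw [Fintype.linearIndependent_iff]
    intro g hg
    rw [Fin.sum_univ_four] at hg
    simp only [Matrix.cons_val_zero, Matrix.cons_val_one, Matrix.cons_val] at hg
    -- c, d
    have hu : g 2 • w + g 3 • J w = (-g 0) • v + (-g 1) • J v := by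
      have : g 0 • v + g 1 • J v + g 2 • w + g 3 • J w = 0 := hg
      rw [← sub_eq_zero]
      rw [← this]
      module
    have hJu : g 2 • J w - g 3 • w = (-g 0) • J v + g 1 • v := by
      have := congrArg J hu
      simp only [map_add, map_smul, hJ] at this
      rw [← sub_eq_zero] at this ⊢
      rw [← this]
      module
    have hw2 : (g 2 ^ 2 + g 3 ^ 2) • w =
        (-(g 0 * g 2) - g 1 * g 3) • v + (-(g 1 * g 2) + g 0 * g 3) • J v := by
      have h1 : (g 2 ^ 2 + g 3 ^ 2) • w = g 2 • (g 2 • w + g 3 • J w) - g 3 • (g 2 • J w - g 3 • w) := by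
        module
      rw [h1, hu, hJu]
      module
    have hcd : g 2 ^ 2 + g 3 ^ 2 = 0 := by
      by_contra hne0
      apply hw
      have h2 : w = (g 2 ^ 2 + g 3 ^ 2)⁻¹ •
          ((-(g 0 * g 2) - g 1 * g 3) • v + (-(g 1 * g 2) + g 0 * g 3) • J v) := by
        rw [← hw2, smul_smul, inv_mul_cancel₀ hne0, one_smul]
      rw [h2]
      exact Submodule.smul_mem _ _ (hmem _ _)
    have h2 : g 2 = 0 := by nlinarith [sq_nonneg (g 2), sq_nonneg (g 3)]
    have h3 : g 3 = 0 := by nlinarith [sq_nonneg (g 2), sq_nonneg (g 3)]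
    have hab : g 0 • v + g 1 • J v = 0 := by
      rw [h2, h3] at hu
      rw [← sub_eq_zero] at hu
      have : g 0 • v + g 1 • J v = (0 : ℝ) • w + (0 : ℝ) • J w - ((-g 0) • v + (-g 1) • J v) := by
        module
      rw [this, hu]
    have hJab : g 0 • J v - g 1 • v = 0 := by
      have := congrArg J hab
      simp only [map_add, map_smul, hJ, map_zero] at this
      rw [← this]
      module
    have hv2 : (g 0 ^ 2 + g 1 ^ 2) • v = 0 := by
      have h1 : (g 0 ^ 2 + g 1 ^ 2) • v = g 0 • (g 0 • v + g 1 • J v) - g 1 • (g 0 • J v - g 1 • v) := by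
        module
      rw [h1, hab, hJab]
      simp
    have hab2 : g 0 ^ 2 + g 1 ^ 2 = 0 := (smul_eq_zero.1 hv2).resolve_right hv
    have h0 : g 0 = 0 := by nlinarith [sq_nonneg (g 0), sq_nonneg (g 1)]
    have h1 : g 1 = 0 := by nlinarith [sq_nonneg (g 0), sq_nonneg (g 1)]
    intro i
    fin_cases i
    · exact h0
    · exact h1
    · exact h2
    · exact h3
  apply hli.span_eq_top_of_card_eq_finrank
  simp

/-- an alternating anti-invariant form which vanishes on one vector `v ≠ 0` is zero. -/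
theorem anti_eq_zero {J : E4 →L[ℝ] E4} (hJ : ∀ v, J (J v) = -v) {R : Bil} (hR : Alt R)
    (ha : ∀ u v, R (J u) (J v) = - R u v) {v : E4} (hv : v ≠ 0) (h0 : R v = 0) : R = 0 := by
  obtain ⟨w, hw⟩ := exists_span hJ hv
  have key : ∀ L : E4 →L[ℝ] ℝ, L v = 0 → L (J v) = 0 → L w = 0 → L (J w) = 0 → L = 0 := by
    intro L h1 h2 h3 h4
    have : (⊤ : Submodule ℝ E4) ≤ LinearMap.ker (L : E4 →ₗ[ℝ] ℝ) := by
      rw [← hw, Submodule.span_le]
      rintro x ⟨i, rfl⟩
      fin_cases i
      · exact h1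
      · exact h2
      · exact h3
      · exact h4
    ext x
    exact this (Submodule.mem_top)
  have hJv : R (J v) = 0 := by
    ext u
    rw [anti_left hJ ha, h0]
    rfl
  have hvx : ∀ u, R u v = 0 := fun u => by rw [hR.swap, h0]; simp
  have hJvx : ∀ u, R u (J v) = 0 := fun u => by rw [hR.swap, hJv]; simp
  have hRw : R w = 0 := key (R w) (hvx w) (hJvx w) (hR w) (anti_self hJ hR ha w)
  have hRJw : R (J w) = 0 := by
    ext u
    rw [anti_left hJ ha, hRw]
    rfl
  ext x y
  have h1 : ∀ y, R x y = 0 := by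
    have h2 : (⊤ : Submodule ℝ E4) ≤ LinearMap.ker ((R : E4 →L[ℝ] (E4 →L[ℝ] ℝ)) : E4 →ₗ[ℝ] (E4 →L[ℝ] ℝ)) := by
      rw [← hw, Submodule.span_le]
      rintro x ⟨i, rfl⟩
      fin_cases i
      · exact h0
      · exact hJv
      · exact hRw
      · exact hRJw
    intro y
    have h3 : R x = 0 := h2 (Submodule.mem_top)
    rw [h3]
    rfl
  rw [h1 y]
  rfl

/-- the key identity. -/
theorem antip_wed {J : E4 →L[ℝ] E4} (hJ : ∀ v, J (J v) = -v) {G R : Bil}
    (hGs : ∀ u v, G u v = G v u) (hGJ : ∀ u v, G (J u) (J v) = G u v)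
    (hR : Alt R) (ha : ∀ u v, R (J u) (J v) = - R u v) (v : E4) :
    antip J (wed (G v) (R v)) = (1 / 2 * G v v) • R := by
  rcases eq_or_ne v 0 with rfl | hv
  · ext a b
    simp [antip_apply]
  have hvJ : G v (J v) = 0 := by
    have h1 := hGJ v (J v)
    rw [hJ, map_neg, hGs (J v) v] at h1
    linarith
  have hRJ := anti_self hJ hR ha v
  set X : Bil := antip J (wed (G v) (R v)) - (1 / 2 * G v v) • R with hX
  have hXap : ∀ a b, X a b = (G v a * R v b - G v b * R v a
      - (G v (J a) * R v (J b) - G v (J b) * R v (J a))) / 2 - 1 / 2 * G v v * R a b := by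
    intro a b
    have : X a b = antip J (wed (G v) (R v)) a b - (1 / 2 * G v v) * R a b := rfl
    rw [this, antip_apply]
    simp [wed_apply]
    ring
  have hXalt : Alt X := by
    intro a
    rw [hXap, hR a]
    ring
  have hXa : ∀ a b, X (J a) (J b) = - X a b := by
    intro a b
    rw [hXap, hXap, ha, hJ, hJ]
    simp only [map_neg]
    ring
  have hXv : X v = 0 := by
    ext b
    rw [hXap, hR v, hvJ, hRJ]
    simp only [zero_apply]
    ring
  have := anti_eq_zero hJ hXalt hXa hv hXv
  rw [← sub_eq_zero]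
  exact this

end

end Crest.Agent.R240.KLoc
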