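import Mathlib
import Crest.Agent.R240.Lin1
import Crest.Agent.R240.KAlg

/-!
Row 240, Lemma A, team K, part K2 (helper610): continuous linear maps used by the kernels, and the
frozen kernel `v ↦ (G v v + δ)⁻² • R v`.
-/

set_option autoImplicit false
set_option maxSynthPendingDepth 3

namespace Crest.Agent.R240.KLoc

open Crest.Agent.R240
open scoped ContDiff

noncomputable section

/-- covectors. -/
abbrev Dual4 : Type := E4 →L[ℝ] ℝ

/-- `L ↦ L - L.flip` (so that `dS x = altL (fderiv ℝ S x)`). -/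
def altL : Bil →L[ℝ] Bil :=
  ContinuousLinearMap.id ℝ Bil -
    ((ContinuousLinearMap.flipₗᵢ ℝ E4 E4 ℝ).toContinuousLinearEquiv : Bil →L[ℝ] Bil)

@[simp] theorem altL_apply (L : Bil) (u v : E4) : altL L u v = L u v - L v u := by
  simp [altL]

theorem altL_of_alt {R : Bil} (hR : Alt R) : altL R = (2 : ℝ) • R := by
  ext u v
  have : ((2 : ℝ) • R) u v = 2 * R u v := rfl
  rw [this, altL_apply, hR.swap v u]
  ring

theorem altL_smulRight (ξ η : Dual4) : altL (ξ.smulRight η) = wed ξ η := by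
  ext u v
  simp [wed_apply]
  ring

/-- `b ↦ pull A b` as a continuous linear map. -/
def pullL (A : E4 →L[ℝ] E4) : Bil →L[ℝ] Bil :=
  (ContinuousLinearMap.compL ℝ E4 (E4 →L[ℝ] ℝ) (E4 →L[ℝ] ℝ)
    ((ContinuousLinearMap.compL ℝ E4 E4 ℝ).flip A)).comp
    ((ContinuousLinearMap.compL ℝ E4 E4 (E4 →L[ℝ] ℝ)).flip A)

@[simp] theorem pullL_apply (A : E4 →L[ℝ] E4) (b : Bil) : pullL A b = pull A b := by
  ext u v
  simp [pullL]

theorem pullL_contDiff : ContDiff ℝ ∞ pullL := by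
  unfold pullL
  fun_prop

/-- `b ↦ antip A b` as a continuous linear map. -/
def antiL (A : E4 →L[ℝ] E4) : Bil →L[ℝ] Bil :=
  (1 / 2 : ℝ) • (ContinuousLinearMap.id ℝ Bil - pullL A)

@[simp] theorem antiL_apply (A : E4 →L[ℝ] E4) (b : Bil) : antiL A b = antip A b := by
  simp [antiL, antip]

theorem antiL_contDiff : ContDiff ℝ ∞ antiL := by
  unfold antiL
  have := pullL_contDiff
  fun_prop

/-- `η ↦ ξ ∧ η` as a continuous linear map. -/
def wedL (ξ : Dual4) : Dual4 →L[ℝ] Bil :=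
  altL.comp (ContinuousLinearMap.smulRightL ℝ E4 Dual4 ξ)

@[simp] theorem wedL_apply (ξ η : Dual4) : wedL ξ η = wed ξ η := by
  have : wedL ξ η = altL (ξ.smulRight η) := rfl
  rw [this, altL_smulRight]

theorem wedL_contDiff : ContDiff ℝ ∞ wedL := by
  unfold wedL
  fun_prop

/-- evaluation `b ↦ b z`. -/
def evL (z : E4) : Bil →L[ℝ] Dual4 := ContinuousLinearMap.apply ℝ Dual4 z

@[simp] theorem evL_apply (z : E4) (b : Bil) : evL z b = b z := rfl

theorem evL_contDiff : ContDiff ℝ ∞ evL := by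
  unfold evL
  exact (ContinuousLinearMap.apply ℝ Dual4 : E4 →L[ℝ] Bil →L[ℝ] Dual4).contDiff

/-- the metric `G y u v = ⟪u,v⟫ + ⟪J y u, J y v⟫`. -/
def inn : Bil := innerSL ℝ

theorem inn_apply (u v : E4) : inn u v = inner ℝ u v := rfl

/-- the metric `G y u v = ⟪u,v⟫ + ⟪J y u, J y v⟫`. -/
def GG (A : E4 →L[ℝ] E4) : Bil := inn + pull A inn

theorem GG_apply (A : E4 →L[ℝ] E4) (u v : E4) :
    GG A u v = inner ℝ u v + inner ℝ (A u) (A v) := by
  have : GG A u v = inn u v + pull A inn u v := rfl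
  rw [this, pull_apply]
  rfl

theorem GG_symm (A : E4 →L[ℝ] E4) (u v : E4) : GG A u v = GG A v u := by
  rw [GG_apply, GG_apply, real_inner_comm, real_inner_comm (A u)]

theorem GG_inv {A : E4 →L[ℝ] E4} (hA : ∀ v, A (A v) = -v) (u v : E4) :
    GG A (A u) (A v) = GG A u v := by
  rw [GG_apply, GG_apply, hA, hA, inner_neg_neg]
  ring

theorem GG_self (A : E4 →L[ℝ] E4) (v : E4) : GG A v v = ‖v‖ ^ 2 + ‖A v‖ ^ 2 := by
  rw [GG_apply, real_inner_self_eq_norm_sq, real_inner_self_eq_norm_sq]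

theorem GG_ge (A : E4 →L[ℝ] E4) (v : E4) : ‖v‖ ^ 2 ≤ GG A v v := by
  rw [GG_self]
  nlinarith [sq_nonneg ‖A v‖]

theorem GG_nonneg (A : E4 →L[ℝ] E4) (v : E4) : 0 ≤ GG A v v := by
  rw [GG_self]
  positivity

theorem GG_pos (A : E4 →L[ℝ] E4) {v : E4} (hv : v ≠ 0) : 0 < GG A v v := by
  rw [GG_self]
  have : 0 < ‖v‖ := norm_pos_iff.2 hv
  positivity

theorem GG_contDiff : ContDiff ℝ ∞ GG := by
  have h : GG = fun A => inn + pullL A inn := by
    funext A
    rw [pullL_apply]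
    rfl
  rw [h]
  have := pullL_contDiff
  fun_prop

/-- derivative of the frozen kernel. -/
def frozD (G R : Bil) (δ : ℝ) (v : E4) : Bil :=
  ((G v v + δ)⁻¹ ^ 2) • R - (4 * (G v v + δ)⁻¹ ^ 3) • (G v).smulRight (R v)

theorem hasFDerivAt_quad {G : Bil} (hGs : ∀ u v, G u v = G v u) (v : E4) :
    HasFDerivAt (fun v => G v v) ((2 : ℝ) • G v) v := by
  have h1 : HasFDerivAt (fun v : E4 => G v v) ((G v).comp (ContinuousLinearMap.id ℝ E4)
      + (G.flip v)) v := by
    have h2 : HasFDerivAt (fun v : E4 => G v) G v := G.hasFDerivAt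
    have := h2.clm_apply (hasFDerivAt_id v)
    simpa using this
  convert h1 using 1
  ext a
  have : ((2 : ℝ) • G v) a = 2 * G v a := rfl
  rw [this]
  simp [hGs a v]
  ring

theorem hasFDerivAt_froz {G R : Bil} (hGs : ∀ u v, G u v = G v u) {δ : ℝ} {v : E4}
    (hpos : 0 < G v v + δ) :
    HasFDerivAt (fun v => ((G v v + δ)⁻¹ ^ 2) • R v) (frozD G R δ v) v := by
  have h1 : HasFDerivAt (fun v : E4 => G v v + δ) ((2 : ℝ) • G v) v :=
    (hasFDerivAt_quad hGs v).add_const δ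
  have h2 : HasFDerivAt (fun v : E4 => (G v v + δ)⁻¹) (-((G v v + δ) ^ 2)⁻¹ • ((2 : ℝ) • G v)) v := by
    exact (hasDerivAt_inv hpos.ne').comp_hasFDerivAt v h1
  have h3 := (h2.pow 2).smul (R.hasFDerivAt (x := v))
  refine h3.congr_fderiv ?_
  unfold frozD
  ext a b
  simp
  field_simp
  ring

theorem altL_frozD {G R : Bil} (hR : Alt R) (δ : ℝ) (v : E4) :
    altL (frozD G R δ v) =
      (2 * (G v v + δ)⁻¹ ^ 2) • R - (4 * (G v v + δ)⁻¹ ^ 3) • wed (G v) (R v) := by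
  unfold frozD
  rw [map_sub, map_smul, map_smul, altL_of_alt hR, altL_smulRight, smul_smul]
  congr 2
  ring

/-- the exact regularised identity. -/
theorem antip_frozD {J : E4 →L[ℝ] E4} (hJ : ∀ v, J (J v) = -v) {G R : Bil}
    (hGs : ∀ u v, G u v = G v u) (hGJ : ∀ u v, G (J u) (J v) = G u v)
    (hR : Alt R) (ha : ∀ u v, R (J u) (J v) = - R u v) {δ : ℝ} {v : E4}
    (hpos : 0 < G v v + δ) :
    antiL J (altL (frozD G R δ v)) = (2 * δ * (G v v + δ)⁻¹ ^ 3) • R := by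
  rw [altL_frozD hR, map_sub, map_smul, map_smul, antiL_apply, antiL_apply,
    antip_wed hJ hGs hGJ hR ha]
  have h1 : antip J R = R := by
    ext a b
    rw [antip_apply, ha]
    ring
  rw [h1, smul_smul, ← sub_smul]
  congr 1
  field_simp
  ring

end

end Crest.Agent.R240.KLoc
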