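import Crest.Agent.R240.EllNorm

/-!
Row 240, Lemma A (helper106): cut-off functions, localisation of smooth functions.
-/

set_option autoImplicit false
set_option maxSynthPendingDepth 3

open scoped ContDiff Manifold Topology
open Set Filter

namespace Crest.Agent.R240.Ell

noncomputable section

/-- cut-off: `= 1` on `K`, supported in `Ω`. -/
theorem exists_cutoff {K Ω : Set E4} (hK : IsCompact K) (hΩ : IsOpen Ω) (hKΩ : K ⊆ Ω) :
    ∃ θ : E4 → ℝ, CS θ ∧ tsupport θ ⊆ Ω ∧ (∀ᶠ y in 𝓝ˢ K, θ y = 1) ∧ (∀ y ∈ K, θ y = 1) ∧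
      ∀ y, θ y ∈ Icc (0 : ℝ) 1 := by
  obtain ⟨V, hVo, hKV, hVΩ, hVc⟩ := exists_open_between_and_isCompact_closure hK hΩ hKΩ
  obtain ⟨f, hf1, hf0, hf⟩ := exists_contMDiffMap_one_nhds_of_subset_interior
    (modelWithCornersSelf ℝ E4) (n := (⊤ : ℕ∞)) hK.isClosed (t := V)
    (hKV.trans (interior_eq_iff_isOpen.mpr hVo).ge)
  have hsm : ContDiff ℝ ∞ (f : E4 → ℝ) := f.contMDiff.contDiff
  have hts : tsupport (f : E4 → ℝ) ⊆ closure V := by
    apply closure_mono
    intro x hx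
    by_contra h
    exact hx (hf0 x h)
  have hcs : HasCompactSupport (f : E4 → ℝ) := hVc.of_isClosed_subset isClosed_closure hts
  exact ⟨f, ⟨hsm, hcs⟩, hts.trans hVΩ, hf1, fun y hy => hf1.self_of_nhdsSet y hy, hf⟩

/-- a smooth function on an open set, cut off. -/
theorem cs_smul_of_contDiffOn {F : Type*} [NormedAddCommGroup F] [NormedSpace ℝ F]
    {θ : E4 → ℝ} {g : E4 → F} {Ω : Set E4} (hθ : CS θ) (hΩ : IsOpen Ω) (hs : tsupport θ ⊆ Ω)
    (hg : ContDiffOn ℝ ∞ g Ω) : CS (fun y => θ y • g y) := by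
  refine ⟨contDiff_iff_contDiffAt.2 fun y => ?_, ?_⟩
  · by_cases hy : y ∈ tsupport θ
    · exact hθ.1.contDiffAt.smul (hg.contDiffAt (hΩ.mem_nhds (hs hy)))
    · have h : (fun y => θ y • g y) =ᶠ[𝓝 y] fun _ => 0 := by
        filter_upwards [(isClosed_tsupport θ).isOpen_compl.mem_nhds hy] with z hz
        rw [image_eq_zero_of_notMem_tsupport hz, zero_smul]
      exact contDiffAt_const.congr_of_eventuallyEq h
  · exact hθ.2.smul_right

theorem tsupport_smul_sub {F : Type*} [NormedAddCommGroup F] [NormedSpace ℝ F]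
    (θ : E4 → ℝ) (g : E4 → F) : tsupport (fun y => θ y • g y) ⊆ tsupport θ :=
  tsupport_smul_subset_left θ g

end

end Crest.Agent.R240.Ell
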