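import Crest.Agent.R240.Lin2

/-!
Row 240, PART L (helper798): pointwise inequalities for two-forms on `(E4, J, F)`.
-/

set_option autoImplicit false

namespace Crest.Agent.R240

noncomputable section

/-! ### entries -/

/-- sum of squares of the six entries -/
def N0 (b : Bil) : ℝ := ent b 0 1 ^ 2 + ent b 0 2 ^ 2 + ent b 0 3 ^ 2 + ent b 1 2 ^ 2
  + ent b 1 3 ^ 2 + ent b 2 3 ^ 2

theorem N0_nonneg (b : Bil) : 0 ≤ N0 b := by unfold N0; positivity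

theorem norm_ee (i : Fin 4) : ‖ee i‖ = 1 := by simp [ee]

theorem abs_ent_le (b : Bil) (i j : Fin 4) : |ent b i j| ≤ ‖b‖ := by
  have h := b.le_opNorm₂ (ee i) (ee j)
  rw [norm_ee, norm_ee, mul_one, mul_one, Real.norm_eq_abs] at h
  exact h

theorem ent_sq_le (b : Bil) (i j : Fin 4) : ent b i j ^ 2 ≤ ‖b‖ ^ 2 := by
  rw [← sq_abs]
  exact pow_le_pow_left₀ (abs_nonneg _) (abs_ent_le b i j) 2

theorem cs6 (a c d e f g p q r s t w : ℝ) : (p * a + q * c + r * d + s * e + t * f + w * g) ^ 2 ≤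
      (a ^ 2 + c ^ 2 + d ^ 2 + e ^ 2 + f ^ 2 + g ^ 2) *
      (p ^ 2 + q ^ 2 + r ^ 2 + s ^ 2 + t ^ 2 + w ^ 2) := by
  have key : (a ^ 2 + c ^ 2 + d ^ 2 + e ^ 2 + f ^ 2 + g ^ 2) *
      (p ^ 2 + q ^ 2 + r ^ 2 + s ^ 2 + t ^ 2 + w ^ 2) -
      (p * a + q * c + r * d + s * e + t * f + w * g) ^ 2 =
      (p * c - q * a) ^ 2 + (p * d - r * a) ^ 2 + (p * e - s * a) ^ 2 +
      (p * f - t * a) ^ 2 + (p * g - w * a) ^ 2 + (q * d - r * c) ^ 2 +
      (q * e - s * c) ^ 2 + (q * f - t * c) ^ 2 + (q * g - w * c) ^ 2 +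
      (r * e - s * d) ^ 2 + (r * f - t * d) ^ 2 + (r * g - w * d) ^ 2 +
      (s * f - t * e) ^ 2 + (s * g - w * e) ^ 2 + (t * g - w * f) ^ 2 := by ring
  rw [← sub_nonneg, key]
  positivity

theorem alt_apply_sq_le {b : Bil} (hb : Alt b) (u v : E4) :
    (b u v) ^ 2 ≤ N0 b * (‖u‖ ^ 2 * ‖v‖ ^ 2) := by
  rw [alt_expand hb, norm_sq_E4, norm_sq_E4]
  unfold N0
  generalize ent b 0 1 = a
  generalize ent b 0 2 = c
  generalize ent b 0 3 = d
  generalize ent b 1 2 = e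
  generalize ent b 1 3 = f
  generalize ent b 2 3 = g
  set p := u 0 * v 1 - u 1 * v 0 with hp
  set q := u 0 * v 2 - u 2 * v 0 with hq
  set r := u 0 * v 3 - u 3 * v 0 with hr
  set s := u 1 * v 2 - u 2 * v 1 with hs
  set t := u 1 * v 3 - u 3 * v 1 with ht
  set w := u 2 * v 3 - u 3 * v 2 with hw
  have h1 := cs6 a c d e f g p q r s t w
  have h2 : p ^ 2 + q ^ 2 + r ^ 2 + s ^ 2 + t ^ 2 + w ^ 2 ≤
      (u 0 ^ 2 + u 1 ^ 2 + u 2 ^ 2 + u 3 ^ 2) * (v 0 ^ 2 + v 1 ^ 2 + v 2 ^ 2 + v 3 ^ 2) := by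
    have : (u 0 ^ 2 + u 1 ^ 2 + u 2 ^ 2 + u 3 ^ 2) * (v 0 ^ 2 + v 1 ^ 2 + v 2 ^ 2 + v 3 ^ 2) =
      p ^ 2 + q ^ 2 + r ^ 2 + s ^ 2 + t ^ 2 + w ^ 2 +
        (u 0 * v 0 + u 1 * v 1 + u 2 * v 2 + u 3 * v 3) ^ 2 := by
      rw [hp, hq, hr, hs, ht, hw]; ring
    rw [this]
    exact le_add_of_nonneg_right (sq_nonneg _)
  refine h1.trans (mul_le_mul_of_nonneg_left h2 (by positivity))

theorem norm_le_sqrt_N0 {b : Bil} (hb : Alt b) : ‖b‖ ≤ Real.sqrt (N0 b) := by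
  refine ContinuousLinearMap.opNorm_le_bound₂ _ (Real.sqrt_nonneg _) ?_
  intro u v
  rw [Real.norm_eq_abs]
  have h := alt_apply_sq_le hb u v
  rw [← Real.sqrt_sq (abs_nonneg (b u v)), sq_abs]
  have h2 : Real.sqrt (N0 b) * ‖u‖ * ‖v‖ = Real.sqrt (N0 b * (‖u‖ ^ 2 * ‖v‖ ^ 2)) := by
    rw [Real.sqrt_mul (N0_nonneg b), ← mul_pow, Real.sqrt_sq (by positivity)]
    ring
  rw [h2]
  exact Real.sqrt_le_sqrt h

theorem norm_sq_le_N0 {b : Bil} (hb : Alt b) : ‖b‖ ^ 2 ≤ N0 b := by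
  have h := norm_le_sqrt_N0 hb
  have h2 : ‖b‖ ^ 2 ≤ (Real.sqrt (N0 b)) ^ 2 := by
    have h0 : 0 ≤ ‖b‖ := norm_nonneg b
    gcongr
  rwa [Real.sq_sqrt (N0_nonneg b)] at h2

theorem N0_le (b : Bil) : N0 b ≤ 6 * ‖b‖ ^ 2 := by
  unfold N0
  have := ent_sq_le b 0 1
  have := ent_sq_le b 0 2
  have := ent_sq_le b 0 3
  have := ent_sq_le b 1 2
  have := ent_sq_le b 1 3
  have := ent_sq_le b 2 3
  linarith

/-! ### the frame and `q` -/

theorem W_om0 : W om0 om0 = 2 := by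
  have h : ∀ i j, ent om0 i j = om0 (ee i) (ee j) := fun i j => rfl
  unfold W
  simp only [h, om0_apply, ee_apply]
  simp
  norm_num

section frame

variable {J : E4 →L[ℝ] E4} {F : Bil} {A : E4 ≃L[ℝ] E4}

theorem IsFrame.pull_form (h : IsFrame J F A) : pull (A : E4 →L[ℝ] E4) F = om0 := by
  ext u v
  rw [pull_apply]
  exact h.form u v

theorem det_ne (A : E4 ≃L[ℝ] E4) : LinearMap.det ((A : E4 →L[ℝ] E4) : E4 →ₗ[ℝ] E4) ≠ 0 :=
  (LinearEquiv.isUnit_det' A.toLinearEquiv).ne_zero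

theorem IsFrame.W_ne (hF : Alt F) (h : IsFrame J F A) : W F F ≠ 0 := by
  intro h0
  have h1 := W_pull hF hF (A : E4 →L[ℝ] E4)
  rw [h.pull_form, W_om0, h0, mul_zero] at h1
  norm_num at h1

theorem IsFrame.q_eq (hF : Alt F) (h : IsFrame J F A) {b c : Bil} (hb : Alt b) (hc : Alt c) :
    q F b c = W (pull (A : E4 →L[ℝ] E4) b) (pull (A : E4 →L[ℝ] E4) c) / 2 := by
  have h1 := W_pull hF hF (A : E4 →L[ℝ] E4)
  rw [h.pull_form, W_om0] at h1
  rw [W_pull hb hc, h1]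
  unfold q
  rw [mul_div_mul_left _ _ (det_ne A)]

theorem IsFrame.J_symm (h : IsFrame J F A) (v : E4) : J0 (A.symm v) = A.symm (J v) := by
  apply A.injective
  rw [← h.cplx]
  simp

theorem IsFrame.normsq (h : IsFrame J F A) (v : E4) : F (A v) (J (A v)) = ‖v‖ ^ 2 := by
  rw [h.cplx, h.form, om0_J0]

theorem IsFrame.pull_inv (h : IsFrame J F A) {b : Bil} (hb : ∀ u v, b (J u) (J v) = b u v)
    (u v : E4) : pull (A : E4 →L[ℝ] E4) b (J0 u) (J0 v) = pull (A : E4 →L[ℝ] E4) b u v := by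
  rw [pull_apply, pull_apply]
  simp only [ContinuousLinearEquiv.coe_coe]
  rw [← h.cplx, ← h.cplx, hb]

theorem IsFrame.pull_anti (h : IsFrame J F A) {b : Bil} (hb : ∀ u v, b (J u) (J v) = - b u v)
    (u v : E4) : pull (A : E4 →L[ℝ] E4) b (J0 u) (J0 v) = - pull (A : E4 →L[ℝ] E4) b u v := by
  rw [pull_apply, pull_apply]
  simp only [ContinuousLinearEquiv.coe_coe]
  rw [← h.cplx, ← h.cplx, hb]

end frame

theorem J0_ee0 : J0 (ee 0) = ee 1 := by ext j; fin_cases j <;> simp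
theorem J0_ee1 : J0 (ee 1) = - ee 0 := by ext j; fin_cases j <;> simp
theorem J0_ee2 : J0 (ee 2) = ee 3 := by ext j; fin_cases j <;> simp
theorem J0_ee3 : J0 (ee 3) = - ee 2 := by ext j; fin_cases j <;> simp

/-- entries of a `J0`-invariant form -/
theorem inv0_ent {b : Bil} (hb : ∀ u v, b (J0 u) (J0 v) = b u v) :
    ent b 1 3 = ent b 0 2 ∧ ent b 1 2 = - ent b 0 3 := by
  constructor
  · have := hb (ee 0) (ee 2)
    rw [J0_ee0, J0_ee2] at this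
    exact this
  · have := hb (ee 0) (ee 3)
    rw [J0_ee0, J0_ee3, map_neg] at this
    have h2 : b (ee 1) (ee 2) = - b (ee 0) (ee 3) := by linarith
    exact h2

/-- entries of a `J0`-anti-invariant form -/
theorem anti0_ent {b : Bil} (halt : Alt b) (hb : ∀ u v, b (J0 u) (J0 v) = - b u v) :
    ent b 1 3 = - ent b 0 2 ∧ ent b 1 2 = ent b 0 3 ∧ ent b 0 1 = 0 ∧ ent b 2 3 = 0 := by
  refine ⟨?_, ?_, ?_, ?_⟩
  · have := hb (ee 0) (ee 2)
    rw [J0_ee0, J0_ee2] at this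
    exact this
  · have := hb (ee 0) (ee 3)
    rw [J0_ee0, J0_ee3, map_neg] at this
    have h2 : b (ee 1) (ee 2) = b (ee 0) (ee 3) := by linarith
    exact h2
  · have := hb (ee 0) (ee 1)
    rw [J0_ee0, J0_ee1, map_neg, halt.swap (ee 1) (ee 0)] at this
    have h2 : b (ee 0) (ee 1) = 0 := by linarith
    exact h2
  · have := hb (ee 2) (ee 3)
    rw [J0_ee2, J0_ee3, map_neg, halt.swap (ee 3) (ee 2)] at this
    have h2 : b (ee 2) (ee 3) = 0 := by linarith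
    exact h2

/-- entries of a nonnegative `J0`-invariant form: the Hermitian matrix is positive semidefinite. -/
theorem pos0_ent {P : Bil} (halt : Alt P) (hi : ∀ u v, P (J0 u) (J0 v) = P u v)
    (hp : ∀ v, 0 ≤ P v (J0 v)) :
    0 ≤ ent P 0 1 ∧ 0 ≤ ent P 2 3 ∧ ent P 0 2 ^ 2 + ent P 0 3 ^ 2 ≤ ent P 0 1 * ent P 2 3 := by
  obtain ⟨h13, h12⟩ := inv0_ent hi
  have key : ∀ v : E4, P v (J0 v) = ent P 0 1 * (v 0 ^ 2 + v 1 ^ 2) + ent P 2 3 * (v 2 ^ 2 + v 3 ^ 2)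
      + 2 * ent P 0 2 * (- v 0 * v 3 + v 1 * v 2) + 2 * ent P 0 3 * (v 0 * v 2 + v 1 * v 3) := by
    intro v
    rw [alt_expand halt, h13, h12]
    simp only [J0_0, J0_1, J0_2, J0_3]
    ring
  have h0 : 0 ≤ ent P 0 1 := by
    have := hp (ee 0)
    rw [key] at this
    simpa using this
  have h2 : 0 ≤ ent P 2 3 := by
    have := hp (ee 2)
    rw [key] at this
    simpa using this
  refine ⟨h0, h2, ?_⟩
  -- test vector: v = s e0 + t (e2-part)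
  have ht : ∀ s x y : ℝ, 0 ≤ ent P 0 1 * s ^ 2 + ent P 2 3 * (x ^ 2 + y ^ 2)
      + 2 * s * (ent P 0 3 * x - ent P 0 2 * y) := by
    intro s x y
    have := hp (s • ee 0 + x • ee 2 + y • ee 3)
    rw [key] at this
    simp at this
    linarith
  generalize ent P 0 1 = a at *
  generalize ent P 2 3 = d at *
  generalize ent P 0 2 = c at *
  generalize ent P 0 3 = e at *
  by_cases hd : d = 0
  · subst hd
    have h1 := ht 1 (-(a + 1) * e) ((a + 1) * c)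
    have : a * 1 ^ 2 + 2 * 1 * (e * (-(a + 1) * e) - c * ((a + 1) * c)) = a - 2 * (a + 1) * (c ^ 2 + e ^ 2) := by ring
    by_contra hcon
    have hcon' : 0 < c ^ 2 + e ^ 2 := by
      simp only [mul_zero, not_le] at hcon
      exact hcon
    have h3 := ht (c^2+e^2) (-(a+1) * e) ((a+1) * c)
    have h4 : a * (c ^ 2 + e ^ 2) ^ 2 + 0 * ((-(a+1) * e) ^ 2 + ((a+1) * c) ^ 2) + 2 * (c ^ 2 + e ^ 2) * (e * (-(a+1) * e) - c * ((a+1) * c))
       = (c^2+e^2)^2 * (a - 2 * (a+1)) := by ring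
    rw [h4] at h3
    have h5 : 0 < (c^2+e^2)^2 := by positivity
    nlinarith
  · have hd' : 0 < d := lt_of_le_of_ne h2 (Ne.symm hd)
    have h1 := ht d (-e) c
    have : a * d ^ 2 + d * ((-e) ^ 2 + c ^ 2) + 2 * d * (e * (-e) - c * c) = d * (a * d - (c ^ 2 + e ^ 2)) := by ring
    rw [this] at h1
    have := (mul_nonneg_iff_of_pos_left hd').1 h1
    linarith

theorem W_inv0 {b c : Bil} (hb : ∀ u v, b (J0 u) (J0 v) = b u v)
    (hc : ∀ u v, c (J0 u) (J0 v) = c u v) :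
    W b c = ent b 0 1 * ent c 2 3 + ent b 2 3 * ent c 0 1 - 2 * (ent b 0 2 * ent c 0 2)
      - 2 * (ent b 0 3 * ent c 0 3) := by
  obtain ⟨h1, h2⟩ := inv0_ent hb
  obtain ⟨h3, h4⟩ := inv0_ent hc
  unfold W
  rw [h1, h2, h3, h4]; ring

theorem W_anti0 {b c : Bil} (hb' : Alt b) (hc' : Alt c) (hb : ∀ u v, b (J0 u) (J0 v) = - b u v)
    (hc : ∀ u v, c (J0 u) (J0 v) = - c u v) :
    W b c = 2 * (ent b 0 2 * ent c 0 2) + 2 * (ent b 0 3 * ent c 0 3) := by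
  obtain ⟨h1, h2, h3, h4⟩ := anti0_ent hb' hb
  obtain ⟨h1', h2', h3', h4'⟩ := anti0_ent hc' hc
  unfold W
  rw [h1, h2, h3, h4, h1', h2', h3', h4']; ring

theorem W_mixed0 {b c : Bil} (hc' : Alt c) (hb : ∀ u v, b (J0 u) (J0 v) = b u v)
    (hc : ∀ u v, c (J0 u) (J0 v) = - c u v) : W b c = 0 := by
  obtain ⟨h1, h2⟩ := inv0_ent hb
  obtain ⟨h1', h2', h3', h4'⟩ := anti0_ent hc' hc
  unfold W
  rw [h1, h2, h1', h2', h3', h4']; ring

end

end Crest.Agent.R240
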