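import Mathlib
import Crest.Agent.R240.TopDefs
import Crest.Agent.R240.Lin3
import Crest.Agent.R240.XDefs
import Crest.Agent.R240.IntPair

/-!
Row 240, PART INT (helper240): link with the frozen interface `TopDefs`: `IsVol`, Stokes for `IG`,
existence of the data `Dat`, and the final conversion to the frozen statement.
-/

set_option autoImplicit false
set_option maxSynthPendingDepth 3

open MeasureTheory Set Filter Topology Function
open scoped Manifold ContDiff ENNReal
open Crest.GeometryTopology.TwoForm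

namespace Crest.Agent.R240.Int

open Crest.Agent.R240 Crest.Agent.R240.Ch

noncomputable section

section A

variable {M : Type*} [TopologicalSpace M] [ChartedSpace E4 M] [IsManifold 𝓘(ℝ, E4) ∞ M]

theorem W_ne_of_SPos {J : E4 →L[ℝ] E4} (hJ : ∀ v, J (J v) = -v) {F : Bil} (hF : SPos J F) :
    W F F ≠ 0 := by
  obtain ⟨A, hA⟩ := exists_frame hJ hF
  exact hA.W_ne hF.alt

/-- a smooth strictly positive form defines a volume. -/
theorem vol_of_SPosG {J : EndF E4 M} (hJ : ∀ x v, atJ J x (atJ J x v) = -v) {F : F2 E4 M}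
    (hs : Smooth2 F) (hF : SPosG J F) : Vol F where
  alt := hs.1
  cont p := (hs.2 p).continuousOn
  ne x := W_ne_of_SPos (hJ x) (hF x)

/-- the invariant part of a taming form is strictly positive. -/
theorem sposG_bp {J : EndF E4 M} (hJ : ∀ x v, atJ J x (atJ J x v) = -v) {al : F2 E4 M}
    (hs : ∀ x, Alt (at2 al x)) (ht : ∀ x v, v ≠ 0 → 0 < at2 al x v (atJ J x v)) :
    SPosG J (bp J al) := by
  intro x
  refine ⟨fun v => ?_, fun u v => ?_, fun v hv => ?_⟩
  · show invp (atJ J x) (at2 al x) v v = 0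
    rw [invp_apply, hs x v, hs x _]; simp
  · show invp (atJ J x) (at2 al x) _ _ = invp (atJ J x) (at2 al x) u v
    rw [invp_apply, invp_apply, hJ, hJ]
    simp only [map_neg, neg_apply, neg_neg]
    ring
  · show 0 < invp (atJ J x) (at2 al x) v (atJ J x v)
    rw [invp_apply, hJ]
    have h1 : at2 al x (atJ J x v) (-v) = at2 al x v (atJ J x v) := by
      rw [map_neg, (hs x).swap]; ring
    rw [h1]
    have := ht x v hv
    linarith

variable [MeasurableSpace M] [BorelSpace M] [T2Space M] [CompactSpace M]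

theorem isVol_mu {F : F2 E4 M} (hF : Vol F) : IsVol F (mu F) := by
  intro p f hf h0
  have h1 : ∫⁻ x, f x ∂(mu F) = ∫⁻ x in (chartAt E4 p).source, f x ∂(mu F) := by
    rw [← lintegral_indicator (chartAt E4 p).open_source.measurableSet]
    congr 1; funext x
    by_cases hx : x ∈ (chartAt E4 p).source
    · rw [indicator_of_mem hx]
    · rw [indicator_of_notMem hx, h0 x hx]
  rw [h1, lintegral_mu hF p hf]
  congr 1; funext y
  rw [mul_comm]; rfl

/-- uniqueness of the volume measure: every measure with the chart densities is `mu F`. -/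
theorem isVol_eq_mu {F : F2 E4 M} (hF : Vol F) {μ : Measure M} (hμ : IsVol F μ) : μ = mu F := by
  obtain ⟨P⟩ := nonempty_PU M
  ext s hs
  have key : ∀ ν : Measure M, IsVol F ν → ν s = ∑ p ∈ P.t,
      ∫⁻ y in (chartAt E4 p).target,
        (s.indicator (fun x => ENNReal.ofReal (P.χ p x)) ((chartAt E4 p).symm y)) *
        ENNReal.ofReal |W (rep p F y) (rep p F y)| := by
    intro ν hν
    have h1 : ∀ p ∈ P.t, ∫⁻ x, s.indicator (fun x => ENNReal.ofReal (P.χ p x)) x ∂ν =
        ∫⁻ y in (chartAt E4 p).target,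
        (s.indicator (fun x => ENNReal.ofReal (P.χ p x)) ((chartAt E4 p).symm y)) *
        ENNReal.ofReal |W (rep p F y) (rep p F y)| := by
      intro p hp
      apply hν p
      · exact (P.continuous p).measurable.ennreal_ofReal.indicator hs
      · intro x hx
        have h0 : P.χ p x = 0 := by
          by_contra hne
          exact hx (P.supp p hp (subset_tsupport _ hne))
        by_cases hxs : x ∈ s
        · rw [indicator_of_mem hxs, h0]; simp
        · rw [indicator_of_notMem hxs]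
    rw [← Finset.sum_congr rfl h1, ← lintegral_finsetSum P.t
      (fun p _ => (P.continuous p).measurable.ennreal_ofReal.indicator hs)]
    have h3 : (fun x => ∑ p ∈ P.t, s.indicator (fun x => ENNReal.ofReal (P.χ p x)) x)
        = s.indicator (fun _ => 1) := by
      funext x
      by_cases hxs : x ∈ s
      · simp only [indicator_of_mem hxs]
        rw [← ENNReal.ofReal_sum_of_nonneg (fun p _ => P.nonneg p x), P.sum_one x,
          ENNReal.ofReal_one]
      · simp only [indicator_of_notMem hxs]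
        simp
    rw [h3, lintegral_indicator_const hs, one_mul]
  rw [key μ hμ, key (mu F) (isVol_mu hF)]

theorem IG_eq_I {F : F2 E4 M} (hF : Vol F) {μ : Measure M} (hμ : IsVol F μ) (b c : F2 E4 M) :
    IG F μ b c = I F b c := by
  rw [isVol_eq_mu hF hμ]; rfl

theorem isVol_isFinite {F : F2 E4 M} (hF : Vol F) {μ : Measure M} (hμ : IsVol F μ) :
    IsFiniteMeasure μ := by
  rw [isVol_eq_mu hF hμ]; exact isFinite_mu hF

theorem isVol_isOpenPos {F : F2 E4 M} (hF : Vol F) {μ : Measure M} (hμ : IsVol F μ) :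
    μ.IsOpenPosMeasure := by
  rw [isVol_eq_mu hF hμ]; exact isOpenPos_mu hF

theorem isVol_integral {G : Type*} [NormedAddCommGroup G] [NormedSpace ℝ G] {F : F2 E4 M}
    (hF : Vol F) {μ : Measure M} (hμ : IsVol F μ) (q : M) {f : M → G}
    (hf : AEStronglyMeasurable f μ) (h0 : ∀ x, x ∉ (chartAt E4 q).source → f x = 0) :
    ∫ x, f x ∂μ = ∫ y in (chartAt E4 q).target, dens F q y • f ((chartAt E4 q).symm y) := by
  rw [isVol_eq_mu hF hμ] at hf ⊢
  exact integral_mu_of_supp hF q hf h0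

theorem isVol_setIntegral {G : Type*} [NormedAddCommGroup G] [NormedSpace ℝ G] {F : F2 E4 M}
    (hF : Vol F) {μ : Measure M} (hμ : IsVol F μ) (q : M) {f : M → G}
    (hf : AEStronglyMeasurable f μ) :
    ∫ x in (chartAt E4 q).source, f x ∂μ =
      ∫ y in (chartAt E4 q).target, dens F q y • f ((chartAt E4 q).symm y) := by
  rw [isVol_eq_mu hF hμ] at hf ⊢
  exact integral_mu hF q hf

/-- Stokes for the interface: `I(b,c) = 0` for `b` exact, `c` closed. -/
theorem stokes_IG {F : F2 E4 M} (hF : Vol F) {μ : Measure M} (hμ : IsVol F μ) {b c : F2 E4 M}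
    (hb : IsEx b) (hc : Smooth2 c) (hcl : Closed2 c) : IG F μ b c = 0 := by
  obtain ⟨S, hS, hSb⟩ := hb
  rw [IG_eq_I hF hμ]
  exact stokes_smooth hF hS hSb hc hcl

end A

section B

variable {M : Type*} [MetricSpace M] [CompactSpace M] [ChartedSpace E4 M]
    [IsManifold 𝓘(ℝ, E4) ∞ M] [MeasurableSpace M] [BorelSpace M]

theorem dat_sposF (D : Dat M) : SPosG D.J D.F := sposG_bp D.sq D.sm_al.1 D.tames

theorem dat_smF (D : Dat M) : Smooth2 D.F := Smooth2.bp D.smJ D.sm_al

theorem dat_volF (D : Dat M) : Vol D.F := vol_of_SPosG D.sq (dat_smF D) (dat_sposF D)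

theorem dat_isVol (D : Dat M) : IsVol D.F D.μ := D.vol

/-- **Stokes** for the data. -/
theorem dat_stokes (D : Dat M) {b c : F2 E4 M} (hb : IsEx b) (hc : Smooth2 c) (hcl : Closed2 c) :
    D.I b c = 0 := stokes_IG (dat_volF D) (dat_isVol D) hb hc hcl

end B

/-- **existence of the data** from the hypotheses of `S0371`. -/
theorem exists_dat {M : Type*} [MetricSpace M] [CompactSpace M] [ChartedSpace E4 M]
    [IsManifold 𝓘(ℝ, E4) ∞ M] [MeasurableSpace M] [BorelSpace M] (hb : Met.BiLip E4 M)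
    {J : EndF E4 M} (hJ : SmoothJ J) (hJ2 : ∀ x v, atJ J x (atJ J x v) = -v) {al : F2 E4 M}
    (h1 : Smooth2 al) (h2 : Closed2 al) (h3 : ∀ x v, v ≠ 0 → 0 < at2 al x v (atJ J x v)) :
    ∃ D : Dat M, D.J = J ∧ D.al = al := by
  have hF : Vol (bp J al) := vol_of_SPosG hJ2 (Smooth2.bp hJ h1) (sposG_bp hJ2 h1.1 h3)
  exact ⟨⟨hb, J, hJ, hJ2, al, h1, h2, h3, mu (bp J al), isFinite_mu hF, isVol_mu hF⟩, rfl, rfl⟩

universe u

/-- **final conversion**: the frozen statement from the statement about data. -/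
theorem final {M : Type u} [TopologicalSpace M] [T2Space M] [CompactSpace M] [ConnectedSpace M]
    [ChartedSpace (EuclideanSpace ℝ (Fin 4)) M] [IsManifold (𝓡 4) ∞ M]
    (H : ∀ (N : Type u) [MetricSpace N] [CompactSpace N] [ConnectedSpace N] [ChartedSpace E4 N]
      [IsManifold 𝓘(ℝ, E4) ∞ N] [MeasurableSpace N] [BorelSpace N] (D : Dat N),
      ∃ c : F2 E4 N, Smooth2 c ∧ Closed2 c ∧ SPosG D.J c)
    (J : Π x : M, TangentSpace (𝓡 4) x →L[ℝ] TangentSpace (𝓡 4) x)
    (hJ : IsAlmostComplexStructure (𝓡 4) M J)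
    (hα : ∃ α : Π x : M, TangentSpace (𝓡 4) x →L[ℝ] TangentSpace (𝓡 4) x →L[ℝ] ℝ,
      IsSmoothTwoForm (𝓡 4) M α ∧ IsClosedTwoForm (𝓡 4) M α ∧ Tames (𝓡 4) M α J) :
    ∃ α' : Π x : M, TangentSpace (𝓡 4) x →L[ℝ] TangentSpace (𝓡 4) x →L[ℝ] ℝ,
      IsSmoothTwoForm (𝓡 4) M α' ∧ IsClosedTwoForm (𝓡 4) M α' ∧
        IsCompatible (𝓡 4) M α' J := by
  obtain ⟨α, hα1, hα2, hα3⟩ := hα
  obtain ⟨m, hm, hb⟩ := Met.exists_metric (E := E4) (M := M)
  subst hm
  letI : MeasurableSpace M := borel M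
  haveI : BorelSpace M := ⟨rfl⟩
  have hJs : SmoothJ (E := E4) (M := M) J := (smoothJ_iff (E := E4) (M := M) J).1 hJ.contMDiff
  have hJ2 : ∀ x v, atJ (E := E4) (M := M) J x (atJ (E := E4) (M := M) J x v) = -v :=
    hJ.sq_eq_neg
  have h1 : Smooth2 (E := E4) (M := M) α := (smooth2_iff (E := E4) (M := M) α).1 hα1
  have h2 : Closed2 (E := E4) (M := M) α := (closed2_iff (E := E4) (M := M) h1).1 hα2
  obtain ⟨D, hDJ, hDa⟩ := exists_dat (M := M) hb hJs hJ2 h1 h2 hα3
  obtain ⟨c, hc1, hc2, hc3⟩ := H M D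
  rw [hDJ] at hc3
  exact ⟨c, (smooth2_iff (E := E4) (M := M) c).2 hc1, (closed2_iff (E := E4) (M := M) hc1).2 hc2,
    fun x v hv => (hc3 x).pos v hv, fun x u v => (hc3 x).inv u v⟩

end

end Crest.Agent.R240.Int
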