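import Crest.Agent.R240.Iface
import Crest.Agent.R240.IntTop
import Crest.Agent.R240.Cmp
import Crest.Agent.R240.Lin3

/-!
Row 240 (S0371), helper548: the fibre norm `D.nr` is bounded by the norm in charts and by `cm 0`.
-/

set_option autoImplicit false
set_option maxSynthPendingDepth 3
set_option linter.ambiguousOpen false

open Set Function Filter MeasureTheory Metric
open scoped Manifold ContDiff Topology ENNReal

namespace Crest.Agent.R240.NrCm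

open Crest.Agent.R240.Ch Crest.Agent.R240.Int

noncomputable section

theorem abs_W_le (b c : Bil) : |W b c| ≤ 6 * (‖b‖ * ‖c‖) := by
  have h : ∀ i j k l, |ent b i j * ent c k l| ≤ ‖b‖ * ‖c‖ := fun i j k l => by
    rw [abs_mul]
    exact mul_le_mul (abs_ent_le b i j) (abs_ent_le c k l) (abs_nonneg _) (norm_nonneg _)
  unfold W
  have h1 := abs_le.1 (h 0 1 2 3)
  have h2 := abs_le.1 (h 0 2 1 3)
  have h3 := abs_le.1 (h 0 3 1 2)
  have h4 := abs_le.1 (h 1 2 0 3)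
  have h5 := abs_le.1 (h 1 3 0 2)
  have h6 := abs_le.1 (h 2 3 0 1)
  rw [abs_le]
  constructor <;> linarith [h1.1, h1.2, h2.1, h2.2, h3.1, h3.2, h4.1, h4.2, h5.1, h5.2, h6.1, h6.2]

theorem norm_pull_le (J : E4 →L[ℝ] E4) (b : Bil) : ‖pull J b‖ ≤ ‖J‖ ^ 2 * ‖b‖ := by
  refine ContinuousLinearMap.opNorm_le_bound₂ _ (by positivity) fun u v => ?_
  rw [pull_apply]
  calc ‖b (J u) (J v)‖ ≤ ‖b‖ * ‖J u‖ * ‖J v‖ := b.le_opNorm₂ _ _
    _ ≤ ‖b‖ * (‖J‖ * ‖u‖) * (‖J‖ * ‖v‖) := by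
        gcongr <;> exact J.le_opNorm _
    _ = _ := by ring

theorem norm_invp_le (J : E4 →L[ℝ] E4) (b : Bil) : ‖invp J b‖ ≤ (1 + ‖J‖ ^ 2) * ‖b‖ := by
  unfold invp
  have h := norm_pull_le J b
  calc ‖(1/2 : ℝ) • (b + pull J b)‖ = 1/2 * ‖b + pull J b‖ := by
        rw [norm_smul]; norm_num
    _ ≤ 1/2 * (‖b‖ + ‖J‖ ^ 2 * ‖b‖) := by
        have := norm_add_le b (pull J b)
        linarith
    _ ≤ _ := by nlinarith [norm_nonneg b, sq_nonneg ‖J‖, mul_nonneg (sq_nonneg ‖J‖) (norm_nonneg b)]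

theorem norm_antip_le (J : E4 →L[ℝ] E4) (b : Bil) : ‖antip J b‖ ≤ (1 + ‖J‖ ^ 2) * ‖b‖ := by
  unfold antip
  have h := norm_pull_le J b
  calc ‖(1/2 : ℝ) • (b - pull J b)‖ = 1/2 * ‖b - pull J b‖ := by
        rw [norm_smul]; norm_num
    _ ≤ 1/2 * (‖b‖ + ‖J‖ ^ 2 * ‖b‖) := by
        have := norm_sub_le b (pull J b)
        linarith
    _ ≤ _ := by nlinarith [norm_nonneg b, sq_nonneg ‖J‖, mul_nonneg (sq_nonneg ‖J‖) (norm_nonneg b)]

theorem abs_q_le {F : Bil} {w : ℝ} (hw : 0 < w) (hF : w ≤ |W F F|) (b c : Bil) :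
    |q F b c| ≤ 6 / w * (‖b‖ * ‖c‖) := by
  unfold q
  rw [abs_div]
  have h1 := abs_W_le b c
  calc |W b c| / |W F F| ≤ (6 * (‖b‖ * ‖c‖)) / w := by gcongr
    _ = _ := by ring

/-- `|b| ≤ C ‖b‖`, with a constant that depends only on bounds of `J`, `F`, `1/W(F,F)`. -/
theorem nr_le {J : E4 →L[ℝ] E4} {F : Bil} {w R S : ℝ} (hw : 0 < w) (hF : w ≤ |W F F|)
    (hFR : ‖F‖ ≤ R) (hJS : ‖J‖ ≤ S) (b : Bil) :
    nr J F b ≤ √(72 / w ^ 2 * R ^ 2 + 12 / w * (1 + S ^ 2) ^ 2) * ‖b‖ := by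
  have hR : 0 ≤ R := (norm_nonneg _).trans hFR
  have hS : 0 ≤ S := (norm_nonneg _).trans hJS
  have h1 : |q F b F| ≤ 6 / w * (‖b‖ * R) :=
    (abs_q_le hw hF b F).trans (by gcongr)
  have h2 : |q F (invp J b) (invp J b)| ≤ 6 / w * (((1 + S ^ 2) * ‖b‖) * ((1 + S ^ 2) * ‖b‖)) := by
    refine (abs_q_le hw hF _ _).trans ?_
    have h3 : ‖invp J b‖ ≤ (1 + S ^ 2) * ‖b‖ := (norm_invp_le J b).trans (by gcongr)
    gcongr
  have h3 : |q F (antip J b) (antip J b)| ≤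
      6 / w * (((1 + S ^ 2) * ‖b‖) * ((1 + S ^ 2) * ‖b‖)) := by
    refine (abs_q_le hw hF _ _).trans ?_
    have h3 : ‖antip J b‖ ≤ (1 + S ^ 2) * ‖b‖ := (norm_antip_le J b).trans (by gcongr)
    gcongr
  have h4 : nsq J F b ≤ (72 / w ^ 2 * R ^ 2 + 12 / w * (1 + S ^ 2) ^ 2) * ‖b‖ ^ 2 := by
    unfold nsq ip
    have h5 : q F b F * q F b F ≤ (6 / w * (‖b‖ * R)) ^ 2 := by
      rw [← sq, ← sq_abs]
      exact pow_le_pow_left₀ (abs_nonneg _) h1 2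
    have h6 := (abs_le.1 h2).1
    have h7 := (abs_le.1 h3).2
    calc 2 * q F b F * q F b F - q F (invp J b) (invp J b) + q F (antip J b) (antip J b)
        ≤ 2 * (6 / w * (‖b‖ * R)) ^ 2 + 6 / w * (((1 + S ^ 2) * ‖b‖) * ((1 + S ^ 2) * ‖b‖)) +
          6 / w * (((1 + S ^ 2) * ‖b‖) * ((1 + S ^ 2) * ‖b‖)) := by linarith
      _ = _ := by ring
  unfold nr
  have h5 : √((72 / w ^ 2 * R ^ 2 + 12 / w * (1 + S ^ 2) ^ 2) * ‖b‖ ^ 2) =
      √(72 / w ^ 2 * R ^ 2 + 12 / w * (1 + S ^ 2) ^ 2) * ‖b‖ := by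
    rw [Real.sqrt_mul (by positivity), Real.sqrt_sq (norm_nonneg _)]
  rw [← h5]
  exact Real.sqrt_le_sqrt h4

variable {M : Type*} [MetricSpace M] [CompactSpace M] [ChartedSpace E4 M]
    [IsManifold 𝓘(ℝ, E4) ∞ M] [MeasurableSpace M] [BorelSpace M]

/-- the fibre norm in a chart. -/
theorem nr_chart (D : Dat M) {b : F2 E4 M} (hb : ∀ x, Alt (at2 b x)) {p : M} {y : E4}
    (hy : y ∈ (chartAt E4 p).target) :
    D.nr b ((chartAt E4 p).symm y) = nr (repJ p D.J y) (rep p D.F y) (rep p b y) := by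
  have hV := dat_volF D
  have h1 : qG D.F b D.F ((chartAt E4 p).symm y) = q (rep p D.F y) (rep p b y) (rep p D.F y) :=
    qG_chart hV hb hV.alt hy
  have hb1 : ∀ x, Alt (at2 (bp D.J b) x) := fun x => (hb x).invp _
  have hb2 : ∀ x, Alt (at2 (bpp D.J b) x) := fun x => (hb x).antip _
  have h2 : qG D.F (bp D.J b) (bp D.J b) ((chartAt E4 p).symm y) =
      q (rep p D.F y) (invp (repJ p D.J y) (rep p b y)) (invp (repJ p D.J y) (rep p b y)) := by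
    rw [← rep_bp hy]
    exact qG_chart hV hb1 hb1 hy
  have h3 : qG D.F (bpp D.J b) (bpp D.J b) ((chartAt E4 p).symm y) =
      q (rep p D.F y) (antip (repJ p D.J y) (rep p b y)) (antip (repJ p D.J y) (rep p b y)) := by
    rw [← rep_bpp hy]
    exact qG_chart hV hb2 hb2 hy
  have h4 : D.nr b ((chartAt E4 p).symm y) = √(2 * qG D.F b D.F ((chartAt E4 p).symm y) *
      qG D.F b D.F ((chartAt E4 p).symm y) - qG D.F (bp D.J b) (bp D.J b) ((chartAt E4 p).symm y)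
      + qG D.F (bpp D.J b) (bpp D.J b) ((chartAt E4 p).symm y)) := rfl
  rw [h4, h1, h2, h3]
  rfl

/-- `|b|_x ≤ C ‖rep p b y‖` on compact pieces. -/
theorem nr_le_rep (D : Dat M) (p : M) {K : Set E4} (hK : IsCompact K)
    (hKt : K ⊆ (chartAt E4 p).target) :
    ∃ C : ℝ, 0 ≤ C ∧ ∀ b : X2 M, ∀ y ∈ K,
      D.nr (b : F2 E4 M) ((chartAt E4 p).symm y) ≤ C * ‖rep p (b : F2 E4 M) y‖ := by
  rcases K.eq_empty_or_nonempty with hKe | hKne
  · exact ⟨0, le_rfl, fun b y hy => by simp [hKe] at hy⟩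
  have hV := dat_volF D
  have hsF := dat_smF D
  have cF : ContinuousOn (rep p D.F) K := (hsF.2 p).continuousOn.mono hKt
  have cJ : ContinuousOn (repJ p D.J) K := (D.smJ p).continuousOn.mono hKt
  have cW : ContinuousOn (fun y => W (rep p D.F y) (rep p D.F y)) K := continuousOn_W cF cF
  obtain ⟨R, hR⟩ := hK.exists_bound_of_continuousOn cF
  obtain ⟨S, hS⟩ := hK.exists_bound_of_continuousOn cJ
  obtain ⟨y0, hy0, hmin⟩ := hK.exists_isMinOn hKne cW.abs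
  have hw : 0 < |W (rep p D.F y0) (rep p D.F y0)| := abs_pos.2 (hV.rep_ne (hKt hy0))
  refine ⟨_, Real.sqrt_nonneg (72 / |W (rep p D.F y0) (rep p D.F y0)| ^ 2 * R ^ 2 +
    12 / |W (rep p D.F y0) (rep p D.F y0)| * (1 + S ^ 2) ^ 2), fun b y hy => ?_⟩
  rw [nr_chart D b.2.1 (hKt hy)]
  exact nr_le hw (hmin hy) (hR y hy) (hS y hy) _

/-- `|b|_x ≤ C cm 0 b`. -/
theorem nr_le_cm (D : Dat M) (𝒰 : Cover M) :
    ∃ C : ℝ, 0 ≤ C ∧ ∀ b : X2 M, ∀ x, D.nr (b : F2 E4 M) x ≤ C * 𝒰.cm 0 (b : F2 E4 M) := by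
  choose C hC0 hC using fun i => nr_le_rep D (𝒰.p i) (𝒰.cpt i) (𝒰.sub i)
  refine ⟨∑ i, C i, Finset.sum_nonneg fun i _ => hC0 i, fun b x => ?_⟩
  obtain ⟨i, hxs, hxi⟩ := 𝒰.cov x
  have hy : chartAt E4 (𝒰.p i) x ∈ 𝒰.K i := interior_subset hxi
  have h1 := hC i b _ hy
  rw [(chartAt E4 (𝒰.p i)).left_inv hxs] at h1
  have h2 := le_cm 𝒰 (le_refl 0) b.2 hy
  rw [norm_iteratedFDeriv_zero] at h2
  have h3 : C i ≤ ∑ j, C j := Finset.single_le_sum (fun j _ => hC0 j) (Finset.mem_univ i)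
  have h4 : 0 ≤ 𝒰.cm 0 (b : F2 E4 M) := cm_nonneg 𝒰 0 _
  calc D.nr (b : F2 E4 M) x ≤ C i * ‖rep (𝒰.p i) (b : F2 E4 M) (chartAt E4 (𝒰.p i) x)‖ := h1
    _ ≤ C i * 𝒰.cm 0 (b : F2 E4 M) := mul_le_mul_of_nonneg_left h2 (hC0 i)
    _ ≤ _ := mul_le_mul_of_nonneg_right h3 h4

end

end Crest.Agent.R240.NrCm
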