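import Crest.Agent.R240.EllM4
import Crest.Agent.R240.NrCm

/-!
Row 240, Lemma A (helper106): node N3 from the local theorem.
-/

set_option autoImplicit false
set_option maxSynthPendingDepth 3
set_option linter.unusedSectionVars false

open scoped ContDiff Manifold Topology
open Set Filter

namespace Crest.Agent.R240.Ell

noncomputable section

open Crest.Agent.R240.Ch Crest.Agent.R240.KLoc

section gen

variable {M : Type*} [TopologicalSpace M] [ChartedSpace E4 M] [IsManifold 𝓘(ℝ, E4) ∞ M]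

theorem loc_bound (A : EAtl M) (i : Fin A.n) (m : ℕ) : ∃ C, 0 ≤ C ∧ ∀ (a : F2 E4 M) (B : ℝ),
    Smooth2 a → 0 ≤ B → (∀ j ≤ m, ∀ y ∈ closure (A.V i), ‖iteratedFDeriv ℝ j (rep (A.p i) a) y‖ ≤ B) →
    nk m (loc A i a) ≤ C * B := by
  obtain ⟨K, hK0, hK⟩ := (A.cs i).exists_ckB m
  refine ⟨∑ n ∈ Finset.range (m + 1), ∑ j ∈ Finset.range (n + 1), (n.choose j : ℝ) * K,
    by positivity, fun a B ha hB0 hB => nk_le ?_⟩
  intro n hn y
  have hn' : ((n : ℕ) : WithTop ℕ∞) ≤ ∞ := cast_le_infty n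
  by_cases hy : y ∈ A.V i
  · have hV := A.isOpen_V i
    have hu := hV.uniqueDiffOn (𝕜 := ℝ)
    have h1 := norm_iteratedFDerivWithin_smul_le (𝕜 := ℝ) (n := n) (N := ∞)
      ((A.cs i).1.contDiffOn (s := A.V i)) ((ha.2 (A.p i)).mono (A.V_sub i)) hu hy hn'
    have e : ∀ {F : Type} [NormedAddCommGroup F] [NormedSpace ℝ F] (f : E4 → F) (j : ℕ),
        iteratedFDerivWithin ℝ j f (A.V i) y = iteratedFDeriv ℝ j f y :=
      fun f j => iteratedFDerivWithin_of_isOpen j hV hy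
    rw [e] at h1
    refine h1.trans ?_
    have h2 : ∀ j ∈ Finset.range (n + 1), (n.choose j : ℝ) *
        ‖iteratedFDerivWithin ℝ j (A.c i) (A.V i) y‖ *
        ‖iteratedFDerivWithin ℝ (n - j) (rep (A.p i) a) (A.V i) y‖ ≤
          ((n.choose j : ℝ) * K) * B := by
      intro j hj
      have hj' : j ≤ n := by simpa [Nat.lt_succ_iff] using hj
      rw [e, e]
      have h3 := hB (n - j) (by omega) y (subset_closure hy)
      have h4 := hK j (by omega) y
      gcongr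
    refine (Finset.sum_le_sum h2).trans ?_
    rw [← Finset.sum_mul]
    refine mul_le_mul_of_nonneg_right ?_ hB0
    exact Finset.single_le_sum (f := fun n => ∑ j ∈ Finset.range (n + 1),
        (n.choose j : ℝ) * K) (fun m _ => by positivity)
      (Finset.mem_range.mpr (by omega))
  · have h1 : y ∉ tsupport (loc A i a) := fun h =>
      hy (A.U_sub_V i (A.supp i (tsupport_loc A i a h)))
    have h2 : iteratedFDeriv ℝ n (loc A i a) y = 0 :=
      image_eq_zero_of_notMem_tsupport fun h => h1 (tsupport_iteratedFDeriv_subset n h)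
    rw [h2, norm_zero]
    positivity

theorem pn_le_cm (A : EAtl M) (𝒰 : Cover M) (m : ℕ) : ∃ C, 0 ≤ C ∧ ∀ a : F2 E4 M,
    Smooth2 a → pn A m a ≤ C * 𝒰.cm m a := by
  choose C hC0 hC using fun i => loc_bound A i m
  choose D hD0 hD using fun i => cm_compare 𝒰 (A.p i) (A.compact_V i) (A.closure_V i) m
  refine ⟨∑ i, C i * D i, Finset.sum_nonneg fun i _ => mul_nonneg (hC0 i) (hD0 i),
    fun a ha => ?_⟩
  unfold pn
  rw [Finset.sum_mul]
  refine Finset.sum_le_sum fun i _ => ?_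
  rw [mul_assoc]
  exact hC i a _ ha (mul_nonneg (hD0 i) (cm_nonneg _ _ _)) (hD i a ha)

theorem exists_big (A : EAtl M) (x : M) : ∃ i, x ∈ (chartAt E4 (A.p i)).source ∧
    1 ≤ (A.n : ℝ) * A.c i (chartAt E4 (A.p i) x) := by
  by_contra hcon
  push Not at hcon
  have h1 : ∀ i ∈ Finset.univ, extF (A.p i) (A.c i) x < 1 / (A.n : ℝ) := by
    intro i _
    have hn : (0 : ℝ) < A.n := by
      have := i.pos
      exact_mod_cast this
    unfold extF
    split_ifs with h
    · rw [lt_div_iff₀ hn, mul_comm]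
      exact hcon i h
    · positivity
  have h2 := A.sum_one x
  have hne : (Finset.univ : Finset (Fin A.n)).Nonempty := by
    by_contra h0
    rw [Finset.not_nonempty_iff_eq_empty] at h0
    rw [h0, Finset.sum_empty] at h2
    exact zero_ne_one h2
  have h3 := Finset.sum_lt_sum_of_nonempty hne h1
  rw [h2, Finset.sum_const, Finset.card_univ, Fintype.card_fin, nsmul_eq_mul] at h3
  obtain ⟨i, -⟩ := hne
  have hn : (0 : ℝ) < A.n := by
    have := i.pos
    exact_mod_cast this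
  rw [mul_one_div_cancel hn.ne'] at h3
  exact lt_irrefl _ h3

end gen

variable {M : Type*} [MetricSpace M] [CompactSpace M] [ChartedSpace E4 M]
    [IsManifold 𝓘(ℝ, E4) ∞ M] [MeasurableSpace M] [BorelSpace M]

theorem nr_le_pn (D : Dat M) (A : EAtl M) : ∃ C, 0 ≤ C ∧ ∀ (b : X2 M) (x : M),
    D.nr (b : F2 E4 M) x ≤ C * pn A 0 (b : F2 E4 M) := by
  choose C hC0 hC using fun i => NrCm.nr_le_rep D (A.p i) (A.compact_V i) (A.closure_V i)
  refine ⟨∑ i, C i * A.n, Finset.sum_nonneg fun i _ => mul_nonneg (hC0 i) (Nat.cast_nonneg _),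
    fun b x => ?_⟩
  obtain ⟨i, hx, hi⟩ := exists_big A x
  set y := chartAt E4 (A.p i) x with hy
  have hyV : y ∈ closure (A.V i) := by
    by_contra h
    have : A.c i y = 0 := A.c_zero i fun h' => h (subset_closure (A.U_sub_V i h'))
    rw [this, mul_zero] at hi
    linarith
  have h1 := hC i b y hyV
  rw [hy, (chartAt E4 (A.p i)).left_inv hx, ← hy] at h1
  have hc0 : 0 ≤ A.c i y := A.nonneg i y
  have h2 : ‖rep (A.p i) (b : F2 E4 M) y‖ ≤ A.n * ‖loc A i (b : F2 E4 M) y‖ := by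
    have h3 : ‖loc A i (b : F2 E4 M) y‖ = A.c i y * ‖rep (A.p i) (b : F2 E4 M) y‖ := by
      unfold loc
      rw [norm_smul, Real.norm_eq_abs, abs_of_nonneg hc0]
    rw [h3, ← mul_assoc]
    exact le_mul_of_one_le_left (norm_nonneg _) hi
  have h4 : ‖loc A i (b : F2 E4 M) y‖ ≤ pn A 0 (b : F2 E4 M) :=
    (norm_le_nk (cs_loc A i b.2) 0 y).trans (nk_le_pn A 0 i _)
  calc D.nr (b : F2 E4 M) x ≤ C i * ‖rep (A.p i) (b : F2 E4 M) y‖ := h1
    _ ≤ C i * (A.n * pn A 0 (b : F2 E4 M)) := by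
        refine mul_le_mul_of_nonneg_left (h2.trans ?_) (hC0 i)
        exact mul_le_mul_of_nonneg_left h4 (Nat.cast_nonneg _)
    _ = (C i * A.n) * pn A 0 (b : F2 E4 M) := by ring
    _ ≤ _ := by
        refine mul_le_mul_of_nonneg_right ?_ (pn_nonneg A 0 _)
        exact Finset.single_le_sum (f := fun i => C i * (A.n : ℝ))
          (fun i _ => mul_nonneg (hC0 i) (Nat.cast_nonneg _)) (Finset.mem_univ i)

/-- NODE N3 from the local theorem. -/
theorem n3_of_local (hloc : LocalThm) (D : Dat M) : D.N3 := by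
  obtain ⟨A⟩ := exists_atl M
  obtain ⟨𝒰⟩ := exists_Cover (M := M)
  obtain ⟨m, C, hC0, hC⟩ := lemmaA_man hloc A D.smJ D.sq
  obtain ⟨C1, hC1, h1⟩ := nr_le_pn D A
  obtain ⟨C2, hC2, h2⟩ := pn_le_cm A 𝒰 m
  refine ⟨𝒰, m, C1 * (C * C2), fun b hb => ?_⟩
  obtain ⟨c, hc, hcc, hcb, hcn⟩ := hC b.1 b.2 hb
  refine ⟨⟨c, hc⟩, hcc, Subtype.ext hcb, fun x => ?_⟩
  have h3 := h1 ⟨c, hc⟩ x
  have h4 := h2 (bpp D.J b.1) (smooth2_bpp D.smJ b.2)
  calc D.nr c x ≤ C1 * pn A 0 c := h3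
    _ ≤ C1 * (C * (C2 * 𝒰.cm m (bpp D.J b.1))) := by
        refine mul_le_mul_of_nonneg_left (hcn.trans ?_) hC1
        exact mul_le_mul_of_nonneg_left h4 hC0
    _ = C1 * (C * C2) * 𝒰.cm m ((D.pi'' b : X2 M) : F2 E4 M) := by
        rw [Dat.pi'', antiM_coe]; ring

end

end Crest.Agent.R240.Ell
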