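import Crest.Agent.R240.EllNorm
import Crest.Agent.R240.FormDefs

/-!
Row 240, Lemma A (helper106), manifold part 1: finite atlas with cut-offs.
-/

set_option autoImplicit false
set_option maxSynthPendingDepth 3

open scoped ContDiff Manifold Topology
open Set Filter

namespace Crest.Agent.R240.Ell

noncomputable section

open Crest.Agent.R240.Ch

/-- finite atlas with smooth cut-offs read in the charts. -/
structure EAtl (M : Type*) [TopologicalSpace M] [ChartedSpace E4 M] where
  n : ℕ
  p : Fin n → M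
  U : Fin n → Set E4
  V : Fin n → Set E4
  c : Fin n → E4 → ℝ
  isOpen_U : ∀ i, IsOpen (U i)
  isOpen_V : ∀ i, IsOpen (V i)
  bdd_V : ∀ i, Bornology.IsBounded (V i)
  closure_U : ∀ i, closure (U i) ⊆ V i
  closure_V : ∀ i, closure (V i) ⊆ (chartAt E4 (p i)).target
  cs : ∀ i, CS (c i)
  supp : ∀ i, tsupport (c i) ⊆ U i
  nonneg : ∀ i y, 0 ≤ c i y
  sum_one : ∀ x : M, ∑ i, extF (p i) (c i) x = 1

variable {M : Type*} [TopologicalSpace M] [ChartedSpace E4 M]

theorem EAtl.U_sub_V (A : EAtl M) (i : Fin A.n) : A.U i ⊆ A.V i :=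
  subset_closure.trans (A.closure_U i)

theorem EAtl.V_sub (A : EAtl M) (i : Fin A.n) : A.V i ⊆ (chartAt E4 (A.p i)).target :=
  subset_closure.trans (A.closure_V i)

theorem EAtl.compact_V (A : EAtl M) (i : Fin A.n) : IsCompact (closure (A.V i)) :=
  (A.bdd_V i).isCompact_closure

theorem EAtl.compact_U (A : EAtl M) (i : Fin A.n) : IsCompact (closure (A.U i)) :=
  ((A.bdd_V i).subset (A.U_sub_V i)).isCompact_closure

theorem EAtl.c_zero (A : EAtl M) (i : Fin A.n) {y : E4} (hy : y ∉ A.U i) : A.c i y = 0 := by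
  by_contra h
  exact hy (A.supp i (subset_tsupport _ h))

theorem exists_atl (M : Type*) [TopologicalSpace M] [T2Space M] [CompactSpace M]
    [ChartedSpace E4 M] [IsManifold 𝓘(ℝ, E4) ∞ M] : Nonempty (EAtl M) := by
  classical
  -- radii
  have hr : ∀ x : M, ∃ r : ℝ, 0 < r ∧
      Metric.closedBall (chartAt E4 x x) (3 * r) ⊆ (chartAt E4 x).target := by
    intro x
    obtain ⟨ε, hε, h⟩ := Metric.isOpen_iff.mp (chartAt E4 x).open_target _ (mem_chart_target E4 x)
    refine ⟨ε / 4, by positivity, (Metric.closedBall_subset_ball ?_).trans h⟩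
    linarith
  choose r hr0 hr using hr
  set O : M → Set M := fun x => (chartAt E4 x).source ∩
    (chartAt E4 x) ⁻¹' Metric.ball (chartAt E4 x x) (r x) with hO
  have hOo : ∀ x, IsOpen (O x) := fun x =>
    (chartAt E4 x).isOpen_inter_preimage Metric.isOpen_ball
  have hxO : ∀ x, x ∈ O x := fun x => ⟨mem_chart_source E4 x, by
    simpa using hr0 x⟩
  obtain ⟨t, ht⟩ := isCompact_univ.elim_finite_subcover O hOo
    (fun x _ => mem_iUnion.mpr ⟨x, hxO x⟩)
  set m := t.card with hm
  set e : Fin m ≃ t := t.equivFin.symm with he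
  set p : Fin m → M := fun i => (e i : M) with hp
  have hcov : (univ : Set M) ⊆ ⋃ i : Fin m, O (p i) := by
    intro x hx
    obtain ⟨y, hy⟩ := mem_iUnion.mp (ht hx)
    obtain ⟨hyt, hxy⟩ := mem_iUnion.mp hy
    refine mem_iUnion.mpr ⟨e.symm ⟨y, hyt⟩, ?_⟩
    simpa [hp] using hxy
  obtain ⟨f, hf⟩ := SmoothPartitionOfUnity.exists_isSubordinate 𝓘(ℝ, E4) isClosed_univ
    (fun i : Fin m => O (p i)) (fun i => hOo _) hcov
  -- the compact images of the supports
  set K : Fin m → Set E4 := fun i => chartAt E4 (p i) '' tsupport (f i) with hK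
  have hts : ∀ i, tsupport (f i) ⊆ O (p i) := fun i => hf i
  have hKc : ∀ i, IsCompact (K i) := by
    intro i
    refine (isClosed_tsupport (f i)).isCompact.image_of_continuousOn ?_
    exact (chartAt E4 (p i)).continuousOn.mono ((hts i).trans inter_subset_left)
  have hKb : ∀ i, K i ⊆ Metric.ball (chartAt E4 (p i) (p i)) (r (p i)) := by
    rintro i _ ⟨x, hx, rfl⟩
    exact (hts i hx).2
  set c : Fin m → E4 → ℝ := fun i y =>
    if y ∈ (chartAt E4 (p i)).target then f i ((chartAt E4 (p i)).symm y) else 0 with hc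
  have hc0 : ∀ i y, y ∉ K i → c i y = 0 := by
    intro i y hy
    simp only [hc]
    split_ifs with h
    · by_contra h0
      refine hy ⟨(chartAt E4 (p i)).symm y, subset_tsupport _ h0, (chartAt E4 (p i)).right_inv h⟩
    · rfl
  have hball : ∀ i, Metric.ball (chartAt E4 (p i) (p i)) (r (p i)) ⊆ (chartAt E4 (p i)).target := by
    intro i
    refine (Metric.ball_subset_closedBall.trans (Metric.closedBall_subset_closedBall ?_)).trans
      (hr (p i))
    linarith [hr0 (p i)]
  have hcs : ∀ i, ContDiff ℝ ∞ (c i) := by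
    intro i
    rw [contDiff_iff_contDiffAt]
    intro y
    by_cases hy : y ∈ K i
    · have hyt : y ∈ (chartAt E4 (p i)).target := hball i (hKb i hy)
      have h1 : ContMDiffOn 𝓘(ℝ, E4) 𝓘(ℝ, E4) ∞ (chartAt E4 (p i)).symm
          (chartAt E4 (p i)).target := contMDiffOn_chart_symm
      have h2 : ContMDiffAt 𝓘(ℝ, E4) 𝓘(ℝ, ℝ) ∞ (fun y => f i ((chartAt E4 (p i)).symm y)) y := by
        have h3 : ContMDiffAt 𝓘(ℝ, E4) 𝓘(ℝ, ℝ) ∞ (f i) ((chartAt E4 (p i)).symm y) :=
          (f i).contMDiff.contMDiffAt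
        exact h3.comp y (h1.contMDiffAt ((chartAt E4 (p i)).open_target.mem_nhds hyt))
      have h4 := h2.contDiffAt
      refine h4.congr_of_eventuallyEq ?_
      filter_upwards [(chartAt E4 (p i)).open_target.mem_nhds hyt] with z hz
      simp [hc, hz]
    · have h1 : c i =ᶠ[𝓝 y] fun _ => 0 := by
        filter_upwards [(hKc i).isClosed.isOpen_compl.mem_nhds hy] with z hz
        exact hc0 i z hz
      exact contDiffAt_const.congr_of_eventuallyEq h1
  have hct : ∀ i, tsupport (c i) ⊆ K i := by
    intro i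
    refine closure_minimal ?_ (hKc i).isClosed
    intro y hy
    by_contra h
    exact hy (hc0 i y h)
  refine ⟨⟨m, p, fun i => Metric.ball (chartAt E4 (p i) (p i)) (r (p i)),
    fun i => Metric.ball (chartAt E4 (p i) (p i)) (2 * r (p i)), c,
    fun i => Metric.isOpen_ball, fun i => Metric.isOpen_ball, fun i => Metric.isBounded_ball,
    fun i => ?_, fun i => ?_, fun i => ⟨hcs i, ?_⟩, fun i => (hct i).trans (hKb i), ?_, ?_⟩⟩
  · refine Metric.closure_ball_subset_closedBall.trans (Metric.closedBall_subset_ball ?_)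
    linarith [hr0 (p i)]
  · refine (Metric.closure_ball_subset_closedBall.trans
      (Metric.closedBall_subset_closedBall ?_)).trans (hr (p i))
    linarith [hr0 (p i)]
  · exact (hKc i).of_isClosed_subset (isClosed_tsupport _) (hct i)
  · intro i y
    simp only [hc]
    split_ifs
    · exact f.nonneg i _
    · exact le_rfl
  · intro x
    have h1 : ∀ i, extF (p i) (c i) x = f i x := by
      intro i
      unfold extF
      split_ifs with h
      · simp only [hc]
        rw [if_pos ((chartAt E4 (p i)).map_source h), (chartAt E4 (p i)).left_inv h]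
      · by_contra h0
        exact h ((hts i (subset_tsupport _ (Ne.symm h0))).1)
    rw [Finset.sum_congr rfl (fun i _ => h1 i)]
    have h2 := f.sum_eq_one (mem_univ x)
    rwa [finsum_eq_sum_of_fintype] at h2

end

end Crest.Agent.R240.Ell
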