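import Crest.Agent.R240.EllM1
import Crest.Agent.R240.EllCut
import Crest.Agent.R240.Ch4
import Crest.Agent.R240.KKer

/-!
Row 240, Lemma A (helper106), manifold part 2: extension by zero, transition estimates.
-/

set_option autoImplicit false
set_option maxSynthPendingDepth 3
set_option linter.unusedSectionVars false

open scoped ContDiff Manifold Topology
open Set Filter

namespace Crest.Agent.R240.Ell

noncomputable section

open Crest.Agent.R240.Ch Crest.Agent.R240.KLoc

/-! ### linear algebra -/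

theorem bilinearComp_eq_pull (b : Bil) (D : E4 →L[ℝ] E4) : b.bilinearComp D D = pull D b := by
  ext u v
  rw [pull_apply]
  rfl

theorem Alt.zero : Alt (0 : Bil) := fun _ => rfl

theorem Alt.add' {b c : Bil} (hb : Alt b) (hc : Alt c) : Alt (b + c) := fun v => by
  rw [add_apply, add_apply, hb v, hc v, add_zero]

theorem Alt.smul' {b : Bil} (hb : Alt b) (r : ℝ) : Alt (r • b) := fun v => by
  rw [smul_apply, smul_apply, hb v, smul_zero]

theorem antip_eq_self {J : E4 →L[ℝ] E4} {b : Bil} (h : ∀ u v, b (J u) (J v) = - b u v) :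
    antip J b = b := by
  ext u v
  rw [antip_apply, h]; ring

theorem anti_of_antip_eq {J : E4 →L[ℝ] E4} {b : Bil} (h : antip J b = b) (u v : E4) :
    b (J u) (J v) = - b u v := by
  have h1 := congrArg (fun c : Bil => c u v) h
  simp only [antip_apply] at h1
  linarith

variable {M : Type*} [TopologicalSpace M] [ChartedSpace E4 M] [IsManifold 𝓘(ℝ, E4) ∞ M]

/-! ### extension by zero -/

theorem at2_ext2 {p x : M} (hx : x ∈ (chartAt E4 p).source) (b : E4 → Bil) (u v : E4) :
    at2 (ext2 p b) x u v = b (chartAt E4 p x) (tcc x p x u) (tcc x p x v) := by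
  unfold at2 ext2
  rw [if_pos hx]
  rfl

theorem at2_ext2_off {p x : M} (hx : x ∉ (chartAt E4 p).source) (b : E4 → Bil) :
    at2 (ext2 p b) x = 0 := by
  unfold at2 ext2
  rw [if_neg hx]

theorem rep_ext2 {p : M} {y : E4} (hy : y ∈ (chartAt E4 p).target) (b : E4 → Bil) :
    rep p (ext2 p b) y = b y := by
  ext u v
  rw [rep_apply, at2_ext2 (symm_mem hy), tcc_cancel (symm_mem hy), tcc_cancel (symm_mem hy),
    (chartAt E4 p).right_inv hy]

theorem rep_ext2_trans {p q : M} {y : E4} (hy : y ∈ (chartAt E4 q).target)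
    (hp : (chartAt E4 q).symm y ∈ (chartAt E4 p).source) (b : E4 → Bil) :
    rep q (ext2 p b) y = pull (fderiv ℝ (trans (E := E4) q p) y) (b (trans (E := E4) q p y)) := by
  ext u v
  rw [rep_pullback hy hp, pull_apply]
  have h := rep_ext2 ((chartAt E4 p).map_source hp) b
  exact congrArg (fun c : Bil => c (fderiv ℝ (trans (E := E4) q p) y u)
    (fderiv ℝ (trans (E := E4) q p) y v)) h

theorem rep_ext2_off {p q : M} {y : E4} (hp : (chartAt E4 q).symm y ∉ (chartAt E4 p).source)
    (b : E4 → Bil) : rep q (ext2 p b) y = 0 := by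
  ext u v
  rw [rep_apply, at2_ext2_off hp]
  rfl

theorem rep_ext2_zero {p q : M} {L : Set E4} {b : E4 → Bil} (hb : ∀ z ∉ L, b z = 0) {y : E4}
    (hy : y ∈ (chartAt E4 q).target) (h : (chartAt E4 q).symm y ∉ (chartAt E4 p).symm '' L) :
    rep q (ext2 p b) y = 0 := by
  by_cases hp : (chartAt E4 q).symm y ∈ (chartAt E4 p).source
  · rw [rep_ext2_trans hy hp]
    have h1 : trans (E := E4) q p y ∉ L := by
      intro hL
      refine h ⟨_, hL, ?_⟩
      exact (chartAt E4 p).left_inv hp
    rw [hb _ h1]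
    ext u v
    rw [pull_apply]
    rfl
  · exact rep_ext2_off hp b

theorem isClosed_image [T2Space M] {p : M} {L : Set E4} (hL : IsCompact L)
    (hLs : L ⊆ (chartAt E4 p).target) : IsClosed ((chartAt E4 p).symm '' L) :=
  (hL.image_of_continuousOn ((chartAt E4 p).continuousOn_symm.mono hLs)).isClosed

/-- near a point outside, the extension vanishes. -/
theorem rep_ext2_ev_zero [T2Space M] {p q : M} {L : Set E4} (hL : IsCompact L)
    (hLs : L ⊆ (chartAt E4 p).target) {b : E4 → Bil} (hb : ∀ z ∉ L, b z = 0) {y : E4}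
    (hy : y ∈ (chartAt E4 q).target) (h : (chartAt E4 q).symm y ∉ (chartAt E4 p).symm '' L) :
    ∀ᶠ z in 𝓝 y, rep q (ext2 p b) z = 0 := by
  have ho : IsOpen ((chartAt E4 q).target ∩ (chartAt E4 q).symm ⁻¹'
      ((chartAt E4 p).symm '' L)ᶜ) :=
    (chartAt E4 q).isOpen_inter_preimage_symm (isClosed_image hL hLs).isOpen_compl
  filter_upwards [ho.mem_nhds ⟨hy, h⟩] with z hz
  exact rep_ext2_zero hb hz.1 hz.2

theorem rep_ext2_ev {p : M} {y : E4} (hy : y ∈ (chartAt E4 p).target) (b : E4 → Bil) :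
    rep p (ext2 p b) =ᶠ[𝓝 y] b := by
  filter_upwards [(chartAt E4 p).open_target.mem_nhds hy] with z hz using rep_ext2 hz b

theorem smooth2_ext2 [T2Space M] {p : M} {b : E4 → Bil} (hb : ContDiff ℝ ∞ b) {L : Set E4}
    (hL : IsCompact L) (hLs : L ⊆ (chartAt E4 p).target) (hz : ∀ z ∉ L, b z = 0)
    (ha : ∀ y, Alt (b y)) : Smooth2 (ext2 p b) := by
  refine Smooth2.of_local ?_ ?_
  · intro x v
    by_cases hx : x ∈ (chartAt E4 p).source
    · rw [at2_ext2 hx, ha]
    · rw [at2_ext2_off hx]; rfl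
  · intro x
    by_cases hx : x ∈ (chartAt E4 p).source
    · refine ⟨p, hx, ?_⟩
      exact hb.contDiffAt.congr_of_eventuallyEq (rep_ext2_ev ((chartAt E4 p).map_source hx) b)
    · refine ⟨x, mem_chart_source E4 x, ?_⟩
      have h1 : (chartAt E4 x).symm (chartAt E4 x x) ∉ (chartAt E4 p).symm '' L := by
        rw [(chartAt E4 x).left_inv (mem_chart_source E4 x)]
        rintro ⟨z, hz, rfl⟩
        exact hx ((chartAt E4 p).map_target (hLs hz))
      have h2 := rep_ext2_ev_zero hL hLs hz (mem_chart_target E4 x) h1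
      exact (contDiffAt_const (c := (0 : Bil))).congr_of_eventuallyEq h2

theorem closed2_ext2 [T2Space M] {p : M} {s : E4 → E4 →L[ℝ] ℝ} (hs : ContDiff ℝ ∞ s) {L : Set E4}
    (hL : IsCompact L) (hLs : L ⊆ (chartAt E4 p).target) (hz : ∀ z ∉ L, dS s z = 0)
    (hsm : Smooth2 (ext2 p (dS s))) : Closed2 (ext2 p (dS s)) := by
  refine Closed2.of_local hsm fun x => ?_
  by_cases hx : x ∈ (chartAt E4 p).source
  · refine ⟨p, hx, fun u v w => ?_⟩
    have h1 : rep p (ext2 p (dS s)) =ᶠ[𝓝 (chartAt E4 p x)] d1 s :=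
      rep_ext2_ev ((chartAt E4 p).map_source hx) _
    rw [dd_congr h1, dd_d1 hs.contDiffAt]
  · refine ⟨x, mem_chart_source E4 x, fun u v w => ?_⟩
    have h1 : (chartAt E4 x).symm (chartAt E4 x x) ∉ (chartAt E4 p).symm '' L := by
      rw [(chartAt E4 x).left_inv (mem_chart_source E4 x)]
      rintro ⟨z, hz, rfl⟩
      exact hx ((chartAt E4 p).map_target (hLs hz))
    have h2 : rep x (ext2 p (dS s)) =ᶠ[𝓝 (chartAt E4 x x)] fun _ => 0 :=
      rep_ext2_ev_zero hL hLs hz (mem_chart_target E4 x) h1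
    rw [dd_congr h2]
    simp [dd]

/-! ### the basic transition estimate -/

theorem trans_bound [T2Space M] (p q : M) {c : E4 → ℝ} (hc : CS c)
    (hcs : tsupport c ⊆ (chartAt E4 q).target) {L : Set E4} (hL : IsCompact L)
    (hLs : L ⊆ (chartAt E4 p).target) :
    ∃ (A : E4 → (Bil →L[ℝ] Bil)) (τ : E4 → E4), CS A ∧ CS τ ∧
      ∀ b : E4 → Bil, (∀ z ∉ L, b z = 0) →
        (fun y => c y • rep q (ext2 p b) y) = fun y => A y (b (τ y)) := by
  set O : Set E4 := (chartAt E4 q).target ∩ (chartAt E4 q).symm ⁻¹' (chartAt E4 p).source with hO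
  have hOo : IsOpen O := (chartAt E4 q).isOpen_inter_preimage_symm (chartAt E4 p).open_source
  set K : Set E4 := tsupport c ∩ (chartAt E4 q).symm ⁻¹' ((chartAt E4 p).symm '' L) with hK
  have hKc : IsCompact K := by
    refine hc.2.of_isClosed_subset ?_ inter_subset_left
    exact ((chartAt E4 q).continuousOn_symm.mono hcs).preimage_isClosed_of_isClosed
      (isClosed_tsupport c) (isClosed_image hL hLs)
  have hKO : K ⊆ O := by
    rintro y ⟨hy1, z, hz, hzy⟩
    refine ⟨hcs hy1, ?_⟩
    rw [mem_preimage, ← hzy]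
    exact (chartAt E4 p).map_target (hLs hz)
  obtain ⟨ψ₁, h1cs, h1s, -, h1K, -⟩ := exists_cutoff hKc hOo hKO
  obtain ⟨ψ₂, h2cs, h2s, -, h2K, -⟩ := exists_cutoff h1cs.2 hOo h1s
  have hτ : ContDiffOn ℝ ∞ (trans (E := E4) q p) O := fun y hy =>
    (trans_contDiffAt hy.1 hy.2).contDiffWithinAt
  have hdτ : ContDiffOn ℝ ∞ (fderiv ℝ (trans (E := E4) q p)) O := fun y hy =>
    ((trans_contDiffAt hy.1 hy.2).fderiv_right (m := ∞) (by simp)).contDiffWithinAt
  have hP : ContDiffOn ℝ ∞ (fun y => c y • pullL (fderiv ℝ (trans (E := E4) q p) y)) O :=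
    hc.1.contDiffOn.smul (pullL_contDiff.comp_contDiffOn hdτ)
  refine ⟨fun y => ψ₁ y • (c y • pullL (fderiv ℝ (trans (E := E4) q p) y)),
    fun y => ψ₂ y • trans (E := E4) q p y,
    cs_smul_of_contDiffOn h1cs hOo h1s hP, cs_smul_of_contDiffOn h2cs hOo h2s hτ, ?_⟩
  intro b hb
  funext y
  by_cases hyK : y ∈ K
  · have hyO := hKO hyK
    have h1 : ψ₁ y = 1 := h1K y hyK
    have h2 : ψ₂ y = 1 := h2K y (subset_tsupport _ (by rw [Function.mem_support, h1]; exact one_ne_zero))
    simp only [h1, h2, one_smul, smul_apply, pullL_apply]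
    rw [rep_ext2_trans hyO.1 hyO.2]
  · -- both sides vanish
    have hl : c y • rep q (ext2 p b) y = 0 := by
      by_cases hyc : y ∈ tsupport c
      · have : (chartAt E4 q).symm y ∉ (chartAt E4 p).symm '' L := fun h => hyK ⟨hyc, h⟩
        rw [rep_ext2_zero hb (hcs hyc) this, smul_zero]
      · rw [image_eq_zero_of_notMem_tsupport hyc, zero_smul]
    rw [hl]
    by_cases hy1 : y ∈ tsupport ψ₁
    · have h2 : ψ₂ y = 1 := h2K y hy1
      have hyO := h1s hy1
      simp only [h2, one_smul, smul_apply, pullL_apply]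
      rw [← rep_ext2_trans hyO.1 hyO.2, hl, smul_zero]
    · simp only [image_eq_zero_of_notMem_tsupport hy1, zero_smul]
      rfl

/-! ### linearity of `ext2` -/

theorem ext2_add (p : M) (b c : E4 → Bil) : ext2 p (b + c) = ext2 p b + ext2 p c := by
  funext x
  ext u v
  by_cases hx : x ∈ (chartAt E4 p).source
  · have h1 := at2_ext2 hx (b + c) u v
    have h2 := at2_ext2 hx b u v
    have h3 := at2_ext2 hx c u v
    calc (ext2 p (b + c) x) u v = (b + c) (chartAt E4 p x) (tcc x p x u) (tcc x p x v) := h1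
      _ = b (chartAt E4 p x) (tcc x p x u) (tcc x p x v)
          + c (chartAt E4 p x) (tcc x p x u) (tcc x p x v) := rfl
      _ = (ext2 p b x) u v + (ext2 p c x) u v := by rw [← h2, ← h3]; rfl
  · have h1 : ∀ b : E4 → Bil, ext2 p b x = 0 := fun b => at2_ext2_off hx b
    rw [Pi.add_apply, h1, h1, h1]
    simp

theorem ext2_smul (p : M) (r : ℝ) (b : E4 → Bil) : ext2 p (r • b) = r • ext2 p b := by
  funext x
  ext u v
  by_cases hx : x ∈ (chartAt E4 p).source
  · have h1 := at2_ext2 hx (r • b) u v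
    have h2 := at2_ext2 hx b u v
    calc (ext2 p (r • b) x) u v = (r • b) (chartAt E4 p x) (tcc x p x u) (tcc x p x v) := h1
      _ = r * b (chartAt E4 p x) (tcc x p x u) (tcc x p x v) := rfl
      _ = r * (ext2 p b x) u v := by rw [← h2]; rfl
  · have h1 : ∀ b : E4 → Bil, ext2 p b x = 0 := fun b => at2_ext2_off hx b
    rw [Pi.smul_apply, h1, h1]
    simp

theorem ext2_zero (p : M) : ext2 p (0 : E4 → Bil) = 0 := by
  have := ext2_smul p 0 (0 : E4 → Bil)
  simpa using this

theorem ext2_sum (p : M) {ι : Type*} (s : Finset ι) (f : ι → E4 → Bil) :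
    ext2 p (∑ i ∈ s, f i) = ∑ i ∈ s, ext2 p (f i) := by
  classical
  induction s using Finset.induction_on with
  | empty => simpa using ext2_zero p
  | insert a s ha ih => rw [Finset.sum_insert ha, Finset.sum_insert ha, ext2_add, ih]

/-! ### localisation -/

variable (A : EAtl M)

/-- the localised form. -/
def loc (i : Fin A.n) (a : F2 E4 M) : E4 → Bil := fun y => A.c i y • rep (A.p i) a y

theorem loc_add (i : Fin A.n) (a b : F2 E4 M) : loc A i (a + b) = loc A i a + loc A i b := by
  funext y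
  have : loc A i (a + b) y = A.c i y • (rep (A.p i) a y + rep (A.p i) b y) := rfl
  rw [this, smul_add]
  rfl

theorem loc_smul (i : Fin A.n) (r : ℝ) (a : F2 E4 M) : loc A i (r • a) = r • loc A i a := by
  funext y
  have : loc A i (r • a) y = A.c i y • (r • rep (A.p i) a y) := rfl
  rw [this, smul_comm]
  rfl

theorem loc_zero (i : Fin A.n) : loc A i (0 : F2 E4 M) = 0 := by
  have := loc_smul A i 0 (0 : F2 E4 M)
  simpa using this

theorem loc_sum (i : Fin A.n) {ι : Type*} (s : Finset ι) (f : ι → F2 E4 M) :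
    loc A i (∑ j ∈ s, f j) = ∑ j ∈ s, loc A i (f j) := by
  classical
  induction s using Finset.induction_on with
  | empty => simpa using loc_zero A i
  | insert a s ha ih => rw [Finset.sum_insert ha, Finset.sum_insert ha, loc_add, ih]

theorem loc_off (i : Fin A.n) (a : F2 E4 M) {y : E4} (hy : y ∉ tsupport (A.c i)) :
    loc A i a y = 0 := by
  unfold loc
  rw [image_eq_zero_of_notMem_tsupport hy, zero_smul]

theorem tsupport_c (i : Fin A.n) : tsupport (A.c i) ⊆ (chartAt E4 (A.p i)).target :=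
  (A.supp i).trans ((A.U_sub_V i).trans (A.V_sub i))

theorem tsupport_loc (i : Fin A.n) (a : F2 E4 M) : tsupport (loc A i a) ⊆ tsupport (A.c i) :=
  closure_minimal (fun y hy => by
    by_contra h
    exact hy (loc_off A i a h)) (isClosed_tsupport _)

theorem cs_loc (i : Fin A.n) {a : F2 E4 M} (ha : Smooth2 a) : CS (loc A i a) :=
  cs_smul_of_contDiffOn (A.cs i) (chartAt E4 (A.p i)).open_target (tsupport_c A i) (ha.2 (A.p i))

theorem loc_alt (i : Fin A.n) {a : F2 E4 M} (ha : Smooth2 a) (y : E4) : Alt (loc A i a y) :=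
  Alt.smul' (fun v => ha.rep_self_zero _ _ v) _

theorem ext2_loc (i : Fin A.n) (a : F2 E4 M) (x : M) :
    ext2 (A.p i) (loc A i a) x = extF (A.p i) (A.c i) x • a x := by
  ext u v
  by_cases hx : x ∈ (chartAt E4 (A.p i)).source
  · have h1 := at2_ext2 hx (loc A i a) u v
    have h2 := apply_eq_rep hx a u v
    have h3 : extF (A.p i) (A.c i) x = A.c i (chartAt E4 (A.p i) x) := if_pos hx
    rw [h3]
    calc (ext2 (A.p i) (loc A i a) x) u v
        = (loc A i a) (chartAt E4 (A.p i) x) (tcc x (A.p i) x u) (tcc x (A.p i) x v) := h1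
      _ = A.c i (chartAt E4 (A.p i) x) * rep (A.p i) a (chartAt E4 (A.p i) x)
          (tcc x (A.p i) x u) (tcc x (A.p i) x v) := rfl
      _ = _ := by rw [← h2]; rfl
  · have h1 : ∀ b : E4 → Bil, ext2 (A.p i) b x = 0 := fun b => at2_ext2_off hx b
    have h3 : extF (A.p i) (A.c i) x = 0 := if_neg hx
    rw [h1, h3, zero_smul]

theorem sum_ext2_loc (a : F2 E4 M) : ∑ i, ext2 (A.p i) (loc A i a) = a := by
  funext x
  rw [Finset.sum_apply, Finset.sum_congr rfl fun i _ => ext2_loc A i a x, ← Finset.sum_smul,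
    A.sum_one x, one_smul]

/-! ### types -/

theorem at2_bpp (J : EndF E4 M) (a : F2 E4 M) (x : M) :
    at2 (bpp J a) x = antip (atJ J x) (at2 a x) := rfl

theorem antip_add (J : E4 →L[ℝ] E4) (b c : Bil) : antip J (b + c) = antip J b + antip J c := by
  rw [← antiL_apply, ← antiL_apply, ← antiL_apply, map_add]

theorem antip_smul (J : E4 →L[ℝ] E4) (r : ℝ) (b : Bil) : antip J (r • b) = r • antip J b := by
  rw [← antiL_apply, ← antiL_apply, map_smul]

theorem antip_zero' (J : E4 →L[ℝ] E4) : antip J (0 : Bil) = 0 := by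
  rw [← antiL_apply, map_zero]

/-- `b ↦ b''` as a linear map. -/
def bppL (J : EndF E4 M) : F2 E4 M →ₗ[ℝ] F2 E4 M where
  toFun := bpp J
  map_add' a b := by
    funext x
    exact antip_add _ _ _
  map_smul' r a := by
    funext x
    exact antip_smul _ _ _

theorem bppL_apply (J : EndF E4 M) (a : F2 E4 M) : bppL J a = bpp J a := rfl

theorem rep_bpp' {J : EndF E4 M} {a : F2 E4 M} {p : M} {y : E4}
    (hy : y ∈ (chartAt E4 p).target) :
    rep p (bpp J a) y = antip (repJ p J y) (rep p a y) := by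
  ext u v
  rw [antip_apply, rep_apply, rep_apply, rep_apply, repJ_apply, repJ_apply,
    tcc_cancel' (symm_mem hy), tcc_cancel' (symm_mem hy)]
  exact antip_apply _ _ _ _

theorem smooth2_bpp {J : EndF E4 M} {a : F2 E4 M} (hJ : SmoothJ J) (ha : Smooth2 a) :
    Smooth2 (bpp J a) := by
  refine ⟨fun x v => ?_, fun p => ?_⟩
  · rw [at2_bpp, antip_apply, ha.1, ha.1]; norm_num
  · have h1 : ContDiffOn ℝ ∞ (fun y => antiL (repJ p J y) (rep p a y)) (chartAt E4 p).target :=
      (antiL_contDiff.comp_contDiffOn (hJ p)).clm_apply (ha.2 p)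
    refine h1.congr fun y hy => ?_
    rw [rep_bpp' hy, antiL_apply]

theorem bpp_ext2 (J : EndF E4 M) (p : M) (b : E4 → Bil) :
    bpp J (ext2 p b) = ext2 p (fun y => antip (repJ p J y) (b y)) := by
  funext x
  ext u v
  by_cases hx : x ∈ (chartAt E4 p).source
  · have h1 := at2_ext2 hx (fun y => antip (repJ p J y) (b y)) u v
    have h2 : at2 (bpp J (ext2 p b)) x u v =
        at2 (ext2 p fun y => antip (repJ p J y) (b y)) x u v := by
      rw [h1, at2_bpp, antip_apply, antip_apply, at2_ext2 hx, at2_ext2 hx, apply_eq_repJ hx,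
        apply_eq_repJ hx]
    exact h2
  · have h1 : at2 (bpp J (ext2 p b)) x = 0 := by
      rw [at2_bpp, at2_ext2_off hx, antip_zero']
    have h2 : at2 (ext2 p (fun y => antip (repJ p J y) (b y))) x = 0 := at2_ext2_off hx _
    have h3 : at2 (bpp J (ext2 p b)) x u v =
        at2 (ext2 p fun y => antip (repJ p J y) (b y)) x u v := by rw [h1, h2]
    exact h3

theorem bpp_bpp {J : EndF E4 M} (hJ : ∀ x v, atJ J x (atJ J x v) = -v) {a : F2 E4 M} :
    bpp J (bpp J a) = bpp J a := by
  funext x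
  have h : at2 (bpp J (bpp J a)) x = at2 (bpp J a) x := by
    ext u v
    rw [at2_bpp, antip_apply, at2_bpp, antip_apply, antip_apply, hJ, hJ]
    simp only [map_neg, neg_apply, neg_neg]
    ring
  exact h

theorem repJ_sq {J : EndF E4 M} (hJ : ∀ x v, atJ J x (atJ J x v) = -v) {p : M} {y : E4}
    (hy : y ∈ (chartAt E4 p).target) (v : E4) : repJ p J y (repJ p J y v) = -v := by
  rw [repJ_apply, repJ_apply, tcc_cancel' (symm_mem hy), hJ, map_neg, tcc_cancel (symm_mem hy)]

end

end Crest.Agent.R240.Ell
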