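import Crest.Agent.R240.EllM2
import Crest.Agent.R240.E.Abs

/-!
Row 240, Lemma A (helper106), manifold part 3: seminorms, completeness, glued operators.
-/

set_option autoImplicit false
set_option maxSynthPendingDepth 3
set_option linter.unusedSectionVars false

open scoped ContDiff Manifold Topology
open Set Filter

namespace Crest.Agent.R240.Ell

noncomputable section

open Crest.Agent.R240.Ch Crest.Agent.R240.KLoc

variable {M : Type*} [TopologicalSpace M] [ChartedSpace E4 M] [IsManifold 𝓘(ℝ, E4) ∞ M]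

variable (M) in
/-- smooth two-forms. -/
def SmF : Submodule ℝ (F2 E4 M) where
  carrier := {a | Smooth2 a}
  add_mem' ha hb := Smooth2.add ha hb
  zero_mem' := smooth2_zero
  smul_mem' c _ ha := Smooth2.smul c ha

variable (M) in
/-- smooth closed two-forms. -/
def ZA : Submodule ℝ (F2 E4 M) where
  carrier := {a | Smooth2 a ∧ Closed2 a}
  add_mem' ha hb := ⟨Smooth2.add ha.1 hb.1, Closed2.add ha.1 hb.1 ha.2 hb.2⟩
  zero_mem' := ⟨smooth2_zero, closed2_zero⟩
  smul_mem' c _ ha := ⟨Smooth2.smul c ha.1, Closed2.smul c ha.1 ha.2⟩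

/-- smooth anti-invariant two-forms. -/
def XA (J : EndF E4 M) : Submodule ℝ (F2 E4 M) where
  carrier := {a | Smooth2 a ∧ bppL J a = a}
  add_mem' ha hb := ⟨Smooth2.add ha.1 hb.1, by rw [map_add, ha.2, hb.2]⟩
  zero_mem' := ⟨smooth2_zero, map_zero _⟩
  smul_mem' c _ ha := ⟨Smooth2.smul c ha.1, by rw [map_smul, ha.2]⟩

/-! ### gluing -/

variable (A : EAtl M)

/-- admissible local forms. -/
structure Adm (i : Fin A.n) (b : E4 → Bil) : Prop where
  cs : CS b
  alt : ∀ y, Alt (b y)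
  off : ∀ z ∉ closure (A.V i), b z = 0

theorem Adm.loc (i : Fin A.n) {a : F2 E4 M} (ha : Smooth2 a) : Adm A i (loc A i a) where
  cs := cs_loc A i ha
  alt := loc_alt A i ha
  off _ hz := loc_off A i a fun h => hz (subset_closure (A.U_sub_V i (A.supp i h)))

theorem Adm.sub {i : Fin A.n} {b c : E4 → Bil} (hb : Adm A i b) (hc : Adm A i c) :
    Adm A i (b - c) where
  cs := hb.cs.sub hc.cs
  alt y := by
    have h : (b - c) y = b y + (-1 : ℝ) • c y := by
      rw [Pi.sub_apply, neg_one_smul, sub_eq_add_neg]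
    rw [h]
    exact Alt.add' (hb.alt y) (Alt.smul' (hc.alt y) _)
  off z hz := by rw [Pi.sub_apply, hb.off z hz, hc.off z hz, sub_zero]

/-- the glued form. -/
def glob (g : Fin A.n → E4 → Bil) : F2 E4 M := ∑ i, ext2 (A.p i) (g i)

theorem glob_loc (a : F2 E4 M) : glob A (fun i => loc A i a) = a := sum_ext2_loc A a

theorem glob_add (g h : Fin A.n → E4 → Bil) :
    glob A (fun i => g i + h i) = glob A g + glob A h := by
  unfold glob
  rw [← Finset.sum_add_distrib]
  exact Finset.sum_congr rfl fun i _ => ext2_add _ _ _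

theorem glob_smul (r : ℝ) (g : Fin A.n → E4 → Bil) :
    glob A (fun i => r • g i) = r • glob A g := by
  unfold glob
  rw [Finset.smul_sum]
  exact Finset.sum_congr rfl fun i _ => ext2_smul _ _ _

theorem glob_sub (g h : Fin A.n → E4 → Bil) :
    glob A (fun i => g i - h i) = glob A g - glob A h := by
  have h1 := glob_add A g (fun i => (-1 : ℝ) • h i)
  rw [glob_smul, neg_one_smul, ← sub_eq_add_neg] at h1
  rw [← h1]
  congr 1
  funext i
  rw [neg_one_smul, sub_eq_add_neg]

theorem smooth2_ext2_adm [T2Space M] {i : Fin A.n} {b : E4 → Bil} (hb : Adm A i b) :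
    Smooth2 (ext2 (A.p i) b) :=
  smooth2_ext2 hb.cs.1 (A.compact_V i) (A.closure_V i) hb.off hb.alt

theorem smooth2_glob [T2Space M] {g : Fin A.n → E4 → Bil} (hg : ∀ i, Adm A i (g i)) :
    Smooth2 (glob A g) :=
  Submodule.sum_mem (SmF M) fun i _ => smooth2_ext2_adm A (hg i)

theorem exists_transC [T2Space M] (k : ℕ) : ∃ C, 0 ≤ C ∧ ∀ i j (b : E4 → Bil), CS b →
    (∀ z ∉ closure (A.V i), b z = 0) → nk k (loc A j (ext2 (A.p i) b)) ≤ C * nk k b := by
  have h1 : ∀ i j, ∃ C, 0 ≤ C ∧ ∀ (b : E4 → Bil), CS b →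
      (∀ z ∉ closure (A.V i), b z = 0) → nk k (loc A j (ext2 (A.p i) b)) ≤ C * nk k b := by
    intro i j
    obtain ⟨T, τ, hT, hτ, h⟩ := trans_bound (A.p i) (A.p j) (A.cs j) (tsupport_c A j)
      (A.compact_V i) (A.closure_V i)
    obtain ⟨C, hC0, hC⟩ := comp_bound hT hτ k
    refine ⟨C, hC0, fun b hb hz => nk_le ?_⟩
    have h2 := hC b _ hb.1 (hb.ckB_nk k)
    rw [← h b hz] at h2
    exact h2
  choose C hC0 hC using h1
  refine ⟨∑ i, ∑ j, C i j, Finset.sum_nonneg fun i _ => Finset.sum_nonneg fun j _ => hC0 i j,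
    fun i j b hb hz => (hC i j b hb hz).trans ?_⟩
  refine mul_le_mul_of_nonneg_right ?_ (nk_nonneg _ _)
  refine (Finset.single_le_sum (f := fun j => C i j) (fun j _ => hC0 i j)
    (Finset.mem_univ j)).trans ?_
  exact Finset.single_le_sum (f := fun i => ∑ j, C i j)
    (fun i _ => Finset.sum_nonneg fun j _ => hC0 i j) (Finset.mem_univ i)

/-- the `C^k` norm of a two-form. -/
def pn (k : ℕ) (a : F2 E4 M) : ℝ := ∑ i, nk k (loc A i a)

theorem pn_nonneg (k : ℕ) (a : F2 E4 M) : 0 ≤ pn A k a :=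
  Finset.sum_nonneg fun _ _ => nk_nonneg _ _

theorem nk_le_pn (k : ℕ) (i : Fin A.n) (a : F2 E4 M) : nk k (loc A i a) ≤ pn A k a :=
  Finset.single_le_sum (f := fun i => nk k (loc A i a)) (fun _ _ => nk_nonneg _ _)
    (Finset.mem_univ i)

theorem pn_mono {k l : ℕ} (h : k ≤ l) {a : F2 E4 M} (ha : Smooth2 a) : pn A k a ≤ pn A l a :=
  Finset.sum_le_sum fun i _ => nk_mono (cs_loc A i ha) h

theorem pn_add (k : ℕ) {a b : F2 E4 M} (ha : Smooth2 a) (hb : Smooth2 b) :
    pn A k (a + b) ≤ pn A k a + pn A k b := by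
  unfold pn
  rw [← Finset.sum_add_distrib]
  refine Finset.sum_le_sum fun i _ => ?_
  rw [loc_add]
  exact nk_add_le (cs_loc A i ha) (cs_loc A i hb) k

theorem pn_smul (k : ℕ) (r : ℝ) {a : F2 E4 M} (ha : Smooth2 a) :
    pn A k (r • a) = ‖r‖ * pn A k a := by
  unfold pn
  rw [Finset.mul_sum]
  refine Finset.sum_congr rfl fun i _ => ?_
  rw [loc_smul, nk_smul (cs_loc A i ha), Real.norm_eq_abs]

theorem exists_globC [T2Space M] (k : ℕ) : ∃ C, 0 ≤ C ∧ ∀ g : Fin A.n → E4 → Bil,
    (∀ i, Adm A i (g i)) → pn A k (glob A g) ≤ C * ∑ i, nk k (g i) := by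
  obtain ⟨C, hC0, hC⟩ := exists_transC A k
  refine ⟨A.n * C, by positivity, fun g hg => ?_⟩
  have h1 : ∀ j, nk k (loc A j (glob A g)) ≤ C * ∑ i, nk k (g i) := by
    intro j
    unfold glob
    rw [loc_sum, Finset.mul_sum]
    refine (nk_sum_le _ (fun i _ => cs_loc A j (smooth2_ext2_adm A (hg i))) k).trans ?_
    exact Finset.sum_le_sum fun i _ => hC i j (g i) (hg i).cs (hg i).off
  refine (Finset.sum_le_sum fun j _ => h1 j).trans ?_
  rw [Finset.sum_const, Finset.card_univ, Fintype.card_fin, nsmul_eq_mul, mul_assoc]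

/-- the seminorms on anti-invariant forms. -/
def pX (J : EndF E4 M) (k : ℕ) : Seminorm ℝ (XA J) :=
  Seminorm.of (fun w => pn A k w.1) (fun x y => pn_add A k x.2.1 y.2.1)
    (fun r x => pn_smul A k r x.2.1)

/-- the seminorms on closed forms. -/
def pZ (k : ℕ) : Seminorm ℝ (ZA M) :=
  Seminorm.of (fun w => pn A k w.1) (fun x y => pn_add A k x.2.1 y.2.1)
    (fun r x => pn_smul A k r x.2.1)

theorem pX_apply (J : EndF E4 M) (k : ℕ) (w : XA J) : pX A J k w = pn A k w.1 := rfl

theorem pZ_apply (k : ℕ) (w : ZA M) : pZ A k w = pn A k w.1 := rfl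

theorem pn_sep {a : F2 E4 M} (ha : Smooth2 a) (h : pn A 0 a = 0) : a = 0 := by
  have h1 : ∀ i, loc A i a = 0 := by
    intro i
    have h2 : nk 0 (loc A i a) ≤ 0 := (nk_le_pn A 0 i a).trans h.le
    funext y
    have h3 := (norm_le_nk (cs_loc A i ha) 0 y).trans h2
    exact norm_le_zero_iff.1 h3
  rw [← sum_ext2_loc A a]
  refine Finset.sum_eq_zero fun i _ => ?_
  rw [h1 i, ext2_zero]

theorem ext2_congr {p : M} {b c : E4 → Bil} (h : ∀ y ∈ (chartAt E4 p).target, b y = c y) :
    ext2 p b = ext2 p c := by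
  funext x
  by_cases hx : x ∈ (chartAt E4 p).source
  · unfold ext2
    rw [if_pos hx, if_pos hx, h _ ((chartAt E4 p).map_source hx)]
  · unfold ext2
    rw [if_neg hx, if_neg hx]

theorem loc_anti {J : EndF E4 M} {a : F2 E4 M} (ha : bpp J a = a) (i : Fin A.n) {y : E4}
    (hy : y ∈ (chartAt E4 (A.p i)).target) :
    antip (repJ (A.p i) J y) (loc A i a y) = loc A i a y := by
  unfold loc
  rw [antip_smul]
  congr 1
  rw [← rep_bpp' hy, ha]

theorem bppL_glob (J : EndF E4 M) (g : Fin A.n → E4 → Bil)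
    (h : ∀ i, ∀ y ∈ (chartAt E4 (A.p i)).target, antip (repJ (A.p i) J y) (g i y) = g i y) :
    bppL J (glob A g) = glob A g := by
  unfold glob
  rw [map_sum]
  refine Finset.sum_congr rfl fun i _ => ?_
  rw [bppL_apply, bpp_ext2]
  exact ext2_congr (h i)

theorem alt_of_altL {b : Bil} (h : altL b = (2 : ℝ) • b) : Alt b := by
  intro v
  have h1 := congrArg (fun c : Bil => c v v) h
  have h2 : ((2 : ℝ) • b) v v = 2 * b v v := rfl
  simp only [altL_apply, h2, sub_self] at h1
  linarith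

/-! ### completeness -/

theorem complete_X [T2Space M] (J : EndF E4 M) (u : ℕ → XA J)
    (hu : ∀ k, Summable fun n => pX A J k (u n)) :
    ∃ x, ∀ k, Tendsto (fun N => pX A J k (x - ∑ n ∈ Finset.range N, u n)) atTop (𝓝 0) := by
  have hsum : ∀ i k, Summable fun n => nk k (loc A i (u n).1) := fun i k =>
    Summable.of_nonneg_of_le (fun n => nk_nonneg _ _) (fun n => nk_le_pn A k i _) (hu k)
  have hsum' : ∀ N i k, Summable fun n => nk k (loc A i (u (n + N)).1) := fun N i k =>
    (summable_nat_add_iff (f := fun n => nk k (loc A i (u n).1)) N).2 (hsum i k)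
  have hS := fun N i => series (S := tsupport (A.c i)) (A.cs i).2 (fun n => loc A i (u (n + N)).1)
    (fun n => (cs_loc A i (u (n + N)).2.1).1) (fun n x hx => loc_off A i _ hx) (hsum' N i)
  set r : ℕ → Fin A.n → E4 → Bil := fun N i y => ∑' n, loc A i (u (n + N)).1 y with hr
  have hadm : ∀ N i, Adm A i (r N i) := by
    intro N i
    refine ⟨(hS N i).1, fun y => ?_, fun z hz => (hS N i).2.1 z fun h =>
      hz (subset_closure (A.U_sub_V i (A.supp i h)))⟩
    apply alt_of_altL
    rw [hr]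
    simp only
    rw [altL.map_tsum ((hS N i).2.2.1 y), ← tsum_const_smul'' (2 : ℝ)]
    exact tsum_congr fun n => altL_of_alt (loc_alt A i (u (n + N)).2.1 y)
  have hanti : ∀ N i, ∀ y ∈ (chartAt E4 (A.p i)).target,
      antip (repJ (A.p i) J y) (r N i y) = r N i y := by
    intro N i y hy
    rw [hr]
    simp only
    rw [← antiL_apply, (antiL _).map_tsum ((hS N i).2.2.1 y)]
    refine tsum_congr fun n => ?_
    rw [antiL_apply]
    exact loc_anti A (u (n + N)).2.2 i hy
  have hx : glob A (r 0) ∈ XA J := ⟨smooth2_glob A (hadm 0), bppL_glob A J _ (hanti 0)⟩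
  refine ⟨⟨glob A (r 0), hx⟩, fun k => ?_⟩
  obtain ⟨C, hC0, hC⟩ := exists_globC A k
  have key : ∀ N, pX A J k (⟨glob A (r 0), hx⟩ - ∑ n ∈ Finset.range N, u n) ≤
      C * ∑ i, ∑' n, nk k (loc A i (u (n + N)).1) := by
    intro N
    have h1 : ((⟨glob A (r 0), hx⟩ - ∑ n ∈ Finset.range N, u n : XA J) : F2 E4 M)
        = glob A (r N) := by
      have h2 : ((∑ n ∈ Finset.range N, u n : XA J) : F2 E4 M)
          = glob A (fun i => ∑ n ∈ Finset.range N, loc A i (u n).1) := by
        rw [AddSubmonoidClass.coe_finsetSum]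
        have h3 : ∀ i, ∑ n ∈ Finset.range N, loc A i (u n).1 =
            loc A i (∑ n ∈ Finset.range N, (u n).1) := fun i => (loc_sum A i _ _).symm
        simp only [h3]
        rw [glob_loc]
      have h4 : ((⟨glob A (r 0), hx⟩ - ∑ n ∈ Finset.range N, u n : XA J) : F2 E4 M)
          = glob A (r 0) - ((∑ n ∈ Finset.range N, u n : XA J) : F2 E4 M) := rfl
      rw [h4, h2, ← glob_sub]
      congr 1
      funext i y
      have h5 := ((hS 0 i).2.2.1 y).sum_add_tsum_nat_add N
      simp only [add_zero] at h5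
      rw [Pi.sub_apply, Finset.sum_apply]
      simp only [hr, add_zero]
      rw [← h5]
      abel
    rw [pX_apply, h1]
    refine (hC _ (hadm N)).trans ?_
    refine mul_le_mul_of_nonneg_left (Finset.sum_le_sum fun i _ => (hS N i).2.2.2 k) hC0
  have hlim : Tendsto (fun N => C * ∑ i, ∑' n, nk k (loc A i (u (n + N)).1)) atTop (𝓝 0) := by
    have h1 : Tendsto (fun N => ∑ i, ∑' n, nk k (loc A i (u (n + N)).1)) atTop (𝓝 (∑ _i, 0)) :=
      tendsto_finsetSum _ fun i _ => tendsto_sum_nat_add (fun n => nk k (loc A i (u n).1))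
    rw [Finset.sum_const_zero] at h1
    simpa using h1.const_mul C
  exact squeeze_zero (fun N => apply_nonneg _ _) key hlim

end

end Crest.Agent.R240.Ell
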