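import Crest.Agent.R240.En1
import Crest.Agent.R240.CutFun

/-!
Row 240 (S0371), BLOCK C (helper822): the energy inequality of Step 5 at fixed `e`.
-/

set_option autoImplicit false
set_option maxSynthPendingDepth 3
open scoped ContDiff
open MeasureTheory Crest.Agent.R240.CutFun

namespace Crest.Agent.R240.En

/-- The pointwise hypotheses at one point: `P` the 2-form, `j` the complex structure,
`du, a` covectors, `pp` the mass density, `t = -u`. -/
structure Pt (A e σ : ℝ) (j : E4 →L[ℝ] E4) (P : Bil) (du a : Cov) (pp t : ℝ) : Prop where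
  J_sq : ∀ v, j (j v) = -v
  J_bd : ‖j‖ ≤ A
  p_nonneg : 0 ≤ pp
  pos : ∀ ξ : Cov, 0 ≤ σ * W P (wed ξ (Jc j ξ)) + A * e ^ 2 * pp * ‖ξ‖ ^ 2
  anti : ∀ ξ η : Cov, |W P (wed ξ (Jc j η)) - W P (wed η (Jc j ξ))| ≤ A * e * pp * ‖ξ‖ * ‖η‖
  bd : ∀ ξ η : Cov, |W P (wed ξ η)| ≤ A * pp * ‖ξ‖ * ‖η‖
  sq : -(A * e ^ 2 * pp ^ 2) ≤ σ * W P P
  p_e : e ^ 2 * pp ≤ A
  du_e : e * ‖du‖ ≤ A
  t_ge : 1 ≤ t
  a_bd : ‖a‖ ≤ A * t

/-- the (almost nonnegative) quadratic form -/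
noncomputable def qq (A e σ : ℝ) (j : E4 →L[ℝ] E4) (P : Bil) (pp : ℝ) (ξ : Cov) : ℝ :=
  σ * W P (wed ξ (Jc j ξ)) + A * e ^ 2 * pp * ‖ξ‖ ^ 2

lemma Jc_add (j : E4 →L[ℝ] E4) (ξ η : Cov) : Jc j (ξ + η) = Jc j ξ + Jc j η := by
  ext v; simp; ring

lemma Jc_smul (j : E4 →L[ℝ] E4) (r : ℝ) (ξ : Cov) : Jc j (r • ξ) = r • Jc j ξ := by
  ext v; simp

lemma Jc_neg (j : E4 →L[ℝ] E4) (ξ : Cov) : Jc j (-ξ) = - Jc j ξ := by
  ext v; simp

lemma Jc_Jc {j : E4 →L[ℝ] E4} (h : ∀ v, j (j v) = -v) (ξ : Cov) : Jc j (Jc j ξ) = -ξ := by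
  ext v; simp [h]

lemma norm_Jc_le (j : E4 →L[ℝ] E4) (ξ : Cov) : ‖Jc j ξ‖ ≤ ‖ξ‖ * ‖j‖ := by
  unfold Jc
  rw [norm_neg]
  exact ContinuousLinearMap.opNorm_comp_le ξ j

section pt

variable {A e σ : ℝ} {j : E4 →L[ℝ] E4} {P : Bil} {du a : Cov} {pp t : ℝ}

lemma Pt.q_nonneg (h : Pt A e σ j P du a pp t) (ξ : Cov) : 0 ≤ qq A e σ j P pp ξ := h.pos ξ

lemma Pt.q_le (hA : 1 ≤ A) (he : 0 < e) (he1 : e ≤ 1) (hσ : |σ| = 1)
    (h : Pt A e σ j P du a pp t) (ξ : Cov) :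
    qq A e σ j P pp ξ ≤ (A ^ 2 + A) * pp * ‖ξ‖ ^ 2 := by
  unfold qq
  have h1 := h.bd ξ (Jc j ξ)
  have h2 : σ * W P (wed ξ (Jc j ξ)) ≤ |W P (wed ξ (Jc j ξ))| := by
    calc σ * W P (wed ξ (Jc j ξ)) ≤ |σ * W P (wed ξ (Jc j ξ))| := le_abs_self _
      _ = _ := by rw [abs_mul, hσ, one_mul]
  have h3 : ‖Jc j ξ‖ ≤ ‖ξ‖ * A :=
    (norm_Jc_le j ξ).trans (mul_le_mul_of_nonneg_left h.J_bd (norm_nonneg _))
  have hp := h.p_nonneg
  have h4 : A * pp * ‖ξ‖ * ‖Jc j ξ‖ ≤ A * pp * ‖ξ‖ * (‖ξ‖ * A) :=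
    mul_le_mul_of_nonneg_left h3 (by positivity)
  have h5 : A * e ^ 2 * pp * ‖ξ‖ ^ 2 ≤ A * pp * ‖ξ‖ ^ 2 := by
    have : e ^ 2 ≤ 1 := by nlinarith
    have h6 : 0 ≤ A * pp * ‖ξ‖ ^ 2 := by positivity
    nlinarith
  nlinarith

/-- the weighted Cauchy-Schwarz inequality -/
lemma Pt.cs (hA : 1 ≤ A) (he : 0 < e) (he1 : e ≤ 1) (hσ : |σ| = 1)
    (h : Pt A e σ j P du a pp t) (ξ η : Cov) {s : ℝ} (hs : 0 < s) :
    |W P (wed ξ (Jc j η))| ≤
      (s⁻¹ * qq A e σ j P pp ξ + s * qq A e σ j P pp η) / 2 + 2 * A * e * pp * ‖ξ‖ * ‖η‖ := by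
  have hp := h.p_nonneg
  set B : Cov → Cov → ℝ := fun ξ η => σ * W P (wed ξ (Jc j η)) with hB
  have hm : 0 ≤ A * e ^ 2 * pp := by positivity
  -- expansion
  have hexp : ∀ r : ℝ, 0 ≤ qq A e σ j P pp ξ + r * (B ξ η + B η ξ) + r ^ 2 * qq A e σ j P pp η
      + 2 * |r| * (A * e ^ 2 * pp) * ‖ξ‖ * ‖η‖ := by
    intro r
    have h0 := h.pos (ξ + r • η)
    have h1 : σ * W P (wed (ξ + r • η) (Jc j (ξ + r • η))) =
        B ξ ξ + r * (B ξ η + B η ξ) + r ^ 2 * B η η := by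
      simp only [hB, Jc_add, Jc_smul, wed_add_left, wed_add_right, wed_smul_left, wed_smul_right,
        W_add_right, W_smul_right]
      ring
    have h2 : ‖ξ + r • η‖ ^ 2 ≤ (‖ξ‖ + |r| * ‖η‖) ^ 2 := by
      apply pow_le_pow_left₀ (norm_nonneg _)
      refine (norm_add_le _ _).trans ?_
      rw [norm_smul, Real.norm_eq_abs]
    have h3 := mul_le_mul_of_nonneg_left h2 hm
    rw [h1] at h0
    have h4 : |r| ^ 2 = r ^ 2 := sq_abs r
    have h5 : A * e ^ 2 * pp * (‖ξ‖ + |r| * ‖η‖) ^ 2 = A * e ^ 2 * pp * ‖ξ‖ ^ 2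
        + 2 * |r| * (A * e ^ 2 * pp) * ‖ξ‖ * ‖η‖ + r ^ 2 * (A * e ^ 2 * pp * ‖η‖ ^ 2) := by
      rw [← h4]; ring
    rw [h5] at h3
    unfold qq
    simp only [hB] at h0 ⊢
    linarith
  have hsym : |B ξ η + B η ξ| ≤ s⁻¹ * qq A e σ j P pp ξ + s * qq A e σ j P pp η
      + 2 * (A * e ^ 2 * pp) * ‖ξ‖ * ‖η‖ := by
    rw [abs_le]
    have e1 := hexp s
    have e2 := hexp (-s)
    rw [abs_of_pos hs] at e1
    rw [abs_neg, abs_of_pos hs] at e2
    have hsi : 0 < s⁻¹ := inv_pos.mpr hs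
    have hss : s⁻¹ * s = 1 := inv_mul_cancel₀ hs.ne'
    constructor
    · have := mul_nonneg hsi.le e1
      have e3 : s⁻¹ * (qq A e σ j P pp ξ + s * (B ξ η + B η ξ) + s ^ 2 * qq A e σ j P pp η
        + 2 * s * (A * e ^ 2 * pp) * ‖ξ‖ * ‖η‖) = s⁻¹ * qq A e σ j P pp ξ + (s⁻¹ * s) * (B ξ η + B η ξ)
          + (s⁻¹ * s) * s * qq A e σ j P pp η + 2 * (s⁻¹ * s) * (A * e ^ 2 * pp) * ‖ξ‖ * ‖η‖ := by ring
      rw [e3, hss] at this
      linarith
    · have := mul_nonneg hsi.le e2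
      have e3 : s⁻¹ * (qq A e σ j P pp ξ + -s * (B ξ η + B η ξ) + (-s) ^ 2 * qq A e σ j P pp η
        + 2 * s * (A * e ^ 2 * pp) * ‖ξ‖ * ‖η‖) = s⁻¹ * qq A e σ j P pp ξ - (s⁻¹ * s) * (B ξ η + B η ξ)
          + (s⁻¹ * s) * s * qq A e σ j P pp η + 2 * (s⁻¹ * s) * (A * e ^ 2 * pp) * ‖ξ‖ * ‖η‖ := by ring
      rw [e3, hss] at this
      linarith
  have hanti : |B ξ η - B η ξ| ≤ A * e * pp * ‖ξ‖ * ‖η‖ := by
    have := h.anti ξ η
    simp only [hB]
    rw [← mul_sub, abs_mul, hσ, one_mul]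
    exact this
  have hW : |W P (wed ξ (Jc j η))| = |B ξ η| := by
    simp only [hB]; rw [abs_mul, hσ, one_mul]
  have hsplit : |B ξ η| ≤ (|B ξ η + B η ξ| + |B ξ η - B η ξ|) / 2 := by
    have := abs_add_le ((B ξ η + B η ξ) / 2) ((B ξ η - B η ξ) / 2)
    rw [abs_div, abs_div, abs_two] at this
    have e1 : (B ξ η + B η ξ) / 2 + (B ξ η - B η ξ) / 2 = B ξ η := by ring
    rw [e1] at this
    linarith
  rw [hW]
  have hee : A * e ^ 2 * pp * ‖ξ‖ * ‖η‖ ≤ A * e * pp * ‖ξ‖ * ‖η‖ := by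
    have h1 : 0 ≤ A * e * pp * ‖ξ‖ * ‖η‖ := by positivity
    have h2 : A * e ^ 2 * pp * ‖ξ‖ * ‖η‖ = e * (A * e * pp * ‖ξ‖ * ‖η‖) := by ring
    rw [h2]
    nlinarith
  have h1 : 0 ≤ A * e * pp * ‖ξ‖ * ‖η‖ := by positivity
  linarith

/-- the constant of the pointwise energy inequality -/
noncomputable def CE (A Z : ℝ) : ℝ :=
  4 * (A ^ 2 + A) * Z ^ 2 + 6 * A ^ 2 * Z + 2 * A ^ 3 + 2 * (A ^ 2 + A) * A ^ 4 + 4 * A ^ 4 + A ^ 2

/-- pointwise energy inequality -/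
lemma Pt.energy (hA : 1 ≤ A) (he : 0 < e) (he1 : e ≤ 1) (hσ : |σ| = 1)
    (h : Pt A e σ j P du a pp t) {K : ℝ} (hK0 : 0 < K) (hK : 1 ≤ Real.log K)
    {z Z : ℝ} (hz0 : 0 ≤ z) (hz1 : z ≤ 1) {dz : Cov} (hdz : ‖dz‖ ≤ Z) :
    (1 / 2) * (z ^ 2 * Df K t * qq A e σ j P pp du) - CE A Z * pp / Real.log K ≤
      2 * z * Hf K t * (σ * W P (wed dz (Jc j du + a)))
        + z ^ 2 * Df K t * (σ * W P (wed du (Jc j du + a)))
        + z ^ 2 * Hf K t * (σ * W P P) := by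
  have hp := h.p_nonneg
  have ht := h.t_ge
  have ht0 : 0 ≤ t := by linarith
  have hZ : 0 ≤ Z := (norm_nonneg _).trans hdz
  have hL : 0 < Real.log K := by linarith
  set L := Real.log K with hLdef
  set H := Hf K t with hHdef
  set D := Df K t with hDdef
  have hH : 0 < H := Hf_pos hK0 hK ht0
  have hD : 0 < D := Df_pos hK0 hK ht0
  have hH1 : H ≤ 1 / L := Hf_le' hK0 hK ht0
  have hHt : H * t ≤ 1 / L := by
    have := Hf_mul_le hK0 hK ht0
    have h1 : H * t ≤ H * (1 + t) := mul_le_mul_of_nonneg_left (by linarith) hH.le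
    exact h1.trans this
  have hDt2 : D * t ^ 2 ≤ 2 / L := by
    have := Df_mul_le hK0 hK ht0
    have h1 : D * t ^ 2 ≤ D * (1 + t) ^ 2 := mul_le_mul_of_nonneg_left (by nlinarith) hD.le
    exact h1.trans this
  have hDt : D * t ≤ 2 / L := by
    have h1 : D * t ≤ D * t ^ 2 := mul_le_mul_of_nonneg_left (by nlinarith) hD.le
    exact h1.trans hDt2
  have hD1 : D ≤ 2 / L := by
    have h1 : D ≤ D * t := by nlinarith
    exact h1.trans hDt
  have hHsq : H ^ 2 ≤ D / L := Hf_sq_le hK0 hK ht0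
  have hz2 : z ^ 2 ≤ 1 := by nlinarith
  have hz2' : 0 ≤ z ^ 2 := sq_nonneg z
  set q1 := qq A e σ j P pp dz with hq1
  set q2 := qq A e σ j P pp du with hq2
  set η : Cov := - Jc j a with hη
  set q3 := qq A e σ j P pp η with hq3
  have hq1n : 0 ≤ q1 := h.q_nonneg _
  have hq2n : 0 ≤ q2 := h.q_nonneg _
  have hq3n : 0 ≤ q3 := h.q_nonneg _
  have hη_norm : ‖η‖ ≤ A ^ 2 * t := by
    rw [hη, norm_neg]
    calc ‖Jc j a‖ ≤ ‖a‖ * ‖j‖ := norm_Jc_le j a
      _ ≤ (A * t) * A := mul_le_mul h.a_bd h.J_bd (norm_nonneg _) (by positivity)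
      _ = A ^ 2 * t := by ring
  have hJη : Jc j η = a := by
    rw [hη, Jc_neg, Jc_Jc h.J_sq, neg_neg]
  have hq1le : q1 ≤ (A ^ 2 + A) * pp * Z ^ 2 := by
    refine (h.q_le hA he he1 hσ dz).trans ?_
    exact mul_le_mul_of_nonneg_left (pow_le_pow_left₀ (norm_nonneg _) hdz 2) (by positivity)
  have hq3le : q3 ≤ (A ^ 2 + A) * pp * (A ^ 2 * t) ^ 2 := by
    refine (h.q_le hA he he1 hσ η).trans ?_
    exact mul_le_mul_of_nonneg_left (pow_le_pow_left₀ (norm_nonneg _) hη_norm 2) (by positivity)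
  have hsg : ∀ x : ℝ, |σ * x| = |x| := fun x => by rw [abs_mul, hσ, one_mul]
  have hlow : ∀ x : ℝ, -|x| ≤ σ * x := fun x => by
    have := neg_abs_le (σ * x); rwa [hsg] at this
  have hdu := h.du_e
  have hn : 0 ≤ ‖du‖ := norm_nonneg _
  have hzn : 0 ≤ ‖dz‖ := norm_nonneg _
  have han : 0 ≤ ‖a‖ := norm_nonneg _
  have hηn : 0 ≤ ‖η‖ := norm_nonneg _
  -- T1
  have T1 : -(z ^ 2 * D * q2 / 4 + (4 * (A ^ 2 + A) * Z ^ 2 + 4 * A ^ 2 * Z) * pp / L) ≤
      2 * z * H * (σ * W P (wed dz (Jc j du))) := by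
    rcases eq_or_lt_of_le hz0 with hz | hz
    · rw [← hz]
      have : 0 ≤ (4 * (A ^ 2 + A) * Z ^ 2 + 4 * A ^ 2 * Z) * pp / L := by positivity
      nlinarith
    · have hs : 0 < z * D / (4 * H) := by positivity
      have hc := h.cs hA he he1 hσ dz du hs
      have h1 : |W P (wed dz (Jc j du))| ≤
          ((z * D / (4 * H))⁻¹ * q1 + (z * D / (4 * H)) * q2) / 2 + 2 * A * e * pp * ‖dz‖ * ‖du‖ := hc
      have h2 : 2 * z * H * |W P (wed dz (Jc j du))| ≤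
          4 * (H ^ 2 / D) * q1 + z ^ 2 * D * q2 / 4 + 2 * z * H * (2 * A * e * pp * ‖dz‖ * ‖du‖) := by
        calc 2 * z * H * |W P (wed dz (Jc j du))| ≤ 2 * z * H *
            (((z * D / (4 * H))⁻¹ * q1 + (z * D / (4 * H)) * q2) / 2
              + 2 * A * e * pp * ‖dz‖ * ‖du‖) := mul_le_mul_of_nonneg_left h1 (by positivity)
          _ = _ := by field_simp
      have h3 : H ^ 2 / D ≤ 1 / L := by
        rw [div_le_div_iff₀ hD hL]
        rw [le_div_iff₀ hL] at hHsq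
        linarith
      have h4 : 4 * (H ^ 2 / D) * q1 ≤ 4 * (1 / L) * ((A ^ 2 + A) * pp * Z ^ 2) := by
        apply mul_le_mul _ hq1le hq1n (by positivity)
        linarith
      have h5 : 2 * z * H * (2 * A * e * pp * ‖dz‖ * ‖du‖) ≤ 4 * A ^ 2 * Z * pp * (1 / L) := by
        have e1 : 2 * z * H * (2 * A * e * pp * ‖dz‖ * ‖du‖) =
          (4 * A * pp) * ((z * ‖dz‖) * (e * ‖du‖) * H) := by ring
        have e2 : (z * ‖dz‖) * (e * ‖du‖) * H ≤ (Z * A) * (1 / L) := by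
          apply mul_le_mul _ hH1 hH.le (by positivity)
          apply mul_le_mul _ hdu (by positivity) hZ
          calc z * ‖dz‖ ≤ 1 * Z := mul_le_mul hz1 hdz hzn (by norm_num)
            _ = Z := one_mul _
        rw [e1]
        calc (4 * A * pp) * ((z * ‖dz‖) * (e * ‖du‖) * H) ≤ (4 * A * pp) * ((Z * A) * (1 / L)) :=
              mul_le_mul_of_nonneg_left e2 (by positivity)
          _ = _ := by ring
      have h6 := hlow (W P (wed dz (Jc j du)))
      have h7 : -(2 * z * H * |W P (wed dz (Jc j du))|) ≤ 2 * z * H * (σ * W P (wed dz (Jc j du))) := by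
        have := mul_le_mul_of_nonneg_left h6 (show 0 ≤ 2 * z * H by positivity)
        linarith
      have h8 : (4 * (A ^ 2 + A) * Z ^ 2 + 4 * A ^ 2 * Z) * pp / L
          = 4 * (1 / L) * ((A ^ 2 + A) * pp * Z ^ 2) + 4 * A ^ 2 * Z * pp * (1 / L) := by ring
      rw [h8]
      linarith
  -- T2
  have T2 : -(2 * A ^ 2 * Z * pp / L) ≤ 2 * z * H * (σ * W P (wed dz a)) := by
    have h1 := h.bd dz a
    have h2 : 2 * z * H * |W P (wed dz a)| ≤ 2 * A ^ 2 * Z * pp * (1 / L) := by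
      calc 2 * z * H * |W P (wed dz a)| ≤ 2 * z * H * (A * pp * ‖dz‖ * ‖a‖) :=
            mul_le_mul_of_nonneg_left h1 (by positivity)
        _ ≤ 2 * z * H * (A * pp * Z * (A * t)) := by
            apply mul_le_mul_of_nonneg_left _ (by positivity)
            exact mul_le_mul (mul_le_mul_of_nonneg_left hdz (by positivity)) h.a_bd han (by positivity)
        _ = (2 * A ^ 2 * Z * pp) * (z * (H * t)) := by ring
        _ ≤ (2 * A ^ 2 * Z * pp) * (1 * (1 / L)) := by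
            apply mul_le_mul_of_nonneg_left _ (by positivity)
            exact mul_le_mul hz1 hHt (by positivity) (by norm_num)
        _ = _ := by ring
    have h6 := hlow (W P (wed dz a))
    have h7 : -(2 * z * H * |W P (wed dz a)|) ≤ 2 * z * H * (σ * W P (wed dz a)) := by
      have := mul_le_mul_of_nonneg_left h6 (show 0 ≤ 2 * z * H by positivity)
      linarith
    have h8 : 2 * A ^ 2 * Z * pp / L = 2 * A ^ 2 * Z * pp * (1 / L) := by ring
    rw [h8]; linarith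
  -- T3
  have T3 : z ^ 2 * D * q2 - 2 * A ^ 3 * pp / L ≤ z ^ 2 * D * (σ * W P (wed du (Jc j du))) := by
    have h1 : σ * W P (wed du (Jc j du)) = q2 - A * e ^ 2 * pp * ‖du‖ ^ 2 := by
      simp only [hq2, qq]; ring
    have h2 : z ^ 2 * D * (A * e ^ 2 * pp * ‖du‖ ^ 2) ≤ 2 * A ^ 3 * pp * (1 / L) := by
      have e1 : (e * ‖du‖) ^ 2 ≤ A ^ 2 := pow_le_pow_left₀ (by positivity) hdu 2
      calc z ^ 2 * D * (A * e ^ 2 * pp * ‖du‖ ^ 2) = (A * pp) * ((z ^ 2 * D) * (e * ‖du‖) ^ 2) := by ring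
        _ ≤ (A * pp) * ((1 * (2 / L)) * A ^ 2) := by
            apply mul_le_mul_of_nonneg_left _ (by positivity)
            apply mul_le_mul _ e1 (by positivity) (by positivity)
            exact mul_le_mul hz2 hD1 hD.le (by norm_num)
        _ = _ := by ring
    have h8 : 2 * A ^ 3 * pp / L = 2 * A ^ 3 * pp * (1 / L) := by ring
    rw [h1, h8]; linarith
  -- T4
  have T4 : -(z ^ 2 * D * q2 / 4 + (2 * (A ^ 2 + A) * A ^ 4 + 4 * A ^ 4) * pp / L) ≤
      z ^ 2 * D * (σ * W P (wed du a)) := by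
    have hc := h.cs hA he he1 hσ du η (s := 2) (by norm_num)
    rw [hJη] at hc
    have h1 : |W P (wed du a)| ≤ q2 / 4 + q3 + 2 * A * e * pp * ‖du‖ * ‖η‖ := by
      have e1 : ((2:ℝ)⁻¹ * q2 + 2 * q3) / 2 = q2 / 4 + q3 := by ring
      have : |W P (wed du a)| ≤ ((2:ℝ)⁻¹ * q2 + 2 * q3) / 2 + 2 * A * e * pp * ‖du‖ * ‖η‖ := hc
      rw [e1] at this; exact this
    have h2 : z ^ 2 * D * |W P (wed du a)| ≤ z ^ 2 * D * (q2 / 4) + z ^ 2 * D * q3
        + z ^ 2 * D * (2 * A * e * pp * ‖du‖ * ‖η‖) := by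
      calc z ^ 2 * D * |W P (wed du a)| ≤ z ^ 2 * D * (q2 / 4 + q3 + 2 * A * e * pp * ‖du‖ * ‖η‖) :=
            mul_le_mul_of_nonneg_left h1 (by positivity)
        _ = _ := by ring
    have h3 : z ^ 2 * D * q3 ≤ 2 * (A ^ 2 + A) * A ^ 4 * pp * (1 / L) := by
      calc z ^ 2 * D * q3 ≤ z ^ 2 * D * ((A ^ 2 + A) * pp * (A ^ 2 * t) ^ 2) :=
            mul_le_mul_of_nonneg_left hq3le (by positivity)
        _ = ((A ^ 2 + A) * A ^ 4 * pp) * (z ^ 2 * (D * t ^ 2)) := by ring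
        _ ≤ ((A ^ 2 + A) * A ^ 4 * pp) * (1 * (2 / L)) := by
            apply mul_le_mul_of_nonneg_left _ (by positivity)
            exact mul_le_mul hz2 hDt2 (by positivity) (by norm_num)
        _ = _ := by ring
    have h4 : z ^ 2 * D * (2 * A * e * pp * ‖du‖ * ‖η‖) ≤ 4 * A ^ 4 * pp * (1 / L) := by
      calc z ^ 2 * D * (2 * A * e * pp * ‖du‖ * ‖η‖)
          = (2 * A * pp) * ((z ^ 2 * D) * ((e * ‖du‖) * ‖η‖)) := by ring
        _ ≤ (2 * A * pp) * ((1 * D) * (A * (A ^ 2 * t))) := by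
            apply mul_le_mul_of_nonneg_left _ (by positivity)
            apply mul_le_mul _ _ (by positivity) (by positivity)
            · exact mul_le_mul_of_nonneg_right hz2 hD.le
            · exact mul_le_mul hdu hη_norm hηn (by positivity)
        _ = (2 * A ^ 4 * pp) * (D * t) := by ring
        _ ≤ (2 * A ^ 4 * pp) * (2 / L) := mul_le_mul_of_nonneg_left hDt (by positivity)
        _ = _ := by ring
    have h6 := hlow (W P (wed du a))
    have h7 : -(z ^ 2 * D * |W P (wed du a)|) ≤ z ^ 2 * D * (σ * W P (wed du a)) := by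
      have := mul_le_mul_of_nonneg_left h6 (show 0 ≤ z ^ 2 * D by positivity)
      linarith
    have h8 : (2 * (A ^ 2 + A) * A ^ 4 + 4 * A ^ 4) * pp / L
        = 2 * (A ^ 2 + A) * A ^ 4 * pp * (1 / L) + 4 * A ^ 4 * pp * (1 / L) := by ring
    rw [h8]; linarith
  -- T5
  have T5 : -(A ^ 2 * pp / L) ≤ z ^ 2 * H * (σ * W P P) := by
    have h1 := mul_le_mul_of_nonneg_left h.sq (show 0 ≤ z ^ 2 * H by positivity)
    have h2 : z ^ 2 * H * (A * e ^ 2 * pp ^ 2) ≤ A ^ 2 * pp * (1 / L) := by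
      calc z ^ 2 * H * (A * e ^ 2 * pp ^ 2) = (A * pp) * ((z ^ 2 * H) * (e ^ 2 * pp)) := by ring
        _ ≤ (A * pp) * ((1 * (1 / L)) * A) := by
            apply mul_le_mul_of_nonneg_left _ (by positivity)
            apply mul_le_mul _ h.p_e (by positivity) (by positivity)
            exact mul_le_mul hz2 hH1 hH.le (by norm_num)
        _ = _ := by ring
    have h8 : A ^ 2 * pp / L = A ^ 2 * pp * (1 / L) := by ring
    rw [h8]; linarith
  -- sum
  have hs1 : W P (wed dz (Jc j du + a)) = W P (wed dz (Jc j du)) + W P (wed dz a) := by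
    rw [wed_add_right, W_add_right]
  have hs2 : W P (wed du (Jc j du + a)) = W P (wed du (Jc j du)) + W P (wed du a) := by
    rw [wed_add_right, W_add_right]
  rw [hs1, hs2]
  have hCE : CE A Z * pp / L = (4 * (A ^ 2 + A) * Z ^ 2 + 4 * A ^ 2 * Z) * pp / L
      + 2 * A ^ 2 * Z * pp / L + 2 * A ^ 3 * pp / L
      + (2 * (A ^ 2 + A) * A ^ 4 + 4 * A ^ 4) * pp / L + A ^ 2 * pp / L := by
    unfold CE; ring
  rw [hCE]
  linarith

end pt

/-- the data of Step 5 at fixed `e` on a compact set `K0` -/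
structure Dat (A e σ : ℝ) (K0 : Set E4) (J : E4 → E4 →L[ℝ] E4) (Φ : E4 → Bil) (u : E4 → ℝ)
    (a : E4 → Cov) (p : E4 → ℝ) : Prop where
  hA : 1 ≤ A
  he : 0 < e
  he1 : e ≤ 1
  hσ : |σ| = 1
  K0c : IsCompact K0
  J_sm : ContDiff ℝ 1 J
  Φ_sm : ContDiff ℝ 1 Φ
  Φ_alt : ∀ x, Alt (Φ x)
  Φ_cl : ∀ x ∈ K0, Cl Φ x
  u_sm : ContDiff ℝ 2 u
  a_sm : ContDiff ℝ 1 a
  id : ∀ x ∈ K0, Φ x = d1 (fun y => Jc (J y) (fderiv ℝ u y) + a y) x
  p_int : IntegrableOn p K0
  p_mass : ∫ x in K0, p x ≤ A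
  pt : ∀ x ∈ K0, Pt A e σ (J x) (Φ x) (fderiv ℝ u x) (a x) (p x) (- u x)

/-- a `C^1` function cut off composed with a function smooth on `[0,∞)` -/
lemma contDiff_cut {F : ℝ → ℝ} (hF : ∀ t, 0 ≤ t → ContDiffAt ℝ 1 F t) {f u : E4 → ℝ}
    (hf : ContDiff ℝ 1 f) (hu : ContDiff ℝ 2 u) (hs : ∀ x ∈ tsupport f, 1 ≤ - u x) :
    ContDiff ℝ 1 (fun x => f x * F (- u x)) := by
  rw [contDiff_iff_contDiffAt]
  intro x
  by_cases hx : x ∈ tsupport f
  · refine hf.contDiffAt.mul ?_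
    have h1 := hF (- u x) (by linarith [hs x hx])
    exact h1.comp x ((hu.of_le (by norm_num)).contDiffAt.neg)
  · have h1 : (fun x => f x * F (- u x)) =ᶠ[nhds x] fun _ => 0 := by
      have := notMem_tsupport_iff_eventuallyEq.mp hx
      filter_upwards [this] with y hy
      simp [hy]
    exact contDiffAt_const.congr_of_eventuallyEq h1

lemma Jc_eq_comp (j : E4 →L[ℝ] E4) (ξ : Cov) : Jc j ξ = -(ξ.comp j) := rfl

lemma contDiff_Jc {J : E4 → E4 →L[ℝ] E4} (hJ : ContDiff ℝ 1 J) {ξ : E4 → Cov}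
    (hξ : ContDiff ℝ 1 ξ) : ContDiff ℝ 1 (fun x => Jc (J x) (ξ x)) := by
  unfold Jc
  exact (hξ.clm_comp hJ).neg

lemma continuous_W {b c : E4 → Bil} (hb : Continuous b) (hc : Continuous c) :
    Continuous fun x => W (b x) (c x) := by
  unfold W ent
  have h : ∀ (f : E4 → Bil), Continuous f → ∀ i j : Fin 4, Continuous fun x => f x (ee i) (ee j) :=
    fun f hf i j => (hf.clm_apply continuous_const).clm_apply continuous_const
  have hb' := h b hb
  have hc' := h c hc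
  exact ((((((hb' 0 1).mul (hc' 2 3)).sub ((hb' 0 2).mul (hc' 1 3))).add
    ((hb' 0 3).mul (hc' 1 2))).add ((hb' 1 2).mul (hc' 0 3))).sub
    ((hb' 1 3).mul (hc' 0 2))).add ((hb' 2 3).mul (hc' 0 1))

lemma continuous_d1 {S : E4 → Cov} (hS : ContDiff ℝ 1 S) : Continuous (d1 S) := by
  unfold d1
  have h := hS.continuous_fderiv one_ne_zero
  have h2 : Continuous fun x => (fderiv ℝ S x).flip :=
    (ContinuousLinearMap.flipₗᵢ ℝ E4 E4 ℝ).continuous.comp h
  exact h.sub h2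

lemma continuous_wed {ξ η : E4 → Cov} (hξ : Continuous ξ) (hη : Continuous η) :
    Continuous fun x => wed (ξ x) (η x) := by
  unfold wed
  have h1 : ∀ (f g : E4 → Cov), Continuous f → Continuous g →
      Continuous fun x => ((f x).smulRight (g x) : Bil) := by
    intro f g hf hg
    exact ((ContinuousLinearMap.smulRightL ℝ E4 Cov).continuous.comp hf).clm_apply hg
  have h2 := h1 _ _ hξ hη
  have h3 := h1 _ _ hη hξ
  have h4 := h2.add h3.neg
  refine h4.congr fun x => ?_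
  exact (sub_eq_add_neg _ _).symm

section integrated

variable {A e σ : ℝ} {K0 : Set E4} {J : E4 → E4 →L[ℝ] E4} {Φ : E4 → Bil} {u : E4 → ℝ}
  {a : E4 → Cov} {p : E4 → ℝ}

/-- the energy density is integrable on `K0` -/
lemma Dat.integrable (h : Dat A e σ K0 J Φ u a p) {w : E4 → ℝ} (hw : ContinuousOn w K0) :
    IntegrableOn (fun x => w x * qq A e σ (J x) (Φ x) (p x) (fderiv ℝ u x)) K0 := by
  have hdu : Continuous (fderiv ℝ u) := h.u_sm.continuous_fderiv (by norm_num)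
  have h1 : Continuous fun x => σ * W (Φ x) (wed (fderiv ℝ u x) (Jc (J x) (fderiv ℝ u x))) := by
    refine continuous_const.mul (continuous_W h.Φ_sm.continuous (continuous_wed hdu ?_))
    unfold Jc
    exact (hdu.clm_comp h.J_sm.continuous).neg
  have h2 : Continuous fun x => A * e ^ 2 * ‖fderiv ℝ u x‖ ^ 2 :=
    continuous_const.mul (hdu.norm.pow 2)
  have h3 : IntegrableOn (fun x => w x * (σ * W (Φ x) (wed (fderiv ℝ u x)
      (Jc (J x) (fderiv ℝ u x))))) K0 :=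
    (hw.mul h1.continuousOn).integrableOn_compact h.K0c
  have h4 : IntegrableOn (fun x => (w x * (A * e ^ 2 * ‖fderiv ℝ u x‖ ^ 2)) * p x) K0 :=
    h.p_int.continuousOn_mul (hw.mul h2.continuousOn) h.K0c
  refine (h3.add h4).congr_fun ?_ h.K0c.measurableSet
  intro x _
  simp only [qq, Pi.add_apply]
  ring

/-- **Energy inequality** -/
theorem energy (h : Dat A e σ K0 J Φ u a p) {K : ℝ} (hK0 : 0 < K) (hK : 1 ≤ Real.log K)
    {ζ : E4 → ℝ} {Z : ℝ} (hζ : ContDiff ℝ 1 ζ) (hζs : tsupport ζ ⊆ K0)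
    (hζ0 : ∀ x, 0 ≤ ζ x) (hζ1 : ∀ x, ζ x ≤ 1) (hZ : ∀ x, ‖fderiv ℝ ζ x‖ ≤ Z) :
    ∫ x in K0, ζ x ^ 2 * Df K (- u x) * qq A e σ (J x) (Φ x) (p x) (fderiv ℝ u x) ≤
      2 * CE A Z * A / Real.log K := by
  have hL : 0 < Real.log K := by linarith
  have hA0 : 0 ≤ A := by linarith [h.hA]
  have hZ0 : 0 ≤ Z := (norm_nonneg _).trans (hZ 0)
  set γ : E4 → Cov := fun y => Jc (J y) (fderiv ℝ u y) + a y with hγ
  have hdu1 : ContDiff ℝ 1 (fderiv ℝ u) := h.u_sm.fderiv_right (by norm_num)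
  have hγsm : ContDiff ℝ 1 γ := (contDiff_Jc h.J_sm hdu1).add h.a_sm
  set f : E4 → ℝ := fun x => ζ x ^ 2 * Hf K (- u x) with hf
  have hts : tsupport (fun x => ζ x ^ 2) ⊆ tsupport ζ := by
    apply closure_mono
    intro x hx hx'
    apply hx
    simp [hx']
  have hfsm : ContDiff ℝ 1 f :=
    contDiff_cut (fun t ht => contDiffAt_Hf hK0 hK ht) (hζ.pow 2) h.u_sm
      (fun x hx => (h.pt x (hζs (hts hx))).t_ge)
  set S : E4 → Cov := fun x => f x • γ x with hS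
  have hSsm : ContDiff ℝ 1 S := hfsm.smul hγsm
  have hSt : tsupport S ⊆ tsupport ζ := by
    apply closure_mono
    intro x hx hx'
    apply hx
    simp [hS, hf, hx']
  have hSc : HasCompactSupport S := h.K0c.of_isClosed_subset (isClosed_tsupport _) (hSt.trans hζs)
  have hst := stokes h.Φ_sm h.Φ_alt hSsm hSc (fun x hx => h.Φ_cl x (hζs (hSt hx)))
  -- pointwise formula on K0
  have hform : ∀ x ∈ K0, W (Φ x) (d1 S x) =
      2 * ζ x * Hf K (- u x) * (W (Φ x) (wed (fderiv ℝ ζ x) (γ x)))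
        + ζ x ^ 2 * Df K (- u x) * (W (Φ x) (wed (fderiv ℝ u x) (γ x)))
        + ζ x ^ 2 * Hf K (- u x) * (W (Φ x) (Φ x)) := by
    intro x hx
    have ht := (h.pt x hx).t_ge
    have h1 : d1 S x = wed (fderiv ℝ f x) (γ x) + f x • d1 γ x :=
      d1_smul ((hfsm.differentiable one_ne_zero) x) ((hγsm.differentiable one_ne_zero) x)
    have h2 : HasFDerivAt ζ (fderiv ℝ ζ x) x := ((hζ.differentiable one_ne_zero) x).hasFDerivAt
    have h3 : HasFDerivAt u (fderiv ℝ u x) x :=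
      ((h.u_sm.differentiable (by norm_num)) x).hasFDerivAt
    have h4 : HasFDerivAt (fun y => Hf K (- u y)) (Df K (- u x) • fderiv ℝ u x) x :=
      (hasDerivAt_Hf_neg hK0 hK (by linarith)).comp_hasFDerivAt x h3
    have h5 : HasFDerivAt (fun y => ζ y ^ 2) ((2 * ζ x) • fderiv ℝ ζ x) x := by
      have := h2.pow 2
      simpa using this
    have h6 : fderiv ℝ f x = (ζ x ^ 2 * Df K (- u x)) • fderiv ℝ u x
        + (2 * ζ x * Hf K (- u x)) • fderiv ℝ ζ x := by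
      have := (h5.mul h4).fderiv
      have h8 : fderiv ℝ f x = fderiv ℝ ((fun y => ζ y ^ 2) * fun y => Hf K (- u y)) x := rfl
      rw [h8, this]
      ext v
      simp
      ring
    have h7 : d1 γ x = Φ x := (h.id x hx).symm
    rw [h1, h7, h6, wed_add_left, wed_smul_left, wed_smul_left, W_add_right, W_add_right,
      W_smul_right, W_smul_right, W_smul_right]
    ring
  have hzero : ∀ x, x ∉ K0 → W (Φ x) (d1 S x) = 0 := by
    intro x hx
    have hx' : x ∉ tsupport S := fun h' => hx (hζs (hSt h'))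
    have h1 : S =ᶠ[nhds x] fun _ => 0 := notMem_tsupport_iff_eventuallyEq.mp hx'
    have h2 : fderiv ℝ S x = 0 := by
      rw [h1.fderiv_eq]; simp
    simp [W, ent, h2]
  have hst2 : ∫ x in K0, W (Φ x) (d1 S x) = 0 := by
    rw [setIntegral_eq_integral_of_forall_compl_eq_zero hzero]; exact hst
  have hcont : Continuous fun x => W (Φ x) (d1 S x) :=
    continuous_W h.Φ_sm.continuous (continuous_d1 hSsm)
  have hintW : IntegrableOn (fun x => σ * W (Φ x) (d1 S x)) K0 :=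
    (continuous_const.mul hcont).continuousOn.integrableOn_compact h.K0c
  have hwcont : ContinuousOn (fun x => ζ x ^ 2 * Df K (- u x)) K0 := by
    intro x hx
    have ht := (h.pt x hx).t_ge
    have h1 : ContinuousAt (Df K) (- u x) :=
      (contDiffAt_Df (n := 1) hK0 hK (by linarith)).continuousAt
    have h2 : ContinuousAt (fun y => - u y) x := (h.u_sm.continuous.neg).continuousAt
    exact (((hζ.continuous.pow 2).continuousAt).mul
      (ContinuousAt.comp (f := fun y => - u y) (g := Df K) h1 h2)).continuousWithinAt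
  have hG := h.integrable hwcont
  have hP : IntegrableOn (fun x => CE A Z * p x / Real.log K) K0 := by
    have h1 : IntegrableOn (fun x => CE A Z / Real.log K * p x) K0 :=
      h.p_int.const_mul (CE A Z / Real.log K)
    refine h1.congr_fun ?_ h.K0c.measurableSet
    intro x _
    ring
  have hmono : ∫ x in K0, ((1 / 2) * (ζ x ^ 2 * Df K (- u x) *
        qq A e σ (J x) (Φ x) (p x) (fderiv ℝ u x)) - CE A Z * p x / Real.log K)
      ≤ ∫ x in K0, σ * W (Φ x) (d1 S x) := by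
    apply setIntegral_mono_on ((hG.const_mul _).sub hP) hintW h.K0c.measurableSet
    intro x hx
    have := (h.pt x hx).energy h.hA h.he h.he1 h.hσ hK0 hK (hζ0 x) (hζ1 x) (hZ x)
    rw [hform x hx]
    refine this.trans (le_of_eq ?_)
    ring
  rw [integral_sub (hG.const_mul _) hP, integral_const_mul, integral_const_mul, hst2, mul_zero]
    at hmono
  have hPv : ∫ x in K0, CE A Z * p x / Real.log K = CE A Z * (∫ x in K0, p x) / Real.log K := by
    rw [← integral_const_mul, ← integral_div]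
  have hCE0 : 0 ≤ CE A Z := by unfold CE; positivity
  have hPle : CE A Z * (∫ x in K0, p x) / Real.log K ≤ CE A Z * A / Real.log K := by
    apply div_le_div_of_nonneg_right _ hL.le
    exact mul_le_mul_of_nonneg_left h.p_mass hCE0
  rw [hPv] at hmono
  have : 2 * CE A Z * A / Real.log K = 2 * (CE A Z * A / Real.log K) := by ring
  rw [this]
  linarith

end integrated

end Crest.Agent.R240.En
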