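import Crest.Agent.R240.En2
import Crest.Agent.R240.Lin5

/-!
Row 240 (S0371), BLOCK C (helper822): `|∫ g_K(-u) Φ ∧ dS| ≤ C / √(log K)`.
-/

set_option autoImplicit false
set_option maxSynthPendingDepth 3
open scoped ContDiff
open MeasureTheory Crest.Agent.R240.CutFun

namespace Crest.Agent.R240.En

lemma contDiff_cutS {F : ℝ → ℝ} (hF : ∀ t, 0 ≤ t → ContDiffAt ℝ 1 F t) {S : E4 → Cov}
    {u : E4 → ℝ} (hS : ContDiff ℝ 1 S) (hu : ContDiff ℝ 2 u) (hs : ∀ x ∈ tsupport S, 1 ≤ - u x) :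
    ContDiff ℝ 1 (fun x => F (- u x) • S x) := by
  rw [contDiff_iff_contDiffAt]
  intro x
  by_cases hx : x ∈ tsupport S
  · have h1 := hF (- u x) (by linarith [hs x hx])
    have h2 : ContDiffAt ℝ 1 (fun x => F (- u x)) x :=
      h1.comp x ((hu.of_le (by norm_num)).contDiffAt.neg)
    exact h2.smul hS.contDiffAt
  · have h1 : (fun x => F (- u x) • S x) =ᶠ[nhds x] fun _ => 0 := by
      have := notMem_tsupport_iff_eventuallyEq.mp hx
      filter_upwards [this] with y hy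
      simp [hy]
    exact contDiffAt_const.congr_of_eventuallyEq h1

lemma d1_zero_of_notMem {S : E4 → Cov} {x : E4} (hx : x ∉ tsupport S) : d1 S x = 0 := by
  have h1 : S =ᶠ[nhds x] fun _ => 0 := notMem_tsupport_iff_eventuallyEq.mp hx
  have h2 : fderiv ℝ S x = 0 := by
    rw [h1.fderiv_eq]; simp
  ext v w
  simp [h2]

lemma W_zero_right (b : Bil) : W b 0 = 0 := by simp [W, ent]

section pt

variable {A e σ : ℝ} {j : E4 →L[ℝ] E4} {P : Bil} {du a : Cov} {pp t : ℝ}

/-- pointwise bound for the cut-off term -/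
lemma Pt.cut (hA : 1 ≤ A) (he : 0 < e) (he1 : e ≤ 1) (hσ : |σ| = 1)
    (h : Pt A e σ j P du a pp t) {K : ℝ} (hK0 : 0 < K) (hK : 1 ≤ Real.log K)
    {Ψ : ℝ} {S : Cov} (hS : ‖S‖ ≤ Ψ) :
    |dgf K t * W P (wed du S)| ≤
      (1 / 2) * √(Real.log K) * Cτ ^ 2 * (Df K t * qq A e σ j P pp du)
        + ((1 / 2) * (A ^ 2 + A) * A ^ 2 * Ψ ^ 2 + 4 * A ^ 3 * Ψ * Cτ) * pp / √(Real.log K) := by
  have hp := h.p_nonneg
  have ht := h.t_ge
  have ht0 : 0 ≤ t := by linarith
  have hΨ : 0 ≤ Ψ := (norm_nonneg _).trans hS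
  have hL : 0 < Real.log K := by linarith
  set L := Real.log K with hLdef
  set D := Df K t with hDdef
  have hD : 0 < D := Df_pos hK0 hK ht0
  have hr : 0 < √L := Real.sqrt_pos.mpr hL
  have hrr : √L * √L = L := Real.mul_self_sqrt hL.le
  have hCτ : 0 < Cτ := Cτ_pos
  set η : Cov := - Jc j S with hη
  have hJη : Jc j η = S := by
    rw [hη, Jc_neg, Jc_Jc h.J_sq, neg_neg]
  have hηn : ‖η‖ ≤ A * Ψ := by
    rw [hη, norm_neg]
    calc ‖Jc j S‖ ≤ ‖S‖ * ‖j‖ := norm_Jc_le j S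
      _ ≤ Ψ * A := mul_le_mul hS h.J_bd (norm_nonneg _) hΨ
      _ = A * Ψ := by ring
  set q2 := qq A e σ j P pp du with hq2
  set q3 := qq A e σ j P pp η with hq3
  have hq2n : 0 ≤ q2 := h.q_nonneg _
  have hq3n : 0 ≤ q3 := h.q_nonneg _
  have hq3le : q3 ≤ (A ^ 2 + A) * pp * (A * Ψ) ^ 2 := by
    refine (h.q_le hA he he1 hσ η).trans ?_
    exact mul_le_mul_of_nonneg_left (pow_le_pow_left₀ (norm_nonneg _) hηn 2) (by positivity)
  set g := dgf K t with hg
  have hg2 : g ^ 2 ≤ Cτ ^ 2 * D := dgf_sq_le hK0 hK ht0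
  have hDL : D ≤ 2 / L := by
    have := Df_mul_le hK0 hK ht0
    have h0 : 1 ≤ (1 + t) ^ 2 := by nlinarith
    have h1 : D ≤ D * (1 + t) ^ 2 := le_mul_of_one_le_right hD.le h0
    exact h1.trans this
  have hgabs : |g| ≤ 2 * Cτ / √L := by
    rw [le_div_iff₀ hr]
    have h1 : (|g| * √L) ^ 2 ≤ (2 * Cτ) ^ 2 := by
      rw [mul_pow, sq_abs]
      have h2 : √L ^ 2 = L := by rw [pow_two]; exact hrr
      rw [h2]
      have h3 : g ^ 2 * L ≤ (Cτ ^ 2 * (2 / L)) * L :=
        mul_le_mul_of_nonneg_right (hg2.trans (mul_le_mul_of_nonneg_left hDL (by positivity))) hL.le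
      have h4 : (Cτ ^ 2 * (2 / L)) * L = 2 * Cτ ^ 2 := by field_simp
      nlinarith
    exact (sq_le_sq₀ (by positivity) (by positivity)).mp h1
  rcases eq_or_ne g 0 with h0 | h0
  · rw [h0, zero_mul, abs_zero]
    positivity
  have hga : 0 < |g| := abs_pos.mpr h0
  have hs : 0 < (√L * |g|)⁻¹ := by positivity
  have hc := h.cs hA he he1 hσ du η hs
  rw [hJη, inv_inv] at hc
  rw [abs_mul]
  have h1 : |g| * |W P (wed du S)| ≤ |g| * ((√L * |g| * q2 + (√L * |g|)⁻¹ * q3) / 2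
      + 2 * A * e * pp * ‖du‖ * ‖η‖) := mul_le_mul_of_nonneg_left hc hga.le
  have h2 : |g| * ((√L * |g| * q2 + (√L * |g|)⁻¹ * q3) / 2 + 2 * A * e * pp * ‖du‖ * ‖η‖)
      = (1 / 2) * √L * (|g| ^ 2 * q2) + (1 / 2) * q3 / √L
        + (2 * A * pp) * (|g| * ((e * ‖du‖) * ‖η‖)) := by
    field_simp
  have h3 : (1 / 2) * √L * (|g| ^ 2 * q2) ≤ (1 / 2) * √L * Cτ ^ 2 * (D * q2) := by
    rw [sq_abs]
    have : g ^ 2 * q2 ≤ (Cτ ^ 2 * D) * q2 := mul_le_mul_of_nonneg_right hg2 hq2n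
    calc (1 / 2) * √L * (g ^ 2 * q2) ≤ (1 / 2) * √L * ((Cτ ^ 2 * D) * q2) :=
          mul_le_mul_of_nonneg_left this (by positivity)
      _ = _ := by ring
  have h4 : (1 / 2) * q3 / √L ≤ (1 / 2) * (A ^ 2 + A) * A ^ 2 * Ψ ^ 2 * pp / √L := by
    apply div_le_div_of_nonneg_right _ hr.le
    nlinarith
  have h5 : (2 * A * pp) * (|g| * ((e * ‖du‖) * ‖η‖)) ≤ 4 * A ^ 3 * Ψ * Cτ * pp / √L := by
    calc (2 * A * pp) * (|g| * ((e * ‖du‖) * ‖η‖)) ≤
          (2 * A * pp) * ((2 * Cτ / √L) * (A * (A * Ψ))) := by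
          apply mul_le_mul_of_nonneg_left _ (by positivity)
          apply mul_le_mul hgabs _ (by positivity) (by positivity)
          exact mul_le_mul h.du_e hηn (norm_nonneg _) (by positivity)
      _ = _ := by ring
  have h6 : ((1 / 2) * (A ^ 2 + A) * A ^ 2 * Ψ ^ 2 + 4 * A ^ 3 * Ψ * Cτ) * pp / √L
      = (1 / 2) * (A ^ 2 + A) * A ^ 2 * Ψ ^ 2 * pp / √L + 4 * A ^ 3 * Ψ * Cτ * pp / √L := by ring
  rw [h6]
  linarith

end pt

/-- the constant of the cut-off estimate -/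
noncomputable def CC (A Z Ψ : ℝ) : ℝ :=
  Cτ ^ 2 * CE A Z * A + ((1 / 2) * (A ^ 2 + A) * A ^ 2 * Ψ ^ 2 + 4 * A ^ 3 * Ψ * Cτ) * A

section integrated

variable {A e σ : ℝ} {K0 : Set E4} {J : E4 → E4 →L[ℝ] E4} {Φ : E4 → Bil} {u : E4 → ℝ}
  {a : E4 → Cov} {p : E4 → ℝ}

theorem cutoff (h : Dat A e σ K0 J Φ u a p) {K : ℝ} (hK0 : 0 < K) (hK : 1 ≤ Real.log K)
    {ζ : E4 → ℝ} {Z : ℝ} (hζ : ContDiff ℝ 1 ζ) (hζs : tsupport ζ ⊆ K0)
    (hζ0 : ∀ x, 0 ≤ ζ x) (hζ1 : ∀ x, ζ x ≤ 1) (hZ : ∀ x, ‖fderiv ℝ ζ x‖ ≤ Z)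
    {S : E4 → Cov} {Ψ : ℝ} (hS : ContDiff ℝ 1 S) (hSs : tsupport S ⊆ K0)
    (hone : ∀ x ∈ tsupport S, ζ x = 1) (hSb : ∀ x, ‖S x‖ ≤ Ψ) :
    |∫ x, gf K (- u x) * W (Φ x) (d1 S x)| ≤ CC A Z Ψ / √(Real.log K) := by
  have hL : 0 < Real.log K := by linarith
  have hr : 0 < √(Real.log K) := Real.sqrt_pos.mpr hL
  have hA0 : 0 ≤ A := by linarith [h.hA]
  have hΨ : 0 ≤ Ψ := (norm_nonneg _).trans (hSb 0)
  have hCτ : 0 < Cτ := Cτ_pos
  have hSc : HasCompactSupport S := h.K0c.of_isClosed_subset (isClosed_tsupport _) hSs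
  -- the test form
  set S3 : E4 → Cov := fun x => gf K (- u x) • S x with hS3
  have hS3sm : ContDiff ℝ 1 S3 :=
    contDiff_cutS (fun t ht => contDiffAt_gf (n := 1) hK0 hK ht) hS h.u_sm
      (fun x hx => (h.pt x (hSs hx)).t_ge)
  have hS3t : tsupport S3 ⊆ tsupport S := by
    apply closure_mono
    intro x hx hx'
    apply hx
    simp [hS3, hx']
  have hS3c : HasCompactSupport S3 :=
    h.K0c.of_isClosed_subset (isClosed_tsupport _) (hS3t.trans hSs)
  have hst := stokes h.Φ_sm h.Φ_alt hS3sm hS3c (fun x hx => h.Φ_cl x (hSs (hS3t hx)))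
  have hform : ∀ x, gf K (- u x) * W (Φ x) (d1 S x) =
      W (Φ x) (d1 S3 x) + dgf K (- u x) * W (Φ x) (wed (fderiv ℝ u x) (S x)) := by
    intro x
    by_cases hx : x ∈ tsupport S
    · have ht := (h.pt x (hSs hx)).t_ge
      have h3 : HasFDerivAt u (fderiv ℝ u x) x :=
        ((h.u_sm.differentiable (by norm_num)) x).hasFDerivAt
      have h4 : HasFDerivAt (fun y => gf K (- u y)) (dgf K (- u x) • (- fderiv ℝ u x)) x :=
        (hasDerivAt_gf hK0 hK (by linarith)).comp_hasFDerivAt x h3.neg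
      have h1 : d1 S3 x = wed (fderiv ℝ (fun y => gf K (- u y)) x) (S x)
          + gf K (- u x) • d1 S x :=
        d1_smul h4.differentiableAt ((hS.differentiable one_ne_zero) x)
      rw [h1, h4.fderiv, wed_smul_left, wed_neg_left, W_add_right, W_smul_right, W_smul_right]
      have : W (Φ x) (- wed (fderiv ℝ u x) (S x)) = - W (Φ x) (wed (fderiv ℝ u x) (S x)) := by
        have := W_smul_right (-1) (Φ x) (wed (fderiv ℝ u x) (S x))
        rw [neg_one_smul] at this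
        rw [this]; ring
      rw [this]
      ring
    · have h0 : S x = 0 := image_eq_zero_of_notMem_tsupport hx
      have h5 : wed (fderiv ℝ u x) (0 : Cov) = 0 := by
        ext v w; simp
      rw [d1_zero_of_notMem hx, d1_zero_of_notMem (fun h' => hx (hS3t h')), h0, h5, W_zero_right]
      ring
  have hdu : Continuous (fderiv ℝ u) := h.u_sm.continuous_fderiv (by norm_num)
  -- integrability
  have hI1 : Integrable (fun x => W (Φ x) (d1 S3 x)) := by
    have hc : Continuous fun x => W (Φ x) (d1 S3 x) :=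
      continuous_W h.Φ_sm.continuous (continuous_d1 hS3sm)
    refine hc.integrable_of_hasCompactSupport ?_
    refine hS3c.mono' ?_
    intro x hx
    by_contra hx'
    exact hx (by simp [d1_zero_of_notMem hx', W_zero_right])
  have hgc : ∀ x ∈ K0, ContinuousAt (fun y => gf K (- u y)) x := by
    intro x hx
    have ht := (h.pt x hx).t_ge
    have h1 : ContinuousAt (gf K) (- u x) :=
      (contDiffAt_gf (n := 1) hK0 hK (by linarith)).continuousAt
    exact ContinuousAt.comp (f := fun y => - u y) (g := gf K) h1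
      (h.u_sm.continuous.neg).continuousAt
  have hI0 : Integrable (fun x => gf K (- u x) * W (Φ x) (d1 S x)) := by
    have hc : Continuous fun x => W (Φ x) (d1 S x) :=
      continuous_W h.Φ_sm.continuous (continuous_d1 hS)
    have h1 : IntegrableOn (fun x => gf K (- u x) * W (Φ x) (d1 S x)) K0 := by
      refine ContinuousOn.integrableOn_compact h.K0c ?_
      exact ContinuousOn.mul (fun x hx => (hgc x hx).continuousWithinAt) hc.continuousOn
    rw [← integrableOn_univ]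
    refine h1.of_forall_sdiff_eq_zero MeasurableSet.univ ?_
    intro x hx
    have hx' : x ∉ tsupport S := fun h' => hx.2 (hSs h')
    simp [d1_zero_of_notMem hx', W_zero_right]
  have hI2 : Integrable (fun x => dgf K (- u x) * W (Φ x) (wed (fderiv ℝ u x) (S x))) := by
    have := hI0.sub hI1
    refine this.congr ?_
    refine Filter.Eventually.of_forall fun x => ?_
    simp only [Pi.sub_apply]
    rw [hform x]; ring
  have hval : ∫ x, gf K (- u x) * W (Φ x) (d1 S x) =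
      ∫ x in K0, dgf K (- u x) * W (Φ x) (wed (fderiv ℝ u x) (S x)) := by
    simp_rw [hform]
    rw [integral_add hI1 hI2, hst, zero_add]
    symm
    apply setIntegral_eq_integral_of_forall_compl_eq_zero
    intro x hx
    have h0 : S x = 0 := image_eq_zero_of_notMem_tsupport (fun h' => hx (hSs h'))
    have h5 : wed (fderiv ℝ u x) (0 : Cov) = 0 := by
      ext v w; simp
    rw [h0, h5, W_zero_right, mul_zero]
  rw [hval]
  -- the dominating function
  have hwcont : ContinuousOn (fun x => ζ x ^ 2 * Df K (- u x)) K0 := by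
    intro x hx
    have ht := (h.pt x hx).t_ge
    have h1 : ContinuousAt (Df K) (- u x) :=
      (contDiffAt_Df (n := 1) hK0 hK (by linarith)).continuousAt
    have h2 : ContinuousAt (fun y => - u y) x := (h.u_sm.continuous.neg).continuousAt
    exact (((hζ.continuous.pow 2).continuousAt).mul
      (ContinuousAt.comp (f := fun y => - u y) (g := Df K) h1 h2)).continuousWithinAt
  have hG := h.integrable hwcont
  set c1 : ℝ := (1 / 2) * √(Real.log K) * Cτ ^ 2 with hc1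
  set c2 : ℝ := ((1 / 2) * (A ^ 2 + A) * A ^ 2 * Ψ ^ 2 + 4 * A ^ 3 * Ψ * Cτ) with hc2
  have hc2n : 0 ≤ c2 := by positivity
  have hP : IntegrableOn (fun x => c2 / √(Real.log K) * p x) K0 :=
    h.p_int.const_mul (c2 / √(Real.log K))
  have hdom : ∀ x ∈ K0, ‖dgf K (- u x) * W (Φ x) (wed (fderiv ℝ u x) (S x))‖ ≤
      c1 * (ζ x ^ 2 * Df K (- u x) * qq A e σ (J x) (Φ x) (p x) (fderiv ℝ u x))
        + c2 / √(Real.log K) * p x := by
    intro x hx
    have hpt := h.pt x hx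
    have hq := hpt.q_nonneg (fderiv ℝ u x)
    have hD := (Df_pos hK0 hK (show (0:ℝ) ≤ - u x by linarith [hpt.t_ge])).le
    rw [Real.norm_eq_abs]
    by_cases hx' : x ∈ tsupport S
    · have := hpt.cut h.hA h.he h.he1 h.hσ hK0 hK (hSb x)
      rw [hone x hx']
      refine this.trans (le_of_eq ?_)
      simp only [hc1, hc2]
      ring
    · have h0 : S x = 0 := image_eq_zero_of_notMem_tsupport hx'
      have h5 : wed (fderiv ℝ u x) (0 : Cov) = 0 := by
        ext v w; simp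
      rw [h0, h5, W_zero_right, mul_zero, abs_zero]
      have := hpt.p_nonneg
      positivity
  have hbound : ‖∫ x in K0, dgf K (- u x) * W (Φ x) (wed (fderiv ℝ u x) (S x))‖ ≤
      ∫ x in K0, (c1 * (ζ x ^ 2 * Df K (- u x) * qq A e σ (J x) (Φ x) (p x) (fderiv ℝ u x))
        + c2 / √(Real.log K) * p x) := by
    apply norm_integral_le_of_norm_le ((hG.const_mul c1).add hP)
    rw [ae_restrict_iff' h.K0c.measurableSet]
    exact Filter.Eventually.of_forall hdom
  rw [Real.norm_eq_abs] at hbound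
  refine hbound.trans ?_
  rw [integral_add (hG.const_mul c1) hP, integral_const_mul, integral_const_mul]
  have hE := energy h hK0 hK hζ hζs hζ0 hζ1 hZ
  have h1 : c1 * (∫ x in K0, ζ x ^ 2 * Df K (- u x) *
      qq A e σ (J x) (Φ x) (p x) (fderiv ℝ u x)) ≤ c1 * (2 * CE A Z * A / Real.log K) :=
    mul_le_mul_of_nonneg_left hE (by positivity)
  have h2 : c2 / √(Real.log K) * ∫ x in K0, p x ≤ c2 / √(Real.log K) * A :=
    mul_le_mul_of_nonneg_left h.p_mass (by positivity)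
  refine (add_le_add h1 h2).trans (le_of_eq ?_)
  have hrr : √(Real.log K) * √(Real.log K) = Real.log K := Real.mul_self_sqrt hL.le
  have h3 : c1 * (2 * CE A Z * A / Real.log K) = Cτ ^ 2 * CE A Z * A / √(Real.log K) := by
    rw [hc1]
    have h4 : (1 / 2) * √(Real.log K) * Cτ ^ 2 * (2 * CE A Z * A / Real.log K) =
        (1 / 2) * √(Real.log K) * Cτ ^ 2 * (2 * CE A Z * A / (√(Real.log K) * √(Real.log K))) := by
      rw [hrr]
    rw [h4]
    field_simp
  rw [h3]
  unfold CC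
  rw [← hc2]
  ring

end integrated

end Crest.Agent.R240.En
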