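import Crest.Agent.R240.En3

/-!
Row 240 (S0371), BLOCK C (helper822): `En3main`, the fixed-`e` estimate of Step 5 in the form used by
Loc5 (873).
-/

set_option autoImplicit false
set_option maxSynthPendingDepth 3
open scoped ContDiff Manifold
open MeasureTheory Crest.Agent.R240.CutFun

namespace Crest.Agent.R240.En

/-- `d² = 0` -/
lemma Cl_d1 {γ : E4 → Cov} (hγ : ContDiff ℝ 2 γ) (x : E4) : Cl (d1 γ) x := by
  have h1 : ContDiff ℝ 1 (fderiv ℝ γ) := hγ.fderiv_right (by norm_num)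
  have h2 : HasFDerivAt (fderiv ℝ γ) (fderiv ℝ (fderiv ℝ γ) x) x :=
    ((h1.differentiable one_ne_zero) x).hasFDerivAt
  have hsymm : ∀ v w, fderiv ℝ (fderiv ℝ γ) x v w = fderiv ℝ (fderiv ℝ γ) x w v :=
    (hγ.contDiffAt (x := x)).isSymmSndFDerivAt (by simp)
  set L : (E4 →L[ℝ] Cov) →L[ℝ] (E4 →L[ℝ] Cov) :=
    (ContinuousLinearMap.flipₗᵢ ℝ E4 E4 ℝ).toContinuousLinearEquiv.toContinuousLinearMap with hL
  have hLa : ∀ (b : Bil) (v w : E4), L b v w = b w v := by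
    intro b v w; rfl
  have h3 : HasFDerivAt (fun y => fderiv ℝ γ y - L (fderiv ℝ γ y))
      (fderiv ℝ (fderiv ℝ γ) x - L.comp (fderiv ℝ (fderiv ℝ γ) x)) x :=
    h2.sub (L.hasFDerivAt.comp x h2)
  have h4 : fderiv ℝ (d1 γ) x = fderiv ℝ (fderiv ℝ γ) x - L.comp (fderiv ℝ (fderiv ℝ γ) x) :=
    h3.fderiv
  intro u v w
  rw [h4]
  have key : ∀ u v w : E4, (fderiv ℝ (fderiv ℝ γ) x - L.comp (fderiv ℝ (fderiv ℝ γ) x)) u v w =
      fderiv ℝ (fderiv ℝ γ) x u v w - fderiv ℝ (fderiv ℝ γ) x u w v := by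
    intro u v w
    rfl
  rw [key, key, key, hsymm v u, hsymm w u, hsymm w v]
  ring

lemma Cl_congr {b c : E4 → Bil} {x : E4} (h : b =ᶠ[nhds x] c) (hc : Cl c x) : Cl b x := by
  intro u v w
  rw [h.fderiv_eq]
  exact hc u v w

lemma abs_W_le (b c : Bil) : |W b c| ≤ 6 * (‖b‖ * ‖c‖) := by
  have h : ∀ i j k l : Fin 4, |ent b i j * ent c k l| ≤ ‖b‖ * ‖c‖ := by
    intro i j k l
    rw [abs_mul]
    exact mul_le_mul (abs_ent_le b i j) (abs_ent_le c k l) (abs_nonneg _) (norm_nonneg _)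
  unfold W
  have h1 := h 0 1 2 3
  have h2 := h 0 2 1 3
  have h3 := h 0 3 1 2
  have h4 := h 1 2 0 3
  have h5 := h 1 3 0 2
  have h6 := h 2 3 0 1
  rw [abs_le] at *
  constructor <;> linarith [h1.1, h1.2, h2.1, h2.2, h3.1, h3.2, h4.1, h4.2, h5.1, h5.2, h6.1, h6.2]

/-- the auxiliary strictly positive form of a complex structure -/
noncomputable def auxF (j : E4 →L[ℝ] E4) : Bil :=
  (1 / 2 : ℝ) • (wed ((pr 0).comp j) (pr 0) + wed ((pr 1).comp j) (pr 1)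
    + wed ((pr 2).comp j) (pr 2) + wed ((pr 3).comp j) (pr 3))

lemma auxF_apply (j : E4 →L[ℝ] E4) (u v : E4) :
    auxF j u v = (((j u) 0 * v 0 - u 0 * (j v) 0) + ((j u) 1 * v 1 - u 1 * (j v) 1)
      + ((j u) 2 * v 2 - u 2 * (j v) 2) + ((j u) 3 * v 3 - u 3 * (j v) 3)) / 2 := by
  have h : auxF j u v = (1 / 2 : ℝ) * (wed ((pr 0).comp j) (pr 0) u v
    + wed ((pr 1).comp j) (pr 1) u v + wed ((pr 2).comp j) (pr 2) u v
    + wed ((pr 3).comp j) (pr 3) u v) := rfl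
  rw [h]
  simp only [wed_apply, ContinuousLinearMap.comp_apply, pr_apply]
  ring

lemma auxF_Bd {j : E4 →L[ℝ] E4} (hj : ∀ v, j (j v) = -v) :
    Bd j (auxF j) (1 / 2) ((‖j‖ ^ 2 + 1) / 2) := by
  have hneg : ∀ (v : E4) (i : Fin 4), (-v) i = - v i := fun _ _ => rfl
  have hval : ∀ v, auxF j v (j v) = (‖j v‖ ^ 2 + ‖v‖ ^ 2) / 2 := by
    intro v
    rw [auxF_apply, hj, norm_sq_E4, norm_sq_E4]
    simp only [hneg]
    ring
  refine ⟨hj, ⟨?_, ?_, ?_⟩, by norm_num, ?_, ?_⟩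
  · intro v; rw [auxF_apply]; ring
  · intro u v
    rw [auxF_apply, auxF_apply, hj, hj]
    simp only [hneg]
    ring
  · intro v hv
    rw [hval]
    have := norm_pos_iff.mpr hv
    positivity
  · intro v
    rw [hval]
    nlinarith [sq_nonneg ‖j v‖]
  · intro v
    rw [hval]
    have h1 : ‖j v‖ ≤ ‖j‖ * ‖v‖ := j.le_opNorm v
    have h2 : ‖j v‖ ^ 2 ≤ (‖j‖ * ‖v‖) ^ 2 := pow_le_pow_left₀ (norm_nonneg _) h1 2
    nlinarith

/-- symmetry of `(ξ, η) ↦ W(P, ξ ∧ Jη)` up to the anti-invariant part -/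
lemma W_wedJ_diff {j : E4 →L[ℝ] E4} (hj : ∀ v, j (j v) = -v) {P : Bil} (hP : Alt P)
    (ξ η : Cov) :
    |W P (wed ξ (Jc j η)) - W P (wed η (Jc j ξ))| ≤ 24 * ‖antip j P‖ * ‖j‖ * (‖ξ‖ * ‖η‖) := by
  have hBd := auxF_Bd hj
  have hq := hBd.q_wedJ_symm (hP.invp j) (invp_inv hj P) ξ η
  have hW : W (invp j P) (wed ξ (Jc j η)) = W (invp j P) (wed η (Jc j ξ)) := by
    unfold q at hq
    exact (div_left_inj' hBd.W_ne).mp hq
  have hsplit : ∀ c : Bil, W P c = W (invp j P) c + W (antip j P) c := by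
    intro c
    rw [← W_add_left, invp_add_antip]
  rw [hsplit, hsplit, hW]
  have hle : ∀ a b : Cov, |W (antip j P) (wed a (Jc j b))| ≤ 12 * ‖antip j P‖ * ‖j‖ * (‖a‖ * ‖b‖) := by
    intro a b
    refine (abs_W_le _ _).trans ?_
    have h1 : ‖wed a (Jc j b)‖ ≤ 2 * ‖a‖ * (‖b‖ * ‖j‖) := by
      refine (norm_wed_le _ _).trans ?_
      exact mul_le_mul_of_nonneg_left (norm_Jc_le j b) (by positivity)
    calc 6 * (‖antip j P‖ * ‖wed a (Jc j b)‖) ≤ 6 * (‖antip j P‖ * (2 * ‖a‖ * (‖b‖ * ‖j‖))) := by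
          gcongr
      _ = _ := by ring
  have h1 := hle ξ η
  have h2 := hle η ξ
  have e1 : W (invp j P) (wed η (Jc j ξ)) + W (antip j P) (wed ξ (Jc j η)) -
      (W (invp j P) (wed η (Jc j ξ)) + W (antip j P) (wed η (Jc j ξ))) =
      W (antip j P) (wed ξ (Jc j η)) - W (antip j P) (wed η (Jc j ξ)) := by ring
  rw [e1]
  have h3 := abs_sub (W (antip j P) (wed ξ (Jc j η))) (W (antip j P) (wed η (Jc j ξ)))
  have h4 : 12 * ‖antip j P‖ * ‖j‖ * (‖η‖ * ‖ξ‖) = 12 * ‖antip j P‖ * ‖j‖ * (‖ξ‖ * ‖η‖) := by ring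
  linarith

theorem En3main (J : E4 → E4 →L[ℝ] E4) (hJ : ContDiff ℝ ∞ J) (hsq : ∀ x v, J x (J x v) = -v)
    (ζ : E4 → ℝ) (hζ : ContDiff ℝ ∞ ζ) (hζc : HasCompactSupport ζ)
    (S : E4 → Cov) (hS : ContDiff ℝ ∞ S) (hSζ : ∀ x ∈ tsupport S, ζ x = 1) (A : ℝ) :
    ∃ C, ∀ (e K : ℝ) (Φ : E4 → Bil) (u : E4 → ℝ) (a : E4 → Cov) (p : E4 → ℝ) (σ : ℝ),
      0 < e → e ≤ 1 → 0 < K → 1 ≤ Real.log K → (σ = 1 ∨ σ = -1) →
      ContDiff ℝ ∞ Φ → (∀ x, Alt (Φ x)) → ContDiff ℝ ∞ u → ContDiff ℝ ∞ a → Continuous p →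
      (∀ x, 0 ≤ p x) →
      (∃ U : Set E4, IsOpen U ∧ tsupport ζ ⊆ U ∧ ∀ x ∈ U,
        Φ x = d1 (fun z => Jc (J z) (fderiv ℝ u z)) x + d1 a x) →
      (∀ x ∈ tsupport ζ, ‖Φ x‖ ≤ p x) →
      (∀ x ∈ tsupport ζ, ∀ ξ : Cov,
        0 ≤ σ * W (Φ x) (wed ξ (Jc (J x) ξ)) + A * e ^ 2 * p x * ‖ξ‖ ^ 2) →
      (∀ x ∈ tsupport ζ, ‖antip (J x) (Φ x)‖ ≤ A * e * p x) →
      (∀ x ∈ tsupport ζ, -(A * e ^ 2 * p x ^ 2) ≤ σ * W (Φ x) (Φ x)) →
      (∀ x ∈ tsupport ζ, e ^ 2 * p x ≤ A) →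
      (∀ x ∈ tsupport ζ, e * ‖fderiv ℝ u x‖ ≤ A) →
      (∫ x in tsupport ζ, p x ≤ A) →
      (∀ x ∈ tsupport ζ, 1 ≤ - u x) →
      (∀ x ∈ tsupport ζ, ‖a x‖ ≤ A * (- u x)) →
      |∫ x, gf K (- u x) * W (Φ x) (d1 S x)| ≤ C / √(Real.log K) := by
  -- constants
  have hK0c : IsCompact (tsupport ζ) := hζc
  have hSsupp : tsupport S ⊆ Function.support ζ := fun x hx => by
    simp only [Function.mem_support]
    rw [hSζ x hx]; norm_num
  have hSK : tsupport S ⊆ tsupport ζ := hSsupp.trans subset_closure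
  have hSc : HasCompactSupport S := hK0c.of_isClosed_subset (isClosed_tsupport _) hSK
  obtain ⟨Ψ, hΨ⟩ := hS.continuous.bounded_above_of_compact_support hSc
  obtain ⟨B, hB⟩ := hK0c.exists_bound_of_continuousOn hJ.continuous.continuousOn
  -- a cut-off with values in [0,1]
  have hop : IsOpen (Function.support ζ) := hζ.continuous.isOpen_support
  obtain ⟨f, hf0, hf1, hf01⟩ := exists_contMDiffMap_zero_one_of_isClosed (n := ⊤) 𝓘(ℝ, E4)
    (s := (Function.support ζ)ᶜ) (t := tsupport S) hop.isClosed_compl (isClosed_tsupport _)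
    (by rw [Set.disjoint_left]; intro x hx hx'; exact hx (hSsupp hx'))
  set θ : E4 → ℝ := fun x => f x with hθ
  have hθsm : ContDiff ℝ ∞ θ := contMDiff_iff_contDiff.mp f.contMDiff
  have hθ0 : ∀ x, x ∉ Function.support ζ → θ x = 0 := fun x hx => hf0 hx
  have hθ1 : ∀ x ∈ tsupport S, θ x = 1 := fun x hx => hf1 hx
  have hθt : tsupport θ ⊆ tsupport ζ := by
    apply closure_mono
    intro x hx
    by_contra h'
    exact hx (hθ0 x h')
  have hθc : HasCompactSupport θ := hK0c.of_isClosed_subset (isClosed_tsupport _) hθt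
  have hθ1' : ContDiff ℝ 1 θ := hθsm.of_le (by exact_mod_cast le_top)
  obtain ⟨Z, hZ⟩ := (hθ1'.continuous_fderiv one_ne_zero).bounded_above_of_compact_support
    (hθc.fderiv ℝ)
  set A' : ℝ := 24 * (|A| + 1) * (|B| + 1) with hA'
  have hA'1 : 1 ≤ A' := by
    rw [hA']; nlinarith [abs_nonneg A, abs_nonneg B, mul_nonneg (abs_nonneg A) (abs_nonneg B)]
  have hA'A : A ≤ A' := by
    rw [hA']
    nlinarith [abs_nonneg A, abs_nonneg B, mul_nonneg (abs_nonneg A) (abs_nonneg B), le_abs_self A]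
  have hA'B : |B| ≤ A' := by
    rw [hA']; nlinarith [abs_nonneg A, abs_nonneg B, mul_nonneg (abs_nonneg A) (abs_nonneg B)]
  have hA'12 : 12 ≤ A' := by
    rw [hA']; nlinarith [abs_nonneg A, abs_nonneg B, mul_nonneg (abs_nonneg A) (abs_nonneg B)]
  have hA'AB : 24 * (|A| * |B|) ≤ A' := by
    rw [hA']; nlinarith [abs_nonneg A, abs_nonneg B, mul_nonneg (abs_nonneg A) (abs_nonneg B)]
  refine ⟨CC A' Z Ψ, ?_⟩
  intro e K Φ u a p σ he he1 hK0 hK hσ hΦ hΦalt hu ha hp hp0 hU hΦn hpos hanti hsqW hpe hdu hmass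
    hun habd
  obtain ⟨U, hUo, hUs, hUid⟩ := hU
  have hσ1 : |σ| = 1 := by
    rcases hσ with h | h <;> rw [h] <;> simp
  have hdu1 : ContDiff ℝ ∞ (fderiv ℝ u) := hu.fderiv_right (by simp)
  have hγ1 : ContDiff ℝ ∞ (fun z => Jc (J z) (fderiv ℝ u z)) := by
    unfold Jc
    exact (hdu1.clm_comp hJ).neg
  have hγ : ContDiff ℝ ∞ (fun z => Jc (J z) (fderiv ℝ u z) + a z) := hγ1.add ha
  have hid : ∀ x ∈ U, Φ x = d1 (fun z => Jc (J z) (fderiv ℝ u z) + a z) x := by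
    intro x hx
    rw [hUid x hx]
    have h1 : DifferentiableAt ℝ (fun z => Jc (J z) (fderiv ℝ u z)) x :=
      (hγ1.differentiable (by simp)) x
    have h2 : DifferentiableAt ℝ a x := (ha.differentiable (by simp)) x
    have h3 : fderiv ℝ (fun z => Jc (J z) (fderiv ℝ u z) + a z) x =
        fderiv ℝ (fun z => Jc (J z) (fderiv ℝ u z)) x + fderiv ℝ a x := fderiv_fun_add h1 h2
    ext v w
    have h4 : ∀ b c : Bil, (b + c) v w = b v w + c v w := fun _ _ => rfl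
    rw [h4]
    simp only [d1_apply, h3]
    have h5 : ∀ (b c : E4 →L[ℝ] Cov) (v w : E4), (b + c) v w = b v w + c v w := fun _ _ _ _ => rfl
    rw [h5, h5]
    ring
  have hD : Dat A' e σ (tsupport ζ) J Φ u a p := by
    refine ⟨hA'1, he, he1, hσ1, hK0c, hJ.of_le (by exact_mod_cast le_top),
      hΦ.of_le (by exact_mod_cast le_top), hΦalt, ?_, by exact_mod_cast contDiff_infty.mp hu 2,
      ha.of_le (by exact_mod_cast le_top), fun x hx => hid x (hUs hx), ?_, hmass.trans hA'A, ?_⟩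
    · intro x hx
      have h1 : Φ =ᶠ[nhds x] d1 (fun z => Jc (J z) (fderiv ℝ u z) + a z) := by
        filter_upwards [hUo.mem_nhds (hUs hx)] with y hy
        exact hid y hy
      exact Cl_congr h1 (Cl_d1 (by exact_mod_cast contDiff_infty.mp hγ 2) x)
    · exact hp.continuousOn.integrableOn_compact hK0c
    · intro x hx
      have hpx := hp0 x
      have hJB : ‖J x‖ ≤ |B| := (hB x hx).trans (le_abs_self B)
      refine ⟨hsq x, hJB.trans hA'B, hpx, ?_, ?_, ?_, ?_, (hpe x hx).trans hA'A,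
        (hdu x hx).trans hA'A, hun x hx, ?_⟩
      · intro ξ
        refine (hpos x hx ξ).trans ?_
        have : A * e ^ 2 * p x * ‖ξ‖ ^ 2 ≤ A' * e ^ 2 * p x * ‖ξ‖ ^ 2 := by gcongr
        linarith
      · intro ξ η
        refine (W_wedJ_diff (hsq x) (hΦalt x) ξ η).trans ?_
        have hAn : ‖antip (J x) (Φ x)‖ ≤ |A| * e * p x := by
          refine (hanti x hx).trans ?_
          have := le_abs_self A
          gcongr
        calc 24 * ‖antip (J x) (Φ x)‖ * ‖J x‖ * (‖ξ‖ * ‖η‖)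
            ≤ 24 * (|A| * e * p x) * |B| * (‖ξ‖ * ‖η‖) := by gcongr
          _ = (24 * (|A| * |B|)) * (e * p x * (‖ξ‖ * ‖η‖)) := by ring
          _ ≤ A' * (e * p x * (‖ξ‖ * ‖η‖)) := by gcongr
          _ = _ := by ring
      · intro ξ η
        refine (abs_W_le _ _).trans ?_
        calc 6 * (‖Φ x‖ * ‖wed ξ η‖) ≤ 6 * (p x * (2 * ‖ξ‖ * ‖η‖)) := by
              have h1 := hΦn x hx
              have h2 := norm_wed_le ξ η
              gcongr
          _ = 12 * (p x * ‖ξ‖ * ‖η‖) := by ring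
          _ ≤ A' * (p x * ‖ξ‖ * ‖η‖) := by gcongr
          _ = _ := by ring
      · refine le_trans ?_ (hsqW x hx)
        have : A * e ^ 2 * p x ^ 2 ≤ A' * e ^ 2 * p x ^ 2 := by gcongr
        linarith
      · refine (habd x hx).trans ?_
        have h1 : 0 ≤ - u x := by linarith [hun x hx]
        gcongr
  exact cutoff hD hK0 hK hθ1' hθt (fun x => (hf01 x).1) (fun x => (hf01 x).2) hZ
    (hS.of_le (by exact_mod_cast le_top)) hSK hθ1 hΨ

end Crest.Agent.R240.En
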