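import Crest.Agent.R240.En4F
import Crest.Agent.R240.Iface

/-!
Row 240 (helper744): duality on `M` (R4b): from integral inequalities to pointwise ones.
-/

set_option autoImplicit false
set_option maxSynthPendingDepth 3

open Set Function Filter MeasureTheory
open scoped Manifold ContDiff Topology ENNReal

namespace Crest.Agent.R240.En4

open Crest.Agent.R240 Crest.Agent.R240.Ch

noncomputable section

variable {M : Type*} [MetricSpace M] [CompactSpace M] [ChartedSpace E4 M]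
    [IsManifold 𝓘(ℝ, E4) ∞ M] [MeasurableSpace M] [BorelSpace M] (D : Dat M)

/-! ### basic facts about the data -/

theorem smF : Smooth2 D.F := Smooth2.bp D.smJ D.sm_al

theorem spos (x : M) : SPos (atJ D.J x) (at2 D.F x) where
  alt := (Alt.invp (D.sm_al.1 x) _)
  inv := invp_inv (D.sq x) _
  pos v hv := by
    have h : at2 D.F x v (atJ D.J x v) = at2 D.al x v (atJ D.J x v) :=
      invp_diag (D.sq x) (D.sm_al.1 x) v
    have h2 := D.tames x v hv
    rw [← h] at h2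
    exact h2

theorem W_ne (x : M) : W (at2 D.F x) (at2 D.F x) ≠ 0 := by
  obtain ⟨A, hA⟩ := exists_frame (D.sq x) (spos D x)
  exact hA.W_ne (spos D x).alt

theorem sF_qG {b c : F2 E4 M} (hb : Smooth2 b) (hc : Smooth2 c) : SmoothF E4 (qG D.F b c) :=
  smoothF_qG (smF D) (W_ne D) hb hc

theorem nsqG_eq (b : F2 E4 M) (x : M) : nsqG D.J D.F b x =
    2 * qG D.F b D.F x * qG D.F b D.F x - qG D.F (bp D.J b) (bp D.J b) x
      + qG D.F (bpp D.J b) (bpp D.J b) x := rfl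

theorem sF_nsqG {b : F2 E4 M} (hb : Smooth2 b) : SmoothF E4 (nsqG D.J D.F b) := by
  have h1 := sF_qG D hb (smF D)
  have h2 := sF_qG D (hb.bp D.smJ) (hb.bp D.smJ)
  have h3 := sF_qG D (hb.bpp D.smJ) (hb.bpp D.smJ)
  exact sF_add (sF_sub (sF_mul (sF_const_mul 2 h1) h1) h2) h3

theorem nsqG_nonneg {b : F2 E4 M} (hb : ∀ x, Alt (at2 b x)) (x : M) : 0 ≤ nsqG D.J D.F b x :=
  nsq_nonneg (D.sq x) (spos D x) (hb x)

theorem nr_nonneg (b : F2 E4 M) (x : M) : 0 ≤ D.nr b x := Real.sqrt_nonneg _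

theorem nr_sq {b : F2 E4 M} (hb : ∀ x, Alt (at2 b x)) (x : M) :
    D.nr b x ^ 2 = nsqG D.J D.F b x := Real.sq_sqrt (nsqG_nonneg D hb x)

theorem cont_nr {b : F2 E4 M} (hb : Smooth2 b) : Continuous (D.nr b) :=
  (sF_continuous (sF_nsqG D hb)).sqrt

theorem integrable_cont {f : M → ℝ} (hf : Continuous f) : Integrable f D.μ := by
  have := D.fin
  exact hf.integrable_of_hasCompactSupport (HasCompactSupport.of_compactSpace _)

theorem integrable_qG {b c : F2 E4 M} (hb : Smooth2 b) (hc : Smooth2 c) :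
    Integrable (qG D.F b c) D.μ := integrable_cont D (sF_continuous (sF_qG D hb hc))

theorem openPos : D.μ.IsOpenPosMeasure := by
  refine ⟨fun U hU hne h0 => ?_⟩
  obtain ⟨x, hx⟩ := hne
  set s : Set M := U ∩ (chartAt E4 x).source with hs
  have hso : IsOpen s := hU.inter (chartAt E4 x).open_source
  have h1 : D.μ s = 0 := measure_mono_null inter_subset_left h0
  have h2 := D.vol x (s.indicator 1) (measurable_one.indicator hso.measurableSet)
    (fun z hz => indicator_of_notMem (fun h => hz h.2) _)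
  rw [lintegral_indicator_one hso.measurableSet, h1] at h2
  set T : Set E4 := (chartAt E4 x).target ∩ (chartAt E4 x).symm ⁻¹' s with hT
  have hTo : IsOpen T := (chartAt E4 x).isOpen_inter_preimage_symm hso
  have hTne : chartAt E4 x x ∈ T := by
    refine ⟨mem_chart_target E4 x, ?_⟩
    rw [mem_preimage, (chartAt E4 x).left_inv (mem_chart_source E4 x)]
    exact ⟨hx, mem_chart_source E4 x⟩
  have hle : ∫⁻ y in T, ENNReal.ofReal |W (rep x (bp D.J D.al) y) (rep x (bp D.J D.al) y)| ≤ 0 := by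
    rw [h2]
    refine le_trans ?_ (lintegral_mono_set (inter_subset_left (s := (chartAt E4 x).target)
      (t := (chartAt E4 x).symm ⁻¹' s)))
    apply setLIntegral_mono' hTo.measurableSet
    intro y hy
    have e1 : s.indicator (1 : M → ℝ≥0∞) ((chartAt E4 x).symm y) = 1 :=
      indicator_of_mem (show (chartAt E4 x).symm y ∈ s from hy.2) 1
    rw [e1, one_mul]
  have h3 : ∫⁻ y in T, ENNReal.ofReal |W (rep x (bp D.J D.al) y) (rep x (bp D.J D.al) y)| = 0 :=
    le_antisymm hle bot_le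
  have hcont : ContinuousOn (fun y => |W (rep x (bp D.J D.al) y) (rep x (bp D.J D.al) y)|) T := by
    have := ((contDiffOn_W ((smF D).2 x) ((smF D).2 x)).continuousOn.abs)
    exact this.mono inter_subset_left
  have hmeas : AEMeasurable (fun y => ENNReal.ofReal
      |W (rep x (bp D.J D.al) y) (rep x (bp D.J D.al) y)|) (volume.restrict T) :=
    (hcont.aemeasurable hTo.measurableSet).ennreal_ofReal
  rw [lintegral_eq_zero_iff' hmeas] at h3
  have h4 : ∀ᵐ y ∂(volume.restrict T), False := by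
    filter_upwards [h3, ae_restrict_mem hTo.measurableSet] with y hy hyT
    have h5 : W (rep x D.F y) (rep x D.F y) ≠ 0 := by
      rw [Int.W_rep (smF D).1 (smF D).1]
      exact mul_ne_zero (Int.det_tcc_ne (symm_mem hyT.1)) (W_ne D _)
    have h6 : 0 < |W (rep x (bp D.J D.al) y) (rep x (bp D.J D.al) y)| := abs_pos.2 h5
    simp only [Pi.zero_apply, ENNReal.ofReal_eq_zero] at hy
    linarith
  have h5 : volume T = 0 := by
    have := ae_iff.mp h4
    simpa using this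
  exact (hTo.measure_pos volume ⟨_, hTne⟩).ne' h5

/-- localisation. -/
theorem loc {g : M → ℝ} (hg : Continuous g)
    (h : ∀ f : M → ℝ, SmoothF E4 f → (∀ x, 0 ≤ f x) → 0 ≤ ∫ x, f x * g x ∂D.μ) (x : M) :
    0 ≤ g x := by
  have := D.fin
  have := openPos D
  exact loc_nonneg hg h x

/-! ### the pairing -/

theorem alt2 (b : X2 M) (x : M) : Alt (at2 b.1 x) := b.2.1 x

theorem I_comm (b c : F2 E4 M) : D.I b c = D.I c b := by
  unfold Dat.I IG
  congr 1
  funext x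
  exact q_comm _ _ _

theorem I_add_left (a b c : X2 M) : D.I (a + b : X2 M).1 c.1 = D.I a.1 c.1 + D.I b.1 c.1 := by
  unfold Dat.I IG
  rw [← integral_add (integrable_qG D a.2 c.2) (integrable_qG D b.2 c.2)]
  congr 1
  funext x
  exact q_add_left _ _ _ _

theorem I_sub_left (a b c : X2 M) : D.I (a - b : X2 M).1 c.1 = D.I a.1 c.1 - D.I b.1 c.1 := by
  unfold Dat.I IG
  rw [← integral_sub (integrable_qG D a.2 c.2) (integrable_qG D b.2 c.2)]
  congr 1
  funext x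
  exact q_sub_left _ _ _ _

theorem I_smul_left (r : ℝ) (b c : X2 M) : D.I (r • b : X2 M).1 c.1 = r * D.I b.1 c.1 := by
  unfold Dat.I IG
  rw [← integral_const_mul]
  congr 1
  funext x
  exact q_smul_left _ _ _ _

theorem I_add_right (a b c : X2 M) : D.I a.1 (b + c : X2 M).1 = D.I a.1 b.1 + D.I a.1 c.1 := by
  rw [I_comm, I_add_left, I_comm D b.1, I_comm D c.1]

theorem I_sub_right (a b c : X2 M) : D.I a.1 (b - c : X2 M).1 = D.I a.1 b.1 - D.I a.1 c.1 := by
  rw [I_comm, I_sub_left, I_comm D b.1, I_comm D c.1]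

theorem I_smul_right (r : ℝ) (b c : X2 M) : D.I b.1 (r • c : X2 M).1 = r * D.I b.1 c.1 := by
  rw [I_comm, I_smul_left, I_comm D c.1]

/-- multiplication of a smooth form by a smooth function. -/
def fX (f : M → ℝ) (hf : SmoothF E4 f) (b : X2 M) : X2 M := ⟨fmul f b.1, smooth2_fmul hf b.2⟩

theorem I_fX (f : M → ℝ) (hf : SmoothF E4 f) (b c : X2 M) :
    D.I b.1 (fX f hf c).1 = ∫ x, f x * qG D.F b.1 c.1 x ∂D.μ := by
  unfold Dat.I IG
  congr 1
  funext x
  exact q_smul_right _ _ _ _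

/-- the star operator. -/
def stX (b : X2 M) : X2 M :=
  fX (fun x => 2 * qG D.F b.1 D.F x) (sF_const_mul 2 (sF_qG D b.2 (smF D))) D.FX
    - D.pi' b + D.pi'' b

theorem at2_stX (b : X2 M) (x : M) :
    at2 (stX D b).1 x = st (atJ D.J x) (at2 D.F x) (at2 b.1 x) := rfl

theorem at2_pi' (b : X2 M) (x : M) : at2 (D.pi' b).1 x = invp (atJ D.J x) (at2 b.1 x) := rfl

theorem at2_pi'' (b : X2 M) (x : M) : at2 (D.pi'' b).1 x = antip (atJ D.J x) (at2 b.1 x) := rfl

theorem ext_at2 {a b : X2 M} (h : ∀ x, at2 a.1 x = at2 b.1 x) : a = b :=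
  Subtype.ext (funext h)

theorem pi_add (b : X2 M) : D.pi' b + D.pi'' b = b :=
  ext_at2 fun _ => invp_add_antip _ _

theorem pi'_pi' (b : X2 M) : D.pi' (D.pi' b) = D.pi' b :=
  ext_at2 fun x => invp_of_inv (invp_inv (D.sq x) _)

theorem pi''_pi'' (b : X2 M) : D.pi'' (D.pi'' b) = D.pi'' b :=
  ext_at2 fun x => antip_of_anti (antip_anti (D.sq x) _)

theorem pi'_pi'' (b : X2 M) : D.pi' (D.pi'' b) = 0 :=
  ext_at2 fun x => invp_of_anti (antip_anti (D.sq x) _)

theorem pi''_pi' (b : X2 M) : D.pi'' (D.pi' b) = 0 :=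
  ext_at2 fun x => antip_of_inv (invp_inv (D.sq x) _)

theorem qG_eq_ip (b c : X2 M) (x : M) : qG D.F b.1 (stX D c).1 x =
    ip (atJ D.J x) (at2 D.F x) (at2 b.1 x) (at2 c.1 x) :=
  (ip_eq_q (D.sq x) (spos D x) (alt2 b x) (alt2 c x)).symm

theorem nsqG_st (b : X2 M) (x : M) : nsqG D.J D.F (stX D b).1 x = nsqG D.J D.F b.1 x :=
  nsq_st (D.sq x) (spos D x) (alt2 b x)

/-- `‖b‖₂²`. -/
theorem n2_sq (b : X2 M) : D.n2 b.1 ^ 2 = ∫ x, nsqG D.J D.F b.1 x ∂D.μ :=
  Real.sq_sqrt (integral_nonneg fun x => nsqG_nonneg D b.2.1 x)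

theorem n2_nonneg (b : F2 E4 M) : 0 ≤ D.n2 b := Real.sqrt_nonneg _

theorem n2_sq_I (b : X2 M) : D.n2 b.1 ^ 2 = D.I b.1 (stX D b).1 := by
  rw [n2_sq]
  unfold Dat.I IG
  congr 1
  funext x
  exact (qG_eq_ip D b b x).symm

theorem n2_stX (b : X2 M) : D.n2 (stX D b).1 = D.n2 b.1 := by
  have h : D.n2 (stX D b).1 ^ 2 = D.n2 b.1 ^ 2 := by
    rw [n2_sq, n2_sq]
    congr 1
    funext x
    exact nsqG_st D b x
  exact (pow_left_inj₀ (n2_nonneg D _) (n2_nonneg D _) two_ne_zero).1 h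

theorem abs_qG_le (b c : X2 M) (x : M) : |qG D.F b.1 c.1 x| ≤ D.nr b.1 x * D.nr c.1 x := by
  apply abs_le_of_sq_le_sq _ (mul_nonneg (nr_nonneg D _ _) (nr_nonneg D _ _))
  rw [mul_pow, nr_sq D b.2.1, nr_sq D c.2.1]
  exact q_cs (D.sq x) (spos D x) (alt2 b x) (alt2 c x)

/-- Cauchy-Schwarz in integral form. -/
theorem cs_int {f g : M → ℝ} (hf : Continuous f) (hg : Continuous g) (hf0 : ∀ x, 0 ≤ f x)
    (hg0 : ∀ x, 0 ≤ g x) :
    ∫ x, f x * g x ∂D.μ ≤ √(∫ x, f x ^ 2 ∂D.μ) * √(∫ x, g x ^ 2 ∂D.μ) := by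
  have := D.fin
  have hm : ∀ {f : M → ℝ}, Continuous f → MemLp f (ENNReal.ofReal 2) D.μ := by
    intro f hf
    exact (hf.memLp_of_hasCompactSupport (HasCompactSupport.of_compactSpace _))
  have h1 := integral_mul_le_Lp_mul_Lq_of_nonneg (μ := D.μ) Real.HolderConjugate.two_two (f := f)
      (g := g) (ae_of_all _ hf0) (ae_of_all _ hg0) (hm hf) (hm hg)
  simpa [Real.sqrt_eq_rpow] using h1

theorem I_le (b c : X2 M) : |D.I b.1 c.1| ≤ D.n2 b.1 * D.n2 c.1 := by
  unfold Dat.I IG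
  calc |∫ x, qG D.F b.1 c.1 x ∂D.μ| ≤ ∫ x, |qG D.F b.1 c.1 x| ∂D.μ := abs_integral_le_integral_abs
    _ ≤ ∫ x, D.nr b.1 x * D.nr c.1 x ∂D.μ := by
        apply integral_mono (integrable_qG D b.2 c.2).abs
          (integrable_cont D ((cont_nr D b.2).mul (cont_nr D c.2)))
        intro x
        exact abs_qG_le D b c x
    _ ≤ √(∫ x, D.nr b.1 x ^ 2 ∂D.μ) * √(∫ x, D.nr c.1 x ^ 2 ∂D.μ) :=
        cs_int D (cont_nr D b.2) (cont_nr D c.2) (nr_nonneg D _) (nr_nonneg D _)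
    _ = _ := by
        have h : ∀ b : X2 M, √(∫ x, D.nr b.1 x ^ 2 ∂D.μ) = D.n2 b.1 := by
          intro b
          unfold Dat.n2 R240.n2
          congr 2
          funext x
          exact nr_sq D b.2.1 x
        rw [h, h]

theorem n2_le_of_dual {B : X2 M} {N : ℝ} (hN : 0 ≤ N)
    (h : ∀ b : X2 M, |D.I B.1 b.1| ≤ N * D.n2 b.1) : D.n2 B.1 ≤ N := by
  have h1 := h (stX D B)
  rw [n2_stX, ← n2_sq_I, abs_of_nonneg (sq_nonneg _)] at h1
  rcases (n2_nonneg D B.1).lt_or_eq with h2 | h2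
  · nlinarith
  · rw [← h2]; exact hN

theorem I_pi' (b c : X2 M) : D.I (D.pi' b).1 c.1 = D.I (D.pi' b).1 (D.pi' c).1 := by
  unfold Dat.I IG
  congr 1
  funext x
  have h := q_split (D.sq x) (spos D x) ((alt2 b x).invp (atJ D.J x)) (alt2 c x)
  rw [antip_of_inv (invp_inv (D.sq x) _), invp_of_inv (invp_inv (D.sq x) _), q_zero_left,
    add_zero] at h
  exact h

theorem I_pi'' (b c : X2 M) : D.I (D.pi'' b).1 c.1 = D.I (D.pi'' b).1 (D.pi'' c).1 := by
  unfold Dat.I IG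
  congr 1
  funext x
  have h := q_split (D.sq x) (spos D x) ((alt2 b x).antip (atJ D.J x)) (alt2 c x)
  rw [invp_of_anti (antip_anti (D.sq x) _), antip_of_anti (antip_anti (D.sq x) _), q_zero_left,
    zero_add] at h
  exact h

theorem I_split (b c : X2 M) :
    D.I b.1 c.1 = D.I (D.pi' b).1 (D.pi' c).1 + D.I (D.pi'' b).1 (D.pi'' c).1 := by
  conv_lhs => rw [← pi_add D b]
  rw [I_add_left, I_pi', I_pi'']

theorem I_pi'_right (b c : X2 M) : D.I b.1 (D.pi' c).1 = D.I (D.pi' b).1 c.1 := by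
  rw [I_comm, I_pi', I_comm, ← I_pi']

theorem I_pi''_right (b c : X2 M) : D.I b.1 (D.pi'' c).1 = D.I (D.pi'' b).1 c.1 := by
  rw [I_comm, I_pi'', I_comm, ← I_pi'']

theorem n2_split (b : X2 M) : D.n2 b.1 ^ 2 = D.n2 (D.pi' b).1 ^ 2 + D.n2 (D.pi'' b).1 ^ 2 := by
  rw [n2_sq, n2_sq, n2_sq, ← integral_add
    (integrable_cont D (sF_continuous (sF_nsqG D (D.pi' b).2)))
    (integrable_cont D (sF_continuous (sF_nsqG D (D.pi'' b).2)))]
  congr 1
  funext x
  exact nsq_split (D.sq x) (spos D x) (alt2 b x)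

theorem n2_pi'_le (b : X2 M) : D.n2 (D.pi' b).1 ≤ D.n2 b.1 := by
  have h := n2_split D b
  have := n2_nonneg D b.1
  have := n2_nonneg D (D.pi' b).1
  nlinarith [sq_nonneg (D.n2 (D.pi'' b).1)]

theorem n2_pi''_le (b : X2 M) : D.n2 (D.pi'' b).1 ≤ D.n2 b.1 := by
  have h := n2_split D b
  have := n2_nonneg D b.1
  have := n2_nonneg D (D.pi'' b).1
  nlinarith [sq_nonneg (D.n2 (D.pi' b).1)]

theorem n2_inv_le_of_dual {B : X2 M} {N : ℝ} (hN : 0 ≤ N)
    (h : ∀ b : X2 M, |D.I B.1 (D.pi' b).1| ≤ N * D.n2 b.1) : D.n2 (D.pi' B).1 ≤ N := by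
  apply n2_le_of_dual D hN
  intro b
  rw [← I_pi'_right]
  exact h b

theorem n2_anti_le_of_dual {B : X2 M} {N : ℝ} (hN : 0 ≤ N)
    (h : ∀ b : X2 M, |D.I B.1 (D.pi'' b).1| ≤ N * D.n2 b.1) : D.n2 (D.pi'' B).1 ≤ N := by
  apply n2_le_of_dual D hN
  intro b
  rw [← I_pi''_right]
  exact h b

end

end Crest.Agent.R240.En4
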