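import Mathlib
import Crest.Agent.R240.Iface

/-!
Row 240 (S0371), INTERFACE of the smoothing package N8 (helper276, with 23, 950, 744, 895, 609, 548,
551, 837, 540).  Statements only, no proofs.

The kernels are hidden: in the construction `κ` is the type of families `p = (p_1, .., p_N)` of smooth
functions on `E4`, `A e p b = ∫ ∏ p_i(z_i) κ₀(z_i) (ψ¹_{e z_1} ∘ .. ∘ ψᴺ_{e z_N})^* b dz`,
`a e f = ∫ ∏ κ₀(z_i) f ∘ ψ_{ez} dz`, `cl k = {p | |∂^j p_i| ≤ 1 on the unit ball, j ≤ k}`,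
`clp k = {p ∈ cl k | p_i ≥ 0 on the unit ball}`, `one = (1, .., 1)`.
Functions are unbundled: `f : M → ℝ` with `SmoothF E4 f`.
-/

set_option autoImplicit false
set_option maxSynthPendingDepth 3

open Set Function Filter MeasureTheory Metric
open scoped Manifold ContDiff Topology ENNReal

namespace Crest.Agent.R240

open Ch

noncomputable section

variable {M : Type*} [MetricSpace M] [CompactSpace M] [ChartedSpace E4 M]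
    [IsManifold 𝓘(ℝ, E4) ∞ M] [MeasurableSpace M] [BorelSpace M]

/-- a linear functional on smooth two-forms has finite order (with respect to the cover `𝒰`). -/
def FOrd (𝒰 : Cover M) (L : X2 M →ₗ[ℝ] ℝ) : Prop :=
  ∃ (m : ℕ) (K : ℝ), ∀ b : X2 M, |L b| ≤ K * 𝒰.cm m (b : F2 E4 M)

/-- N8: the smoothing package. -/
structure SmPack (D : Dat M) (𝒰 : Cover M) where
  /-- index type of the kernels -/
  κ : Type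
  /-- the kernel `p = 1` -/
  one : κ
  /-- `|p|_{C^k} ≤ 1` -/
  cl : ℕ → Set κ
  /-- `|p|_{C^k} ≤ 1`, `p ≥ 0` -/
  clp : ℕ → Set κ
  one_mem : ∀ k, one ∈ clp k
  clp_sub : ∀ k, clp k ⊆ cl k
  cl_anti : ∀ k l, k ≤ l → cl l ⊆ cl k
  clp_anti : ∀ k l, k ≤ l → clp l ⊆ clp k
  /-- bound of the scales -/
  e0 : ℝ
  e0_pos : 0 < e0
  e0_le : e0 ≤ 1
  /-- smoothing of two-forms -/
  A : ℝ → κ → X2 M →ₗ[ℝ] X2 M
  /-- smoothing of functions (kernel `one`) -/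
  a : ℝ → (M → ℝ) → M → ℝ
  /- (1) closed and exact forms -/
  closed : ∀ e p, 0 < e → e ≤ e0 → ∀ b ∈ Z2 M, A e p b ∈ Z2 M
  exact : ∀ e p, 0 < e → e ≤ e0 → ∀ b : X2 M, IsEx (b : F2 E4 M) → IsEx (A e p b : F2 E4 M)
  /- (2) approximation -/
  approx : ∀ l : ℕ, ∃ C : ℝ, ∀ e, 0 < e → e ≤ e0 → ∀ b : X2 M,
    𝒰.cm l (A e one b : F2 E4 M) ≤ C * 𝒰.cm l (b : F2 E4 M) ∧
    𝒰.cm l ((A e one b - b : X2 M) : F2 E4 M) ≤ C * e * 𝒰.cm (l + 1) (b : F2 E4 M)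
  /- functions -/
  a_smooth : ∀ e, 0 < e → e ≤ e0 → ∀ f, SmoothF E4 f → SmoothF E4 (a e f)
  a_nonneg : ∀ e, 0 < e → e ≤ e0 → ∀ f, SmoothF E4 f → (∀ x, 0 ≤ f x) → ∀ x, 0 ≤ a e f x
  a_one : ∀ e, 0 < e → e ≤ e0 → ∀ x, a e (fun _ => 1) x = 1
  a_add : ∀ e, 0 < e → e ≤ e0 → ∀ f g, SmoothF E4 f → SmoothF E4 g →
    ∀ x, a e (fun y => f y + g y) x = a e f x + a e g x
  a_smul : ∀ e, 0 < e → e ≤ e0 → ∀ (r : ℝ) f, SmoothF E4 f →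
    ∀ x, a e (fun y => r * f y) x = r * a e f x
  /- (3) pointwise bounds, for non-negative kernels -/
  bd : ∃ C : ℝ, ∀ e p, 0 < e → e ≤ e0 → p ∈ clp 0 → ∀ (b : X2 M) (h : M → ℝ), SmoothF E4 h →
    (∀ x, D.nr (b : F2 E4 M) x ≤ h x) → ∀ x, D.nr (A e p b : F2 E4 M) x ≤ C * a e h x
  pos : ∃ C : ℝ, ∀ e p, 0 < e → e ≤ e0 → p ∈ clp 0 → ∀ P ∈ D.Pp, ∀ h : M → ℝ, SmoothF E4 h →
    (∀ x, D.nr (P : F2 E4 M) x ≤ h x) →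
    GeF D.J D.F (A e p P : F2 E4 M) (fun x => - (C * e ^ 2 * a e h x))
  leak1 : ∃ C : ℝ, ∀ e p, 0 < e → e ≤ e0 → p ∈ clp 0 → ∀ (b : X2 M) (h : M → ℝ), SmoothF E4 h →
    (∀ x, D.nr (b : F2 E4 M) x ≤ h x) →
    ∀ x, D.nr (D.pi'' (A e p (D.pi' b)) : F2 E4 M) x ≤ C * e * a e h x
  leak2 : ∃ C : ℝ, ∀ e p, 0 < e → e ≤ e0 → p ∈ clp 0 → ∀ (b : X2 M) (h : M → ℝ), SmoothF E4 h →
    (∀ x, D.nr (b : F2 E4 M) x ≤ h x) →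
    ∀ x, D.nr (D.pi' (A e p (D.pi'' b)) : F2 E4 M) x ≤ C * e * a e h x
  /- (3') -/
  low : ∃ C : ℝ, ∀ e, 0 < e → e ≤ e0 → ∀ f : M → ℝ, SmoothF E4 f → (∀ x, 0 ≤ f x) →
    ∀ b : X2 M, (b : F2 E4 M) = fmul f D.F →
    GeF D.J D.F (A e one b : F2 E4 M) (fun x => (1 - C * e) * a e f x)
  /- (4) representation of functionals of finite order -/
  rep : ∀ L : X2 M →ₗ[ℝ] ℝ, FOrd 𝒰 L → ∀ e p, 0 < e → e ≤ e0 →
    ∃ η : X2 M, ∀ b : X2 M, L (A e p b) = D.I (η : F2 E4 M) (b : F2 E4 M)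
  /- (4') representation of measures -/
  repm : ∃ C : ℝ, 1 ≤ C ∧ ∀ s : Measure M, IsFiniteMeasure s → ∀ e, 0 < e → e ≤ e0 →
    ∃ g : M → ℝ, SmoothF E4 g ∧ (∀ x, 0 ≤ g x) ∧
      (∀ f, SmoothF E4 f → ∫ x, a e f x ∂s = ∫ x, f x * g x ∂D.μ) ∧
      (∀ x, g x ≤ C / e ^ 4 * s.real (ball x (C * e))) ∧
      (∀ x r, e ≤ r → s.real (ball x r) ≤ C * ∫ y in ball x (C * r), g y ∂D.μ)
  /- (5) crude bound -/
  crude : ∀ l : ℕ, ∃ (k n : ℕ) (C : ℝ), ∀ e p, 0 < e → e ≤ e0 → p ∈ cl k → ∀ b : X2 M,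
    𝒰.cm l (A e p b : F2 E4 M) ≤ C / e ^ n * D.n2 (b : F2 E4 M)
  /- (6) exact leak (895), sup form -/
  leak : ∀ k : ℕ, ∃ C : ℝ, ∀ e, 0 < e → e ≤ e0 → ∀ L : X2 M →ₗ[ℝ] ℝ, FOrd 𝒰 L →
    (∀ b, L b = L (D.pi'' b)) → ∀ N : ℝ, 0 ≤ N →
    (∀ p ∈ cl k, ∀ b : X2 M, |L (A e p b)| ≤ N * D.n2 (b : F2 E4 M)) →
    ∀ p ∈ cl k, ∀ b : X2 M, |L (A e p (D.pi' b))| ≤ C * e * N * D.n2 (b : F2 E4 M)
  /- (7) adjoint consistency (548) -/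
  adj : ∃ C : ℝ, ∀ e, 0 < e → e ≤ e0 → ∀ P ∈ D.Pp,
    (1 - C * e) * D.I (P : F2 E4 M) D.F ≤ D.I (A e one P : F2 E4 M) D.F
  /- (8) reduction to non-negative kernels -/
  sign : ∀ k : ℕ, ∃ C : ℝ, ∀ e, 0 < e → e ≤ e0 → ∀ (L : X2 M →ₗ[ℝ] ℝ) (b : X2 M) (R : ℝ),
    (∀ p ∈ clp k, |L (A e p b)| ≤ R) → ∀ p ∈ cl k, |L (A e p b)| ≤ C * R

namespace Dat

/-- N8: the smoothing package exists. -/
def N8 (D : Dat M) : Prop := ∀ 𝒰 : Cover M, Nonempty (SmPack D 𝒰)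

/-- N9 (551): the monotonicity inequality on `M`. -/
def N9 (D : Dat M) : Prop :=
  ∀ A : ℝ, 1 ≤ A → ∃ C r₀ : ℝ, 0 < C ∧ 0 < r₀ ∧
    ∀ e : ℝ, 0 < e → e ≤ 1 → ∀ (t b : X2 M) (p : M → ℝ), SmoothF E4 p → (∀ x, 0 ≤ p x) →
      t + b ∈ Z2 M →
      (∀ x, D.nr (t : F2 E4 M) x ≤ A * p x) →
      GeF D.J D.F (t : F2 E4 M) (fun x => - (A * e ^ 2 * p x)) →
      (∀ x, D.nr (D.pi'' t : F2 E4 M) x ≤ A * e * p x) →
      (∀ x, p x ≤ A * qG D.F (t : F2 E4 M) D.F x) →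
      ∀ (x : M) (r : ℝ), e ≤ r → r ≤ r₀ →
        ∫ y in ball x r, p y ∂D.μ ≤ C * r ^ 2 *
          (∫ y, p y ∂D.μ + D.n2 (b : F2 E4 M) + D.n2 (D.pi' b : F2 E4 M) / r)

/-- existence of a cover. -/
def COV (_D : Dat M) : Prop := Nonempty (Cover M)

end Dat

end

end Crest.Agent.R240
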