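import Crest.Agent.R240.En4G
import Crest.Agent.R240.IfaceR

/-!
Row 240 (helper744): R4b and the energy inequality (Step 4) from the smoothing package `SmPack`.
-/

set_option autoImplicit false
set_option maxSynthPendingDepth 3

open Set Function Filter MeasureTheory Metric
open scoped Manifold ContDiff Topology ENNReal

namespace Crest.Agent.R240.En4

open Crest.Agent.R240 Crest.Agent.R240.Ch

noncomputable section

variable {M : Type*} [MetricSpace M] [CompactSpace M] [ChartedSpace E4 M]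
    [IsManifold 𝓘(ℝ, E4) ∞ M] [MeasurableSpace M] [BorelSpace M] (D : Dat M)

/-- comparison of the fibre norm with `cm 0`. -/
def NRCM (D : Dat M) (𝒰 : Cover M) : Prop :=
  ∃ C : ℝ, ∀ (b : X2 M) (x : M), D.nr (b : F2 E4 M) x ≤ C * 𝒰.cm 0 (b : F2 E4 M)

theorem integrable_s {s : Measure M} (hs : IsFiniteMeasure s) {f : M → ℝ} (hf : Continuous f) :
    Integrable f s := hf.integrable_of_hasCompactSupport (HasCompactSupport.of_compactSpace _)

theorem fOrd_pi' {𝒰 : Cover M} (hn : NRCM D 𝒰) {L : X2 M →ₗ[ℝ] ℝ} {s : Measure M}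
    (hR : D.IsRM L s) : FOrd 𝒰 (L.comp D.pi') := by
  obtain ⟨C, hC⟩ := hn
  refine ⟨0, 2 * s.real univ * C, fun b => ?_⟩
  have := hR.fin
  have h1 := hR.bound b
  calc |(L.comp D.pi') b| ≤ 2 * ∫ x, D.nr (b : F2 E4 M) x ∂s := h1
    _ ≤ 2 * ∫ _, C * 𝒰.cm 0 (b : F2 E4 M) ∂s := by
        gcongr
        · exact integrable_s hR.fin (cont_nr D b.2)
        · exact integrable_const _
        · intro x; exact hC b x
    _ = 2 * s.real univ * C * 𝒰.cm 0 (b : F2 E4 M) := by
        rw [integral_const, smul_eq_mul]; ring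

theorem nr_mono_of_nsq {b : F2 E4 M} {x : M} {t : ℝ} (ht : 0 ≤ t) (h : nsqG D.J D.F b x ≤ t ^ 2) :
    D.nr b x ≤ t := Real.sqrt_le_iff.2 ⟨ht, h⟩

theorem nr_pos_le {P : X2 M} (hP : P ∈ D.Pp) (x : M) :
    D.nr (P : F2 E4 M) x ≤ 2 * qG D.F (P : F2 E4 M) D.F x := by
  obtain ⟨h1, h2⟩ := (pos_iff (D.sq x) (spos D x) (alt2 P x) (hP x).inv).1 (hP x).nonneg
  have e1 : 0 ≤ qG D.F (P : F2 E4 M) D.F x := h1
  apply nr_mono_of_nsq D (by linarith)
  have h3 : nsqG D.J D.F (P : F2 E4 M) x =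
      2 * qG D.F (P : F2 E4 M) D.F x ^ 2 - qG D.F (P : F2 E4 M) (P : F2 E4 M) x :=
    nsq_inv (D.sq x) (spos D x) (hP x).inv
  have h4 : 0 ≤ qG D.F (P : F2 E4 M) (P : F2 E4 M) x := h2
  rw [h3]
  nlinarith [sq_nonneg (qG D.F (P : F2 E4 M) D.F x)]

theorem nr_FX (x : M) : D.nr (D.FX : F2 E4 M) x = 1 := by
  have h : nsqG D.J D.F (D.FX : F2 E4 M) x = 1 := nsq_F (D.sq x) (spos D x)
  have e : D.nr (D.FX : F2 E4 M) x = √(nsqG D.J D.F (D.FX : F2 E4 M) x) := rfl
  rw [e, h, Real.sqrt_one]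

/-- constants can be increased in lower bounds. -/
theorem GeF.mono {b : F2 E4 M} {h k : M → ℝ} (hb : GeF D.J D.F b h) (hk : ∀ x, k x ≤ h x) :
    GeF D.J D.F b k := by
  intro x v
  refine le_trans ?_ (hb x v)
  apply mul_le_mul_of_nonneg_right (hk x)
  exact (FX_mem_Pp D x).nonneg v

/-- the invariant part of size `≤ 2 (a + s)`. -/
theorem nr_T_le (T : X2 M) {x : M} {s a c : ℝ} (hs : 0 ≤ s) (ha0 : 0 ≤ a)
    (ha : qG D.F (T : F2 E4 M) D.F x ≤ a)
    (h : ∀ v, - s * at2 D.F x v (atJ D.J x v) ≤ at2 (T : F2 E4 M) x v (atJ D.J x v))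
    (hc0 : 0 ≤ c) (hc : D.nr (D.pi'' T : F2 E4 M) x ≤ c) :
    D.nr (D.pi' T : F2 E4 M) x ≤ 2 * (a + s) ∧ D.nr (T : F2 E4 M) x ≤ 2 * (a + s) + c := by
  have h1 : nsqG D.J D.F (D.pi' T : F2 E4 M) x ≤ (2 * (a + s)) ^ 2 :=
    nsq_le_of_lower (D.sq x) (spos D x) (alt2 T x) hs ha0 ha (fun v => by
      have := h v; linarith)
  refine ⟨nr_mono_of_nsq D (by positivity) h1, ?_⟩
  apply nr_mono_of_nsq D (by positivity)
  have h2 : nsqG D.J D.F (T : F2 E4 M) x =
      nsqG D.J D.F (D.pi' T : F2 E4 M) x + nsqG D.J D.F (D.pi'' T : F2 E4 M) x :=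
    nsq_split (D.sq x) (spos D x) (alt2 T x)
  have h3 : nsqG D.J D.F (D.pi'' T : F2 E4 M) x ≤ c ^ 2 := by
    rw [← nr_sq D (D.pi'' T).2.1]
    have := nr_nonneg D (D.pi'' T : F2 E4 M) x
    gcongr
  rw [h2]
  nlinarith [mul_nonneg (add_nonneg ha0 hs) hc0]

/-- **R4b**: the smoothing of a positive functional. -/
theorem tpart {𝒰 : Cover M} (S : SmPack D 𝒰) (hn : NRCM D 𝒰) :
    ∃ C : ℝ, 1 ≤ C ∧ ∀ (L : X2 M →ₗ[ℝ] ℝ) (s : Measure M), D.IsRM L s →
      ∀ e, 0 < e → e ≤ S.e0 → ∀ g : M → ℝ, SmoothF E4 g → (∀ x, 0 ≤ g x) →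
      (∀ f, SmoothF E4 f → ∫ x, S.a e f x ∂s = ∫ x, f x * g x ∂D.μ) → ∀ p ∈ S.clp 0,
      ∃ T : X2 M, (∀ b : X2 M, L (D.pi' (S.A e p b)) = D.I (T : F2 E4 M) (b : F2 E4 M)) ∧
        (∀ x, D.nr (T : F2 E4 M) x ≤ C * g x) ∧
        (∀ x, D.nr (D.pi' T : F2 E4 M) x ≤ C * g x) ∧
        GeF D.J D.F (T : F2 E4 M) (fun x => - (C * e ^ 2 * g x)) ∧
        (∀ x, D.nr (D.pi'' T : F2 E4 M) x ≤ C * e * g x) ∧
        (∀ x, qG D.F (T : F2 E4 M) D.F x ≤ C * g x) ∧
        (p = S.one → ∀ x, (1 - C * e) * g x ≤ qG D.F (T : F2 E4 M) D.F x) := by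
  obtain ⟨C1, h1⟩ := S.bd
  obtain ⟨C2, h2⟩ := S.pos
  obtain ⟨C3, h3⟩ := S.leak2
  obtain ⟨C4, h4⟩ := S.low
  set K := max 1 (max (2 * C1) (max (2 * C2) (max (2 * C3) C4))) with hK
  have hK1 : 1 ≤ K := le_max_left _ _
  have hKC1 : 2 * C1 ≤ K := (le_max_left _ _).trans (le_max_right _ _)
  have hKC2 : 2 * C2 ≤ K :=
    (le_max_left _ _).trans ((le_max_right _ _).trans (le_max_right _ _))
  have hKC3 : 2 * C3 ≤ K := (le_max_left _ _).trans
    ((le_max_right _ _).trans ((le_max_right _ _).trans (le_max_right _ _)))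
  have hKC4 : C4 ≤ K := (le_max_right _ _).trans
    ((le_max_right _ _).trans ((le_max_right _ _).trans (le_max_right _ _)))
  refine ⟨5 * K, by linarith, ?_⟩
  intro L s hR e he he0 g hg hg0 hgs p hp
  have hs := hR.fin
  have he1 : e ≤ 1 := he0.trans S.e0_le
  obtain ⟨T, hT⟩ := S.rep (L.comp D.pi') (fOrd_pi' D hn hR) e p he he0
  have hT' : ∀ b : X2 M, L (D.pi' (S.A e p b)) = D.I (T : F2 E4 M) (b : F2 E4 M) := hT
  have hgc := sF_continuous hg
  have hac : ∀ f, SmoothF E4 f → Continuous (S.a e f) := fun f hf =>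
    sF_continuous (S.a_smooth e he he0 f hf)
  -- lower bound
  have hlow : GeF D.J D.F (T : F2 E4 M) (fun x => - (K * e ^ 2 * g x)) := by
    apply geF_of_dual D T (g := fun x => K * e ^ 2 * g x) (continuous_const.mul hgc)
    intro P hP
    rw [← hT']
    have hq := sF_qG D P.2 (smF D)
    have h5 := h2 e p he he0 hp P hP (fun x => 2 * qG D.F (P : F2 E4 M) D.F x)
      (sF_const_mul 2 hq) (nr_pos_le D hP)
    have h6 := hR.lower (S.A e p P) _ (by
      exact (continuous_const.mul (hac _ (sF_const_mul 2 hq))).neg) h5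
    rw [integral_neg, integral_const_mul, hgs _ (sF_const_mul 2 hq)] at h6
    have hqn : ∀ x, 0 ≤ qG D.F (P : F2 E4 M) D.F x := fun x => by
      have := nr_pos_le D hP x
      have := nr_nonneg D (P : F2 E4 M) x
      linarith
    have e1 : ∫ x, 2 * qG D.F (P : F2 E4 M) D.F x * g x ∂D.μ =
        2 * ∫ x, g x * qG D.F (P : F2 E4 M) D.F x ∂D.μ := by
      rw [← integral_const_mul]; congr 1; funext x; ring
    have e2 : ∫ x, K * e ^ 2 * g x * qG D.F (P : F2 E4 M) D.F x ∂D.μ =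
        K * e ^ 2 * ∫ x, g x * qG D.F (P : F2 E4 M) D.F x ∂D.μ := by
      rw [← integral_const_mul]; congr 1; funext x; ring
    rw [e1] at h6
    rw [e2]
    have hnn : 0 ≤ ∫ x, g x * qG D.F (P : F2 E4 M) D.F x ∂D.μ :=
      integral_nonneg fun x => mul_nonneg (hg0 x) (hqn x)
    have : 2 * C2 * e ^ 2 * ∫ x, g x * qG D.F (P : F2 E4 M) D.F x ∂D.μ ≤
        K * e ^ 2 * ∫ x, g x * qG D.F (P : F2 E4 M) D.F x ∂D.μ := by gcongr
    nlinarith
  -- anti-invariant part
  have hanti : ∀ x, D.nr (D.pi'' T : F2 E4 M) x ≤ K * e * g x := by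
    apply nr_anti_le_of_dual D T (g := fun x => K * e * g x) (continuous_const.mul hgc)
      (fun x => mul_nonneg (by positivity) (hg0 x))
    intro b u hu hbu
    rw [← hT']
    have h5 := hR.bound (D.pi' (S.A e p (D.pi'' b)))
    rw [pi'_pi'] at h5
    have h6 := h3 e p he he0 hp b u hu hbu
    have hau0 : ∀ x, 0 ≤ S.a e u x := S.a_nonneg e he he0 u hu
      (fun x => (nr_nonneg D _ x).trans (hbu x))
    calc |L (D.pi' (S.A e p (D.pi'' b)))|
        ≤ 2 * ∫ x, D.nr (D.pi' (S.A e p (D.pi'' b)) : F2 E4 M) x ∂s := h5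
      _ ≤ 2 * ∫ x, C3 * e * S.a e u x ∂s := by
          gcongr
          · exact integrable_s hs (cont_nr D (D.pi' (S.A e p (D.pi'' b))).2)
          · exact integrable_s hs (continuous_const.mul (hac u hu))
          · intro x; exact h6 x
      _ = 2 * C3 * e * ∫ x, S.a e u x ∂s := by rw [integral_const_mul]; ring
      _ ≤ K * e * ∫ x, S.a e u x ∂s := by
          have : 0 ≤ ∫ x, S.a e u x ∂s := integral_nonneg hau0
          gcongr
      _ = ∫ x, u x * (K * e * g x) ∂D.μ := by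
          rw [hgs u hu, ← integral_const_mul]; congr 1; funext x; ring
  -- trace
  have htr : ∀ x, qG D.F (T : F2 E4 M) D.F x ≤ K * g x := by
    have hc : Continuous (fun x => K * g x - qG D.F (T : F2 E4 M) D.F x) :=
      (continuous_const.mul hgc).sub (sF_continuous (sF_qG D T.2 (smF D)))
    intro x
    have h5 := loc D hc (by
      intro f hf hf0
      have h6 := hT' (fX f hf D.FX)
      rw [I_fX] at h6
      have h7 := hR.bound (S.A e p (fX f hf D.FX))
      have h8 := h1 e p he he0 hp (fX f hf D.FX) f hf (fun x => by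
        rw [nr_fX D hf hf0, nr_FX, mul_one])
      have hau0 : ∀ x, 0 ≤ S.a e f x := S.a_nonneg e he he0 f hf hf0
      have h9 : ∫ x, f x * qG D.F (T : F2 E4 M) D.F x ∂D.μ ≤ K * ∫ x, f x * g x ∂D.μ := by
        calc ∫ x, f x * qG D.F (T : F2 E4 M) D.F x ∂D.μ
            = L (D.pi' (S.A e p (fX f hf D.FX))) := h6.symm
          _ ≤ |L (D.pi' (S.A e p (fX f hf D.FX)))| := le_abs_self _
          _ ≤ 2 * ∫ x, D.nr (S.A e p (fX f hf D.FX) : F2 E4 M) x ∂s := h7
          _ ≤ 2 * ∫ x, C1 * S.a e f x ∂s := by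
              gcongr
              · exact integrable_s hs (cont_nr D (S.A e p (fX f hf D.FX)).2)
              · exact integrable_s hs (continuous_const.mul (hac f hf))
              · intro x; exact h8 x
          _ = 2 * C1 * ∫ x, S.a e f x ∂s := by rw [integral_const_mul]; ring
          _ ≤ K * ∫ x, S.a e f x ∂s := by
              have : 0 ≤ ∫ x, S.a e f x ∂s := integral_nonneg hau0
              gcongr
          _ = K * ∫ x, f x * g x ∂D.μ := by rw [hgs f hf]
      have e1 : ∫ x, f x * (K * g x - qG D.F (T : F2 E4 M) D.F x) ∂D.μ =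
          K * ∫ x, f x * g x ∂D.μ - ∫ x, f x * qG D.F (T : F2 E4 M) D.F x ∂D.μ := by
        rw [← integral_const_mul, ← integral_sub]
        · congr 1; funext x; ring
        · exact integrable_cont D (continuous_const.mul ((sF_continuous hf).mul hgc))
        · exact integrable_cont D ((sF_continuous hf).mul
            (sF_continuous (sF_qG D T.2 (smF D))))
      rw [e1]; linarith) x
    linarith
  have hsize : ∀ x, D.nr (D.pi' T : F2 E4 M) x ≤ 5 * K * g x ∧
      D.nr (T : F2 E4 M) x ≤ 5 * K * g x := by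
    intro x
    have hgx := hg0 x
    have hKg : 0 ≤ K * g x := by positivity
    have he2 : K * e ^ 2 * g x ≤ K * g x := by
      have : e ^ 2 ≤ 1 := pow_le_one₀ he.le he1
      calc K * e ^ 2 * g x = e ^ 2 * (K * g x) := by ring
        _ ≤ 1 * (K * g x) := by gcongr
        _ = K * g x := one_mul _
    have he3 : K * e * g x ≤ K * g x := by
      calc K * e * g x = e * (K * g x) := by ring
        _ ≤ 1 * (K * g x) := by gcongr
        _ = K * g x := one_mul _
    obtain ⟨h5, h6⟩ := nr_T_le D T (x := x) (s := K * e ^ 2 * g x) (a := K * g x) (c := K * e * g x)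
      (by positivity) hKg (htr x) (fun v => hlow x v) (by positivity) (hanti x)
    constructor <;> linarith
  refine ⟨T, hT', fun x => (hsize x).2, fun x => (hsize x).1, ?_, ?_, ?_, ?_⟩
  · apply GeF.mono D hlow
    intro x
    have hgx := hg0 x
    have : K * e ^ 2 * g x ≤ 5 * K * e ^ 2 * g x := by
      have : 0 ≤ K * e ^ 2 * g x := by positivity
      linarith
    linarith
  · intro x
    have hgx := hg0 x
    have : 0 ≤ K * e * g x := by positivity
    linarith [hanti x]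
  · intro x
    have hgx := hg0 x
    have : 0 ≤ K * g x := by positivity
    linarith [htr x]
  · intro hp1 x
    subst hp1
    have hc : Continuous (fun x => qG D.F (T : F2 E4 M) D.F x - (1 - C4 * e) * g x) :=
      (sF_continuous (sF_qG D T.2 (smF D))).sub (continuous_const.mul hgc)
    have h5 := loc D hc (by
      intro f hf hf0
      have h6 := hT' (fX f hf D.FX)
      rw [I_fX] at h6
      have h7 := h4 e he he0 f hf hf0 (fX f hf D.FX) rfl
      have h8 := hR.lower (S.A e S.one (fX f hf D.FX)) (fun x => (1 - C4 * e) * S.a e f x)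
        (continuous_const.mul (hac f hf)) h7
      rw [integral_const_mul, hgs f hf, h6] at h8
      change _ ≤ ∫ x, f x * qG D.F (T : F2 E4 M) D.F x ∂D.μ at h8
      have e1 : ∫ x, f x * (qG D.F (T : F2 E4 M) D.F x - (1 - C4 * e) * g x) ∂D.μ =
          ∫ x, f x * qG D.F (T : F2 E4 M) D.F x ∂D.μ - (1 - C4 * e) * ∫ x, f x * g x ∂D.μ := by
        rw [← integral_const_mul, ← integral_sub]
        · congr 1; funext x; ring
        · exact integrable_cont D ((sF_continuous hf).mul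
            (sF_continuous (sF_qG D T.2 (smF D))))
        · exact integrable_cont D (continuous_const.mul ((sF_continuous hf).mul hgc))
      rw [e1]; linarith) x
    have hgx := hg0 x
    have h9 : C4 * e * g x ≤ 5 * K * e * g x := by
      have : C4 ≤ 5 * K := by linarith
      gcongr
    linarith

end

end Crest.Agent.R240.En4
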