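import Crest.Agent.R240.Lin4
import Crest.Agent.R240.TopDefs

/-!
Row 240 (helper744): the polynomial fibre inner product of `(J, F)`.
-/

set_option autoImplicit false

namespace Crest.Agent.R240.En4

set_option linter.unusedSectionVars false
set_option linter.unusedVariables false

open Crest.Agent.R240

noncomputable section

variable {J : E4 →L[ℝ] E4} {F : Bil}

theorem badd_zero (a : Bil) : a + 0 = a := add_zero a
theorem bsub_zero (a : Bil) : a - 0 = a := sub_zero a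
theorem bzero_smul (a : Bil) : (0 : ℝ) • a = 0 := by
  ext u v; simp only [smul_apply, smul_eq_mul, zero_mul, zero_apply]
theorem q_zero_right (F b : Bil) : q F b 0 = 0 := by
  have h := q_smul_right F 0 b 0
  rw [bzero_smul, zero_mul] at h; exact h
theorem q_zero_left (F b : Bil) : q F 0 b = 0 := by rw [q_comm, q_zero_right]

/-- the star operator: `q b c = ip b (st c)`. -/
def st (J : E4 →L[ℝ] E4) (F c : Bil) : Bil := (2 * q F c F) • F - invp J c + antip J c

theorem invp_add (J : E4 →L[ℝ] E4) (b c : Bil) : invp J (b + c) = invp J b + invp J c := by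
  ext u v; simp only [invp_apply, add_apply]; ring

theorem invp_sub (J : E4 →L[ℝ] E4) (b c : Bil) : invp J (b - c) = invp J b - invp J c := by
  ext u v; simp only [invp_apply, sub_apply]; ring

theorem invp_smul (J : E4 →L[ℝ] E4) (r : ℝ) (b : Bil) : invp J (r • b) = r • invp J b := by
  ext u v; simp only [invp_apply, smul_apply, smul_eq_mul]; ring

theorem antip_add (J : E4 →L[ℝ] E4) (b c : Bil) : antip J (b + c) = antip J b + antip J c := by
  ext u v; simp only [antip_apply, add_apply]; ring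

theorem antip_sub (J : E4 →L[ℝ] E4) (b c : Bil) : antip J (b - c) = antip J b - antip J c := by
  ext u v; simp only [antip_apply, sub_apply]; ring

theorem antip_smul (J : E4 →L[ℝ] E4) (r : ℝ) (b : Bil) : antip J (r • b) = r • antip J b := by
  ext u v; simp only [antip_apply, smul_apply, smul_eq_mul]; ring

theorem ip_comm (J : E4 →L[ℝ] E4) (F b c : Bil) : ip J F b c = ip J F c b := by
  unfold ip; rw [q_comm F (invp J b), q_comm F (antip J b)]; ring

theorem ip_add_left (J : E4 →L[ℝ] E4) (F a b c : Bil) :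
    ip J F (a + b) c = ip J F a c + ip J F b c := by
  unfold ip; rw [invp_add, antip_add, q_add_left, q_add_left, q_add_left]; ring

theorem ip_add_right (J : E4 →L[ℝ] E4) (F a b c : Bil) :
    ip J F a (b + c) = ip J F a b + ip J F a c := by
  rw [ip_comm, ip_add_left, ip_comm J F b, ip_comm J F c]

theorem ip_smul_left (J : E4 →L[ℝ] E4) (F : Bil) (r : ℝ) (b c : Bil) :
    ip J F (r • b) c = r * ip J F b c := by
  unfold ip; rw [invp_smul, antip_smul, q_smul_left, q_smul_left, q_smul_left]; ring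

theorem ip_smul_right (J : E4 →L[ℝ] E4) (F : Bil) (r : ℝ) (b c : Bil) :
    ip J F b (r • c) = r * ip J F b c := by
  rw [ip_comm, ip_smul_left, ip_comm]

/-- entries of `pull J0 β`. -/
theorem ent_pull_J0 {β : Bil} (hβ : Alt β) :
    ent (pull J0 β) 0 1 = ent β 0 1 ∧ ent (pull J0 β) 2 3 = ent β 2 3 ∧
    ent (pull J0 β) 0 2 = ent β 1 3 ∧ ent (pull J0 β) 1 3 = ent β 0 2 ∧
    ent (pull J0 β) 0 3 = - ent β 1 2 ∧ ent (pull J0 β) 1 2 = - ent β 0 3 := by
  have e : ∀ i j, ent (pull J0 β) i j = β (J0 (ee i)) (J0 (ee j)) := fun i j => pull_apply _ _ _ _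
  refine ⟨?_, ?_, ?_, ?_, ?_, ?_⟩
  · rw [e, J0_ee0, J0_ee1, map_neg, hβ.swap (ee 1) (ee 0), neg_neg]; rfl
  · rw [e, J0_ee2, J0_ee3, map_neg, hβ.swap (ee 3) (ee 2), neg_neg]; rfl
  · rw [e, J0_ee0, J0_ee2]; rfl
  · rw [e, J0_ee1, J0_ee3, map_neg, map_neg, neg_apply, neg_neg]; rfl
  · rw [e, J0_ee0, J0_ee3, map_neg]; rfl
  · rw [e, J0_ee1, J0_ee2, map_neg, neg_apply]; rfl

theorem pull_pull (A B : E4 →L[ℝ] E4) (b : Bil) : pull A (pull B b) = pull (B.comp A) b := by
  ext u v; simp [pull_apply]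

theorem pull_add (A : E4 →L[ℝ] E4) (b c : Bil) : pull A (b + c) = pull A b + pull A c := by
  ext u v; simp [pull_apply]

theorem pull_sub (A : E4 →L[ℝ] E4) (b c : Bil) : pull A (b - c) = pull A b - pull A c := by
  ext u v; simp [pull_apply]

theorem pull_smul (A : E4 →L[ℝ] E4) (r : ℝ) (b : Bil) : pull A (r • b) = r • pull A b := by
  ext u v; simp [pull_apply]

theorem IsFrame.pull_comm {A : E4 ≃L[ℝ] E4} (h : IsFrame J F A) (b : Bil) :
    pull (A : E4 →L[ℝ] E4) (pull J b) = pull J0 (pull (A : E4 →L[ℝ] E4) b) := by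
  ext u v
  simp only [pull_apply, ContinuousLinearEquiv.coe_coe, h.cplx]

theorem IsFrame.pull_invp {A : E4 ≃L[ℝ] E4} (h : IsFrame J F A) (b : Bil) :
    pull (A : E4 →L[ℝ] E4) (invp J b) = invp J0 (pull (A : E4 →L[ℝ] E4) b) := by
  unfold invp
  rw [pull_smul, pull_add, IsFrame.pull_comm h]

theorem IsFrame.pull_antip {A : E4 ≃L[ℝ] E4} (h : IsFrame J F A) (b : Bil) :
    pull (A : E4 →L[ℝ] E4) (antip J b) = antip J0 (pull (A : E4 →L[ℝ] E4) b) := by
  unfold antip
  rw [pull_smul, pull_sub, IsFrame.pull_comm h]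

/-- the standard inner product of entries -/
def S6 (β γ : Bil) : ℝ := ent β 0 1 * ent γ 0 1 + ent β 0 2 * ent γ 0 2 + ent β 0 3 * ent γ 0 3
  + ent β 1 2 * ent γ 1 2 + ent β 1 3 * ent γ 1 3 + ent β 2 3 * ent γ 2 3

theorem ent_om0 : ent om0 0 1 = 1 ∧ ent om0 2 3 = 1 ∧ ent om0 0 2 = 0 ∧ ent om0 0 3 = 0 ∧
    ent om0 1 2 = 0 ∧ ent om0 1 3 = 0 := by
  have h : ∀ i j, ent om0 i j = om0 (ee i) (ee j) := fun i j => rfl
  refine ⟨?_, ?_, ?_, ?_, ?_, ?_⟩ <;> rw [h, om0_apply] <;> simp [ee_apply]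

theorem IsFrame.ip_eq {A : E4 ≃L[ℝ] E4} (hF : Alt F) (h : IsFrame J F A) {b c : Bil}
    (hb : Alt b) (hc : Alt c) :
    ip J F b c = S6 (pull (A : E4 →L[ℝ] E4) b) (pull (A : E4 →L[ℝ] E4) c) / 2 := by
  unfold ip
  rw [h.q_eq hF hb hF, h.q_eq hF hc hF, h.q_eq hF (hb.invp J) (hc.invp J),
    h.q_eq hF (hb.antip J) (hc.antip J), IsFrame.pull_invp h, IsFrame.pull_invp h,
    IsFrame.pull_antip h, IsFrame.pull_antip h, h.pull_form]
  set β := pull (A : E4 →L[ℝ] E4) b with hβd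
  set γ := pull (A : E4 →L[ℝ] E4) c with hγd
  have hβ : Alt β := hb.pull _
  have hγ : Alt γ := hc.pull _
  obtain ⟨b1, b2, b3, b4, b5, b6⟩ := ent_pull_J0 hβ
  obtain ⟨c1, c2, c3, c4, c5, c6⟩ := ent_pull_J0 hγ
  obtain ⟨o1, o2, o3, o4, o5, o6⟩ := ent_om0
  unfold invp antip W S6
  simp only [ent_smul, ent_add, ent_sub, b1, b2, b3, b4, b5, b6, c1, c2, c3, c4, c5, c6,
    o1, o2, o3, o4, o5, o6]
  ring

theorem S6_nonneg (β : Bil) : 0 ≤ S6 β β := by
  unfold S6
  nlinarith [mul_self_nonneg (ent β 0 1), mul_self_nonneg (ent β 0 2), mul_self_nonneg (ent β 0 3),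
    mul_self_nonneg (ent β 1 2), mul_self_nonneg (ent β 1 3), mul_self_nonneg (ent β 2 3)]

theorem S6_cs (β γ : Bil) : S6 β γ ^ 2 ≤ S6 β β * S6 γ γ := by
  have h := cs6 (ent γ 0 1) (ent γ 0 2) (ent γ 0 3) (ent γ 1 2) (ent γ 1 3) (ent γ 2 3)
    (ent β 0 1) (ent β 0 2) (ent β 0 3) (ent β 1 2) (ent β 1 3) (ent β 2 3)
  unfold S6
  calc _ ≤ _ := h
    _ = _ := by ring

theorem S6_pos {β : Bil} (hβ : Alt β) (h : β ≠ 0) : 0 < S6 β β := by
  rcases (S6_nonneg β).lt_or_eq with h1 | h1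
  · exact h1
  · exfalso
    apply h
    have h2 : ent β 0 1 * ent β 0 1 + ent β 0 2 * ent β 0 2 + ent β 0 3 * ent β 0 3
      + ent β 1 2 * ent β 1 2 + ent β 1 3 * ent β 1 3 + ent β 2 3 * ent β 2 3 = 0 := h1.symm
    have e1 := mul_self_nonneg (ent β 0 1)
    have e2 := mul_self_nonneg (ent β 0 2)
    have e3 := mul_self_nonneg (ent β 0 3)
    have e4 := mul_self_nonneg (ent β 1 2)
    have e5 := mul_self_nonneg (ent β 1 3)
    have e6 := mul_self_nonneg (ent β 2 3)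
    have z : ∀ i j, ent (0 : Bil) i j = 0 := ent_zero
    have h0 : Alt (0 : Bil) := fun v => rfl
    refine alt_ext hβ h0 ?_ ?_ ?_ ?_ ?_ ?_ <;> rw [z] <;> apply mul_self_eq_zero.1 <;> linarith

/-- positivity from the entries of the Hermitian matrix. -/
theorem pos0_of_ent {P : Bil} (halt : Alt P) (hi : ∀ u v, P (J0 u) (J0 v) = P u v)
    (h0 : 0 ≤ ent P 0 1) (h2 : 0 ≤ ent P 2 3)
    (h : ent P 0 2 ^ 2 + ent P 0 3 ^ 2 ≤ ent P 0 1 * ent P 2 3) (v : E4) : 0 ≤ P v (J0 v) := by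
  obtain ⟨h13, h12⟩ := inv0_ent hi
  have key : P v (J0 v) = ent P 0 1 * (v 0 ^ 2 + v 1 ^ 2) + ent P 2 3 * (v 2 ^ 2 + v 3 ^ 2)
      + 2 * ent P 0 2 * (- v 0 * v 3 + v 1 * v 2) + 2 * ent P 0 3 * (v 0 * v 2 + v 1 * v 3) := by
    rw [alt_expand halt, h13, h12]
    simp only [J0_0, J0_1, J0_2, J0_3]
    ring
  rw [key]
  generalize ent P 0 1 = a at *
  generalize ent P 2 3 = d at *
  generalize ent P 0 2 = c at *
  generalize ent P 0 3 = e at *
  generalize v 0 = x0
  generalize v 1 = x1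
  generalize v 2 = x2
  generalize v 3 = x3
  -- AM-GM: the square of the cross term is at most `4 (a X) (d Y)`
  set X := x0 ^ 2 + x1 ^ 2
  set Y := x2 ^ 2 + x3 ^ 2
  set R := 2 * c * (-x0 * x3 + x1 * x2) + 2 * e * (x0 * x2 + x1 * x3)
  have hX : 0 ≤ X := by positivity
  have hY : 0 ≤ Y := by positivity
  have hR : R ^ 2 ≤ 4 * (a * d) * (X * Y) := by
    have h1 : (X * Y) = (-x0 * x3 + x1 * x2) ^ 2 + (x0 * x2 + x1 * x3) ^ 2 := by
      simp only [X, Y]; ring
    have h3 : R ^ 2 ≤ 4 * (c ^ 2 + e ^ 2) * (X * Y) := by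
      rw [h1]
      simp only [R]
      nlinarith [sq_nonneg (c * (x0 * x2 + x1 * x3) - e * (-x0 * x3 + x1 * x2))]
    have h4 : 0 ≤ X * Y := by positivity
    nlinarith
  have hS : 0 ≤ a * X + d * Y := by positivity
  have : R ^ 2 ≤ (a * X + d * Y) ^ 2 := by nlinarith [sq_nonneg (a * X - d * Y)]
  have h5 : |R| ≤ a * X + d * Y := abs_le_of_sq_le_sq this hS
  have : a * X + d * Y + R = a * X + d * Y + 2 * c * (-x0 * x3 + x1 * x2) + 2 * e * (x0 * x2 + x1 * x3) := by
    simp only [R]; ring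
  rw [← this]
  have h6 := (abs_le.1 h5).1
  linarith

section main

variable (hJ : ∀ v, J (J v) = -v) (hF : SPos J F)

include hJ hF

theorem nsq_nonneg {b : Bil} (hb : Alt b) : 0 ≤ nsq J F b := by
  obtain ⟨A, hA⟩ := exists_frame hJ hF
  unfold nsq
  rw [IsFrame.ip_eq hF.alt hA hb hb]
  have := S6_nonneg (pull (A : E4 →L[ℝ] E4) b)
  linarith

theorem ip_cs {b c : Bil} (hb : Alt b) (hc : Alt c) : ip J F b c ^ 2 ≤ nsq J F b * nsq J F c := by
  obtain ⟨A, hA⟩ := exists_frame hJ hF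
  unfold nsq
  rw [IsFrame.ip_eq hF.alt hA hb hc, IsFrame.ip_eq hF.alt hA hb hb, IsFrame.ip_eq hF.alt hA hc hc]
  have := S6_cs (pull (A : E4 →L[ℝ] E4) b) (pull (A : E4 →L[ℝ] E4) c)
  nlinarith

theorem nsq_pos {b : Bil} (hb : Alt b) (h : b ≠ 0) : 0 < nsq J F b := by
  obtain ⟨A, hA⟩ := exists_frame hJ hF
  unfold nsq
  rw [IsFrame.ip_eq hF.alt hA hb hb]
  have : pull (A : E4 →L[ℝ] E4) b ≠ 0 := by
    intro h0
    apply h
    ext u v
    have := congrArg (fun β : Bil => β (A.symm u) (A.symm v)) h0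
    simpa [pull_apply] using this
  have := S6_pos (hb.pull (A : E4 →L[ℝ] E4)) this
  linarith

/-- `b'` and `c''` are `q`-orthogonal. -/
theorem q_inv_anti {b c : Bil} (hb : Alt b) (hc : Alt c) (hb' : ∀ u v, b (J u) (J v) = b u v)
    (hc' : ∀ u v, c (J u) (J v) = - c u v) : q F b c = 0 := by
  obtain ⟨A, hA⟩ := exists_frame hJ hF
  rw [hA.q_eq hF.alt hb hc, W_mixed0 (hc.pull _) (hA.pull_inv hb') (hA.pull_anti hc')]
  simp

theorem q_split {b c : Bil} (hb : Alt b) (hc : Alt c) :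
    q F b c = q F (invp J b) (invp J c) + q F (antip J b) (antip J c) := by
  conv_lhs => rw [← invp_add_antip J b, ← invp_add_antip J c]
  rw [q_add_left, q_add_right, q_add_right,
    q_inv_anti hJ hF (hb.invp J) (hc.antip J) (invp_inv hJ b) (antip_anti hJ c),
    q_comm F (antip J b) (invp J c),
    q_inv_anti hJ hF (hc.invp J) (hb.antip J) (invp_inv hJ c) (antip_anti hJ b)]
  ring

theorem q_F_invp {b : Bil} (hb : Alt b) : q F (invp J b) F = q F b F := by
  have h := q_split hJ hF hb hF.alt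
  rw [antip_of_inv hF.inv, invp_of_inv hF.inv, q_zero_right, add_zero] at h
  exact h.symm

theorem q_F_F : q F F F = 1 := by
  obtain ⟨A, hA⟩ := exists_frame hJ hF
  unfold q
  exact div_self (hA.W_ne hF.alt)

/-- the squared norm splits. -/
theorem nsq_split {b : Bil} (hb : Alt b) :
    nsq J F b = nsq J F (invp J b) + nsq J F (antip J b) := by
  have hi := invp_inv hJ b
  have ha := antip_anti hJ b
  unfold nsq ip
  rw [q_F_invp hJ hF hb, invp_of_inv hi, antip_of_inv hi, invp_of_anti ha, antip_of_anti ha]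
  have h0 : q F (antip J b) F = 0 := by
    rw [q_comm, q_inv_anti hJ hF hF.alt (hb.antip J) hF.inv ha]
  have h1 : q F (0 : Bil) 0 = 0 := by
    exact q_zero_right F 0
  rw [h0, h1]; ring

theorem nsq_anti {b : Bil} (hb : Alt b) (h : ∀ u v, b (J u) (J v) = - b u v) :
    nsq J F b = q F b b := by
  unfold nsq ip
  have h0 : q F b F = 0 := by rw [q_comm, q_inv_anti hJ hF hF.alt hb hF.inv h]
  have h1 : q F (0 : Bil) 0 = 0 := by
    exact q_zero_right F 0
  rw [h0, invp_of_anti h, antip_of_anti h, h1]; ring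

theorem nsq_inv {b : Bil} (h : ∀ u v, b (J u) (J v) = b u v) :
    nsq J F b = 2 * q F b F ^ 2 - q F b b := by
  unfold nsq ip
  have h1 : q F (0 : Bil) 0 = 0 := by
    exact q_zero_right F 0
  rw [invp_of_inv h, antip_of_inv h, h1]; ring

theorem st_inv (c : Bil) (hc : Alt c) : invp J (st J F c) = (2 * q F c F) • F - invp J c := by
  unfold st
  rw [invp_add, invp_sub, invp_smul, invp_of_inv hF.inv, invp_of_inv (invp_inv hJ c),
    invp_of_anti (antip_anti hJ c), badd_zero]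

theorem st_anti (c : Bil) (hc : Alt c) : antip J (st J F c) = antip J c := by
  unfold st
  rw [antip_add, antip_sub, antip_smul, antip_of_inv hF.inv, antip_of_inv (invp_inv hJ c),
    antip_of_anti (antip_anti hJ c)]
  ext u v
  simp

omit hJ in
theorem st_alt {c : Bil} (hc : Alt c) : Alt (st J F c) :=
  ((hF.alt.smul _).sub (hc.invp J)).add (hc.antip J)

theorem q_st_F {c : Bil} (hc : Alt c) : q F (st J F c) F = q F c F := by
  rw [← q_F_invp hJ hF (st_alt hF hc), st_inv hJ hF c hc, q_sub_left, q_smul_left, q_F_F hJ hF,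
    q_F_invp hJ hF hc]
  ring

theorem q_eq_ip {b c : Bil} (hb : Alt b) (hc : Alt c) : q F b c = ip J F b (st J F c) := by
  unfold ip
  rw [q_st_F hJ hF hc, st_inv hJ hF c hc, st_anti hJ hF c hc, q_sub_right, q_smul_right,
    q_F_invp hJ hF hb, q_split hJ hF hb hc]
  ring

theorem ip_eq_q {b c : Bil} (hb : Alt b) (hc : Alt c) : ip J F b c = q F b (st J F c) := by
  rw [q_split hJ hF hb (st_alt hF hc), st_inv hJ hF c hc, st_anti hJ hF c hc, q_sub_right,
    q_smul_right, q_F_invp hJ hF hb]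
  unfold ip
  ring

theorem nsq_st {c : Bil} (hc : Alt c) : nsq J F (st J F c) = nsq J F c := by
  unfold nsq
  rw [ip_eq_q hJ hF (st_alt hF hc) (st_alt hF hc), q_split hJ hF (st_alt hF hc)
    (st_alt hF (st_alt hF hc)), st_inv hJ hF _ (st_alt hF hc), st_anti hJ hF _ (st_alt hF hc),
    st_inv hJ hF c hc, st_anti hJ hF c hc, q_st_F hJ hF hc]
  unfold ip
  simp only [q_sub_left, q_sub_right, q_smul_left, q_smul_right, q_F_F hJ hF,
    q_F_invp hJ hF hc]
  rw [q_comm F F (invp J c), q_F_invp hJ hF hc]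
  ring

/-- Cauchy-Schwarz for `q`. -/
theorem q_cs {b c : Bil} (hb : Alt b) (hc : Alt c) : q F b c ^ 2 ≤ nsq J F b * nsq J F c := by
  rw [q_eq_ip hJ hF hb hc, ← nsq_st hJ hF hc]
  exact ip_cs hJ hF hb (st_alt hF hc)

theorem nsq_F : nsq J F F = 1 := by
  rw [nsq_inv hJ hF hF.inv, q_F_F hJ hF]; norm_num

/-- characterisation of positivity (the light cone). -/
theorem pos_iff {P : Bil} (hP : Alt P) (hi : ∀ u v, P (J u) (J v) = P u v) :
    (∀ v, 0 ≤ P v (J v)) ↔ 0 ≤ q F P F ∧ 0 ≤ q F P P := by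
  obtain ⟨A, hA⟩ := exists_frame hJ hF
  rw [hA.q_eq hF.alt hP hF.alt, hA.q_eq hF.alt hP hP, hA.pull_form]
  set π := pull (A : E4 →L[ℝ] E4) P with hπ
  have hπa : Alt π := hP.pull _
  have hπi : ∀ u v, π (J0 u) (J0 v) = π u v := hA.pull_inv hi
  have hW1 : W π om0 = ent π 0 1 + ent π 2 3 := by
    rw [W_inv0 hπi om0_inv]
    obtain ⟨o1, o2, o3, o4, o5, o6⟩ := ent_om0
    rw [o1, o2, o3, o4]; ring
  have hW2 : W π π = 2 * (ent π 0 1 * ent π 2 3 - (ent π 0 2 ^ 2 + ent π 0 3 ^ 2)) := by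
    rw [W_inv0 hπi hπi]; ring
  rw [hW1, hW2]
  have hpos : (∀ v, 0 ≤ P v (J v)) ↔ ∀ v, 0 ≤ π v (J0 v) := by
    constructor
    · intro h v
      have := h (A v)
      rw [hA.cplx] at this
      exact this
    · intro h v
      have := h (A.symm v)
      rw [hA.J_symm] at this
      simpa [hπ, pull_apply] using this
  rw [hpos]
  constructor
  · intro h
    obtain ⟨h1, h2, h3⟩ := pos0_ent hπa hπi h
    constructor <;> linarith
  · rintro ⟨h1, h2⟩
    have h3 : 0 ≤ ent π 0 1 * ent π 2 3 := by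
      have := sq_nonneg (ent π 0 2); have := sq_nonneg (ent π 0 3); linarith
    have h4 : 0 ≤ ent π 0 1 := by nlinarith
    have h5 : 0 ≤ ent π 2 3 := by nlinarith
    exact pos0_of_ent hπa hπi h4 h5 (by linarith)

end main

end

end Crest.Agent.R240.En4
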