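import Crest.Agent.R240.En4E
import Crest.Agent.R240.Ch4

/-!
Row 240 (helper744): the energy inequality of Step 4 from the smoothing package `SmPack`.
-/

set_option autoImplicit false
set_option maxSynthPendingDepth 3

open Set Function Filter MeasureTheory Metric
open scoped Manifold ContDiff Topology ENNReal

namespace Crest.Agent.R240.En4

open Crest.Agent.R240 Crest.Agent.R240.Ch

noncomputable section

variable {M : Type*} [MetricSpace M] [CompactSpace M] [ChartedSpace E4 M]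
    [IsManifold 𝓘(ℝ, E4) ∞ M] [MeasurableSpace M] [BorelSpace M] (D : Dat M)

/-- exact forms are closed. -/
theorem closed_of_isEx {b : X2 M} (h : IsEx (b : F2 E4 M)) : b ∈ Z2 M := by
  obtain ⟨σ, hσ, hb⟩ := h
  intro p y hy u v w
  have h1 : rep p (b : F2 E4 M) =ᶠ[𝓝 y] d1 (rep1 p σ) := by
    filter_upwards [(chartAt E4 p).open_target.mem_nhds hy] with z hz using hb p z hz
  rw [dd_congr h1]
  exact dd_d1 (Ch.Smooth1.at hσ hy) u v w

theorem nsqG_sub_le (a b : X2 M) (x : M) : nsqG D.J D.F ((a - b : X2 M) : F2 E4 M) x ≤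
    2 * nsqG D.J D.F (a : F2 E4 M) x + 2 * nsqG D.J D.F (b : F2 E4 M) x := by
  have h := nsqG_nonneg D (a + b).2.1 x
  have e1 : nsqG D.J D.F ((a + b : X2 M) : F2 E4 M) x =
      nsqG D.J D.F (a : F2 E4 M) x + nsqG D.J D.F (b : F2 E4 M) x
        + 2 * ip (atJ D.J x) (at2 D.F x) (at2 (a : F2 E4 M) x) (at2 (b : F2 E4 M) x) := by
    have e : nsqG D.J D.F ((a + b : X2 M) : F2 E4 M) x =
      ip (atJ D.J x) (at2 D.F x) (at2 (a : F2 E4 M) x + at2 (b : F2 E4 M) x)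
        (at2 (a : F2 E4 M) x + at2 (b : F2 E4 M) x) := rfl
    rw [e, ip_add_left, ip_add_right, ip_add_right,
      ip_comm (atJ D.J x) (at2 D.F x) (at2 (b : F2 E4 M) x) (at2 (a : F2 E4 M) x)]
    have e2 : ∀ c : X2 M, nsqG D.J D.F (c : F2 E4 M) x =
      ip (atJ D.J x) (at2 D.F x) (at2 (c : F2 E4 M) x) (at2 (c : F2 E4 M) x) := fun c => rfl
    rw [e2, e2]; ring
  have e2 : nsqG D.J D.F ((a - b : X2 M) : F2 E4 M) x =
      nsqG D.J D.F (a : F2 E4 M) x + nsqG D.J D.F (b : F2 E4 M) x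
        - 2 * ip (atJ D.J x) (at2 D.F x) (at2 (a : F2 E4 M) x) (at2 (b : F2 E4 M) x) := by
    have e : nsqG D.J D.F ((a - b : X2 M) : F2 E4 M) x =
      ip (atJ D.J x) (at2 D.F x) (at2 (a : F2 E4 M) x + (-1 : ℝ) • at2 (b : F2 E4 M) x)
        (at2 (a : F2 E4 M) x + (-1 : ℝ) • at2 (b : F2 E4 M) x) := by
      have h3 : at2 (a : F2 E4 M) x + (-1 : ℝ) • at2 (b : F2 E4 M) x =
          at2 ((a - b : X2 M) : F2 E4 M) x := by
        rw [X2.coe_sub, at2_sub]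
        ext u v
        simp only [add_apply, sub_apply, smul_apply, smul_eq_mul]; ring
      rw [h3]; rfl
    rw [e, ip_add_left, ip_add_right, ip_add_right, ip_smul_left, ip_smul_left, ip_smul_right,
      ip_smul_right, ip_comm (atJ D.J x) (at2 D.F x) (at2 (b : F2 E4 M) x) (at2 (a : F2 E4 M) x)]
    have e2 : ∀ c : X2 M, nsqG D.J D.F (c : F2 E4 M) x =
      ip (atJ D.J x) (at2 D.F x) (at2 (c : F2 E4 M) x) (at2 (c : F2 E4 M) x) := fun c => rfl
    rw [e2, e2]; ring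
  rw [e1] at h
  rw [e2]
  linarith

theorem nsqG_pi'' (b : X2 M) (x : M) : nsqG D.J D.F (D.pi'' b : F2 E4 M) x =
    qG D.F (D.pi'' b : F2 E4 M) (D.pi'' b : F2 E4 M) x :=
  nsq_anti (D.sq x) (spos D x) ((alt2 b x).antip _) (antip_anti (D.sq x) _)

theorem n2_sq_pi'' (b : X2 M) : D.n2 (D.pi'' b : F2 E4 M) ^ 2 =
    D.I (D.pi'' b : F2 E4 M) (D.pi'' b : F2 E4 M) := by
  rw [n2_sq]
  unfold Dat.I IG
  congr 1
  funext x
  exact nsqG_pi'' D b x

/-- pointwise energy inequality. -/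
theorem pt_energy {T B : X2 M} {x : M} {C e g : ℝ} (hC : 1 ≤ C) (he : 0 ≤ e) (he1 : e ≤ 1)
    (hg : 0 ≤ g) (h1 : D.nr (D.pi' T : F2 E4 M) x ≤ C * g)
    (h2 : ∀ v, - (C * e ^ 2 * g) * at2 D.F x v (atJ D.J x v) ≤
      at2 (T : F2 E4 M) x v (atJ D.J x v))
    (h3 : qG D.F (T : F2 E4 M) D.F x ≤ C * g) :
    - (3 * C ^ 2 * e ^ 2 * g ^ 2 + 2 * C * (g * D.nr (D.pi' B : F2 E4 M) x)
        + D.nr (D.pi' B : F2 E4 M) x ^ 2) ≤
      qG D.F (D.pi' (T + B) : F2 E4 M) (D.pi' (T + B) : F2 E4 M) x := by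
  set s := C * e ^ 2 * g with hs
  have hs0 : 0 ≤ s := by positivity
  have e0 : qG D.F (D.pi' (T + B) : F2 E4 M) (D.pi' (T + B) : F2 E4 M) x =
      qG D.F (D.pi' T : F2 E4 M) (D.pi' T : F2 E4 M) x
        + 2 * qG D.F (D.pi' T : F2 E4 M) (D.pi' B : F2 E4 M) x
        + qG D.F (D.pi' B : F2 E4 M) (D.pi' B : F2 E4 M) x := by
    rw [map_add]
    have e : qG D.F ((D.pi' T + D.pi' B : X2 M) : F2 E4 M) ((D.pi' T + D.pi' B : X2 M) : F2 E4 M) x
      = q (at2 D.F x) (at2 (D.pi' T : F2 E4 M) x + at2 (D.pi' B : F2 E4 M) x)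
        (at2 (D.pi' T : F2 E4 M) x + at2 (D.pi' B : F2 E4 M) x) := rfl
    rw [e, q_add_left, q_add_right, q_add_right,
      q_comm (at2 D.F x) (at2 (D.pi' B : F2 E4 M) x) (at2 (D.pi' T : F2 E4 M) x)]
    unfold qG
    ring
  -- lower bound of q(T',T')
  have hpos : ∀ v, 0 ≤ (at2 (D.pi' T : F2 E4 M) x + s • at2 D.F x) v (atJ D.J x v) := by
    intro v
    have e1 : (at2 (D.pi' T : F2 E4 M) x + s • at2 D.F x) v (atJ D.J x v) =
      invp (atJ D.J x) (at2 (T : F2 E4 M) x) v (atJ D.J x v)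
        + s * at2 D.F x v (atJ D.J x v) := rfl
    rw [e1, invp_diag (D.sq x) (alt2 T x)]
    have := h2 v
    linarith
  have hinv : ∀ u v, (at2 (D.pi' T : F2 E4 M) x + s • at2 D.F x) (atJ D.J x u) (atJ D.J x v) =
      (at2 (D.pi' T : F2 E4 M) x + s • at2 D.F x) u v := by
    intro u v
    have e1 : ∀ a b, (at2 (D.pi' T : F2 E4 M) x + s • at2 D.F x) a b =
      invp (atJ D.J x) (at2 (T : F2 E4 M) x) a b + s * at2 D.F x a b := fun a b => rfl
    rw [e1, e1, invp_inv (D.sq x), (spos D x).inv]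
  obtain ⟨-, h4⟩ := (pos_iff (D.sq x) (spos D x)
    ((alt2 (D.pi' T) x).add ((spos D x).alt.smul s)) hinv).1 hpos
  have e1 : q (at2 D.F x) (at2 (D.pi' T : F2 E4 M) x + s • at2 D.F x)
      (at2 (D.pi' T : F2 E4 M) x + s • at2 D.F x) =
      qG D.F (D.pi' T : F2 E4 M) (D.pi' T : F2 E4 M) x
        + 2 * s * qG D.F (T : F2 E4 M) D.F x + s ^ 2 := by
    rw [q_add_left, q_add_right, q_add_right, q_smul_left, q_smul_left, q_smul_right,
      q_smul_right, q_F_F (D.sq x) (spos D x), q_comm (at2 D.F x) (at2 D.F x)]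
    have e2 : q (at2 D.F x) (at2 (D.pi' T : F2 E4 M) x) (at2 D.F x) =
      qG D.F (T : F2 E4 M) D.F x := q_F_invp (D.sq x) (spos D x) (alt2 T x)
    rw [e2]
    unfold qG
    ring
  rw [e1] at h4
  have h5 := abs_le.1 (abs_qG_le D (D.pi' T) (D.pi' B) x)
  have h6 := abs_le.1 (abs_qG_le D (D.pi' B) (D.pi' B) x)
  have hb := nr_nonneg D (D.pi' B : F2 E4 M) x
  have h7 : D.nr (D.pi' T : F2 E4 M) x * D.nr (D.pi' B : F2 E4 M) x ≤
      C * (g * D.nr (D.pi' B : F2 E4 M) x) := by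
    calc _ ≤ (C * g) * D.nr (D.pi' B : F2 E4 M) x := by gcongr
      _ = _ := by ring
  have h8 : 2 * s * qG D.F (T : F2 E4 M) D.F x ≤ 2 * C ^ 2 * e ^ 2 * g ^ 2 := by
    calc 2 * s * qG D.F (T : F2 E4 M) D.F x ≤ 2 * s * (C * g) := by gcongr
      _ = 2 * C ^ 2 * e ^ 2 * g ^ 2 := by rw [hs]; ring
  have h9 : s ^ 2 ≤ C ^ 2 * e ^ 2 * g ^ 2 := by
    have : e ^ 2 ≤ 1 := pow_le_one₀ he he1
    calc s ^ 2 = (C ^ 2 * e ^ 2 * g ^ 2) * e ^ 2 := by rw [hs]; ring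
      _ ≤ (C ^ 2 * e ^ 2 * g ^ 2) * 1 := by gcongr
      _ = _ := by ring
  rw [e0]
  nlinarith [h5.1, h6.1]

/-- **Energy inequality** (T1). -/
theorem bpart {𝒰 : Cover M} (S : SmPack D 𝒰) (hn : NRCM D 𝒰) (hfund : D.FUND) :
    ∃ C : ℝ, 1 ≤ C ∧ ∀ (L : X2 M →ₗ[ℝ] ℝ) (s : Measure M), D.IsRM L s →
      Dat.KillsClosed L → FOrd 𝒰 (L.comp D.pi'') →
      ∀ e, 0 < e → e ≤ S.e0 → ∀ g : M → ℝ, SmoothF E4 g → (∀ x, 0 ≤ g x) →
      (∀ f, SmoothF E4 f → ∫ x, S.a e f x ∂s = ∫ x, f x * g x ∂D.μ) → ∀ p ∈ S.clp 0,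
      ∃ T B : X2 M, (∀ b : X2 M, L (D.pi' (S.A e p b)) = D.I (T : F2 E4 M) (b : F2 E4 M)) ∧
        (∀ b : X2 M, L (D.pi'' (S.A e p b)) = D.I (B : F2 E4 M) (b : F2 E4 M)) ∧
        T + B ∈ Z2 M ∧
        (∀ x, D.nr (T : F2 E4 M) x ≤ C * g x) ∧
        GeF D.J D.F (T : F2 E4 M) (fun x => - (C * e ^ 2 * g x)) ∧
        (∀ x, D.nr (D.pi'' T : F2 E4 M) x ≤ C * e * g x) ∧
        (p = S.one → ∀ x, (1 - C * e) * g x ≤ qG D.F (T : F2 E4 M) D.F x) ∧
        D.n2 (D.pi'' B : F2 E4 M) ^ 2 ≤ C * (e ^ 2 * ∫ x, g x ^ 2 ∂D.μ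
          + √(∫ x, g x ^ 2 ∂D.μ) * D.n2 (D.pi' B : F2 E4 M)
          + D.n2 (D.pi' B : F2 E4 M) ^ 2) := by
  obtain ⟨C, hC1, hC⟩ := tpart D S hn
  refine ⟨8 * C ^ 2, by nlinarith, ?_⟩
  intro L s hR hkill hfo e he he0 g hg hg0 hgs p hp
  have he1 : e ≤ 1 := he0.trans S.e0_le
  obtain ⟨T, hT, hT1, hT2, hT3, hT4, hT5, hT6⟩ := hC L s hR e he he0 g hg hg0 hgs p hp
  obtain ⟨B, hB⟩ := S.rep (L.comp D.pi'') hfo e p he he0
  have hB' : ∀ b : X2 M, L (D.pi'' (S.A e p b)) = D.I (B : F2 E4 M) (b : F2 E4 M) := hB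
  have hCC : C ≤ 8 * C ^ 2 := by nlinarith
  have hC0 : 0 ≤ C := by linarith
  have hgc := sF_continuous hg
  have hsum : ∀ b : X2 M, D.I ((T + B : X2 M) : F2 E4 M) (b : F2 E4 M) = L (S.A e p b) := by
    intro b
    rw [I_add_left, ← hT, ← hB', ← map_add, pi_add]
  have hZ : T + B ∈ Z2 M := by
    apply hfund
    intro b hb
    rw [hsum]
    exact hkill _ (closed_of_isEx (S.exact e p he he0 b hb))
  have hII : D.I ((T + B : X2 M) : F2 E4 M) ((T + B : X2 M) : F2 E4 M) = 0 := by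
    rw [hsum]
    exact hkill _ (S.closed e p he he0 _ hZ)
  refine ⟨T, B, hT, hB', hZ, ?_, ?_, ?_, ?_, ?_⟩
  · intro x
    have := hg0 x
    exact (hT1 x).trans (by gcongr)
  · apply GeF.mono D hT3
    intro x
    have := hg0 x
    have h : C * e ^ 2 * g x ≤ 8 * C ^ 2 * e ^ 2 * g x := by gcongr
    linarith
  · intro x
    have := hg0 x
    exact (hT4 x).trans (by gcongr)
  · intro hp1 x
    have := hg0 x
    have h : C * e * g x ≤ 8 * C ^ 2 * e * g x := by gcongr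
    have := hT6 hp1 x
    linarith
  · -- energy
    set β := D.n2 (D.pi' B : F2 E4 M) with hβ
    have hβ0 : 0 ≤ β := n2_nonneg D _
    set G := ∫ x, g x ^ 2 ∂D.μ with hG
    have hG0 : 0 ≤ G := integral_nonneg fun x => sq_nonneg _
    have hnB : Continuous (D.nr (D.pi' B : F2 E4 M)) := cont_nr D (D.pi' B).2
    have hβ2 : ∫ x, D.nr (D.pi' B : F2 E4 M) x ^ 2 ∂D.μ = β ^ 2 := by
      rw [hβ, n2_sq]
      congr 1
      funext x
      exact nr_sq D (D.pi' B).2.1 x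
    have hi1 : Integrable (fun x => g x ^ 2) D.μ := integrable_cont D (hgc.pow 2)
    have hi2 : Integrable (fun x => g x * D.nr (D.pi' B : F2 E4 M) x) D.μ :=
      integrable_cont D (hgc.mul hnB)
    have hi3 : Integrable (fun x => D.nr (D.pi' B : F2 E4 M) x ^ 2) D.μ :=
      integrable_cont D (hnB.pow 2)
    -- the invariant part
    have hi4 : Integrable (fun x => 3 * C ^ 2 * e ^ 2 * g x ^ 2
        + 2 * C * (g x * D.nr (D.pi' B : F2 E4 M) x)) D.μ := (hi1.const_mul _).add (hi2.const_mul _)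
    have h1 : - (3 * C ^ 2 * e ^ 2 * G + 2 * C * ∫ x, g x * D.nr (D.pi' B : F2 E4 M) x ∂D.μ
        + β ^ 2) ≤ D.I (D.pi' (T + B) : F2 E4 M) (D.pi' (T + B) : F2 E4 M) := by
      have e1 : - (3 * C ^ 2 * e ^ 2 * G + 2 * C * ∫ x, g x * D.nr (D.pi' B : F2 E4 M) x ∂D.μ
        + β ^ 2) = ∫ x, - (3 * C ^ 2 * e ^ 2 * g x ^ 2
          + 2 * C * (g x * D.nr (D.pi' B : F2 E4 M) x) + D.nr (D.pi' B : F2 E4 M) x ^ 2) ∂D.μ := by
        rw [integral_neg, integral_add hi4 hi3,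
          integral_add (hi1.const_mul _) (hi2.const_mul _), integral_const_mul,
          integral_const_mul, hβ2]
      rw [e1]
      apply integral_mono
      · exact (hi4.add hi3).neg
      · exact integrable_qG D (D.pi' (T + B)).2 (D.pi' (T + B)).2
      · intro x
        exact pt_energy D hC1 he.le he1 (hg0 x) (hT2 x) (fun v => hT3 x v) (hT5 x)
    have hcs : ∫ x, g x * D.nr (D.pi' B : F2 E4 M) x ∂D.μ ≤ √G * β := by
      have := cs_int D hgc hnB hg0 (nr_nonneg D _)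
      rw [hβ2, Real.sqrt_sq hβ0] at this
      exact this
    -- the anti-invariant part
    have h2 : D.n2 (D.pi'' (T + B) : F2 E4 M) ^ 2 ≤
        3 * C ^ 2 * e ^ 2 * G + 2 * C * (√G * β) + β ^ 2 := by
      rw [n2_sq_pi'']
      have h3 := I_split D (T + B) (T + B)
      rw [hII] at h3
      have h4 : 2 * C * ∫ x, g x * D.nr (D.pi' B : F2 E4 M) x ∂D.μ ≤ 2 * C * (√G * β) := by
        gcongr
      linarith
    -- remove T''
    have h5 : D.n2 (D.pi'' B : F2 E4 M) ^ 2 ≤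
        2 * D.n2 (D.pi'' (T + B) : F2 E4 M) ^ 2 + 2 * (C ^ 2 * e ^ 2 * G) := by
      have e1 : D.pi'' B = D.pi'' (T + B) - D.pi'' T := by rw [map_add]; abel
      have hT'' : ∫ x, nsqG D.J D.F (D.pi'' T : F2 E4 M) x ∂D.μ ≤ C ^ 2 * e ^ 2 * G := by
        rw [hG, ← integral_const_mul]
        apply integral_mono (integrable_cont D (sF_continuous (sF_nsqG D (D.pi'' T).2)))
          (hi1.const_mul _)
        intro x
        have h6 := hT4 x
        have h7 := nr_nonneg D (D.pi'' T : F2 E4 M) x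
        have h8 := nr_sq D (D.pi'' T).2.1 x
        have h9 : D.nr (D.pi'' T : F2 E4 M) x ^ 2 ≤ (C * e * g x) ^ 2 := by gcongr
        rw [h8] at h9
        calc _ ≤ _ := h9
          _ = C ^ 2 * e ^ 2 * g x ^ 2 := by ring
      have hpt : ∫ x, nsqG D.J D.F (D.pi'' B : F2 E4 M) x ∂D.μ ≤
          2 * ∫ x, nsqG D.J D.F (D.pi'' (T + B) : F2 E4 M) x ∂D.μ
            + 2 * ∫ x, nsqG D.J D.F (D.pi'' T : F2 E4 M) x ∂D.μ := by
        have hiA := integrable_cont D (sF_continuous (sF_nsqG D (D.pi'' (T + B)).2))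
        have hiB := integrable_cont D (sF_continuous (sF_nsqG D (D.pi'' T).2))
        rw [← integral_const_mul, ← integral_const_mul,
          ← integral_add (hiA.const_mul 2) (hiB.const_mul 2)]
        apply integral_mono (integrable_cont D (sF_continuous (sF_nsqG D (D.pi'' B).2)))
          ((hiA.const_mul 2).add (hiB.const_mul 2))
        intro x
        rw [e1]
        exact nsqG_sub_le D _ _ x
      rw [n2_sq, n2_sq]
      linarith
    have hGs : 0 ≤ √G * β := by positivity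
    have hC2 : C ≤ C ^ 2 := by nlinarith
    have h10 : 0 ≤ e ^ 2 * G := by positivity
    calc D.n2 (D.pi'' B : F2 E4 M) ^ 2
        ≤ 2 * (3 * C ^ 2 * e ^ 2 * G + 2 * C * (√G * β) + β ^ 2) + 2 * (C ^ 2 * e ^ 2 * G) := by
          linarith
      _ = 8 * C ^ 2 * (e ^ 2 * G) + 4 * C * (√G * β) + 2 * β ^ 2 := by ring
      _ ≤ 8 * C ^ 2 * (e ^ 2 * G) + 8 * C ^ 2 * (√G * β) + 8 * C ^ 2 * β ^ 2 := by
          have a1 : 4 * C * (√G * β) ≤ 8 * C ^ 2 * (√G * β) := by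
            apply mul_le_mul_of_nonneg_right _ hGs; nlinarith
          have a2 : 2 * β ^ 2 ≤ 8 * C ^ 2 * β ^ 2 := by
            apply mul_le_mul_of_nonneg_right _ (sq_nonneg _); nlinarith
          linarith
      _ = _ := by ring

end

end Crest.Agent.R240.En4
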