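import Mathlib
import Crest.Agent.R240.Lin1

/-!
Row 240, Lemma A, team F (Fourier): common definitions.
-/

set_option autoImplicit false

namespace Crest.Agent.R240.FA

open Crest.Agent.R240 MeasureTheory
open scoped ContDiff

noncomputable section

abbrev Z4 : Type := Fin 4 → ℤ

/-- the integer vector as an element of `E4` -/
def nv (n : Z4) : E4 := WithLp.toLp 2 (fun i => (n i : ℝ))

@[simp] theorem nv_apply (n : Z4) (i : Fin 4) : nv n i = (n i : ℝ) := rfl

/-- the character `exp (2 π i ⟨n, x⟩)` -/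
def ch (n : Z4) (x : E4) : ℂ := Complex.exp (2 * Real.pi * Complex.I * ((inner ℝ (nv n) x : ℝ) : ℂ))

/-- the weight `1 + |n|` -/
def wt (n : Z4) : ℝ := 1 + ‖nv n‖

theorem wt_pos (n : Z4) : 0 < wt n := by unfold wt; positivity

theorem one_le_wt (n : Z4) : 1 ≤ wt n := by
  unfold wt; linarith [norm_nonneg (nv n)]

/-- the open unit cube -/
def cube : Set E4 := {x | ∀ i, 0 < x i ∧ x i < 1}

section

variable {V : Type*} [NormedAddCommGroup V] [NormedSpace ℝ V] [NormedSpace ℂ V]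
  [IsScalarTower ℝ ℂ V]
variable {G : Type*} [NormedAddCommGroup G] [NormedSpace ℝ G] [NormedSpace ℂ G]
  [IsScalarTower ℝ ℂ G]

/-- Fourier coefficient -/
def coef (f : E4 → V) (n : Z4) : V := ∫ x, ch (-n) x • f x

/-- all derivatives of order `≤ k` bounded by `B` -/
def CkB {F : Type*} [NormedAddCommGroup F] [NormedSpace ℝ F] (k : ℕ) (f : E4 → F) (B : ℝ) : Prop :=
  ∀ j ≤ k, ∀ x, ‖iteratedFDeriv ℝ j f x‖ ≤ B

/-- symbols of order `-r` (real linear operators `V → G`) -/
structure IsSym {F : Type*} [NormedAddCommGroup F] [NormedSpace ℝ F] (r : ℕ)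
    (p : Z4 → E4 → F) : Prop where
  smooth : ∀ n, ContDiff ℝ ∞ (p n)
  bd : ∀ j : ℕ, ∃ C : ℝ, ∀ n, n ≠ 0 → ∀ x, ‖iteratedFDeriv ℝ j (p n) x‖ ≤ C / wt n ^ r

open Classical in
/-- the truncated operator with symbol `p` (frequencies `|n| > A`) -/
def Op (A : ℝ) (p : Z4 → E4 → (V →L[ℝ] G)) (f : E4 → V) (x : E4) : G :=
  ∑' n : Z4, if A < ‖nv n‖ then ch n x • p n x (coef f n) else 0

/-- the covector `v ↦ 2 π i ⟨n, v⟩` -/
def cov (n : Z4) : E4 →L[ℝ] ℂ :=
  (2 * Real.pi * Complex.I : ℂ) • (Complex.ofRealCLM.comp (innerSL ℝ (nv n)))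

@[simp] theorem cov_apply (n : Z4) (v : E4) :
    cov n v = 2 * Real.pi * Complex.I * ((inner ℝ (nv n) v : ℝ) : ℂ) := by
  simp [cov]

/-- tensor with the covector: `g ↦ (v ↦ cov n v • g)` -/
def tens (n : Z4) : G →L[ℝ] (E4 →L[ℝ] G) :=
  LinearMap.mkContinuous
    { toFun := fun g => (cov n).smulRight g
      map_add' := fun g g' => by ext v; simp
      map_smul' := fun c g => by
        ext v
        change cov n v • (c • g) = c • (cov n v • g)
        rw [smul_comm] } ‖cov n‖ (by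
        intro g
        refine ContinuousLinearMap.opNorm_le_bound _ (by positivity) fun v => ?_
        change ‖cov n v • g‖ ≤ _
        rw [norm_smul]
        calc ‖cov n v‖ * ‖g‖ ≤ (‖cov n‖ * ‖v‖) * ‖g‖ := by
              gcongr
              exact (cov n).le_opNorm v
          _ = ‖cov n‖ * ‖g‖ * ‖v‖ := by ring)

@[simp] theorem tens_apply (n : Z4) (g : G) (v : E4) : tens n g v = cov n v • g := by
  simp [tens]

/-- the symbol of the derivative -/
def dS (p : Z4 → E4 → (V →L[ℝ] G)) (n : Z4) (x : E4) : V →L[ℝ] (E4 →L[ℝ] G) :=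
  (tens n).comp (p n x) + (fderiv ℝ (p n) x).flip

omit [NormedSpace ℂ V] [IsScalarTower ℝ ℂ V] in
theorem dS_apply (p : Z4 → E4 → (V →L[ℝ] G)) (n : Z4) (x : E4) (w : V) (v : E4) :
    dS p n x w v = (2 * Real.pi * Complex.I * ((inner ℝ (nv n) v : ℝ) : ℂ)) • p n x w
      + (fderiv ℝ (p n) x v) w := by
  simp [dS]

end

end

end Crest.Agent.R240.FA
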