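import Mathlib
import Crest.Agent.R240.FADefs

/-!
Row 240, Lemma A, team F: complex valued forms on `E4` and the projection to the
alternating `J`-anti-invariant ones.
-/

set_option autoImplicit false
set_option maxSynthPendingDepth 3

namespace Crest.Agent.R240.FA

open Crest.Agent.R240
open scoped ContDiff

noncomputable section

/-- complex valued covectors -/
abbrev C1 : Type := E4 →L[ℝ] ℂ

/-- complex valued bilinear forms (curried) -/
abbrev C2 : Type := E4 →L[ℝ] E4 →L[ℝ] ℂ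

/-- `β ↦ β (J ·) (J ·)` -/
def pl (J : E4 →L[ℝ] E4) : C2 →L[ℝ] C2 :=
  ((ContinuousLinearMap.compL ℝ E4 C1 C1) ((ContinuousLinearMap.compL ℝ E4 E4 ℂ).flip J)).comp
    ((ContinuousLinearMap.compL ℝ E4 E4 C1).flip J)

@[simp] theorem pl_apply (J : E4 →L[ℝ] E4) (β : C2) (u v : E4) : pl J β u v = β (J u) (J v) := by
  simp [pl]

theorem contDiff_pl {J : E4 → (E4 →L[ℝ] E4)} (hJ : ContDiff ℝ ∞ J) :
    ContDiff ℝ ∞ fun x => pl (J x) := by
  unfold pl
  fun_prop

/-- flip -/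
def fl : C2 →L[ℝ] C2 := (ContinuousLinearMap.flipₗᵢ ℝ E4 E4 ℂ).toContinuousLinearEquiv

@[simp] theorem fl_apply (β : C2) (u v : E4) : fl β u v = β v u := by
  simp [fl]

/-- the projection to alternating `J`-anti-invariant forms:
`(PiC J β)(u,v) = 1/4 (β(u,v) - β(v,u) - β(Ju,Jv) + β(Jv,Ju))` -/
def PiC (J : E4 →L[ℝ] E4) : C2 →L[ℝ] C2 :=
  (1/4 : ℝ) • ((ContinuousLinearMap.id ℝ C2 - fl) - (pl J).comp (ContinuousLinearMap.id ℝ C2 - fl))

theorem PiC_apply (J : E4 →L[ℝ] E4) (β : C2) (u v : E4) :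
    PiC J β u v = (1/4 : ℝ) • (β u v - β v u - β (J u) (J v) + β (J v) (J u)) := by
  simp [PiC]
  ring

theorem contDiff_PiC {J : E4 → (E4 →L[ℝ] E4)} (hJ : ContDiff ℝ ∞ J) :
    ContDiff ℝ ∞ fun x => PiC (J x) := by
  unfold PiC
  have := contDiff_pl hJ
  fun_prop

theorem PiC_smul (J : E4 →L[ℝ] E4) (c : ℂ) (β : C2) : PiC J (c • β) = c • PiC J β := by
  ext u v
  simp only [PiC_apply, smul_apply, smul_eq_mul, Complex.real_smul]
  ring

/-- `β` is alternating and `J`-anti-invariant -/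
def AntiC (J : E4 →L[ℝ] E4) (β : C2) : Prop :=
  (∀ v, β v v = 0) ∧ ∀ u v, β (J u) (J v) = - β u v

theorem AntiC.swap {J : E4 →L[ℝ] E4} {β : C2} (h : AntiC J β) (u v : E4) : β v u = - β u v := by
  have h1 := h.1 (u + v)
  simp only [map_add, add_apply, h.1 u, h.1 v, zero_add, add_zero] at h1
  rw [eq_neg_iff_add_eq_zero]
  exact h1

theorem PiC_of_anti {J : E4 →L[ℝ] E4} {β : C2} (h : AntiC J β) : PiC J β = β := by
  ext u v
  rw [PiC_apply, h.2, h.2, h.swap u v, Complex.real_smul]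
  push_cast
  ring

theorem antiC_PiC {J : E4 →L[ℝ] E4} (hJ : ∀ v, J (J v) = -v) (β : C2) : AntiC J (PiC J β) := by
  constructor
  · intro v
    rw [PiC_apply]
    simp
  · intro u v
    rw [PiC_apply, PiC_apply, hJ, hJ]
    simp only [map_neg, neg_apply, neg_neg, Complex.real_smul]
    ring

theorem PiC_PiC {J : E4 →L[ℝ] E4} (hJ : ∀ v, J (J v) = -v) (β : C2) :
    PiC J (PiC J β) = PiC J β := PiC_of_anti (antiC_PiC hJ β)

end

end Crest.Agent.R240.FA
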