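import Mathlib
import Crest.Agent.R240.FAForms

/-!
Row 240, Lemma A, team F: symbol calculus (symbols with compact support), the recursion
`a_{j+1} = - Q' ∘ D a_j` and the telescoping identity.
-/

set_option autoImplicit false
set_option maxSynthPendingDepth 3

namespace Crest.Agent.R240.FA

open Crest.Agent.R240
open scoped ContDiff

noncomputable section

/-! ### calculus of symbols -/

section calculus

variable {F F' F'' : Type*} [NormedAddCommGroup F] [NormedSpace ℝ F]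
  [NormedAddCommGroup F'] [NormedSpace ℝ F'] [NormedAddCommGroup F''] [NormedSpace ℝ F'']

/-- symbols of order `-r` supported in `K` -/
structure SymK (K : Set E4) (r : ℕ) (p : Z4 → E4 → F) : Prop extends IsSym r p where
  supp : ∀ n x, x ∉ K → p n x = 0

theorem div_wt_nonneg {C : ℝ} (hC : 0 ≤ C) (n : Z4) (r : ℕ) : 0 ≤ C / wt n ^ r :=
  div_nonneg hC (pow_nonneg (wt_pos n).le _)

theorem IsSym.add {r : ℕ} {p p' : Z4 → E4 → F} (h : IsSym r p) (h' : IsSym r p') :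
    IsSym r (fun n x => p n x + p' n x) := by
  refine ⟨fun n => (h.smooth n).add (h'.smooth n), fun j => ?_⟩
  obtain ⟨C, hC⟩ := h.bd j
  obtain ⟨C', hC'⟩ := h'.bd j
  refine ⟨C + C', fun n hn x => ?_⟩
  have e : iteratedFDeriv ℝ j (fun x => p n x + p' n x) x
      = iteratedFDeriv ℝ j (p n) x + iteratedFDeriv ℝ j (p' n) x := by
    have := iteratedFDeriv_add_apply (𝕜 := ℝ) (i := j) (x := x) (f := p n) (g := p' n)
      ((h.smooth n).of_le (by exact_mod_cast le_top)).contDiffAt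
      ((h'.smooth n).of_le (by exact_mod_cast le_top)).contDiffAt
    exact this
  rw [e]
  refine (norm_add_le _ _).trans ?_
  rw [add_div]
  exact add_le_add (hC n hn x) (hC' n hn x)

theorem IsSym.mono {r s : ℕ} (hrs : s ≤ r) {p : Z4 → E4 → F} (h : IsSym r p) : IsSym s p := by
  refine ⟨h.smooth, fun j => ?_⟩
  obtain ⟨C, hC⟩ := h.bd j
  refine ⟨max C 0, fun n hn x => (hC n hn x).trans ?_⟩
  have h1 : C / wt n ^ r ≤ max C 0 / wt n ^ r := by
    gcongr
    · exact pow_nonneg (wt_pos n).le _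
    · exact le_max_left _ _
  refine h1.trans ?_
  have h2 : wt n ^ s ≤ wt n ^ r := pow_le_pow_right₀ (one_le_wt n) hrs
  exact div_le_div_of_nonneg_left (le_max_right _ _) (pow_pos (wt_pos n) _) h2

theorem IsSym.clm {r : ℕ} {p : Z4 → E4 → F} (h : IsSym r p) (T : F →L[ℝ] F') :
    IsSym r (fun n x => T (p n x)) := by
  refine ⟨fun n => T.contDiff.comp (h.smooth n), fun j => ?_⟩
  obtain ⟨C, hC⟩ := h.bd j
  refine ⟨‖T‖ * C, fun n hn x => ?_⟩
  have h1 := T.norm_iteratedFDeriv_comp_left (f := p n) (x := x) (n := j)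
    (N := ((⊤ : ℕ∞) : WithTop ℕ∞)) (h.smooth n).contDiffAt (by exact_mod_cast le_top)
  refine h1.trans ?_
  rw [mul_div_assoc]
  exact mul_le_mul_of_nonneg_left (hC n hn x) (norm_nonneg _)

theorem IsSym.fder {r : ℕ} {p : Z4 → E4 → F} (h : IsSym r p) :
    IsSym r (fun n x => fderiv ℝ (p n) x) := by
  refine ⟨fun n => (h.smooth n).fderiv_right (by simp), fun j => ?_⟩
  obtain ⟨C, hC⟩ := h.bd (j + 1)
  refine ⟨C, fun n hn x => ?_⟩
  have := norm_iteratedFDeriv_fderiv (𝕜 := ℝ) (f := p n) (n := j) (x := x)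
  rw [this]
  exact hC n hn x

theorem IsSym.bilin {r s : ℕ} {p : Z4 → E4 → F} {q : Z4 → E4 → F'} (B : F →L[ℝ] F' →L[ℝ] F'')
    (h : IsSym r p) (h' : IsSym s q) : IsSym (r + s) (fun n x => B (p n x) (q n x)) := by
  refine ⟨fun n => ?_, fun j => ?_⟩
  · exact B.isBoundedBilinearMap.contDiff.comp ((h.smooth n).prodMk (h'.smooth n))
  · choose C hC using h.bd
    choose C' hC' using h'.bd
    refine ⟨‖B‖ * ∑ i ∈ Finset.range (j + 1), (j.choose i : ℝ) * C i * C' (j - i),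
      fun n hn x => ?_⟩
    have h1 := B.norm_iteratedFDeriv_le_of_bilinear (N := ((⊤ : ℕ∞) : WithTop ℕ∞)) (n := j)
      (h.smooth n) (h'.smooth n) x (by exact_mod_cast le_top)
    refine h1.trans ?_
    rw [mul_div_assoc, Finset.sum_div]
    refine mul_le_mul_of_nonneg_left (Finset.sum_le_sum fun i _ => ?_) (norm_nonneg _)
    have e : (j.choose i : ℝ) * C i * C' (j - i) / wt n ^ (r + s)
        = (j.choose i : ℝ) * (C i / wt n ^ r) * (C' (j - i) / wt n ^ s) := by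
      rw [pow_add]
      field_simp
    rw [e]
    have hnn : 0 ≤ C i / wt n ^ r := (norm_nonneg _).trans (hC i n hn x)
    gcongr
    · exact hC i n hn x
    · exact hC' (j - i) n hn x

/-- multiplication of a compactly supported symbol with a smooth coefficient -/
theorem SymK.coeff {K : Set E4} (hK : IsCompact K) {r : ℕ} {p : Z4 → E4 → F} {M : E4 → F'}
    (hM : ContDiff ℝ ∞ M) (B : F' →L[ℝ] F →L[ℝ] F'') (h : SymK K r p) :
    SymK K r (fun n x => B (M x) (p n x)) := by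
  refine ⟨⟨fun n => ?_, fun j => ?_⟩, fun n x hx => ?_⟩
  · exact B.isBoundedBilinearMap.contDiff.comp (hM.prodMk (h.smooth n))
  · choose C hC using h.bd
    have hcM : ∀ i : ℕ, ∃ D : ℝ, ∀ x ∈ K, ‖iteratedFDeriv ℝ i M x‖ ≤ D := fun i =>
      hK.exists_bound_of_continuousOn
        (hM.continuous_iteratedFDeriv (by exact_mod_cast le_top)).continuousOn
    choose D hD using hcM
    have hD' : ∀ i x, x ∈ K → ‖iteratedFDeriv ℝ i M x‖ ≤ max (D i) 0 := fun i x hx =>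
      (hD i x hx).trans (le_max_left _ _)
    have hC' : ∀ i n, n ≠ 0 → ∀ x, ‖iteratedFDeriv ℝ i (p n) x‖ ≤ max (C i) 0 / wt n ^ r := by
      intro i n hn x
      refine (hC i n hn x).trans ?_
      gcongr
      · exact pow_nonneg (wt_pos n).le _
      · exact le_max_left _ _
    refine ⟨‖B‖ * ∑ i ∈ Finset.range (j + 1), (j.choose i : ℝ) * max (D i) 0 * max (C (j - i)) 0,
      fun n hn x => ?_⟩
    by_cases hx : x ∈ K
    · have h1 := B.norm_iteratedFDeriv_le_of_bilinear (N := ((⊤ : ℕ∞) : WithTop ℕ∞)) (n := j)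
        hM (h.smooth n) x (by exact_mod_cast le_top)
      refine h1.trans ?_
      rw [mul_div_assoc, Finset.sum_div]
      refine mul_le_mul_of_nonneg_left (Finset.sum_le_sum fun i _ => ?_) (norm_nonneg _)
      have e : (j.choose i : ℝ) * max (D i) 0 * max (C (j - i)) 0 / wt n ^ r
          = (j.choose i : ℝ) * max (D i) 0 * (max (C (j - i)) 0 / wt n ^ r) := by
        rw [mul_div_assoc]
      rw [e]
      gcongr
      · exact hD' i x hx
      · exact hC' (j - i) n hn x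
    · have hev : (fun x => B (M x) (p n x)) =ᶠ[nhds x] fun _ => 0 := by
        have : Kᶜ ∈ nhds x := hK.isClosed.isOpen_compl.mem_nhds hx
        filter_upwards [this] with y hy
        rw [h.supp n y hy, map_zero]
      have e : iteratedFDeriv ℝ j (fun x => B (M x) (p n x)) x
          = iteratedFDeriv ℝ j (fun _ : E4 => (0 : F'')) x :=
        (hev.iteratedFDeriv ℝ j).eq_of_nhds
      rw [e]
      have e0 : iteratedFDeriv ℝ j (fun _ : E4 => (0 : F'')) x = 0 := by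
        have := iteratedFDeriv_fun_zero (𝕜 := ℝ) (E := E4) (F := F'') (n := j)
        exact congrFun this x
      rw [e0, norm_zero]
      refine div_wt_nonneg ?_ n r
      refine mul_nonneg (norm_nonneg _) (Finset.sum_nonneg fun i _ => ?_)
      positivity
  · rw [h.supp n x hx, map_zero]

theorem SymK.fder {K : Set E4} (hK : IsClosed K) {r : ℕ} {p : Z4 → E4 → F} (h : SymK K r p) :
    SymK K r (fun n x => fderiv ℝ (p n) x) := by
  refine ⟨h.toIsSym.fder, fun n x hx => ?_⟩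
  have hev : p n =ᶠ[nhds x] fun _ => 0 := by
    have : Kᶜ ∈ nhds x := hK.isOpen_compl.mem_nhds hx
    filter_upwards [this] with y hy
    exact h.supp n y hy
  rw [hev.fderiv_eq]
  simp

theorem SymK.add {K : Set E4} {r : ℕ} {p p' : Z4 → E4 → F} (h : SymK K r p) (h' : SymK K r p') :
    SymK K r (fun n x => p n x + p' n x) :=
  ⟨h.toIsSym.add h'.toIsSym, fun n x hx => by rw [h.supp n x hx, h'.supp n x hx, add_zero]⟩

theorem SymK.mono {K : Set E4} {r s : ℕ} (hrs : s ≤ r) {p : Z4 → E4 → F} (h : SymK K r p) :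
    SymK K s p := ⟨h.toIsSym.mono hrs, h.supp⟩

theorem SymK.clm {K : Set E4} {r : ℕ} {p : Z4 → E4 → F} (h : SymK K r p) (T : F →L[ℝ] F') :
    SymK K r (fun n x => T (p n x)) :=
  ⟨h.toIsSym.clm T, fun n x hx => by rw [h.supp n x hx, map_zero]⟩

theorem SymK.bilin {K : Set E4} {r s : ℕ} {p : Z4 → E4 → F} {q : Z4 → E4 → F'}
    (B : F →L[ℝ] F' →L[ℝ] F'')
    (h : IsSym r p) (h' : SymK K s q) : SymK K (r + s) (fun n x => B (p n x) (q n x)) :=
  ⟨h.bilin B h'.toIsSym, fun n x hx => by rw [h'.supp n x hx, map_zero]⟩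

end calculus

/-! ### the recursion -/

/-- `x`-derivative part of the symbol of `S ↦ (dS)''` applied to `a` -/
def Dsym (J : E4 → E4 →L[ℝ] E4) (a : Z4 → E4 → (C2 →L[ℝ] C1)) (n : Z4) (x : E4) : C2 →L[ℝ] C2 :=
  ((2 : ℝ) • PiC (J x)).comp ((fderiv ℝ (a n) x).flip)

theorem Dsym_apply (J : E4 → E4 →L[ℝ] E4) (a : Z4 → E4 → (C2 →L[ℝ] C1)) (n : Z4) (x : E4)
    (w : C2) : Dsym J a n x w = (2 : ℝ) • PiC (J x) ((fderiv ℝ (a n) x).flip w) := rfl

/-- the sequence of symbols -/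
def aseq (J : E4 → E4 →L[ℝ] E4) (Q Q' : Z4 → E4 → (C2 →L[ℝ] C1)) :
    ℕ → Z4 → E4 → (C2 →L[ℝ] C1)
  | 0 => Q
  | (j + 1) => fun n x => -(Q' n x).comp (Dsym J (aseq J Q Q' j) n x)

theorem SymK.Dsym {J : E4 → E4 →L[ℝ] E4} (hJ : ContDiff ℝ ∞ J) {K : Set E4} (hK : IsCompact K)
    {r : ℕ} {a : Z4 → E4 → (C2 →L[ℝ] C1)} (h : SymK K r a) : SymK K r (Dsym J a) := by
  have h1 := h.fder hK.isClosed
  have h2 : SymK K r (fun n x => (fderiv ℝ (a n) x).flip) :=
    h1.clm ((ContinuousLinearMap.flipₗᵢ ℝ E4 C2 C1).toContinuousLinearEquiv :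
      (E4 →L[ℝ] C2 →L[ℝ] C1) →L[ℝ] (C2 →L[ℝ] E4 →L[ℝ] C1))
  have h3 : ContDiff ℝ ∞ fun x => ((2 : ℝ) • PiC (J x)) := (contDiff_PiC hJ).const_smul _
  exact SymK.coeff hK h3 (ContinuousLinearMap.compL ℝ C2 C2 C2) h2

theorem SymK.aseq {J : E4 → E4 →L[ℝ] E4} (hJ : ContDiff ℝ ∞ J) {K : Set E4} (hK : IsCompact K)
    {Q Q' : Z4 → E4 → (C2 →L[ℝ] C1)} (hQ : SymK K 1 Q) (hQ' : IsSym 1 Q') (j : ℕ) :
    SymK K (j + 1) (aseq J Q Q' j) := by
  induction j with
  | zero => exact hQ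
  | succ j ih =>
    have h1 := ih.Dsym hJ hK
    have h2 := SymK.bilin (ContinuousLinearMap.compL ℝ C2 C2 C1) hQ' h1
    have h3 := h2.clm (-ContinuousLinearMap.id ℝ (C2 →L[ℝ] C1))
    rw [show j + 1 + 1 = 1 + (j + 1) by ring]
    exact h3

/-- partial sums -/
def psum (J : E4 → E4 →L[ℝ] E4) (Q Q' : Z4 → E4 → (C2 →L[ℝ] C1)) (N : ℕ) (n : Z4) (x : E4) :
    C2 →L[ℝ] C1 := ∑ j ∈ Finset.range (N + 1), aseq J Q Q' j n x

theorem psum_zero (J : E4 → E4 →L[ℝ] E4) (Q Q' : Z4 → E4 → (C2 →L[ℝ] C1)) :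
    psum J Q Q' 0 = Q := by
  funext n x
  simp [psum, aseq]

theorem psum_succ (J : E4 → E4 →L[ℝ] E4) (Q Q' : Z4 → E4 → (C2 →L[ℝ] C1)) (N : ℕ) :
    psum J Q Q' (N + 1) = fun n x => psum J Q Q' N n x + aseq J Q Q' (N + 1) n x := by
  funext n x
  simp only [psum]
  rw [Finset.sum_range_succ]

theorem SymK.psum {J : E4 → E4 →L[ℝ] E4} (hJ : ContDiff ℝ ∞ J) {K : Set E4} (hK : IsCompact K)
    {Q Q' : Z4 → E4 → (C2 →L[ℝ] C1)} (hQ : SymK K 1 Q) (hQ' : IsSym 1 Q') (N : ℕ) :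
    SymK K 1 (psum J Q Q' N) := by
  induction N with
  | zero => rw [psum_zero]; exact hQ
  | succ N ih =>
    rw [psum_succ]
    exact ih.add ((SymK.aseq hJ hK hQ hQ' (N + 1)).mono (by omega))

/-- The telescoping identity for the full symbol of `(d ·)''`. -/
theorem telescope {J : E4 → E4 →L[ℝ] E4} (hJ : ContDiff ℝ ∞ J)
    {K : Set E4} (hK : IsCompact K) (hJ2 : ∀ x ∈ K, ∀ v, J x (J x v) = -v) {Q Q' : Z4 → E4 → (C2 →L[ℝ] C1)} {θ θ' : E4 → ℝ}
    (hQ : SymK K 1 Q) (hQ' : IsSym 1 Q')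
    (h1 : ∀ n, n ≠ 0 → ∀ x β, (2:ℝ) • PiC (J x) (tens n (Q n x β)) = θ x • PiC (J x) β)
    (h1' : ∀ n, n ≠ 0 → ∀ x β, (2:ℝ) • PiC (J x) (tens n (Q' n x β)) = θ' x • PiC (J x) β)
    (hθ' : ∀ x ∈ K, θ' x = 1) (N : ℕ) (n : Z4) (hn : n ≠ 0) (x : E4) :
    ((2 : ℝ) • PiC (J x)).comp (dS (psum J Q Q' N) n x)
      = θ x • PiC (J x) + Dsym J (aseq J Q Q' N) n x := by
  have hdS_add : ∀ (p p' : Z4 → E4 → (C2 →L[ℝ] C1)), (ContDiff ℝ ∞ (p n)) → (ContDiff ℝ ∞ (p' n)) →
      dS (fun n x => p n x + p' n x) n x = dS p n x + dS p' n x := by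
    intro p p' hp hp'
    unfold dS
    have e : fderiv ℝ (fun x => p n x + p' n x) x = fderiv ℝ (p n) x + fderiv ℝ (p' n) x :=
      fderiv_fun_add (hp.differentiable (by simp)).differentiableAt
        (hp'.differentiable (by simp)).differentiableAt
    rw [e]
    ext w v
    simp
    ring
  have hDs : ∀ (a : Z4 → E4 → (C2 →L[ℝ] C1)), ((2 : ℝ) • PiC (J x)).comp (dS a n x)
      = ((2 : ℝ) • PiC (J x)).comp ((tens n).comp (a n x)) + Dsym J a n x := by
    intro a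
    unfold dS Dsym
    rw [ContinuousLinearMap.comp_add]
  induction N with
  | zero =>
    rw [psum_zero, hDs]
    congr 1
    ext1 w
    exact h1 n hn x w
  | succ N ih =>
    rw [psum_succ, hdS_add _ _ ((SymK.psum hJ hK hQ hQ' N).smooth n)
      ((SymK.aseq hJ hK hQ hQ' (N + 1)).smooth n), ContinuousLinearMap.comp_add, ih, hDs]
    have key : ((2 : ℝ) • PiC (J x)).comp ((tens n).comp (aseq J Q Q' (N + 1) n x))
        = - Dsym J (aseq J Q Q' N) n x := by
      ext1 w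
      have e1 : aseq J Q Q' (N + 1) n x w = - Q' n x (Dsym J (aseq J Q Q' N) n x w) := rfl
      have e2 : (((2 : ℝ) • PiC (J x)).comp ((tens n).comp (aseq J Q Q' (N + 1) n x))) w
          = (2 : ℝ) • PiC (J x) (tens n (aseq J Q Q' (N + 1) n x w)) := rfl
      rw [e2, e1, map_neg, map_neg, smul_neg, h1' n hn x]
      by_cases hx : x ∈ K
      · rw [hθ' x hx, one_smul, Dsym_apply, map_smul, PiC_PiC (hJ2 x hx)]
        rfl
      · have h0 := ((SymK.aseq hJ hK hQ hQ' N).Dsym hJ hK).supp n x hx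
        rw [h0]
        simp
    rw [key]
    abel

end

end Crest.Agent.R240.FA
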