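import Mathlib
import Crest.Agent.R240.FARec
import Crest.Agent.R240.FAOp
import Crest.Agent.R240.EllNorm

/-!
Row 240, Lemma A, team F: cut-offs, complexification, pointwise algebra.
-/

set_option autoImplicit false
set_option maxSynthPendingDepth 3

namespace Crest.Agent.R240.FA

open Crest.Agent.R240
open scoped ContDiff Manifold

noncomputable section

/-! ### complexification and real parts -/

def toC1 : (E4 →L[ℝ] ℝ) →L[ℝ] C1 := (ContinuousLinearMap.compL ℝ E4 ℝ ℂ) Complex.ofRealCLM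

@[simp] theorem toC1_apply (b : E4 →L[ℝ] ℝ) (u : E4) : toC1 b u = (b u : ℂ) := rfl

def toC2 : Bil →L[ℝ] C2 := (ContinuousLinearMap.compL ℝ E4 (E4 →L[ℝ] ℝ) C1) toC1

@[simp] theorem toC2_apply (b : Bil) (u v : E4) : toC2 b u v = (b u v : ℂ) := rfl

def re1 : C1 →L[ℝ] (E4 →L[ℝ] ℝ) := (ContinuousLinearMap.compL ℝ E4 ℂ ℝ) Complex.reCLM

@[simp] theorem re1_apply (b : C1) (u : E4) : re1 b u = (b u).re := rfl

def re2 : C2 →L[ℝ] Bil := (ContinuousLinearMap.compL ℝ E4 C1 (E4 →L[ℝ] ℝ)) re1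

@[simp] theorem re2_apply (b : C2) (u v : E4) : re2 b u v = (b u v).re := rfl

theorem re2_toC2 (b : Bil) : re2 (toC2 b) = b := by
  ext u v
  simp

theorem re2_eq_comp (b : C2) : re2 b = re1.comp b := rfl

/-- `antip` of the exterior derivative in terms of `PiC`. -/
theorem antip_alt (J : E4 →L[ℝ] E4) (D : C2) :
    antip J (re2 D - (re2 D).flip) = re2 ((2 : ℝ) • PiC J D) := by
  ext u v
  rw [antip_apply]
  simp only [sub_apply, ContinuousLinearMap.flip_apply, re2_apply, smul_apply, PiC_apply]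
  simp only [Complex.real_smul, Complex.mul_re, Complex.ofReal_re, Complex.ofReal_im, zero_mul,
    sub_zero, Complex.add_re, Complex.sub_re]
  ring

theorem antiC_toC2 {J : E4 →L[ℝ] E4} {b : Bil} (h1 : Alt b) (h2 : ∀ u v, b (J u) (J v) = - b u v) :
    AntiC J (toC2 b) := by
  constructor
  · intro v
    simp [h1 v]
  · intro u v
    simp [h2 u v]

theorem alt_re2 {J : E4 →L[ℝ] E4} {β : C2} (h : AntiC J β) : Alt (re2 β) := by
  intro v
  simp [h.1 v]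

theorem anti_re2 {J : E4 →L[ℝ] E4} {β : C2} (h : AntiC J β) (u v : E4) :
    re2 β (J u) (J v) = - re2 β u v := by
  simp [h.2 u v]

/-! ### cut-off functions -/

theorem exists_cutoff {A : Set E4} (hA : IsCompact A) {V : Set E4} (hV : IsOpen V) (hAV : A ⊆ V) :
    ∃ (K : Set E4) (θ : E4 → ℝ), IsCompact K ∧ K ⊆ V ∧ ContDiff ℝ ∞ θ ∧
      (∀ x ∉ K, θ x = 0) ∧ ∀ x ∈ A, θ x = 1 := by
  obtain ⟨K, hK, hAK, hKV⟩ := exists_compact_between hA hV hAV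
  obtain ⟨f, hf1, hf0, -⟩ := exists_contMDiffMap_one_nhds_of_subset_interior (n := ⊤)
    𝓘(ℝ, E4) hA.isClosed hAK
  refine ⟨K, f, hK, hKV, f.contMDiff.contDiff, hf0, fun x hx => ?_⟩
  exact (Filter.Eventually.self_of_nhdsSet hf1) x hx

/-! ### the symbol data on a pair `closure U ⊆ V` -/

/-- The conclusion of the symbol construction (to be proved in `FAAlg`). -/
def SymbolThm : Prop :=
  ∀ (J : E4 → E4 →L[ℝ] E4), ContDiff ℝ ∞ J → ∀ (θ : E4 → ℝ), ContDiff ℝ ∞ θ →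
    HasCompactSupport θ → (∀ x, θ x ≠ 0 → ∀ v, J x (J x v) = -v) →
    ∃ Q : Z4 → E4 → (C2 →L[ℝ] C1), IsSym 1 Q ∧ (∀ n x, θ x = 0 → Q n x = 0) ∧
      (∀ n, n ≠ 0 → ∀ x β, (2:ℝ) • PiC (J x) (tens n (Q n x β)) = θ x • PiC (J x) β)

structure Dat (J : E4 → E4 →L[ℝ] E4) (U V : Set E4) where
  K : Set E4
  θ : E4 → ℝ
  p : Z4 → E4 → (C2 →L[ℝ] C1)
  e : Z4 → E4 → (C2 →L[ℝ] C2)
  hK : IsCompact K
  hKV : K ⊆ V
  hθ : ContDiff ℝ ∞ θ
  hθ0 : ∀ x ∉ K, θ x = 0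
  hθ1 : ∀ x ∈ U, θ x = 1
  hp : SymK K 1 p
  he : SymK K 6 e
  hPi : ∀ n x w, AntiC (J x) (e n x w) ∨ (x ∉ K)
  tel : ∀ n, n ≠ 0 → ∀ x, ((2 : ℝ) • PiC (J x)).comp (dS p n x) = θ x • PiC (J x) + e n x

theorem exists_dat (hS : SymbolThm) (J : E4 → E4 →L[ℝ] E4) (hJ : ContDiff ℝ ∞ J) (U V : Set E4)
    (hV : IsOpen V) (hVb : Bornology.IsBounded V) (hUV : closure U ⊆ V)
    (hJ2 : ∀ x ∈ V, ∀ v, J x (J x v) = -v) : Nonempty (Dat J U V) := by
  have hU : IsCompact (closure U) :=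
    Metric.isCompact_of_isClosed_isBounded isClosed_closure (hVb.subset hUV)
  obtain ⟨K, θ, hK, hKV, hθ, hθ0, hθ1⟩ := exists_cutoff hU hV hUV
  obtain ⟨K', θ', hK', hKV', hθ', hθ0', hθ1'⟩ := exists_cutoff hK hV hKV
  have hc : HasCompactSupport θ := HasCompactSupport.intro hK hθ0
  have hc' : HasCompactSupport θ' := HasCompactSupport.intro hK' hθ0'
  obtain ⟨Q, hQ, hQ0, hQ1⟩ := hS J hJ θ hθ hc (fun x hx => hJ2 x (hKV (by
    by_contra h; exact hx (hθ0 x h))))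
  obtain ⟨Q', hQ', hQ0', hQ1'⟩ := hS J hJ θ' hθ' hc' (fun x hx => hJ2 x (hKV' (by
    by_contra h; exact hx (hθ0' x h))))
  have hQK : SymK K 1 Q := ⟨hQ, fun n x hx => hQ0 n x (hθ0 x hx)⟩
  refine ⟨⟨K, θ, psum J Q Q' 5, Dsym J (aseq J Q Q' 5), hK, hKV, hθ, hθ0,
    fun x hx => hθ1 x (subset_closure hx), SymK.psum hJ hK hQK hQ' 5,
    (SymK.aseq hJ hK hQK hQ' 5).Dsym hJ hK, ?_, ?_⟩⟩
  · intro n x w
    by_cases hx : x ∈ K
    · left
      rw [Dsym_apply, ← map_smul]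
      exact antiC_PiC (hJ2 x (hKV hx)) _
    · right; exact hx
  · intro n hn x
    exact telescope hJ hK (fun x hx => hJ2 x (hKV hx)) hQK hQ' hQ1 hQ1' hθ1' 5 n hn x

end

end Crest.Agent.R240.FA
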