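import Crest.Agent.R240.FAOp
import Crest.Agent.R240.A.SB

/-!
Row 240, Lemma A, team F (helper446): homogeneous functions of degree `-r` give symbols of
order `-r`.
-/

set_option autoImplicit false
set_option maxSynthPendingDepth 3

open Set
open scoped ContDiff

namespace Crest.Agent.R240.FA

noncomputable section

theorem nv_ne_zero {n : Z4} (h : n ≠ 0) : nv n ≠ 0 := by
  intro h4
  apply h
  funext i
  have := congrArg (fun v : E4 => v i) h4
  simpa using this

theorem one_le_norm_nv {n : Z4} (h : n ≠ 0) : 1 ≤ ‖nv n‖ := by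
  obtain ⟨i, hi⟩ : ∃ i, n i ≠ 0 := by
    by_contra hc
    push Not at hc
    exact h (funext hc)
  have h1 : (1 : ℝ) ≤ |(n i : ℝ)| := by
    have : (1 : ℤ) ≤ |n i| := Int.one_le_abs hi
    exact_mod_cast this
  exact h1.trans (abs_le_norm_nv n i)

theorem wt_le_two_mul {n : Z4} (h : n ≠ 0) : wt n ≤ 2 * ‖nv n‖ := by
  have := one_le_norm_nv h
  unfold wt; linarith

variable {F : Type*} [NormedAddCommGroup F] [NormedSpace ℝ F]

/-- `k x z` smooth for `z ≠ 0`, homogeneous of degree `-r` in `z`, zero for large `x`. -/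
theorem isSym_of_homog {r : ℕ} {k : E4 → E4 → F}
    (hk : ContDiffOn ℝ ∞ (fun p : E4 × E4 => k p.1 p.2) (univ ×ˢ {0}ᶜ))
    (hh : ∀ x z, z ≠ 0 → ∀ t : ℝ, 0 < t → k x (t • z) = (t ^ r)⁻¹ • k x z)
    {R : ℝ} (hR : ∀ x z, R ≤ ‖x‖ → k x z = 0) {p : Z4 → E4 → F}
    (hp : ∀ n, n ≠ 0 → ∀ x, p n x = k x (nv n)) (hp0 : ContDiff ℝ ∞ (p 0)) : IsSym r p where
  smooth n := by
    by_cases hn : n = 0
    · subst hn; exact hp0
    · have h1 := Wk.contDiff_left (h := fun p : E4 × E4 => k p.1 p.2) hk (nv_ne_zero hn)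
      have h2 : p n = fun x => k x (nv n) := funext (hp n hn)
      rw [h2]; exact h1
  bd j := by
    have hSB := Wk.SB.of_homog hk hh
    obtain ⟨C, hC0, hC⟩ := hSB.bound' (max R 1) j
    refine ⟨2 ^ r * C, fun n hn x => ?_⟩
    have h2 : p n = fun x => k x (nv n) := funext (hp n hn)
    rw [h2]
    have hw := wt_pos n
    by_cases hx : ‖x‖ ≤ max R 1
    · have hz := nv_ne_zero hn
      have hz0 : 0 < ‖nv n‖ := norm_pos_iff.2 hz
      set om : E4 := ‖nv n‖⁻¹ • nv n with hom
      have hom1 : ‖om‖ = 1 := by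
        rw [hom, norm_smul, norm_inv, norm_norm, inv_mul_cancel₀ hz0.ne']
      have homne : om ≠ 0 := by
        intro h; rw [h, norm_zero] at hom1; exact zero_ne_one hom1
      have h3 : (fun x => k x (nv n)) = fun x => (‖nv n‖ ^ r)⁻¹ • k x om := by
        funext y
        rw [← hh y om homne _ hz0, hom, smul_smul, mul_inv_cancel₀ hz0.ne', one_smul]
      have h4 := hC j le_rfl x om hx homne (by rw [hom1]; exact le_max_right _ _)
      rw [hom1, one_pow, mul_one] at h4
      have h5 : ContDiff ℝ ∞ (fun x => k x om) :=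
        Wk.contDiff_left (h := fun p : E4 × E4 => k p.1 p.2) hk homne
      have h6 : iteratedFDeriv ℝ j (fun x => (‖nv n‖ ^ r)⁻¹ • k x om) x =
          (‖nv n‖ ^ r)⁻¹ • iteratedFDeriv ℝ j (fun x => k x om) x := by
        have := iteratedFDeriv_const_smul_apply (𝕜 := ℝ) (a := (‖nv n‖ ^ r)⁻¹) (i := j)
          (f := fun x => k x om) (x := x)
          (h5.of_le (natCast_le_infty j)).contDiffAt
        exact this
      rw [h3, h6, norm_smul, Real.norm_of_nonneg (by positivity)]
      have h7 : (‖nv n‖ ^ r)⁻¹ ≤ 2 ^ r / wt n ^ r := by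
        rw [inv_le_iff_one_le_mul₀ (by positivity), div_mul_eq_mul_div, le_div_iff₀ (by positivity),
          one_mul, ← mul_pow]
        exact pow_le_pow_left₀ hw.le (wt_le_two_mul hn) r
      calc (‖nv n‖ ^ r)⁻¹ * ‖iteratedFDeriv ℝ j (fun x => k x om) x‖ ≤ 2 ^ r / wt n ^ r * C :=
            mul_le_mul h7 h4 (norm_nonneg _) (by positivity)
        _ = 2 ^ r * C / wt n ^ r := by ring
    · have h8 : R < ‖x‖ := lt_of_le_of_lt (le_max_left _ _) (not_le.1 hx)
      have h9 : (fun x => k x (nv n)) =ᶠ[nhds x] fun _ => 0 := by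
        have : {y : E4 | R < ‖y‖} ∈ nhds x :=
          (isOpen_lt continuous_const continuous_norm).mem_nhds h8
        filter_upwards [this] with y hy
        exact hR y _ (le_of_lt hy)
      have h10 : iteratedFDeriv ℝ j (fun x => k x (nv n)) x = 0 := by
        rw [(h9.iteratedFDeriv ℝ j).eq_of_nhds]
        rcases j with _ | j
        · ext; simp
        · rw [iteratedFDeriv_const_of_ne (by omega)]; rfl
      rw [h10, norm_zero]
      positivity

end

end Crest.Agent.R240.FA
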