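import Mathlib
import Crest.Agent.R240.FACut
import Crest.Agent.R240.FASym
import Crest.Agent.R240.KAlg

/-!
Row 240, Lemma A, team F: the symbol of the right parametrix.
-/

set_option autoImplicit false
set_option maxSynthPendingDepth 3

namespace Crest.Agent.R240.FA

open Crest.Agent.R240
open scoped ContDiff Manifold

noncomputable section

/-- the standard scalar product as an element of `Bil` -/
def g0 : Bil := ∑ i : Fin 4, (EuclideanSpace.proj i : E4 →L[ℝ] ℝ).smulRight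
  (EuclideanSpace.proj i : E4 →L[ℝ] ℝ)

theorem g0_apply (u v : E4) : g0 u v = ∑ i : Fin 4, u i * v i := by
  simp [g0]

theorem g0_eq_inner (u v : E4) : g0 u v = inner ℝ u v := by
  rw [g0_apply, PiLp.inner_apply]
  refine Finset.sum_congr rfl fun i _ => ?_
  simp [mul_comm]

theorem g0_self (u : E4) : g0 u u = ‖u‖ ^ 2 := by
  rw [g0_eq_inner, real_inner_self_eq_norm_sq]

/-- the hermitian metric -/
def GG (J : E4 →L[ℝ] E4) : Bil := g0 + pull J g0

theorem GG_apply (J : E4 →L[ℝ] E4) (u v : E4) : GG J u v = g0 u v + g0 (J u) (J v) := by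
  simp [GG]

theorem GG_symm (J : E4 →L[ℝ] E4) (u v : E4) : GG J u v = GG J v u := by
  rw [GG_apply, GG_apply, g0_apply, g0_apply, g0_apply, g0_apply]
  congr 1 <;> exact Finset.sum_congr rfl fun i _ => mul_comm _ _

theorem GG_inv {J : E4 →L[ℝ] E4} (hJ : ∀ v, J (J v) = -v) (u v : E4) :
    GG J (J u) (J v) = GG J u v := by
  rw [GG_apply, GG_apply, hJ, hJ]
  simp only [map_neg, neg_apply, neg_neg]
  ring

theorem GG_pos (J : E4 →L[ℝ] E4) {u : E4} (hu : u ≠ 0) : 0 < GG J u u := by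
  rw [GG_apply, g0_self, g0_self]
  have : 0 < ‖u‖ := norm_pos_iff.mpr hu
  positivity

theorem GG_inj (J : E4 →L[ℝ] E4) : Function.Injective (GG J) := by
  rw [injective_iff_map_eq_zero]
  intro u hu
  by_contra hne
  have := GG_pos J hne
  rw [hu] at this
  simp at this

/-- `GG J` as a continuous linear equivalence -/
def GE (J : E4 →L[ℝ] E4) : E4 ≃L[ℝ] (E4 →L[ℝ] ℝ) :=
  ((GG J : E4 →L[ℝ] (E4 →L[ℝ] ℝ)) : E4 →ₗ[ℝ] (E4 →L[ℝ] ℝ)).linearEquivOfInjective (GG_inj J) (by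
    rw [finrank_euclideanSpace_fin]
    have e : (E4 →L[ℝ] ℝ) ≃ₗ[ℝ] (E4 →ₗ[ℝ] ℝ) := LinearMap.toContinuousLinearMap.symm
    rw [e.finrank_eq, Module.finrank_linearMap_self, finrank_euclideanSpace_fin])
    |>.toContinuousLinearEquiv

theorem GE_coe (J : E4 →L[ℝ] E4) : ((GE J : E4 ≃L[ℝ] (E4 →L[ℝ] ℝ)) : E4 →L[ℝ] (E4 →L[ℝ] ℝ)) = GG J := by
  ext u v
  rfl

/-- the dual vector -/
def XX (J : E4 →L[ℝ] E4) (ξ : E4) : E4 := (ContinuousLinearMap.inverse (GG J)) (g0 ξ)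

theorem GG_XX (J : E4 →L[ℝ] E4) (ξ v : E4) : GG J (XX J ξ) v = inner ℝ ξ v := by
  have h1 : XX J ξ = (GE J).symm (g0 ξ) := by
    unfold XX
    rw [← GE_coe, ContinuousLinearMap.inverse_equiv]
    rfl
  have h2 : GG J (XX J ξ) = g0 ξ := by
    rw [h1]
    exact (GE J).apply_symm_apply (g0 ξ)
  rw [h2, g0_eq_inner]

theorem XX_smul (J : E4 →L[ℝ] E4) (t : ℝ) (ξ : E4) : XX J (t • ξ) = t • XX J ξ := by
  unfold XX
  rw [map_smul, map_smul]

theorem XX_pos (J : E4 →L[ℝ] E4) {ξ : E4} (hξ : ξ ≠ 0) : 0 < (inner ℝ ξ (XX J ξ) : ℝ) := by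
  rw [← GG_XX]
  apply GG_pos
  intro h
  have h1 := GG_XX J ξ ξ
  rw [h, map_zero, zero_apply, real_inner_self_eq_norm_sq] at h1
  exact hξ (norm_eq_zero.mp (pow_eq_zero_iff (two_ne_zero)|>.mp h1.symm))

theorem contDiff_GG {J : E4 → E4 →L[ℝ] E4} (hJ : ContDiff ℝ ∞ J) :
    ContDiff ℝ ∞ fun x => GG (J x) := by
  unfold GG pull
  fun_prop

theorem contDiff_inv {J : E4 → E4 →L[ℝ] E4} (hJ : ContDiff ℝ ∞ J) :
    ContDiff ℝ ∞ fun x => ContinuousLinearMap.inverse (GG (J x)) := by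
  rw [contDiff_iff_contDiffAt]
  intro x
  have h1 : ContDiffAt ℝ ∞ (ContinuousLinearMap.inverse : (E4 →L[ℝ] (E4 →L[ℝ] ℝ)) → _)
      (GG (J x)) := by
    rw [← GE_coe]
    exact contDiffAt_map_inverse (GE (J x))
  exact h1.comp x (contDiff_GG hJ).contDiffAt

theorem contDiff_XX {J : E4 → E4 →L[ℝ] E4} (hJ : ContDiff ℝ ∞ J) :
    ContDiff ℝ ∞ fun p : E4 × E4 => XX (J p.1) p.2 := by
  unfold XX
  exact ((contDiff_inv hJ).comp contDiff_fst).clm_apply (g0.contDiff.comp contDiff_snd)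

/-! ### the identity -/

def im1 : C1 →L[ℝ] (E4 →L[ℝ] ℝ) := (ContinuousLinearMap.compL ℝ E4 ℂ ℝ) Complex.imCLM

def im2 : C2 →L[ℝ] Bil := (ContinuousLinearMap.compL ℝ E4 C1 (E4 →L[ℝ] ℝ)) im1

@[simp] theorem im2_apply (b : C2) (u v : E4) : im2 b u v = (b u v).im := rfl

theorem key_real {J : E4 →L[ℝ] E4} (hJ : ∀ v, J (J v) = -v) {G R : Bil}
    (hGs : ∀ u v, G u v = G v u) (hGJ : ∀ u v, G (J u) (J v) = G u v)
    (hR : Alt R) (ha : ∀ u v, R (J u) (J v) = - R u v) (X a b : E4) :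
    G X a * R X b - G X b * R X a - G X (J a) * R X (J b) + G X (J b) * R X (J a)
      = G X X * R a b := by
  have h := KLoc.antip_wed hJ hGs hGJ hR ha X
  have h1 : antip J (wed (G X) (R X)) a b = (1 / 2 * G X X) * R a b := by
    rw [h]; rfl
  rw [antip_apply] at h1
  simp only [wed_apply] at h1
  linarith

theorem key_complex {J : E4 →L[ℝ] E4} (hJ : ∀ v, J (J v) = -v) {G : Bil}
    (hGs : ∀ u v, G u v = G v u) (hGJ : ∀ u v, G (J u) (J v) = G u v)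
    {β : C2} (hβ : AntiC J β) (X a b : E4) :
    (G X a : ℂ) * β X b - G X b * β X a - G X (J a) * β X (J b) + G X (J b) * β X (J a)
      = G X X * β a b := by
  have h1 := key_real hJ hGs hGJ (alt_re2 hβ) (anti_re2 hβ) X a b
  have hA : Alt (im2 β) := by
    intro v
    simp [hβ.1 v]
  have hB : ∀ u v, im2 β (J u) (J v) = - im2 β u v := by
    intro u v
    simp [hβ.2 u v]
  have h2 := key_real hJ hGs hGJ hA hB X a b
  simp only [re2_apply] at h1
  simp only [im2_apply] at h2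
  apply Complex.ext
  · simpa using h1
  · simpa using h2

/-! ### the symbol -/

/-- multiplication by `-i` -/
def negI : C1 →L[ℝ] C1 := (ContinuousLinearMap.compL ℝ E4 ℂ ℂ)
  ((-Complex.I) • (ContinuousLinearMap.id ℝ ℂ))

@[simp] theorem negI_apply (b : C1) (u : E4) : negI b u = -Complex.I * b u := by
  simp [negI]

def Phi (J : E4 → E4 →L[ℝ] E4) (θ : E4 → ℝ) (x ξ : E4) : C2 →L[ℝ] C1 :=
  (θ x / (Real.pi * inner ℝ ξ (XX (J x) ξ))) •
    (negI.comp ((ContinuousLinearMap.apply ℝ C1 (XX (J x) ξ)).comp (PiC (J x))))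

theorem Phi_apply (J : E4 → E4 →L[ℝ] E4) (θ : E4 → ℝ) (x ξ : E4) (β : C2) (v : E4) :
    Phi J θ x ξ β v = (θ x / (Real.pi * inner ℝ ξ (XX (J x) ξ)) : ℝ) •
      (-Complex.I * PiC (J x) β (XX (J x) ξ) v) := by
  simp [Phi]

theorem contDiffOn_Phi {J : E4 → E4 →L[ℝ] E4} (hJ : ContDiff ℝ ∞ J) {θ : E4 → ℝ}
    (hθ : ContDiff ℝ ∞ θ) :
    ContDiffOn ℝ ∞ (fun p : E4 × E4 => Phi J θ p.1 p.2) (Set.univ ×ˢ {0}ᶜ) := by
  have h1 : ContDiffOn ℝ ∞ (fun p : E4 × E4 =>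
      θ p.1 / (Real.pi * inner ℝ p.2 (XX (J p.1) p.2))) (Set.univ ×ˢ {0}ᶜ) := by
    refine ContDiffOn.div ((hθ.comp contDiff_fst).contDiffOn) ?_ ?_
    · exact (contDiff_const.mul (contDiff_snd.inner ℝ (contDiff_XX hJ))).contDiffOn
    · rintro ⟨x, ξ⟩ ⟨-, hξ⟩
      have := XX_pos (J x) (ξ := ξ) hξ
      have hpi := Real.pi_pos
      positivity
  have h3 : ContDiff ℝ ∞ (fun p : E4 × E4 =>
      ((ContinuousLinearMap.apply ℝ C1 (XX (J p.1) p.2) : C2 →L[ℝ] C1)).comp (PiC (J p.1))) := by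
    refine ContDiff.clm_comp ?_ ?_
    · exact (ContinuousLinearMap.apply ℝ C1).contDiff.comp (contDiff_XX hJ)
    · exact (contDiff_PiC hJ).comp contDiff_fst
  have h2 : ContDiffOn ℝ ∞ (fun p : E4 × E4 =>
      (negI.comp ((ContinuousLinearMap.apply ℝ C1 (XX (J p.1) p.2)).comp (PiC (J p.1))) :
        C2 →L[ℝ] C1)) (Set.univ ×ˢ {0}ᶜ) :=
    ((contDiff_const (c := negI)).clm_comp h3).contDiffOn
  exact h1.smul h2

theorem Phi_homog (J : E4 → E4 →L[ℝ] E4) (θ : E4 → ℝ) (x z : E4) (hz : z ≠ 0) (t : ℝ)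
    (ht : 0 < t) : Phi J θ x (t • z) = (t ^ 1)⁻¹ • Phi J θ x z := by
  ext β v
  have e : ((t ^ 1)⁻¹ • Phi J θ x z) β v = (t ^ 1)⁻¹ • (Phi J θ x z β v) := rfl
  rw [e, Phi_apply, Phi_apply, XX_smul]
  have hp := XX_pos (J x) hz
  have hpi := Real.pi_pos
  have h1 : (inner ℝ (t • z) (t • XX (J x) z) : ℝ) = t ^ 2 * inner ℝ z (XX (J x) z) := by
    rw [inner_smul_left, inner_smul_right]
    simp
    ring
  rw [h1, map_smul, smul_apply]
  simp only [Complex.real_smul]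
  have hpc : ((inner ℝ z (XX (J x) z) : ℝ) : ℂ) ≠ 0 := by exact_mod_cast hp.ne'
  have hpic : (Real.pi : ℂ) ≠ 0 := by exact_mod_cast hpi.ne'
  have htc : (t : ℂ) ≠ 0 := by exact_mod_cast ht.ne'
  push_cast
  field_simp

theorem symbol_identity {J : E4 → E4 →L[ℝ] E4} {θ : E4 → ℝ} {x : E4}
    (hJ2 : ∀ v, J x (J x v) = -v) {n : Z4} (hn : n ≠ 0) (β : C2) :
    (2:ℝ) • PiC (J x) (tens n (Phi J θ x (nv n) β)) = θ x • PiC (J x) β := by
  set X := XX (J x) (nv n) with hX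
  set β' := PiC (J x) β with hβ'
  have hanti : AntiC (J x) β' := antiC_PiC hJ2 β
  have hp : 0 < (inner ℝ (nv n) X : ℝ) := XX_pos (J x) (nv_ne_zero hn)
  have hGX : GG (J x) X X = inner ℝ (nv n) X := GG_XX _ _ _
  have hpi := Real.pi_pos
  have hpc : ((inner ℝ (nv n) X : ℝ) : ℂ) ≠ 0 := by exact_mod_cast hp.ne'
  have hpic : (Real.pi : ℂ) ≠ 0 := by exact_mod_cast hpi.ne'
  have hT : ∀ u v, tens n (Phi J θ x (nv n) β) u v
      = (2 * (θ x) / (inner ℝ (nv n) X : ℝ) : ℂ) * ((GG (J x) X u : ℝ) * β' X v) := by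
    intro u v
    rw [tens_apply, smul_apply, Phi_apply, cov_apply, GG_XX, ← hX, ← hβ']
    simp only [Complex.real_smul, smul_eq_mul]
    push_cast
    field_simp
    have hI : Complex.I ^ 2 = -1 := Complex.I_sq
    linear_combination (-1 : ℂ) * ((θ x : ℂ) * ((inner ℝ (nv n) u : ℝ) : ℂ) * β' X v) * hI
  ext u v
  have e1 : ((2:ℝ) • PiC (J x) (tens n (Phi J θ x (nv n) β))) u v
      = (2:ℝ) • (PiC (J x) (tens n (Phi J θ x (nv n) β)) u v) := rfl
  have e2 : (θ x • β') u v = θ x • (β' u v) := rfl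
  rw [e1, e2, PiC_apply, hT, hT, hT, hT]
  have key := key_complex hJ2 (GG_symm (J x)) (GG_inv hJ2) hanti X u v
  rw [hGX] at key
  simp only [Complex.real_smul]
  push_cast
  have e3 : (2 : ℂ) * (1 / 4 * (2 * (θ x : ℂ) / ((inner ℝ (nv n) X : ℝ) : ℂ) *
      ((GG (J x) X u : ℝ) * β' X v)
      - 2 * (θ x : ℂ) / ((inner ℝ (nv n) X : ℝ) : ℂ) * ((GG (J x) X v : ℝ) * β' X u)
      - 2 * (θ x : ℂ) / ((inner ℝ (nv n) X : ℝ) : ℂ) * ((GG (J x) X (J x u) : ℝ) * β' X (J x v))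
      + 2 * (θ x : ℂ) / ((inner ℝ (nv n) X : ℝ) : ℂ) * ((GG (J x) X (J x v) : ℝ) * β' X (J x u))))
      = (θ x : ℂ) / ((inner ℝ (nv n) X : ℝ) : ℂ) * ((GG (J x) X u : ℝ) * β' X v
        - (GG (J x) X v : ℝ) * β' X u - (GG (J x) X (J x u) : ℝ) * β' X (J x v)
        + (GG (J x) X (J x v) : ℝ) * β' X (J x u)) := by ring
  rw [e3, key]
  field_simp

theorem symbolThm : SymbolThm := by
  intro J hJ θ hθ hc hJ2
  classical
  obtain ⟨R, hR⟩ : ∃ R : ℝ, ∀ x, R ≤ ‖x‖ → θ x = 0 := by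
    obtain ⟨R, hR⟩ := hc.isCompact.isBounded.subset_closedBall (0 : E4)
    refine ⟨R + 1, fun x hx => ?_⟩
    apply image_eq_zero_of_notMem_tsupport
    intro hxs
    have := hR hxs
    rw [mem_closedBall_zero_iff] at this
    linarith
  refine ⟨fun n x => if n = 0 then 0 else Phi J θ x (nv n), ?_, ?_, ?_⟩
  · refine isSym_of_homog (k := Phi J θ) (r := 1) (contDiffOn_Phi hJ hθ) (Phi_homog J θ)
      (R := R) ?_ ?_ ?_
    · intro x z hx
      ext β v
      rw [Phi_apply, hR x hx]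
      simp
    · intro n hn x
      simp [hn]
    · simp only [if_true]
      exact contDiff_const
  · intro n x hx
    simp only
    split_ifs
    · rfl
    · ext β v
      rw [Phi_apply, hx]
      simp
  · intro n hn x β
    simp only [hn, if_false]
    by_cases hx : θ x = 0
    · have h0 : Phi J θ x (nv n) = 0 := by
        ext β v
        rw [Phi_apply, hx]
        simp
      rw [h0, hx]
      simp
    · exact symbol_identity (hJ2 x hx) hn β


end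

end Crest.Agent.R240.FA
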