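import Crest.Agent.R240.FALoc2
import Crest.Agent.R240.FAAlg

/-!
Row 240, Lemma A: the local theorem (team F: helper267, helper446).
-/

set_option autoImplicit false

namespace Crest.Agent.R240.FA

theorem localThm : Crest.Agent.R240.Ell.LocalThm := localThm_of_symbol symbolThm

end Crest.Agent.R240.FA
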