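import Mathlib
import Crest.Agent.R240.FACut

/-!
Row 240, Lemma A, team F: the local theorem on the cube.
-/

set_option autoImplicit false
set_option maxSynthPendingDepth 3

namespace Crest.Agent.R240.FA

open Crest.Agent.R240
open scoped ContDiff Manifold

noncomputable section

theorem isSym_const {F : Type*} [NormedAddCommGroup F] [NormedSpace ℝ F] (T : F) :
    IsSym 0 (fun (_ : Z4) (_ : E4) => T) where
  smooth _ := contDiff_const
  bd j := by
    refine ⟨‖T‖, fun n _ x => ?_⟩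
    rw [pow_zero, div_one]
    rcases j with _ | j
    · rw [norm_iteratedFDeriv_zero]
    · rw [iteratedFDeriv_const_of_ne (by omega)]
      simp

theorem norm_tens_le {G : Type*} [NormedAddCommGroup G] [NormedSpace ℝ G] [NormedSpace ℂ G]
    [IsScalarTower ℝ ℂ G] (n : Z4) : ‖(tens n : G →L[ℝ] (E4 →L[ℝ] G))‖ ≤ ‖cov n‖ :=
  LinearMap.mkContinuous_norm_le _ (norm_nonneg _) _

theorem isSym_dS {V G : Type*} [NormedAddCommGroup V] [NormedSpace ℝ V] [NormedSpace ℂ V]
    [IsScalarTower ℝ ℂ V] [NormedAddCommGroup G] [NormedSpace ℝ G] [NormedSpace ℂ G]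
    [IsScalarTower ℝ ℂ G] {r : ℕ} {p : Z4 → E4 → (V →L[ℝ] G)} (hp : IsSym (r + 1) p) :
    IsSym r (dS p) := by
  have h1 : IsSym r (fun n x => (tens n : G →L[ℝ] (E4 →L[ℝ] G)).comp (p n x)) := by
    refine ⟨fun n => ?_, fun j => ?_⟩
    · exact contDiff_const.clm_comp (hp.smooth n)
    · obtain ⟨C, hC⟩ := hp.bd j
      refine ⟨2 * Real.pi * max C 0, fun n hn x => ?_⟩
      have h1 := (ContinuousLinearMap.compL ℝ V G (E4 →L[ℝ] G)
        (tens n)).norm_iteratedFDeriv_comp_left (f := p n) (x := x) (n := j)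
        (N := ((⊤ : ℕ∞) : WithTop ℕ∞)) (hp.smooth n).contDiffAt (by exact_mod_cast le_top)
      refine h1.trans ?_
      have h2 : ‖ContinuousLinearMap.compL ℝ V G (E4 →L[ℝ] G) (tens n)‖ ≤ 2 * Real.pi * wt n := by
        have h3 := (ContinuousLinearMap.compL ℝ V G (E4 →L[ℝ] G)).le_opNorm (tens n)
        have h4 := ContinuousLinearMap.norm_compL_le ℝ V G (E4 →L[ℝ] G)
        calc _ ≤ ‖ContinuousLinearMap.compL ℝ V G (E4 →L[ℝ] G)‖ * ‖(tens n : G →L[ℝ] _)‖ := h3
          _ ≤ 1 * ‖(tens n : G →L[ℝ] (E4 →L[ℝ] G))‖ := by gcongr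
          _ ≤ 1 * ‖cov n‖ := by gcongr; exact norm_tens_le n
          _ ≤ 2 * Real.pi * wt n := by rw [one_mul]; exact norm_cov_le n
      have h5 : ‖iteratedFDeriv ℝ j (p n) x‖ ≤ max C 0 / wt n ^ (r + 1) := by
        refine (hC n hn x).trans ?_
        gcongr
        · exact pow_nonneg (wt_pos n).le _
        · exact le_max_left _ _
      have hw := wt_pos n
      calc _ ≤ (2 * Real.pi * wt n) * (max C 0 / wt n ^ (r + 1)) := by gcongr
        _ = 2 * Real.pi * max C 0 / wt n ^ r := by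
          rw [pow_succ]
          field_simp
  have h2 : IsSym r (fun n x => (fderiv ℝ (p n) x).flip) := by
    have h3 := (hp.fder).clm
      ((ContinuousLinearMap.flipₗᵢ ℝ E4 V G).toContinuousLinearEquiv :
        (E4 →L[ℝ] V →L[ℝ] G) →L[ℝ] (V →L[ℝ] E4 →L[ℝ] G))
    exact IsSym.mono (Nat.le_succ r) h3
  exact h1.add h2

/-- full series = low part + high part -/
theorem tsum_split {V G : Type*} [NormedAddCommGroup V] [NormedSpace ℝ V] [NormedSpace ℂ V]
    [IsScalarTower ℝ ℂ V] [NormedAddCommGroup G] [NormedSpace ℝ G] [NormedSpace ℂ G]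
    [IsScalarTower ℝ ℂ G] [FiniteDimensional ℝ V] [FiniteDimensional ℝ G]
    {r : ℕ} {p : Z4 → E4 → (V →L[ℝ] G)} (hp : IsSym r p)
    {f : E4 → V} (hs : ContDiff ℝ ∞ f) (hf : tsupport f ⊆ cube) (x : E4) (A : ℝ) :
    ∑' n, ch n x • p n x (coef f n) =
      (∑ n ∈ lowSet A, ch n x • p n x (coef f n)) + Op A p f x := by
  have : CompleteSpace G := FiniteDimensional.complete ℝ G
  have h2 := summable_full hp hs hf x
  rw [← h2.sum_add_tsum_compl (s := lowSet A)]
  unfold Op
  congr 1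
  rw [tsum_subtype (s := (↑(lowSet A) : Set Z4)ᶜ) (f := fun n => ch n x • p n x (coef f n))]
  refine tsum_congr fun n => ?_
  by_cases h : A < ‖nv n‖
  · rw [if_pos h, Set.indicator_of_mem]
    simp [h]
  · rw [if_neg h, Set.indicator_of_notMem]
    simpa using h

theorem lowSet_zero : lowSet 0 = {0} := by
  ext n
  rw [mem_lowSet, Finset.mem_singleton]
  constructor
  · intro h
    have h1 : ‖nv n‖ = 0 := le_antisymm h (norm_nonneg _)
    have h2 : nv n = 0 := norm_eq_zero.mp h1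
    funext i
    have := congrArg (fun v : E4 => v i) h2
    simpa using this
  · rintro rfl
    simp

theorem zero_mem_lowSet {A : ℝ} (hA : 0 ≤ A) : (0 : Z4) ∈ lowSet A := by
  simp [hA]

/-! ### operators -/

/-- complexified form -/
def cf (f : E4 → Bil) (x : E4) : C2 := toC2 (f x)

theorem cf_add (f g : E4 → Bil) : cf (f + g) = cf f + cf g := by
  funext x; simp [cf]

theorem cf_smul (c : ℝ) (f : E4 → Bil) : cf (c • f) = c • cf f := by
  funext x; simp [cf]

theorem cf_contDiff {f : E4 → Bil} (hf : ContDiff ℝ ∞ f) : ContDiff ℝ ∞ (cf f) :=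
  toC2.contDiff.comp hf

theorem cf_tsupport {f : E4 → Bil} {S : Set E4} (hf : tsupport f ⊆ S) : tsupport (cf f) ⊆ S := by
  refine (closure_mono ?_).trans hf
  intro x hx hfx
  apply hx
  simp [cf, hfx]

theorem CkB_clm {F F' : Type*} [NormedAddCommGroup F] [NormedSpace ℝ F] [NormedAddCommGroup F']
    [NormedSpace ℝ F'] (T : F →L[ℝ] F') {k : ℕ} {f : E4 → F} {B : ℝ} (hf : ContDiff ℝ ∞ f)
    (h : CkB k f B) : CkB k (fun x => T (f x)) (‖T‖ * B) := by
  intro j hj x
  have h1 := T.norm_iteratedFDeriv_comp_left (f := f) (x := x) (n := j)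
    (N := ((⊤ : ℕ∞) : WithTop ℕ∞)) hf.contDiffAt (by exact_mod_cast le_top)
  exact h1.trans (mul_le_mul_of_nonneg_left (h j hj x) (norm_nonneg _))

variable {J : E4 → E4 →L[ℝ] E4} {U V : Set E4}

/-- the right parametrix -/
def Qop (D : Dat J U V) (f : E4 → Bil) (x : E4) : E4 →L[ℝ] ℝ := re1 (Op 0 D.p (cf f) x)

/-- the coefficient of the `n`-th Fourier mode in the remainder -/
def mK (D : Dat J U V) (n : Z4) (x : E4) : C2 →L[ℝ] C2 :=
  if n = 0 then -(D.θ x • PiC (J x)) else ch n x • D.e n x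

/-- the remainder -/
def Kop (D : Dat J U V) (f : E4 → Bil) (x : E4) : Bil :=
  re2 (Op 0 D.e (cf f) x) + re2 (mK D 0 x (coef (cf f) 0))

theorem Kop_split (D : Dat J U V) {f : E4 → Bil} (hf : ContDiff ℝ ∞ f) (hs : tsupport f ⊆ cube)
    {A : ℝ} (hA : 0 ≤ A) (x : E4) :
    Kop D f x = re2 (Op A D.e (cf f) x) + ∑ n ∈ lowSet A, re2 (mK D n x (coef (cf f) n)) := by
  have h0 := tsum_split D.he.toIsSym (cf_contDiff hf) (cf_tsupport hs) x 0
  have h1 := tsum_split D.he.toIsSym (cf_contDiff hf) (cf_tsupport hs) x A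
  rw [lowSet_zero, Finset.sum_singleton, h1,
    ← Finset.add_sum_erase _ _ (zero_mem_lowSet hA), add_assoc] at h0
  have h2 := add_left_cancel h0
  unfold Kop
  rw [← h2, ← Finset.add_sum_erase _ (fun n => re2 (mK D n x (coef (cf f) n))) (zero_mem_lowSet hA),
    map_add, map_sum]
  have h3 : ∀ n ∈ (lowSet A).erase 0, re2 (ch n x • D.e n x (coef (cf f) n))
      = re2 (mK D n x (coef (cf f) n)) := by
    intro n hn
    rw [mK, if_neg (Finset.ne_of_mem_erase hn)]
    rfl
  rw [Finset.sum_congr rfl h3]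
  abel

theorem contDiff_mK (D : Dat J U V) (hJ : ContDiff ℝ ∞ J) (n : Z4) :
    ContDiff ℝ ∞ (mK D n) := by
  unfold mK
  split_ifs with h
  · exact (D.hθ.smul (contDiff_PiC hJ)).neg
  · exact (contDiff_ch n).smul (D.he.smooth n)

theorem zs (T : C2 →L[ℝ] C2) : (0 : ℝ) • T = 0 := by
  ext1 w
  change (0 : ℝ) • T w = 0
  exact zero_smul ℝ (T w)

theorem sz (c : ℂ) : c • (0 : C2 →L[ℝ] C2) = 0 := by
  ext1 w
  change c • (0 : C2) = 0
  exact smul_zero c

theorem mK_zero_off (D : Dat J U V) (n : Z4) {x : E4} (hx : x ∉ D.K) : mK D n x = 0 := by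
  unfold mK
  split_ifs with h
  · rw [D.hθ0 x hx, zs, neg_zero]
  · rw [D.he.supp n x hx, sz]

theorem AntiC.zero (J : E4 →L[ℝ] E4) : AntiC J 0 := ⟨fun _ => by simp, fun _ _ => by simp⟩

theorem AntiC.smulC {J : E4 →L[ℝ] E4} {β : C2} (h : AntiC J β) (c : ℂ) : AntiC J (c • β) :=
  ⟨fun v => by simp [h.1 v], fun u v => by simp [h.2 u v]⟩

theorem AntiC.smulR {J : E4 →L[ℝ] E4} {β : C2} (h : AntiC J β) (c : ℝ) : AntiC J (c • β) :=
  ⟨fun v => by simp [h.1 v], fun u v => by simp [h.2 u v]⟩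

theorem AntiC.neg {J : E4 →L[ℝ] E4} {β : C2} (h : AntiC J β) : AntiC J (-β) :=
  ⟨fun v => by simp [h.1 v], fun u v => by simp [h.2 u v]⟩

theorem AntiC.add {J : E4 →L[ℝ] E4} {β γ : C2} (h : AntiC J β) (h' : AntiC J γ) :
    AntiC J (β + γ) :=
  ⟨fun v => by simp [h.1 v, h'.1 v], fun u v => by simp [h.2 u v, h'.2 u v]; ring⟩

theorem antiC_mK (D : Dat J U V) (hJ2 : ∀ x ∈ V, ∀ v, J x (J x v) = -v) (n : Z4) (x : E4)
    (w : C2) : AntiC (J x) (mK D n x w) := by
  by_cases hx : x ∈ D.K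
  · unfold mK
    split_ifs with h
    · exact ((antiC_PiC (hJ2 x (D.hKV hx)) w).smulR _).neg
    · rcases D.hPi n x w with h1 | h1
      · exact h1.smulC _
      · exact absurd hx h1
  · rw [mK_zero_off D n hx]
    exact AntiC.zero _

theorem antiC_Op (D : Dat J U V) (hJ2 : ∀ x ∈ V, ∀ v, J x (J x v) = -v) {f : E4 → C2}
    (hf : ContDiff ℝ ∞ f) (hs : tsupport f ⊆ cube) {A : ℝ} (hA : 0 ≤ A) (x : E4) :
    AntiC (J x) (Op A D.e f x) := by
  by_cases hx : x ∈ D.K
  · have h1 := Op_comp hA D.he.toIsSym hf hs (fun y => PiC (J y)) x (fun c g => PiC_smul _ c g)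
    have h2 : Op A (fun n y => (PiC (J y)).comp (D.e n y)) f x = Op A D.e f x := by
      apply Op_congr hA
      intro n _
      rcases D.hPi n x (coef f n) with h3 | h3
      · exact PiC_of_anti h3
      · exact absurd hx h3
    have h3 : PiC (J x) (Op A D.e f x) = Op A D.e f x := h1.trans h2
    rw [← h3]
    exact antiC_PiC (hJ2 x (D.hKV hx)) _
  · rw [Op_eq_zero (fun n => D.he.supp n x hx)]
    exact AntiC.zero _

theorem Op_zero_off {F : Type*} [NormedAddCommGroup F] [NormedSpace ℝ F] [NormedSpace ℂ F]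
    [IsScalarTower ℝ ℂ F] [FiniteDimensional ℝ F] {K : Set E4} {r : ℕ}
    {p : Z4 → E4 → (C2 →L[ℝ] F)} (hp : SymK K r p) (A : ℝ) (f : E4 → C2) {x : E4} (hx : x ∉ K) :
    Op A p f x = 0 := Op_eq_zero (fun n => hp.supp n x hx)

theorem tsupport_subset_of_zero_off {F : Type*} [Zero F] {K : Set E4} (hK : IsCompact K)
    {f : E4 → F} (h : ∀ x ∉ K, f x = 0) : tsupport f ⊆ K := by
  refine closure_minimal ?_ hK.isClosed
  intro x hx
  by_contra hxK
  exact hx (h x hxK)

theorem test_of_antiC (D : Dat J U V) {g : E4 → C2} (hg : ContDiff ℝ ∞ g)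
    (h0 : ∀ x ∉ D.K, g x = 0) (ha : ∀ x, AntiC (J x) (g x)) :
    Ell.Test J V (fun x => re2 (g x)) where
  smooth := re2.contDiff.comp hg
  cpt := HasCompactSupport.intro D.hK (fun x hx => by simp [h0 x hx])
  supp := (tsupport_subset_of_zero_off D.hK (fun x hx => by simp [h0 x hx])).trans D.hKV
  alt x := alt_re2 (ha x)
  anti x u v := anti_re2 (ha x) u v

theorem test_Kop (D : Dat J U V) (hJ : ContDiff ℝ ∞ J)
    (hJ2 : ∀ x ∈ V, ∀ v, J x (J x v) = -v) {f : E4 → Bil}
    (hf : ContDiff ℝ ∞ f) (hs : tsupport f ⊆ cube) : Ell.Test J V (Kop D f) := by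
  have h1 : ContDiff ℝ ∞ (Op 0 D.e (cf f)) :=
    Op_contDiff le_rfl D.he.toIsSym (cf_contDiff hf) (cf_tsupport hs)
  have h2 : ContDiff ℝ ∞ (fun x => mK D 0 x (coef (cf f) 0)) :=
    (contDiff_mK D hJ 0).clm_apply contDiff_const
  have h3 := test_of_antiC D (h1.add h2)
    (fun x hx => by
      change Op 0 D.e (cf f) x + mK D 0 x (coef (cf f) 0) = 0
      rw [Op_zero_off D.he 0 _ hx, mK_zero_off D 0 hx]
      simp)
    (fun x => (antiC_Op D hJ2 (cf_contDiff hf) (cf_tsupport hs) le_rfl x).add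
      (antiC_mK D hJ2 0 x _))
  have h4 : Kop D f = fun x => re2 ((Op 0 D.e (cf f) + fun x => mK D 0 x (coef (cf f) 0)) x) := by
    funext x
    simp [Kop]
  rw [h4]
  exact h3

theorem identity (D : Dat J U V) (hVc : V ⊆ cube) {f : E4 → Bil} (hf : Ell.Test J U f)
    (hs : tsupport f ⊆ cube) (x : E4) :
    antip (J x) (Ell.dS (Qop D f) x) = f x + Kop D f x := by
  have hfs := cf_contDiff hf.smooth
  have hft := cf_tsupport hs
  have e1 : fderiv ℝ (Qop D f) x = re2 (fderiv ℝ (Op 0 D.p (cf f)) x) := by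
    have hd : DifferentiableAt ℝ (Op 0 D.p (cf f)) x :=
      ((Op_contDiff le_rfl D.hp.toIsSym hfs hft).differentiable (by simp)).differentiableAt
    have := (re1.hasFDerivAt.comp x hd.hasFDerivAt).fderiv
    exact this
  have e2 : Ell.dS (Qop D f) x = re2 (fderiv ℝ (Op 0 D.p (cf f)) x)
      - (re2 (fderiv ℝ (Op 0 D.p (cf f)) x)).flip := by
    unfold Ell.dS
    rw [e1]
  rw [e2, antip_alt, Op_fderiv le_rfl D.hp.toIsSym hfs hft]
  have e3 : ((2 : ℝ) • PiC (J x)) (Op 0 (dS D.p) (cf f) x)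
      = Op 0 (fun n y => ((2 : ℝ) • PiC (J y)).comp (dS D.p n y)) (cf f) x :=
    Op_comp le_rfl (isSym_dS D.hp.toIsSym) hfs hft (fun y => (2 : ℝ) • PiC (J y)) x (by
      intro c g
      simp only [smul_apply]
      rw [PiC_smul, smul_comm])
  have e3' : (2 : ℝ) • PiC (J x) (Op 0 (dS D.p) (cf f) x)
      = Op 0 (fun n y => ((2 : ℝ) • PiC (J y)).comp (dS D.p n y)) (cf f) x := e3
  rw [e3']
  set T : C2 →L[ℝ] C2 := D.θ x • PiC (J x) with hT
  have e4 : Op 0 (fun n y => ((2 : ℝ) • PiC (J y)).comp (dS D.p n y)) (cf f) x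
      = Op 0 (fun n y => T + D.e n y) (cf f) x := by
    apply Op_congr le_rfl
    intro n hn
    change (((2 : ℝ) • PiC (J x)).comp (dS D.p n x)) (coef (cf f) n) = _
    rw [D.tel n hn x]
  rw [e4, Op_add_sym le_rfl (isSym_const T) D.he.toIsSym hfs hft]
  have e5 : Op 0 (fun (_ : Z4) (_ : E4) => T) (cf f) x
      = T (Op 0 (fun _ _ => ContinuousLinearMap.id ℝ C2) (cf f) x) := by
    have := Op_comp le_rfl isSym_id hfs hft (fun _ => T) x (by
      intro c g
      rw [hT]
      simp only [smul_apply]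
      rw [PiC_smul, smul_comm])
    exact this.symm
  have e6 : T (Op 0 (fun _ _ => ContinuousLinearMap.id ℝ C2) (cf f) x)
      = cf f x - T (coef (cf f) 0) := by
    by_cases hx : x ∈ D.K
    · have h1 := eq_low_add_high 0 hfs hft (hVc (D.hKV hx))
      have h2 : lowF 0 (cf f) x = coef (cf f) 0 := by
        unfold lowF
        rw [lowSet_zero, Finset.sum_singleton, ch_zero, one_smul]
      rw [h2] at h1
      have h3 : Op 0 (fun _ _ => ContinuousLinearMap.id ℝ C2) (cf f) x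
          = cf f x - coef (cf f) 0 := by
        rw [h1]; abel
      rw [h3, map_sub]
      congr 1
      rw [hT]
      simp only [smul_apply]
      by_cases hxU : x ∈ U
      · rw [D.hθ1 x hxU, one_smul]
        exact PiC_of_anti (antiC_toC2 (hf.alt x) (hf.anti x))
      · have : f x = 0 := by
          apply image_eq_zero_of_notMem_tsupport
          exact fun h => hxU (hf.supp h)
        simp [cf, this]
    · have h1 : T = 0 := by
        rw [hT, D.hθ0 x hx, zs]
      have h2 : f x = 0 := by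
        by_contra hne
        have hxU : x ∈ U := hf.supp (subset_tsupport f hne)
        have := D.hθ1 x hxU
        rw [D.hθ0 x hx] at this
        exact zero_ne_one this
      rw [h1]
      simp [cf, h2]
  rw [e5, e6, map_add, map_sub]
  have e7 : re2 (cf f x) = f x := re2_toC2 _
  rw [e7]
  unfold Kop
  have e8 : mK D 0 x (coef (cf f) 0) = - T (coef (cf f) 0) := by
    unfold mK
    rw [if_pos rfl]
    rfl
  rw [e8, map_neg]
  abel

end

end Crest.Agent.R240.FA
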