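import Crest.Agent.R240.EllNorm
import Crest.Agent.R240.FAOp

/-!
Row 240, Lemma A (helper446): the local theorem for general bounded `V` follows from the case
`V ⊆ cube` by an affine change of coordinates.
-/

set_option autoImplicit false
set_option maxSynthPendingDepth 3

open Set
open scoped ContDiff

namespace Crest.Agent.R240.Ell

noncomputable section

/-- `LocalThm` for `V` contained in the open unit cube. -/
def LocalThmCube : Prop :=
  ∀ (J : E4 → E4 →L[ℝ] E4), ContDiff ℝ ∞ J →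
  ∀ (U V : Set E4), IsOpen U → IsOpen V → V ⊆ FA.cube → closure U ⊆ V →
  (∀ x ∈ V, ∀ v, J x (J x v) = -v) →
  ∃ (Q : (E4 → Bil) → (E4 → E4 →L[ℝ] ℝ)) (K : (E4 → Bil) → (E4 → Bil)),
    (∀ f g, Test J U f → Test J U g → Q (f + g) = Q f + Q g ∧ K (f + g) = K f + K g) ∧
    (∀ (c : ℝ) f, Test J U f → Q (c • f) = c • Q f ∧ K (c • f) = c • K f) ∧
    (∀ f, Test J U f → ContDiff ℝ ∞ (Q f) ∧ tsupport (Q f) ⊆ V ∧ Test J V (K f)) ∧
    (∀ f, Test J U f → ∀ x, antip (J x) (dS (Q f) x) = f x + K f x) ∧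
    (∃ (m : ℕ) (C : ℝ), ∀ f B, Test J U f → CkB m f B → CkB 1 (Q f) (C * B)) ∧
    (∀ (k : ℕ) (θ : ℝ), 0 < θ → ∃ C : ℝ, ∀ f A B, Test J U f → CkB k f A → CkB 0 f B →
        CkB k (K f) (θ * A + C * B)) ∧
    (∀ (θ : ℝ), 0 < θ → ∃ (n : ℕ) (φ : Fin n → E4 → Bil) (l : Fin n → (E4 → Bil) → ℝ) (C : ℝ),
        (∀ j, Test J V (φ j)) ∧
        (∀ j f g, Test J U f → Test J U g → l j (f + g) = l j f + l j g) ∧
        (∀ j (c : ℝ) f, Test J U f → l j (c • f) = c * l j f) ∧
        (∀ j f B, Test J U f → CkB 0 f B → |l j f| ≤ C * B) ∧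
        (∀ f B, Test J U f → CkB 0 f B →
          CkB 0 (fun x => K f x - ∑ j, l j f • φ j x) (θ * B)))

section aff

variable {F : Type*} [NormedAddCommGroup F] [NormedSpace ℝ F]

/-- the affine homeomorphism `x ↦ a + s • x`. -/
def aff (a : E4) (s : ℝ) (hs : s ≠ 0) : E4 ≃ₜ E4 where
  toFun x := a + s • x
  invFun x := s⁻¹ • (x - a)
  left_inv x := by simp [smul_smul, inv_mul_cancel₀ hs]
  right_inv x := by simp [smul_smul, mul_inv_cancel₀ hs]
  continuous_toFun := by fun_prop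
  continuous_invFun := by fun_prop

theorem aff_apply (a : E4) (s : ℝ) (hs : s ≠ 0) (x : E4) : aff a s hs x = a + s • x := rfl

theorem aff_symm_apply (a : E4) (s : ℝ) (hs : s ≠ 0) (x : E4) :
    (aff a s hs).symm x = s⁻¹ • (x - a) := rfl

theorem aff_symm_eq (a : E4) (s : ℝ) (hs : s ≠ 0) (x : E4) :
    (aff a s hs).symm x = (-(s⁻¹ • a)) + s⁻¹ • x := by
  rw [aff_symm_apply, smul_sub]; abel

theorem contDiff_aff (a : E4) (s : ℝ) (hs : s ≠ 0) : ContDiff ℝ ∞ (aff a s hs) := by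
  have : (aff a s hs : E4 → E4) = fun x => a + s • x := rfl
  rw [this]; fun_prop

theorem contDiff_aff_symm (a : E4) (s : ℝ) (hs : s ≠ 0) : ContDiff ℝ ∞ (aff a s hs).symm := by
  have : ((aff a s hs).symm : E4 → E4) = fun x => s⁻¹ • (x - a) := rfl
  rw [this]; fun_prop

theorem ckB_affine {f : E4 → F} (hf : ContDiff ℝ ∞ f) {k : ℕ} {B : ℝ} (hB : CkB k f B) (a : E4)
    (s : ℝ) : CkB k (fun x => f (a + s • x)) ((1 + |s|) ^ k * B) := by
  intro j hj x
  have h1 : (fun x => f (a + s • x)) =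
      (fun y => f (a + y)) ∘ (s • ContinuousLinearMap.id ℝ E4) := by
    funext y; simp
  have hg : ContDiff ℝ ∞ (fun y => f (a + y)) := hf.comp (by fun_prop)
  rw [h1, ContinuousLinearMap.iteratedFDeriv_comp_right (s • ContinuousLinearMap.id ℝ E4) hg x
    (i := j) (by exact_mod_cast le_top)]
  refine (ContinuousMultilinearMap.norm_compContinuousLinearMap_le _ _).trans ?_
  have h2 : iteratedFDeriv ℝ j (fun y => f (a + y)) ((s • ContinuousLinearMap.id ℝ E4) x) =
      iteratedFDeriv ℝ j f (a + (s • ContinuousLinearMap.id ℝ E4) x) := by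
    rw [iteratedFDeriv_comp_add_left]
  rw [h2]
  have hB0 : 0 ≤ B := hB.nonneg
  have h3 : ‖s • ContinuousLinearMap.id ℝ E4‖ ≤ |s| := by
    refine ContinuousLinearMap.opNorm_le_bound _ (abs_nonneg _) fun v => ?_
    simp [norm_smul]
  have h4 : ∏ _i : Fin j, ‖s • ContinuousLinearMap.id ℝ E4‖ ≤ (1 + |s|) ^ k := by
    rw [Finset.prod_const, Finset.card_univ, Fintype.card_fin]
    calc ‖s • ContinuousLinearMap.id ℝ E4‖ ^ j ≤ (1 + |s|) ^ j := by
          gcongr; linarith [abs_nonneg s]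
      _ ≤ (1 + |s|) ^ k := pow_le_pow_right₀ (by linarith [abs_nonneg s]) hj
  calc ‖iteratedFDeriv ℝ j f _‖ * ∏ _i : Fin j, ‖s • ContinuousLinearMap.id ℝ E4‖
      ≤ B * (1 + |s|) ^ k := by
        gcongr
        exact hB j hj _
    _ = (1 + |s|) ^ k * B := mul_comm _ _

theorem tsupport_comp_aff (e : E4 ≃ₜ E4) (f : E4 → F) : tsupport (f ∘ e) = e ⁻¹' tsupport f := by
  rw [tsupport, tsupport, e.preimage_closure]
  rfl

end aff

theorem Test.comp {J : E4 → E4 →L[ℝ] E4} {U : Set E4} {f : E4 → Bil} (h : Test J U f)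
    (e : E4 ≃ₜ E4) (he : ContDiff ℝ ∞ e) : Test (fun x => J (e x)) (e ⁻¹' U) (f ∘ e) where
  smooth := h.smooth.comp he
  cpt := by
    have := h.cpt
    unfold HasCompactSupport at this ⊢
    rw [tsupport_comp_aff]
    exact e.isCompact_preimage.2 this
  supp := by
    rw [tsupport_comp_aff]
    exact preimage_mono h.supp
  alt x := h.alt _
  anti x u v := h.anti _ u v

theorem localThm_of_cube (H : LocalThmCube) : LocalThm := by
  intro J hJ U V hU hV hVb hUV hJ2
  obtain ⟨R, hR0, hR⟩ : ∃ R : ℝ, 0 < R ∧ ∀ x ∈ V, ‖x‖ < R := by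
    obtain ⟨R, hR⟩ := hVb.exists_norm_le
    exact ⟨max R 0 + 1, by positivity, fun x hx => by
      have := hR x hx
      have := le_max_left R 0
      linarith⟩
  set s : ℝ := 2 * R with hs
  have hs0 : 0 < s := by positivity
  have hsne : s ≠ 0 := hs0.ne'
  set a : E4 := WithLp.toLp 2 (fun _ => - R) with ha
  set e : E4 ≃ₜ E4 := aff a s hsne with he
  have hec : ContDiff ℝ ∞ e := contDiff_aff a s hsne
  have hesc : ContDiff ℝ ∞ e.symm := contDiff_aff_symm a s hsne
  have hcube : e ⁻¹' V ⊆ FA.cube := by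
    intro x hx i
    have h1 := hR _ hx
    have h2 : |(a + s • x) i| < R := by
      have := PiLp.norm_apply_le (a + s • x) i
      rw [Real.norm_eq_abs] at this
      exact this.trans_lt h1
    have h3 : (a + s • x) i = -R + 2 * R * x i := by simp [ha, hs]
    rw [h3, abs_lt] at h2
    constructor
    · by_contra hc
      push Not at hc
      nlinarith [h2.1]
    · by_contra hc
      push Not at hc
      nlinarith [h2.2]
  obtain ⟨Q, K, h1, h2, h3, h4, ⟨m, C5, h5⟩, h6, h7⟩ := H (fun x => J (e x)) (hJ.comp hec)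
    (e ⁻¹' U) (e ⁻¹' V) (hU.preimage e.continuous) (hV.preimage e.continuous) hcube
    (by rw [← e.preimage_closure]; exact preimage_mono hUV) (fun x hx v => hJ2 _ hx v)
  have htest : ∀ {f}, Test J U f → Test (fun x => J (e x)) (e ⁻¹' U) (f ∘ e) :=
    fun h => h.comp e hec
  have hback : ∀ {g}, Test (fun x => J (e x)) (e ⁻¹' V) g → Test J V (g ∘ e.symm) := by
    intro g hg
    have := hg.comp e.symm hesc
    simpa [preimage_preimage] using this
  have hesymm : ∀ x, e.symm x = (-(s⁻¹ • a)) + s⁻¹ • x := fun x => aff_symm_eq a s hsne x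
  have hb1 : ∀ {F : Type} [NormedAddCommGroup F] [NormedSpace ℝ F] {f : E4 → F} {k : ℕ} {B : ℝ},
      ContDiff ℝ ∞ f → CkB k f B → CkB k (f ∘ e) ((1 + |s|) ^ k * B) := by
    intro F _ _ f k B hf hB
    exact ckB_affine hf hB a s
  have hb2 : ∀ {F : Type} [NormedAddCommGroup F] [NormedSpace ℝ F] {f : E4 → F} {k : ℕ} {B : ℝ},
      ContDiff ℝ ∞ f → CkB k f B → CkB k (f ∘ e.symm) ((1 + |s⁻¹|) ^ k * B) := by
    intro F _ _ f k B hf hB
    have := ckB_affine hf hB (-(s⁻¹ • a)) (s⁻¹)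
    have h8 : (f ∘ e.symm) = fun x => f (-(s⁻¹ • a) + s⁻¹ • x) := by
      funext x; simp only [Function.comp, hesymm]
    rw [h8]; exact this
  have hb0 : ∀ {f : E4 → Bil} {B : ℝ}, CkB 0 f B → CkB 0 (f ∘ e) B := by
    intro f B hB
    rw [ckB_zero_iff] at hB ⊢
    exact fun x => hB _
  have hb0' : ∀ {f : E4 → Bil} {B : ℝ}, CkB 0 f B → CkB 0 (f ∘ e.symm) B := by
    intro f B hB
    rw [ckB_zero_iff] at hB ⊢
    exact fun x => hB _
  refine ⟨fun f => s • (Q (f ∘ e) ∘ e.symm), fun f => K (f ∘ e) ∘ e.symm, ?_, ?_, ?_, ?_, ?_, ?_, ?_⟩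
  · intro f g hf hg
    have h8 := h1 _ _ (htest hf) (htest hg)
    have h9 : (f + g) ∘ e = f ∘ e + g ∘ e := rfl
    constructor
    · simp only [h9, h8.1]
      funext x
      simp [smul_add]
    · simp only [h9, h8.2]
      rfl
  · intro c f hf
    have h8 := h2 c _ (htest hf)
    have h9 : (c • f) ∘ e = c • (f ∘ e) := rfl
    constructor
    · simp only [h9, h8.1]
      funext x
      simp only [Pi.smul_apply, Function.comp]
      rw [smul_comm]
    · simp only [h9, h8.2]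
      rfl
  · intro f hf
    obtain ⟨h8, h9, h10⟩ := h3 _ (htest hf)
    refine ⟨contDiff_const.smul (h8.comp hesc), ?_, hback h10⟩
    have h12 : tsupport (s • (Q (f ∘ e) ∘ e.symm)) ⊆ tsupport (Q (f ∘ e) ∘ e.symm) := by
      refine closure_mono fun x hx => ?_
      simp only [Function.mem_support, Pi.smul_apply] at hx ⊢
      exact fun h0 => hx (by rw [h0, smul_zero])
    refine h12.trans ?_
    rw [tsupport_comp_aff]
    have h11 := preimage_mono (f := e.symm) h9
    simpa [preimage_preimage] using h11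
  · intro f hf x
    have h8 := h4 _ (htest hf) (e.symm x)
    obtain ⟨h9, _, _⟩ := h3 _ (htest hf)
    have h10 : fderiv ℝ (s • (Q (f ∘ e) ∘ e.symm)) x = fderiv ℝ (Q (f ∘ e)) (e.symm x) := by
      have h11 : HasFDerivAt (fun x => e.symm x) (s⁻¹ • ContinuousLinearMap.id ℝ E4) x := by
        have : (fun x => e.symm x) = fun x => (-(s⁻¹ • a)) + s⁻¹ • x := funext hesymm
        rw [this]
        exact (((ContinuousLinearMap.id ℝ E4).hasFDerivAt (x := x)).const_smul s⁻¹).const_add _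
      have h12 : HasFDerivAt (Q (f ∘ e)) (fderiv ℝ (Q (f ∘ e)) (e.symm x)) (e.symm x) :=
        (h9.differentiable (by simp)).differentiableAt.hasFDerivAt
      have h13 := (h12.comp x h11).const_smul s
      rw [h13.fderiv]
      ext v
      simp [smul_smul, mul_inv_cancel₀ hsne]
    have h14 : dS (s • (Q (f ∘ e) ∘ e.symm)) x = dS (Q (f ∘ e)) (e.symm x) := by
      unfold dS
      rw [h10]
    simp only [Function.comp, Homeomorph.apply_symm_apply] at h8
    rw [h14]
    exact h8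
  · refine ⟨m, |s| * ((1 + |s⁻¹|) ^ 1 * (C5 * (1 + |s|) ^ m)), fun f B hf hB => ?_⟩
    obtain ⟨h9, _, _⟩ := h3 _ (htest hf)
    have h8 := h5 _ _ (htest hf) (hb1 hf.smooth hB)
    have h10 := CkB.smul s (h9.comp hesc) (hb2 h9 h8)
    refine h10.mono (le_of_eq ?_)
    ring
  · intro k θ hθ
    obtain ⟨C, hC⟩ := h6 k (θ / ((1 + |s⁻¹|) ^ k * (1 + |s|) ^ k)) (by positivity)
    refine ⟨(1 + |s⁻¹|) ^ k * C, fun f A B hf hA hB => ?_⟩
    obtain ⟨_, _, h10⟩ := h3 _ (htest hf)
    have h8 := hC _ _ _ (htest hf) (hb1 hf.smooth hA) (hb0 hB)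
    have h11 := hb2 h10.smooth h8
    refine h11.mono (le_of_eq ?_)
    have hp1 : (0:ℝ) < (1 + |s⁻¹|) ^ k := by positivity
    have hp2 : (0:ℝ) < (1 + |s|) ^ k := by positivity
    field_simp
  · intro θ hθ
    obtain ⟨n, φ, l, C, g1, g2, g3, g4, g5⟩ := h7 θ hθ
    refine ⟨n, fun j => φ j ∘ e.symm, fun j f => l j (f ∘ e), C, fun j => hback (g1 j), ?_, ?_,
      ?_, ?_⟩
    · intro j f g hf hg
      exact g2 j _ _ (htest hf) (htest hg)
    · intro j c f hf
      exact g3 j c _ (htest hf)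
    · intro j f B hf hB
      exact g4 j _ _ (htest hf) (hb0 hB)
    · intro f B hf hB
      exact hb0' (f := fun x => K (f ∘ e) x - ∑ j, l j (f ∘ e) • φ j x) (g5 _ _ (htest hf) (hb0 hB))

end

end Crest.Agent.R240.Ell
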