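import Mathlib
import Crest.Agent.R240.FALoc
import Crest.Agent.R240.FAScale

/-!
Row 240, Lemma A, team F: the local theorem from the symbol theorem.
-/

set_option autoImplicit false
set_option maxSynthPendingDepth 3

namespace Crest.Agent.R240.FA

open Crest.Agent.R240 MeasureTheory
open scoped ContDiff Manifold

noncomputable section

variable {J : E4 → E4 →L[ℝ] E4} {U V : Set E4}

/-! ### additivity and homogeneity -/

theorem Qop_add (D : Dat J U V) {f g : E4 → Bil} (hf : ContDiff ℝ ∞ f) (hfs : tsupport f ⊆ cube)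
    (hg : ContDiff ℝ ∞ g) (hgs : tsupport g ⊆ cube) : Qop D (f + g) = Qop D f + Qop D g := by
  funext x
  change re1 (Op 0 D.p (cf (f + g)) x) = re1 (Op 0 D.p (cf f) x) + re1 (Op 0 D.p (cf g) x)
  rw [cf_add, Op_add_right le_rfl D.hp.toIsSym (cf_contDiff hf) (cf_tsupport hfs) (cf_contDiff hg)
    (cf_tsupport hgs), Pi.add_apply, map_add]

theorem Kop_add (D : Dat J U V) {f g : E4 → Bil} (hf : ContDiff ℝ ∞ f) (hfs : tsupport f ⊆ cube)
    (hg : ContDiff ℝ ∞ g) (hgs : tsupport g ⊆ cube) : Kop D (f + g) = Kop D f + Kop D g := by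
  funext x
  change re2 (Op 0 D.e (cf (f + g)) x) + re2 (mK D 0 x (coef (cf (f + g)) 0))
    = (re2 (Op 0 D.e (cf f) x) + re2 (mK D 0 x (coef (cf f) 0)))
      + (re2 (Op 0 D.e (cf g) x) + re2 (mK D 0 x (coef (cf g) 0)))
  rw [cf_add, Op_add_right le_rfl D.he.toIsSym (cf_contDiff hf) (cf_tsupport hfs) (cf_contDiff hg)
    (cf_tsupport hgs), Pi.add_apply, map_add,
    coef_add (cf_contDiff hf).continuous (cf_tsupport hfs) (cf_contDiff hg).continuous
      (cf_tsupport hgs), map_add, map_add]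
  abel

theorem Qop_smul (D : Dat J U V) (c : ℝ) (f : E4 → Bil) : Qop D (c • f) = c • Qop D f := by
  funext x
  change re1 (Op 0 D.p (cf (c • f)) x) = c • re1 (Op 0 D.p (cf f) x)
  rw [cf_smul, Op_smulR, Pi.smul_apply, map_smul]

theorem Kop_smul (D : Dat J U V) (c : ℝ) (f : E4 → Bil) : Kop D (c • f) = c • Kop D f := by
  funext x
  change re2 (Op 0 D.e (cf (c • f)) x) + re2 (mK D 0 x (coef (cf (c • f)) 0))
    = c • (re2 (Op 0 D.e (cf f) x) + re2 (mK D 0 x (coef (cf f) 0)))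
  rw [cf_smul, Op_smulR, Pi.smul_apply, map_smul, coef_smulR, map_smul, map_smul, smul_add]

/-! ### bounds -/

theorem Qop_bd (D : Dat J U V) : ∃ C : ℝ, ∀ (f : E4 → Bil) (B : ℝ), ContDiff ℝ ∞ f →
    tsupport f ⊆ cube → CkB 5 f B → CkB 1 (Qop D f) (C * B) := by
  obtain ⟨C, hC0, hC⟩ := Op_bd D.hp.toIsSym (j := 1) (k := 5) (by norm_num)
  refine ⟨‖re1‖ * (C * ‖toC2‖), fun f B hf hs hB => ?_⟩
  have h1 : CkB 5 (cf f) (‖toC2‖ * B) := CkB_clm toC2 hf hB
  have h2 := hC 0 le_rfl (cf f) _ (cf_contDiff hf) (cf_tsupport hs) h1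
  have h3 := CkB_clm re1 (Op_contDiff le_rfl D.hp.toIsSym (cf_contDiff hf) (cf_tsupport hs)) h2
  have e : ‖re1‖ * (C * ‖toC2‖) * B = ‖re1‖ * (C * (‖toC2‖ * B)) := by ring
  rw [e]
  exact h3

theorem high_bd (D : Dat J U V) (k : ℕ) : ∃ C : ℝ, 0 ≤ C ∧ ∀ (A : ℝ), 0 ≤ A →
    ∀ (f : E4 → Bil) (B : ℝ), ContDiff ℝ ∞ f →
    tsupport f ⊆ cube → CkB k f B →
      CkB k (fun x => re2 (Op A D.e (cf f) x)) (C * B / (1 + A)) := by
  obtain ⟨C, hC0, hC⟩ := Op_small D.he.toIsSym (j := k) (k := k) (by omega)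
  refine ⟨‖re2‖ * (C * ‖toC2‖), by positivity, fun A hA f B hf hs hB => ?_⟩
  have h1 : CkB k (cf f) (‖toC2‖ * B) := CkB_clm toC2 hf hB
  have h2 := hC A hA (cf f) _ (cf_contDiff hf) (cf_tsupport hs) h1
  have h3 := CkB_clm re2 (Op_contDiff hA D.he.toIsSym (cf_contDiff hf) (cf_tsupport hs)) h2
  have e : ‖re2‖ * (C * ‖toC2‖) * B / (1 + A) = ‖re2‖ * (C * (‖toC2‖ * B) / (1 + A)) := by ring
  rw [e]
  exact h3

theorem coef_bd {f : E4 → Bil} (hs : tsupport f ⊆ cube) {B : ℝ} (hB : CkB 0 f B)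
    (n : Z4) : ‖coef (cf f) n‖ ≤ volume.real cube * (‖toC2‖ * B) := by
  apply norm_coef_le (cf_tsupport hs)
  intro x
  have h0 : ‖f x‖ ≤ B := by
    have := hB 0 le_rfl x
    rwa [norm_iteratedFDeriv_zero] at this
  exact (toC2.le_opNorm (f x)).trans (mul_le_mul_of_nonneg_left h0 (norm_nonneg _))

theorem low_bd (D : Dat J U V) (hJ : ContDiff ℝ ∞ J) (k : ℕ) (n : Z4) : ∃ C : ℝ, 0 ≤ C ∧
    ∀ (w : C2), CkB k (fun x => re2 (mK D n x w)) (C * ‖w‖) := by
  have hcs : Ell.CS (mK D n) := ⟨contDiff_mK D hJ n,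
    HasCompactSupport.intro D.hK (fun x hx => mK_zero_off D n hx)⟩
  obtain ⟨B, hB0, hB⟩ := hcs.exists_ckB k
  refine ⟨‖re2‖ * B, by positivity, fun w => ?_⟩
  have h1 := CkB_clm (re2.comp (ContinuousLinearMap.apply ℝ C2 w)) (contDiff_mK D hJ n)
    (k := k) (B := B) hB
  have h2 : CkB k (fun x => re2 (mK D n x w))
      (‖re2.comp (ContinuousLinearMap.apply ℝ C2 w)‖ * B) := h1
  refine Ell.CkB.mono h2 ?_
  have h3 : ‖re2.comp (ContinuousLinearMap.apply ℝ C2 w : (C2 →L[ℝ] C2) →L[ℝ] C2)‖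
      ≤ ‖re2‖ * ‖w‖ := by
    refine (ContinuousLinearMap.opNorm_comp_le _ _).trans ?_
    refine mul_le_mul_of_nonneg_left ?_ (norm_nonneg _)
    refine ContinuousLinearMap.opNorm_le_bound _ (norm_nonneg _) fun T => ?_
    rw [mul_comm]
    exact T.le_opNorm w
  calc _ ≤ (‖re2‖ * ‖w‖) * B := by gcongr
    _ = ‖re2‖ * B * ‖w‖ := by ring

theorem CkB_finsum {ι F : Type*} [NormedAddCommGroup F] [NormedSpace ℝ F] (s : Finset ι) {k : ℕ}
    {f : ι → E4 → F} {B : ι → ℝ}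
    (hf : ∀ i ∈ s, ContDiff ℝ ∞ (f i)) (h : ∀ i ∈ s, CkB k (f i) (B i)) :
    CkB k (fun x => ∑ i ∈ s, f i x) (∑ i ∈ s, B i) := by
  classical
  induction s using Finset.induction_on with
  | empty =>
    intro j _ x
    simp only [Finset.sum_empty]
    have := iteratedFDeriv_fun_zero (𝕜 := ℝ) (E := E4) (F := F) (n := j)
    rw [this]
    simp
  | insert a s ha ih =>
    simp only [Finset.sum_insert ha]
    exact Ell.CkB.add (hf a (by simp)) (ContDiff.sum fun i hi => hf i (by simp [hi]))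
      (h a (by simp)) (ih (fun i hi => hf i (by simp [hi])) (fun i hi => h i (by simp [hi])))

theorem contDiff_lowterm (D : Dat J U V) (hJ : ContDiff ℝ ∞ J) (n : Z4) (w : C2) :
    ContDiff ℝ ∞ (fun x => re2 (mK D n x w)) :=
  re2.contDiff.comp ((contDiff_mK D hJ n).clm_apply contDiff_const)

theorem Kop_tame (D : Dat J U V) (hJ : ContDiff ℝ ∞ J) (k : ℕ) (θ : ℝ) (hθ : 0 < θ) :
    ∃ C : ℝ, ∀ (f : E4 → Bil) (A B : ℝ), ContDiff ℝ ∞ f → tsupport f ⊆ cube → CkB k f A →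
      CkB 0 f B → CkB k (Kop D f) (θ * A + C * B) := by
  obtain ⟨C1, hC10, hC1⟩ := high_bd D k
  set R : ℝ := C1 / θ with hR
  have hR0 : 0 ≤ R := by positivity
  choose c hc0 hc using fun n => low_bd D hJ k n
  refine ⟨∑ n ∈ lowSet R, c n * (volume.real cube * ‖toC2‖), fun f A B hf hs hA hB => ?_⟩
  have hB0 : 0 ≤ B := Ell.CkB.nonneg hB
  have hA0 : 0 ≤ A := Ell.CkB.nonneg hA
  have h1 := hC1 R hR0 f A hf hs hA
  have h1' : CkB k (fun x => re2 (Op R D.e (cf f) x)) (θ * A) := by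
    refine Ell.CkB.mono h1 ?_
    rw [div_le_iff₀ (by positivity)]
    have : θ * R = C1 := by rw [hR]; field_simp
    nlinarith
  have h2 : CkB k (fun x => ∑ n ∈ lowSet R, re2 (mK D n x (coef (cf f) n)))
      (∑ n ∈ lowSet R, c n * (volume.real cube * (‖toC2‖ * B))) := by
    refine CkB_finsum _ (fun n _ => contDiff_lowterm D hJ n _) (fun n _ => ?_)
    exact Ell.CkB.mono (hc n (coef (cf f) n))
      (mul_le_mul_of_nonneg_left (coef_bd hs hB n) (hc0 n))
  have h3 := Ell.CkB.add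
    (re2.contDiff.comp (Op_contDiff hR0 D.he.toIsSym (cf_contDiff hf) (cf_tsupport hs)))
    (ContDiff.sum fun n _ => contDiff_lowterm D hJ n _) h1' h2
  have h4 : Kop D f = (fun x => re2 (Op R D.e (cf f) x))
      + (fun x => ∑ n ∈ lowSet R, re2 (mK D n x (coef (cf f) n))) := by
    funext x
    exact Kop_split D hf hs hR0 x
  rw [h4]
  refine Ell.CkB.mono h3 ?_
  rw [Finset.sum_mul]
  refine add_le_add le_rfl (le_of_eq (Finset.sum_congr rfl fun n _ => by ring))

/-! ### finite rank approximation -/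

theorem Kop_fin (D : Dat J U V) (hJ : ContDiff ℝ ∞ J) (hJ2 : ∀ x ∈ V, ∀ v, J x (J x v) = -v)
    (hVc : V ⊆ cube) (hUV : closure U ⊆ V) (θ : ℝ) (hθ : 0 < θ) :
    ∃ (n : ℕ) (φ : Fin n → E4 → Bil) (l : Fin n → (E4 → Bil) → ℝ) (C : ℝ),
        (∀ j, Ell.Test J V (φ j)) ∧
        (∀ j f g, Ell.Test J U f → Ell.Test J U g → l j (f + g) = l j f + l j g) ∧
        (∀ j (c : ℝ) f, Ell.Test J U f → l j (c • f) = c * l j f) ∧
        (∀ j f B, Ell.Test J U f → Ell.CkB 0 f B → |l j f| ≤ C * B) ∧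
        (∀ f B, Ell.Test J U f → Ell.CkB 0 f B →
          Ell.CkB 0 (fun x => Kop D f x - ∑ j, l j f • φ j x) (θ * B)) := by
  classical
  have hsup : ∀ f, Ell.Test J U f → tsupport f ⊆ cube := fun f hf =>
    hf.supp.trans ((subset_closure.trans hUV).trans hVc)
  obtain ⟨C1, hC10, hC1⟩ := high_bd D 0
  set R : ℝ := C1 / θ with hR
  have hR0 : 0 ≤ R := by positivity
  let b := Module.finBasis ℝ C2
  let d := Module.finrank ℝ C2
  let ι := {n // n ∈ lowSet R} × Fin d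
  let e : ι ≃ Fin (Fintype.card ι) := Fintype.equivFin ι
  let φ' : ι → E4 → Bil := fun i x => re2 (mK D i.1.1 x (b i.2))
  let l' : ι → (E4 → Bil) → ℝ := fun i f => b.repr (coef (cf f) i.1.1) i.2
  let L : Fin d → (C2 →L[ℝ] ℝ) := fun i => LinearMap.toContinuousLinearMap (b.coord i)
  let M : ℝ := ∑ i, ‖L i‖
  refine ⟨Fintype.card ι, fun j => φ' (e.symm j), fun j => l' (e.symm j),
    M * (volume.real cube * ‖toC2‖), ?_, ?_, ?_, ?_, ?_⟩
  · intro j
    exact test_of_antiC D ((contDiff_mK D hJ _).clm_apply contDiff_const)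
      (fun x hx => by rw [mK_zero_off D _ hx]; rfl)
      (fun x => antiC_mK D hJ2 _ x _)
  · intro j f g hf hg
    simp only [l']
    rw [cf_add, coef_add (cf_contDiff hf.smooth).continuous (cf_tsupport (hsup f hf))
      (cf_contDiff hg.smooth).continuous (cf_tsupport (hsup g hg)), map_add]
    rfl
  · intro j c f hf
    simp only [l']
    rw [cf_smul, coef_smulR, map_smul]
    rfl
  · intro j f B hf hB
    have hB0 : 0 ≤ B := Ell.CkB.nonneg hB
    have h1 : l' (e.symm j) f = L (e.symm j).2 (coef (cf f) (e.symm j).1.1) := rfl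
    have h2 : ‖L (e.symm j).2‖ ≤ M :=
      Finset.single_le_sum (f := fun i => ‖L i‖) (fun _ _ => norm_nonneg _) (Finset.mem_univ _)
    have h3 := (L (e.symm j).2).le_opNorm (coef (cf f) (e.symm j).1.1)
    have h4 := coef_bd (hsup f hf) hB (e.symm j).1.1
    have hv : 0 ≤ volume.real cube := measureReal_nonneg
    change |l' (e.symm j) f| ≤ _
    rw [h1, ← Real.norm_eq_abs]
    calc _ ≤ ‖L (e.symm j).2‖ * ‖coef (cf f) (e.symm j).1.1‖ := h3
      _ ≤ M * (volume.real cube * (‖toC2‖ * B)) := by gcongr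
      _ = M * (volume.real cube * ‖toC2‖) * B := by ring
  · intro f B hf hB
    have hB0 : 0 ≤ B := Ell.CkB.nonneg hB
    have h1 := hC1 R hR0 f B hf.smooth (hsup f hf) hB
    have e1 : (fun x => Kop D f x - ∑ j, l' (e.symm j) f • φ' (e.symm j) x)
        = fun x => re2 (Op R D.e (cf f) x) := by
      funext x
      rw [Kop_split D hf.smooth (hsup f hf) hR0 x, e.symm.sum_comp (fun i => l' i f • φ' i x)]
      have h2 : ∑ i : ι, l' i f • φ' i x
          = ∑ n ∈ lowSet R, re2 (mK D n x (coef (cf f) n)) := by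
        rw [Fintype.sum_prod_type]
        rw [← Finset.sum_coe_sort (lowSet R) (fun n => re2 (mK D n x (coef (cf f) n)))]
        refine Finset.sum_congr rfl fun n _ => ?_
        have h3 : coef (cf f) n.1 = ∑ i, b.repr (coef (cf f) n.1) i • b i := (b.sum_repr _).symm
        have h4 : re2 (mK D n.1 x (coef (cf f) n.1))
            = re2 (mK D n.1 x (∑ i, b.repr (coef (cf f) n.1) i • b i)) := by rw [← h3]
        rw [h4, map_sum, map_sum]
        refine Finset.sum_congr rfl fun i _ => ?_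
        rw [map_smul, map_smul]
      rw [h2]
      abel
    rw [e1]
    refine Ell.CkB.mono h1 ?_
    rw [div_le_iff₀ (by positivity)]
    have : θ * R = C1 := by rw [hR]; field_simp
    nlinarith

theorem localThmCube (hS : SymbolThm) : Ell.LocalThmCube := by
  intro J hJ U V hU hV hVc hUV hJ2
  have hVb : Bornology.IsBounded V := cube_bounded.subset hVc
  obtain ⟨D⟩ := exists_dat hS J hJ U V hV hVb hUV hJ2
  have hsup : ∀ f, Ell.Test J U f → tsupport f ⊆ cube := fun f hf =>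
    hf.supp.trans ((subset_closure.trans hUV).trans hVc)
  refine ⟨Qop D, Kop D, ?_, ?_, ?_, ?_, ?_, ?_, ?_⟩
  · intro f g hf hg
    exact ⟨Qop_add D hf.smooth (hsup f hf) hg.smooth (hsup g hg),
      Kop_add D hf.smooth (hsup f hf) hg.smooth (hsup g hg)⟩
  · intro c f _
    exact ⟨Qop_smul D c f, Kop_smul D c f⟩
  · intro f hf
    refine ⟨?_, ?_, test_Kop D hJ hJ2 hf.smooth (hsup f hf)⟩
    · exact re1.contDiff.comp
        (Op_contDiff le_rfl D.hp.toIsSym (cf_contDiff hf.smooth) (cf_tsupport (hsup f hf)))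
    · refine (tsupport_subset_of_zero_off D.hK fun x hx => ?_).trans D.hKV
      change re1 (Op 0 D.p (cf f) x) = 0
      rw [Op_zero_off D.hp 0 _ hx, map_zero]
  · intro f hf x
    exact identity D hVc hf (hsup f hf) x
  · obtain ⟨C, hC⟩ := Qop_bd D
    exact ⟨5, C, fun f B hf hB => hC f B hf.smooth (hsup f hf) hB⟩
  · intro k θ hθ
    obtain ⟨C, hC⟩ := Kop_tame D hJ k θ hθ
    exact ⟨C, fun f A B hf hA hB => hC f A B hf.smooth (hsup f hf) hA hB⟩
  · intro θ hθ
    exact Kop_fin D hJ hJ2 hVc hUV θ hθ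

theorem localThm_of_symbol (hS : SymbolThm) : Ell.LocalThm :=
  Ell.localThm_of_cube (localThmCube hS)

end

end Crest.Agent.R240.FA
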