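import Mathlib
import Crest.Agent.R240.Iface
import Crest.Agent.R240.IntMu
import Crest.Agent.R240.Met
import Crest.Agent.R240.Lin4

/-!
Row 240 (S0371), node I5 (helper707): from the frozen statement to the data `Dat M` and back.
-/

set_option autoImplicit false
set_option maxSynthPendingDepth 3
set_option linter.unusedSectionVars false

open Set Function Filter MeasureTheory Metric
open scoped Manifold ContDiff Topology ENNReal
open Crest.GeometryTopology.TwoForm

namespace Crest.Agent.R240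

open Ch Crest.Agent.R240.Int

universe u

noncomputable section

section Vol

variable {M : Type*} [TopologicalSpace M] [ChartedSpace E4 M] [IsManifold 𝓘(ℝ, E4) ∞ M]

/-- the invariant part of a taming form is strictly positive. -/
theorem spos_bp {J : EndF E4 M} {al : F2 E4 M} (hJ : ∀ x v, atJ J x (atJ J x v) = -v)
    (ha : Smooth2 al) (ht : ∀ x v, v ≠ 0 → 0 < at2 al x v (atJ J x v)) (x : M) :
    SPos (atJ J x) (at2 (bp J al) x) where
  alt := fun v => by
    show invp (atJ J x) (at2 al x) v v = 0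
    rw [invp_apply, ha.1, ha.1]; norm_num
  inv := fun u v => invp_inv (hJ x) _ u v
  pos := fun v hv => by
    show 0 < invp (atJ J x) (at2 al x) v (atJ J x v)
    rw [invp_diag (hJ x) (ha.1 x)]
    exact ht x v hv

theorem vol_bp {J : EndF E4 M} {al : F2 E4 M} (hJ : ∀ x v, atJ J x (atJ J x v) = -v)
    (hJs : SmoothJ J) (ha : Smooth2 al) (ht : ∀ x v, v ≠ 0 → 0 < at2 al x v (atJ J x v)) :
    Vol (bp J al) where
  alt := fun x => (spos_bp hJ ha ht x).alt
  cont := fun p => ((Smooth2.bp hJs ha).2 p).continuousOn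
  ne := fun x => by
    obtain ⟨A, hA⟩ := exists_frame (hJ x) (spos_bp hJ ha ht x)
    exact hA.W_ne (spos_bp hJ ha ht x).alt

theorem compat_of_bpp {J : EndF E4 M} {b : F2 E4 M} (h : bpp J b = 0) (x : M) (u v : E4) :
    at2 b x (atJ J x u) (atJ J x v) = at2 b x u v := by
  have h3 : bpp J b x = 0 := congrFun h x
  have h4 : antip (atJ J x) (at2 b x) = 0 := h3
  have h2 : antip (atJ J x) (at2 b x) u v = 0 := by rw [h4]; rfl
  rw [antip_apply] at h2
  linarith

variable [MeasurableSpace M] [BorelSpace M] [T2Space M] [CompactSpace M]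

theorem isVol_mu {F : F2 E4 M} (hF : Vol F) : IsVol F (mu F) := by
  intro p f hf h0
  have h1 : ∫⁻ x, f x ∂(mu F) = ∫⁻ x in (chartAt E4 p).source, f x ∂(mu F) := by
    rw [← lintegral_indicator (chartAt E4 p).open_source.measurableSet]
    congr 1
    funext x
    by_cases hx : x ∈ (chartAt E4 p).source
    · rw [indicator_of_mem hx]
    · rw [indicator_of_notMem hx, h0 x hx]
  rw [h1, lintegral_mu hF p hf]
  refine lintegral_congr fun y => ?_
  rw [mul_comm]
  rfl

end Vol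

/-- the conclusion of the theorem, on a metric manifold. -/
theorem final_aux {M : Type*} [MetricSpace M] [CompactSpace M] [ChartedSpace E4 M]
    [IsManifold 𝓘(ℝ, E4) ∞ M] (bl : Met.BiLip E4 M)
    (hgoal : ∀ [MeasurableSpace M] [BorelSpace M] (D : Dat M), D.Goal)
    (J : TEndF E4 M) (hJ : IsAlmostComplexStructure 𝓘(ℝ, E4) M J)
    (hα : ∃ α : TF2 E4 M, IsSmoothTwoForm 𝓘(ℝ, E4) M α ∧ IsClosedTwoForm 𝓘(ℝ, E4) M α ∧
      Tames 𝓘(ℝ, E4) M α J) :
    ∃ α' : TF2 E4 M, IsSmoothTwoForm 𝓘(ℝ, E4) M α' ∧ IsClosedTwoForm 𝓘(ℝ, E4) M α' ∧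
      IsCompatible 𝓘(ℝ, E4) M α' J := by
  obtain ⟨α, hα1, hα2, hα3⟩ := hα
  let _ : MeasurableSpace M := borel M
  have _ : BorelSpace M := ⟨rfl⟩
  have sJ : SmoothJ (J : EndF E4 M) := (smoothJ_iff J).1 hJ.contMDiff
  have sα : Smooth2 (α : F2 E4 M) := (smooth2_iff α).1 hα1
  have cα : Closed2 (α : F2 E4 M) := (closed2_iff sα).1 hα2
  have hsq : ∀ x v, atJ (J : EndF E4 M) x (atJ (J : EndF E4 M) x v) = -v := hJ.sq_eq_neg
  have htam : ∀ x v, v ≠ 0 → 0 < at2 (α : F2 E4 M) x v (atJ (J : EndF E4 M) x v) := hα3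
  have hV : Vol (bp (J : EndF E4 M) (α : F2 E4 M)) := vol_bp hsq sJ sα htam
  let D : Dat M :=
    { bl := bl
      J := J
      smJ := sJ
      sq := hsq
      al := α
      sm_al := sα
      cl_al := cα
      tames := htam
      μ := mu (bp (J : EndF E4 M) (α : F2 E4 M))
      fin := isFinite_mu hV
      vol := isVol_mu hV }
  obtain ⟨b, hbZ, hb2, hbpos⟩ := hgoal D
  refine ⟨(b.1 : F2 E4 M), (smooth2_iff _).2 b.2, (closed2_iff b.2).2 hbZ, hbpos, ?_⟩
  exact fun x u v => compat_of_bpp (J := (J : EndF E4 M)) (congrArg Subtype.val hb2) x u v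

/-- **node I5**: the frozen statement S0371 follows from `D.Goal` for all data. -/
theorem final
    (hgoal : ∀ (M : Type u) [MetricSpace M] [CompactSpace M] [ChartedSpace E4 M]
      [IsManifold 𝓘(ℝ, E4) ∞ M] [MeasurableSpace M] [BorelSpace M] (D : Dat M), D.Goal)
    (M : Type u) [t : TopologicalSpace M] [T2Space M] [CompactSpace M]
    [ChartedSpace E4 M] [IsManifold 𝓘(ℝ, E4) ∞ M]
    (J : TEndF E4 M) (hJ : IsAlmostComplexStructure 𝓘(ℝ, E4) M J)
    (hα : ∃ α : TF2 E4 M, IsSmoothTwoForm 𝓘(ℝ, E4) M α ∧ IsClosedTwoForm 𝓘(ℝ, E4) M α ∧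
      Tames 𝓘(ℝ, E4) M α J) :
    ∃ α' : TF2 E4 M, IsSmoothTwoForm 𝓘(ℝ, E4) M α' ∧ IsClosedTwoForm 𝓘(ℝ, E4) M α' ∧
      IsCompatible 𝓘(ℝ, E4) M α' J := by
  obtain ⟨m, hm, hbl⟩ := Met.exists_metric (E := E4) (M := M)
  subst hm
  exact final_aux (M := M) hbl (fun D => hgoal M D) J hJ hα

end

end Crest.Agent.R240
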