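import Mathlib

/-!
# Row 240: dyadic kernel estimates in metric measure spaces

`ker b r = (ofReal r ^ b)⁻¹ : ℝ≥0∞` (value `⊤` at `r ≤ 0`, `b ≥ 1`).
Growth hypothesis of a measure: `∀ r > 0, s (ball x r) ≤ ENNReal.ofReal (A * r ^ a)`.

* `lintegral_ker_add`   : `∫ ker (a+c) (d+ε) ds ≤ 2^(a+c+1) A / ε^c`, `c ≥ 1`
* `setLIntegral_ker`    : `∫_{ball x R} ker b (d) ds ≤ 2^(b+1) A R^c`, `a = b + c`, `c ≥ 1`
* `comp_ker`            : `∫ ker p (d x z) ker q (d z y + ε) dμ ≤ C A ker c (d x y + ε)`, `p+q=a+c`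
* `setLIntegral_ker_off`: `∫_{ball x ε} ker b (d z y) dμ ≤ C A ε^a ker b (d x y + ε)`
* `lintegral_ker_mul_meas_ball` : Tonelli version
* `we s ε x = ∫ ker 2 (d x y + ε) ds(y)`, `w s x = ∫ ker 2 (d x y) ds(y)`: comparison, limits.
-/

namespace Crest.Agent.R240.Kern

open MeasureTheory ENNReal Metric Set Filter Topology

/-- `ker b r = r^{-b}` with values in `ℝ≥0∞`. -/
noncomputable def ker (b : ℕ) (r : ℝ) : ℝ≥0∞ := (ENNReal.ofReal r ^ b)⁻¹

section ker

variable {a b c : ℕ} {r r' t : ℝ}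

theorem ker_zero (r : ℝ) : ker 0 r = 1 := by simp [ker]

theorem ker_of_pos (b : ℕ) (hr : 0 < r) : ker b r = ENNReal.ofReal ((r ^ b)⁻¹) := by
  unfold ker
  rw [← ENNReal.ofReal_pow hr.le, ENNReal.ofReal_inv_of_pos (pow_pos hr b)]

theorem ker_of_nonpos (hb : b ≠ 0) (hr : r ≤ 0) : ker b r = ⊤ := by
  unfold ker
  rw [ENNReal.ofReal_of_nonpos hr, zero_pow hb, ENNReal.inv_zero]

theorem ofReal_le_ker (b : ℕ) (hr : 0 ≤ r) : ENNReal.ofReal ((r ^ b)⁻¹) ≤ ker b r := by
  rcases hr.eq_or_lt with h | h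
  · subst h
    rcases Nat.eq_zero_or_pos b with hb | hb
    · subst hb; simp [ker]
    · rw [ker_of_nonpos hb.ne' le_rfl]; exact le_top
  · exact (ker_of_pos b h).ge

theorem ker_anti (b : ℕ) (h : r ≤ r') : ker b r' ≤ ker b r := by
  unfold ker
  exact ENNReal.inv_le_inv.mpr (pow_le_pow_left' (ENNReal.ofReal_le_ofReal h) b)

theorem ker_ne_top (b : ℕ) (hr : 0 < r) : ker b r ≠ ⊤ := by
  rw [ker_of_pos b hr]; exact ENNReal.ofReal_ne_top

theorem ker_ne_zero (b : ℕ) (r : ℝ) : ker b r ≠ 0 := by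
  unfold ker
  exact ENNReal.inv_ne_zero.mpr (ENNReal.pow_ne_top ENNReal.ofReal_ne_top)

theorem ker_add (a b : ℕ) (r : ℝ) : ker (a + b) r = ker a r * ker b r := by
  unfold ker
  rw [pow_add, ENNReal.mul_inv (Or.inr (ENNReal.pow_ne_top ENNReal.ofReal_ne_top))
    (Or.inl (ENNReal.pow_ne_top ENNReal.ofReal_ne_top))]

theorem ker_mul (b : ℕ) (ht : 0 < t) (r : ℝ) :
    ker b (t * r) = ENNReal.ofReal ((t ^ b)⁻¹) * ker b r := by
  unfold ker
  rw [ENNReal.ofReal_mul ht.le, mul_pow, ENNReal.mul_inv, ← ENNReal.ofReal_pow ht.le,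
    ENNReal.ofReal_inv_of_pos (pow_pos ht b)]
  · exact Or.inr (ENNReal.pow_ne_top ENNReal.ofReal_ne_top)
  · exact Or.inl (ENNReal.pow_ne_top ENNReal.ofReal_ne_top)

theorem measurable_ker (b : ℕ) : Measurable (ker b) := by
  unfold ker
  fun_prop

theorem continuous_ker (b : ℕ) : Continuous (ker b) := by
  unfold ker
  exact (ENNReal.continuous_pow b |>.comp ENNReal.continuous_ofReal).inv

theorem ker_mul_ofReal_pow (b c : ℕ) (hr : 0 < r) :
    ker (b + c) r * ENNReal.ofReal (r ^ b) = ker c r := by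
  rw [ker_of_pos _ hr, ker_of_pos _ hr, ← ENNReal.ofReal_mul (by positivity)]
  congr 1
  rw [pow_add]
  field_simp

/-- `ε (d+ε)^{-(b+1)} ≤ (d+ε)^{-b}`. -/
theorem ofReal_mul_ker_succ (b : ℕ) {d ε : ℝ} (hd : 0 ≤ d) (hε : 0 < ε) :
    ENNReal.ofReal ε * ker (b + 1) (d + ε) ≤ ker b (d + ε) := by
  have h : 0 < d + ε := by linarith
  rw [ker_of_pos _ h, ker_of_pos _ h, ← ENNReal.ofReal_mul hε.le]
  apply ENNReal.ofReal_le_ofReal
  rw [pow_succ, mul_inv]
  have : 0 ≤ ((d + ε) ^ b)⁻¹ := by positivity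
  have h2 : ε * (d + ε)⁻¹ ≤ 1 := by
    rw [← div_eq_mul_inv, div_le_one h]; linarith
  calc ε * (((d + ε) ^ b)⁻¹ * (d + ε)⁻¹) = ((d + ε) ^ b)⁻¹ * (ε * (d + ε)⁻¹) := by ring
    _ ≤ ((d + ε) ^ b)⁻¹ * 1 := mul_le_mul_of_nonneg_left h2 this
    _ = _ := mul_one _

end ker

section dyadic

variable {X : Type*} [PseudoMetricSpace X] [MeasurableSpace X] [OpensMeasurableSpace X]

/-- Pointwise dyadic domination (scales going up). -/
theorem ker_le_tsum_up (b : ℕ) {d ε : ℝ} (hd : 0 ≤ d) (hε : 0 < ε) :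
    ker b (d + ε) ≤ ∑' k : ℕ, ENNReal.ofReal (2 ^ b * ((2 ^ k * ε) ^ b)⁻¹) *
      (if d < 2 ^ k * ε then 1 else 0) := by
  classical
  have hex : ∃ k : ℕ, d < 2 ^ k * ε := by
    obtain ⟨k, hk⟩ := pow_unbounded_of_one_lt (d / ε) (one_lt_two)
    exact ⟨k, by rwa [div_lt_iff₀ hε] at hk⟩
  set k := Nat.find hex with hkdef
  have hk : d < 2 ^ k * ε := Nat.find_spec hex
  have hmain : 2 ^ k * ε ≤ 2 * (d + ε) := by
    rcases Nat.eq_zero_or_pos k with h0 | h0
    · rw [h0]; linarith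
    · obtain ⟨j, hj⟩ : ∃ j, k = j + 1 := ⟨k - 1, by omega⟩
      have hjn : ¬ d < 2 ^ j * ε := Nat.find_min hex (by omega)
      rw [hj, pow_succ]
      nlinarith [not_lt.mp hjn]
  refine le_trans ?_ (ENNReal.le_tsum k)
  rw [if_pos hk, mul_one, ker_of_pos b (by linarith)]
  apply ENNReal.ofReal_le_ofReal
  have hp : 0 < 2 ^ k * ε := by positivity
  have h1 : (2 ^ k * ε) ^ b ≤ 2 ^ b * (d + ε) ^ b := by
    rw [← mul_pow]; exact pow_le_pow_left₀ hp.le hmain b
  rw [inv_le_iff_one_le_mul₀ (by positivity)]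
  rw [mul_assoc, mul_comm, mul_assoc, inv_mul_eq_div, one_le_div₀ (by positivity)]
  linarith

theorem lintegral_ker_le_tsum (s : Measure X) (x : X) (b : ℕ) {ε : ℝ} (hε : 0 < ε) :
    ∫⁻ y, ker b (dist x y + ε) ∂s ≤
      ∑' k : ℕ, ENNReal.ofReal (2 ^ b * ((2 ^ k * ε) ^ b)⁻¹) * s (ball x (2 ^ k * ε)) := by
  calc ∫⁻ y, ker b (dist x y + ε) ∂s
      ≤ ∫⁻ y, ∑' k : ℕ, ENNReal.ofReal (2 ^ b * ((2 ^ k * ε) ^ b)⁻¹) *
          (ball x (2 ^ k * ε)).indicator (fun _ => (1 : ℝ≥0∞)) y ∂s := by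
        apply lintegral_mono
        intro y
        refine (ker_le_tsum_up b dist_nonneg hε).trans (le_of_eq ?_)
        apply tsum_congr
        intro k
        congr 1
        simp only [Set.indicator, mem_ball, dist_comm y x]
    _ = ∑' k : ℕ, ∫⁻ y, ENNReal.ofReal (2 ^ b * ((2 ^ k * ε) ^ b)⁻¹) *
          (ball x (2 ^ k * ε)).indicator (fun _ => (1 : ℝ≥0∞)) y ∂s := by
        apply lintegral_tsum
        intro k
        exact ((measurable_const.indicator measurableSet_ball).const_mul _).aemeasurable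
    _ = _ := by
        apply tsum_congr
        intro k
        rw [lintegral_const_mul _ (measurable_const.indicator measurableSet_ball),
          lintegral_indicator measurableSet_ball, lintegral_one, Measure.restrict_apply_univ]

/-- **Growth estimate, scales going up.** -/
theorem lintegral_ker_add (s : Measure X) (x : X) {a c : ℕ} (hc : 1 ≤ c) {A ε : ℝ}
    (hs : ∀ r : ℝ, 0 < r → s (ball x r) ≤ ENNReal.ofReal (A * r ^ a)) (hA : 0 ≤ A) (hε : 0 < ε) :
    ∫⁻ y, ker (a + c) (dist x y + ε) ∂s ≤ ENNReal.ofReal (2 ^ (a + c + 1) * A / ε ^ c) := by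
  refine (lintegral_ker_le_tsum s x (a + c) hε).trans ?_
  have hterm : ∀ k : ℕ, ENNReal.ofReal (2 ^ (a + c) * ((2 ^ k * ε) ^ (a + c))⁻¹) *
      s (ball x (2 ^ k * ε)) ≤
      ENNReal.ofReal (2 ^ (a + c) * A / ε ^ c) * (2⁻¹ : ℝ≥0∞) ^ k := by
    intro k
    have hp : (0 : ℝ) < 2 ^ k * ε := by positivity
    calc ENNReal.ofReal (2 ^ (a + c) * ((2 ^ k * ε) ^ (a + c))⁻¹) * s (ball x (2 ^ k * ε))
        ≤ ENNReal.ofReal (2 ^ (a + c) * ((2 ^ k * ε) ^ (a + c))⁻¹) *
          ENNReal.ofReal (A * (2 ^ k * ε) ^ a) := by gcongr; exact hs _ hp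
      _ = ENNReal.ofReal (2 ^ (a + c) * ((2 ^ k * ε) ^ (a + c))⁻¹ * (A * (2 ^ k * ε) ^ a)) := by
          rw [← ENNReal.ofReal_mul (by positivity)]
      _ ≤ ENNReal.ofReal (2 ^ (a + c) * A / ε ^ c * (2⁻¹ : ℝ) ^ k) := by
          apply ENNReal.ofReal_le_ofReal
          have e1 : 2 ^ (a + c) * ((2 ^ k * ε) ^ (a + c))⁻¹ * (A * (2 ^ k * ε) ^ a)
              = 2 ^ (a + c) * A / ε ^ c * ((2 ^ k) ^ c)⁻¹ := by
            rw [pow_add (2 ^ k * ε), mul_pow (2 ^ k) ε c]
            field_simp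
          rw [e1]
          apply mul_le_mul_of_nonneg_left _ (by positivity)
          rw [inv_pow]
          apply inv_anti₀ (by positivity)
          calc (2 : ℝ) ^ k = (2 ^ k) ^ 1 := (pow_one _).symm
            _ ≤ (2 ^ k) ^ c := pow_le_pow_right₀ (one_le_pow₀ one_le_two) hc
      _ = _ := by
          rw [ENNReal.ofReal_mul (by positivity), ENNReal.ofReal_pow (by norm_num),
            ENNReal.ofReal_inv_of_pos (by norm_num)]
          norm_num
  refine (ENNReal.tsum_le_tsum hterm).trans ?_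
  rw [ENNReal.tsum_mul_left, ENNReal.tsum_geometric, ENNReal.one_sub_inv_two, inv_inv]
  rw [show (2 : ℝ≥0∞) = ENNReal.ofReal 2 by norm_num, ← ENNReal.ofReal_mul (by positivity)]
  apply ENNReal.ofReal_le_ofReal
  apply le_of_eq
  rw [pow_succ]
  ring

/-- Pointwise dyadic domination (scales going down). -/
theorem ker_le_tsum_down (b : ℕ) {d R : ℝ} (hd : 0 < d) (hdR : d < R) :
    ker b d ≤ ∑' k : ℕ, ENNReal.ofReal (2 ^ b * ((R / 2 ^ k) ^ b)⁻¹) *
      (if d < R / 2 ^ k then 1 else 0) := by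
  classical
  have hR : 0 < R := hd.trans hdR
  have hex : ∃ k : ℕ, R / 2 ^ k ≤ d := by
    obtain ⟨k, hk⟩ := pow_unbounded_of_one_lt (R / d) (one_lt_two)
    refine ⟨k, ?_⟩
    rw [div_le_iff₀ (by positivity)]
    rw [div_lt_iff₀ hd] at hk
    linarith
  set k := Nat.find hex with hkdef
  have hk : R / 2 ^ k ≤ d := Nat.find_spec hex
  have hk0 : k ≠ 0 := by
    intro h0
    rw [h0] at hk
    simp only [pow_zero, div_one] at hk
    linarith
  obtain ⟨j, hj⟩ : ∃ j, k = j + 1 := ⟨k - 1, by omega⟩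
  have hjn : d < R / 2 ^ j := not_le.mp (Nat.find_min hex (by omega))
  have hmain : R / 2 ^ j ≤ 2 * d := by
    rw [hj, pow_succ, ← div_div, div_le_iff₀ (by norm_num)] at hk
    linarith
  refine le_trans ?_ (ENNReal.le_tsum j)
  rw [if_pos hjn, mul_one, ker_of_pos b hd]
  apply ENNReal.ofReal_le_ofReal
  have hp : 0 < R / 2 ^ j := by positivity
  have h1 : (R / 2 ^ j) ^ b ≤ 2 ^ b * d ^ b := by
    rw [← mul_pow]; exact pow_le_pow_left₀ hp.le hmain b
  rw [inv_le_iff_one_le_mul₀ (by positivity)]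
  rw [mul_assoc, mul_comm, mul_assoc, inv_mul_eq_div, one_le_div₀ (by positivity)]
  linarith

omit [OpensMeasurableSpace X] in
/-- Points (indeed distance-zero classes) have zero mass under a growth condition. -/
theorem measure_dist_zero (s : Measure X) (x : X) {a : ℕ} (ha : 1 ≤ a) {A : ℝ}
    (hs : ∀ r : ℝ, 0 < r → s (ball x r) ≤ ENNReal.ofReal (A * r ^ a)) :
    s {y | dist x y = 0} = 0 := by
  have hlim : Tendsto (fun r : ℝ => ENNReal.ofReal (A * r ^ a)) (𝓝[>] 0) (𝓝 0) := by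
    have h1 : Tendsto (fun r : ℝ => A * r ^ a) (𝓝[>] 0) (𝓝 0) := by
      have : Tendsto (fun r : ℝ => A * r ^ a) (𝓝 0) (𝓝 (A * 0 ^ a)) := by
        apply Continuous.tendsto; fun_prop
      rw [zero_pow (by omega), mul_zero] at this
      exact this.mono_left nhdsWithin_le_nhds
    simpa using ENNReal.tendsto_ofReal h1
  refine le_antisymm (ge_of_tendsto hlim ?_) bot_le
  filter_upwards [self_mem_nhdsWithin] with r hr
  refine (measure_mono ?_).trans (hs r hr)
  intro y hy
  have hy' : dist x y = 0 := hy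
  rw [mem_ball, dist_comm, hy']
  exact hr

/-- **Growth estimate, scales going down.** -/
theorem setLIntegral_ker (s : Measure X) (x : X) {b c : ℕ} (hc : 1 ≤ c) {A R : ℝ}
    (hs : ∀ r : ℝ, 0 < r → s (ball x r) ≤ ENNReal.ofReal (A * r ^ (b + c))) (hA : 0 ≤ A)
    (hR : 0 < R) :
    ∫⁻ y in ball x R, ker b (dist x y) ∂s ≤ ENNReal.ofReal (2 ^ (b + 1) * A * R ^ c) := by
  have hae : ∀ᵐ y ∂(s.restrict (ball x R)), ker b (dist x y) ≤
      ∑' k : ℕ, ENNReal.ofReal (2 ^ b * ((R / 2 ^ k) ^ b)⁻¹) *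
          (ball x (R / 2 ^ k)).indicator (fun _ => (1 : ℝ≥0∞)) y := by
    have h0 : ∀ᵐ y ∂(s.restrict (ball x R)), ¬ dist x y = 0 := by
      apply ae_restrict_of_ae
      rw [ae_iff]
      simpa using measure_dist_zero s x (by omega) hs
    filter_upwards [h0, ae_restrict_mem measurableSet_ball] with y hy hyR
    have hd : 0 < dist x y := lt_of_le_of_ne dist_nonneg (Ne.symm hy)
    refine (ker_le_tsum_down b hd (by rwa [mem_ball, dist_comm] at hyR)).trans (le_of_eq ?_)
    apply tsum_congr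
    intro k
    congr 1
    simp only [Set.indicator, mem_ball, dist_comm y x]
  calc ∫⁻ y in ball x R, ker b (dist x y) ∂s
      ≤ ∫⁻ y in ball x R, ∑' k : ℕ, ENNReal.ofReal (2 ^ b * ((R / 2 ^ k) ^ b)⁻¹) *
          (ball x (R / 2 ^ k)).indicator (fun _ => (1 : ℝ≥0∞)) y ∂s := lintegral_mono_ae hae
    _ ≤ ∫⁻ y, ∑' k : ℕ, ENNReal.ofReal (2 ^ b * ((R / 2 ^ k) ^ b)⁻¹) *
          (ball x (R / 2 ^ k)).indicator (fun _ => (1 : ℝ≥0∞)) y ∂s :=
        setLIntegral_le_lintegral _ _
    _ = ∑' k : ℕ, ∫⁻ y, ENNReal.ofReal (2 ^ b * ((R / 2 ^ k) ^ b)⁻¹) *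
          (ball x (R / 2 ^ k)).indicator (fun _ => (1 : ℝ≥0∞)) y ∂s := by
        apply lintegral_tsum
        intro k
        exact ((measurable_const.indicator measurableSet_ball).const_mul _).aemeasurable
    _ = ∑' k : ℕ, ENNReal.ofReal (2 ^ b * ((R / 2 ^ k) ^ b)⁻¹) * s (ball x (R / 2 ^ k)) := by
        apply tsum_congr
        intro k
        rw [lintegral_const_mul _ (measurable_const.indicator measurableSet_ball),
          lintegral_indicator measurableSet_ball, lintegral_one, Measure.restrict_apply_univ]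
    _ ≤ ∑' k : ℕ, ENNReal.ofReal (2 ^ b * A * R ^ c) * (2⁻¹ : ℝ≥0∞) ^ k := by
        apply ENNReal.tsum_le_tsum
        intro k
        have hp : (0 : ℝ) < R / 2 ^ k := by positivity
        calc ENNReal.ofReal (2 ^ b * ((R / 2 ^ k) ^ b)⁻¹) * s (ball x (R / 2 ^ k))
            ≤ ENNReal.ofReal (2 ^ b * ((R / 2 ^ k) ^ b)⁻¹) *
              ENNReal.ofReal (A * (R / 2 ^ k) ^ (b + c)) := by gcongr; exact hs _ hp
          _ = ENNReal.ofReal (2 ^ b * ((R / 2 ^ k) ^ b)⁻¹ * (A * (R / 2 ^ k) ^ (b + c))) := by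
              rw [← ENNReal.ofReal_mul (by positivity)]
          _ ≤ ENNReal.ofReal (2 ^ b * A * R ^ c * (2⁻¹ : ℝ) ^ k) := by
              apply ENNReal.ofReal_le_ofReal
              have e1 : 2 ^ b * ((R / 2 ^ k) ^ b)⁻¹ * (A * (R / 2 ^ k) ^ (b + c))
                  = 2 ^ b * A * (R / 2 ^ k) ^ c := by
                rw [pow_add]
                field_simp
              rw [e1, div_pow, div_eq_mul_inv, ← mul_assoc]
              apply mul_le_mul_of_nonneg_left _ (by positivity)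
              rw [inv_pow]
              apply inv_anti₀ (by positivity)
              calc (2 : ℝ) ^ k = (2 ^ k) ^ 1 := (pow_one _).symm
                _ ≤ (2 ^ k) ^ c := pow_le_pow_right₀ (one_le_pow₀ one_le_two) hc
          _ = _ := by
              rw [ENNReal.ofReal_mul (by positivity), ENNReal.ofReal_pow (by norm_num),
                ENNReal.ofReal_inv_of_pos (by norm_num)]
              norm_num
    _ = _ := by
        rw [ENNReal.tsum_mul_left, ENNReal.tsum_geometric, ENNReal.one_sub_inv_two, inv_inv]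
        rw [show (2 : ℝ≥0∞) = ENNReal.ofReal 2 by norm_num, ← ENNReal.ofReal_mul (by positivity)]
        congr 1
        rw [pow_succ]
        ring

end dyadic

section comp

variable {X : Type*} [PseudoMetricSpace X] [MeasurableSpace X] [OpensMeasurableSpace X]

/-- AM-type bound for products of kernels. -/
theorem ker_mul_ker_le (p q : ℕ) {u v : ℝ} :
    ker p u * ker q v ≤ ker (p + q) u + ker (p + q) v := by
  rcases le_total u v with h | h
  · calc ker p u * ker q v ≤ ker p u * ker q u := by gcongr; exact ker_anti q h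
      _ = ker (p + q) u := (ker_add p q u).symm
      _ ≤ _ := le_self_add
  · calc ker p u * ker q v ≤ ker p v * ker q v := by gcongr; exact ker_anti p h
      _ = ker (p + q) v := (ker_add p q v).symm
      _ ≤ _ := le_add_self

/-- **Riesz composition** (all of space, three regions).  `a` = dimension, `p, q < a`,
`p + q = a + c`, `c ≥ 1`, `ε ≥ 0`, and `d x y + ε > 0`. -/
theorem comp_ker_pos (μ : Measure X) {a p q c : ℕ} (hpa : p < a) (hqa : q < a)
    (hpq : p + q = a + c) (hc : 1 ≤ c) {A : ℝ} (hA : 0 ≤ A)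
    (hμ : ∀ (x : X) (r : ℝ), 0 < r → μ (ball x r) ≤ ENNReal.ofReal (A * r ^ a))
    (x y : X) {ε : ℝ} (hε : 0 ≤ ε) (hD : 0 < dist x y + ε) :
    ∫⁻ z, ker p (dist x z) * ker q (dist z y + ε) ∂μ ≤
      ENNReal.ofReal (2 ^ (5 * a + 2) * A) * ker c (dist x y + ε) := by
  set D := dist x y + ε with hDdef
  have hD2 : 0 < D / 2 := by linarith
  have hD2' : D / 2 ≠ 0 := hD2.ne'
  -- pointwise bound
  have hpt : ∀ z, ker p (dist x z) * ker q (dist z y + ε) ≤
      (ball x (D / 2)).indicator (fun z => ker p (dist x z) * ker q (D / 2)) z +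
      ((ball y (D / 2)).indicator (fun z => ker p (D / 2) * ker q (dist y z)) z +
      ENNReal.ofReal (2 ^ (p + q)) * (ker (a + c) (dist x z + D / 2) +
        ker (a + c) (dist y z + D / 2))) := by
    intro z
    by_cases h1 : dist x z < D / 2
    · have hz : z ∈ ball x (D / 2) := by rw [mem_ball, dist_comm]; exact h1
      rw [Set.indicator_of_mem hz]
      refine le_trans ?_ le_self_add
      have hq : D / 2 ≤ dist z y + ε := by
        have := dist_triangle x z y
        linarith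
      gcongr
      exact ker_anti q hq
    · rw [not_lt] at h1
      by_cases h2 : dist z y + ε < D / 2
      · have hz : z ∈ ball y (D / 2) := by rw [mem_ball]; linarith
        refine le_trans ?_ le_add_self
        refine le_trans ?_ le_self_add
        rw [Set.indicator_of_mem hz]
        have e1 : ker p (dist x z) ≤ ker p (D / 2) := ker_anti p h1
        have e2 : ker q (dist z y + ε) ≤ ker q (dist y z) := by
          apply ker_anti; rw [dist_comm y z]; linarith
        gcongr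
      · rw [not_lt] at h2
        refine le_trans ?_ le_add_self
        refine le_trans ?_ le_add_self
        have e1 : ker p (dist x z) ≤ ENNReal.ofReal (2 ^ p) * ker p (dist x z + D / 2) := by
          have h3 : (1 / 2 : ℝ) * (dist x z + D / 2) ≤ dist x z := by linarith
          refine (ker_anti p h3).trans (le_of_eq ?_)
          rw [ker_mul p (by norm_num)]
          congr 2
          rw [one_div, inv_pow, inv_inv]
        have e2 : ker q (dist z y + ε) ≤ ENNReal.ofReal (2 ^ q) * ker q (dist y z + D / 2) := by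
          have h3 : (1 / 2 : ℝ) * (dist y z + D / 2) ≤ dist z y + ε := by
            rw [dist_comm y z]; linarith
          refine (ker_anti q h3).trans (le_of_eq ?_)
          rw [ker_mul q (by norm_num)]
          congr 2
          rw [one_div, inv_pow, inv_inv]
        calc ker p (dist x z) * ker q (dist z y + ε)
            ≤ (ENNReal.ofReal (2 ^ p) * ker p (dist x z + D / 2)) *
              (ENNReal.ofReal (2 ^ q) * ker q (dist y z + D / 2)) := mul_le_mul' e1 e2
          _ = ENNReal.ofReal (2 ^ (p + q)) *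
              (ker p (dist x z + D / 2) * ker q (dist y z + D / 2)) := by
              rw [pow_add, ENNReal.ofReal_mul (by positivity)]
              ring
          _ ≤ _ := by
              rw [← hpq]
              gcongr
              exact ker_mul_ker_le p q
  have m1 : ∀ (b : ℕ) (w : X) (t : ℝ), Measurable fun z => ker b (dist w z + t) := fun b w t =>
    (measurable_ker b).comp (by fun_prop)
  have m2 : ∀ (b : ℕ) (w : X), Measurable fun z => ker b (dist w z) := fun b w =>
    (measurable_ker b).comp (by fun_prop)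
  have m3 : Measurable fun z => ker (a + c) (dist x z + D / 2) + ker (a + c) (dist y z + D / 2) :=
    (m1 _ _ _).add (m1 _ _ _)
  refine (lintegral_mono hpt).trans ?_
  rw [lintegral_add_left (((m2 p x).mul_const _).indicator measurableSet_ball),
    lintegral_add_left (((m2 q y).const_mul _).indicator measurableSet_ball),
    lintegral_const_mul _ m3, lintegral_add_left (m1 _ _ _),
    lintegral_indicator measurableSet_ball, lintegral_indicator measurableSet_ball,
    lintegral_mul_const _ (m2 p x), lintegral_const_mul _ (m2 q y)]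
  obtain ⟨i, hi⟩ : ∃ i, a = p + i := ⟨a - p, by omega⟩
  obtain ⟨j, hj⟩ : ∃ j, a = q + j := ⟨a - q, by omega⟩
  have b1 : ∫⁻ z in ball x (D / 2), ker p (dist x z) ∂μ ≤
      ENNReal.ofReal (2 ^ (p + 1) * A * (D / 2) ^ i) :=
    setLIntegral_ker μ x (by omega) (fun r hr => by rw [← hi]; exact hμ x r hr) hA hD2
  have b2 : ∫⁻ z in ball y (D / 2), ker q (dist y z) ∂μ ≤
      ENNReal.ofReal (2 ^ (q + 1) * A * (D / 2) ^ j) :=
    setLIntegral_ker μ y (by omega) (fun r hr => by rw [← hj]; exact hμ y r hr) hA hD2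
  have b3 : ∀ w : X, ∫⁻ z, ker (a + c) (dist w z + D / 2) ∂μ ≤
      ENNReal.ofReal (2 ^ (a + c + 1) * A / (D / 2) ^ c) := fun w =>
    lintegral_ker_add μ w hc (hμ w) hA hD2
  have hDc : (0 : ℝ) < D ^ c := by positivity
  -- the three contributions
  have c1 : ENNReal.ofReal (2 ^ (p + 1) * A * (D / 2) ^ i) * ker q (D / 2) ≤
      ENNReal.ofReal (2 ^ (5 * a) * A * (D ^ c)⁻¹) := by
    rw [ker_of_pos q hD2, ← ENNReal.ofReal_mul (by positivity)]
    apply ENNReal.ofReal_le_ofReal
    have hq : q = i + c := by omega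
    have e : 2 ^ (p + 1) * A * (D / 2) ^ i * ((D / 2) ^ q)⁻¹ =
        2 ^ (p + 1 + c) * A * (D ^ c)⁻¹ := by
      rw [hq, pow_add (D / 2), div_pow D 2 c, pow_add 2 (p + 1) c]
      field_simp
    rw [e]
    have : (2 : ℝ) ^ (p + 1 + c) ≤ 2 ^ (5 * a) :=
      pow_le_pow_right₀ one_le_two (by omega)
    gcongr
  have c2 : ker p (D / 2) * ENNReal.ofReal (2 ^ (q + 1) * A * (D / 2) ^ j) ≤
      ENNReal.ofReal (2 ^ (5 * a) * A * (D ^ c)⁻¹) := by
    rw [ker_of_pos p hD2, ← ENNReal.ofReal_mul (by positivity)]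
    apply ENNReal.ofReal_le_ofReal
    have hq : p = j + c := by omega
    have e : ((D / 2) ^ p)⁻¹ * (2 ^ (q + 1) * A * (D / 2) ^ j) =
        2 ^ (q + 1 + c) * A * (D ^ c)⁻¹ := by
      rw [hq, pow_add (D / 2), div_pow D 2 c, pow_add 2 (q + 1) c]
      field_simp
    rw [e]
    have : (2 : ℝ) ^ (q + 1 + c) ≤ 2 ^ (5 * a) :=
      pow_le_pow_right₀ one_le_two (by omega)
    gcongr
  have c3 : ENNReal.ofReal (2 ^ (p + q)) *
      (ENNReal.ofReal (2 ^ (a + c + 1) * A / (D / 2) ^ c) +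
        ENNReal.ofReal (2 ^ (a + c + 1) * A / (D / 2) ^ c)) ≤
      ENNReal.ofReal (2 ^ (5 * a) * A * (D ^ c)⁻¹) := by
    rw [← ENNReal.ofReal_add (by positivity) (by positivity),
      ← ENNReal.ofReal_mul (by positivity)]
    apply ENNReal.ofReal_le_ofReal
    have e : 2 ^ (p + q) * (2 ^ (a + c + 1) * A / (D / 2) ^ c + 2 ^ (a + c + 1) * A / (D / 2) ^ c) =
        2 ^ (p + q + (a + c + 1) + 1 + c) * A * (D ^ c)⁻¹ := by
      rw [div_pow D 2 c, pow_add 2 (p + q + (a + c + 1) + 1) c,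
        pow_add 2 (p + q + (a + c + 1)) 1, pow_add 2 (p + q) (a + c + 1)]
      field_simp
      ring
    rw [e]
    have : (2 : ℝ) ^ (p + q + (a + c + 1) + 1 + c) ≤ 2 ^ (5 * a) :=
      pow_le_pow_right₀ one_le_two (by omega)
    gcongr
  calc (∫⁻ z in ball x (D / 2), ker p (dist x z) ∂μ) * ker q (D / 2) +
      (ker p (D / 2) * (∫⁻ z in ball y (D / 2), ker q (dist y z) ∂μ) +
        ENNReal.ofReal (2 ^ (p + q)) * ((∫⁻ z, ker (a + c) (dist x z + D / 2) ∂μ) +
          ∫⁻ z, ker (a + c) (dist y z + D / 2) ∂μ))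
      ≤ ENNReal.ofReal (2 ^ (5 * a) * A * (D ^ c)⁻¹) +
        (ENNReal.ofReal (2 ^ (5 * a) * A * (D ^ c)⁻¹) +
          ENNReal.ofReal (2 ^ (5 * a) * A * (D ^ c)⁻¹)) := by
        gcongr
        · exact (mul_le_mul' b1 le_rfl).trans c1
        · exact (mul_le_mul' le_rfl b2).trans c2
        · refine le_trans ?_ c3
          gcongr
          · exact b3 x
          · exact b3 y
    _ ≤ ENNReal.ofReal (2 ^ (5 * a + 2) * A * (D ^ c)⁻¹) := by
        rw [← ENNReal.ofReal_add (by positivity) (by positivity),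
          ← ENNReal.ofReal_add (by positivity) (by positivity)]
        apply ENNReal.ofReal_le_ofReal
        rw [pow_add 2 (5 * a) 2]
        have : 0 ≤ 2 ^ (5 * a) * A * (D ^ c)⁻¹ := by positivity
        nlinarith
    _ = ENNReal.ofReal (2 ^ (5 * a + 2) * A) * ker c D := by
        rw [ker_of_pos c hD, ← ENNReal.ofReal_mul (by positivity)]

/-- **Riesz composition**, without the positivity assumption on `d x y + ε` (needs `A > 0`). -/
theorem comp_ker (μ : Measure X) {a p q c : ℕ} (hpa : p < a) (hqa : q < a)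
    (hpq : p + q = a + c) (hc : 1 ≤ c) {A : ℝ} (hA : 0 < A)
    (hμ : ∀ (x : X) (r : ℝ), 0 < r → μ (ball x r) ≤ ENNReal.ofReal (A * r ^ a))
    (x y : X) {ε : ℝ} (hε : 0 ≤ ε) :
    ∫⁻ z, ker p (dist x z) * ker q (dist z y + ε) ∂μ ≤
      ENNReal.ofReal (2 ^ (5 * a + 2) * A) * ker c (dist x y + ε) := by
  rcases (add_nonneg (dist_nonneg (x := x) (y := y)) hε).eq_or_lt with h | h
  · rw [← h, ker_of_nonpos (by omega) le_rfl, ENNReal.mul_top]
    · exact le_top
    · simp only [ne_eq, ENNReal.ofReal_eq_zero, not_le]; positivity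
  · exact comp_ker_pos μ hpa hqa hpq hc hA.le hμ x y hε h

/-- The case of Lemma P: `|·|^{-3} * (|·|+ε)^{-3} ≤ C (|·|+ε)^{-2}` in dimension `4`. -/
theorem comp_ker_three (μ : Measure X) {A : ℝ} (hA : 0 < A)
    (hμ : ∀ (x : X) (r : ℝ), 0 < r → μ (ball x r) ≤ ENNReal.ofReal (A * r ^ 4))
    (x y : X) {ε : ℝ} (hε : 0 ≤ ε) :
    ∫⁻ z, ker 3 (dist x z) * ker 3 (dist z y + ε) ∂μ ≤
      ENNReal.ofReal (2 ^ 22 * A) * ker 2 (dist x y + ε) :=
  comp_ker μ (a := 4) (c := 2) (by norm_num) (by norm_num) (by norm_num) (by norm_num) hA hμ x y hε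

/-- Off-centre singular integral over a small ball:
`∫_{ball x ε} d(z,y)^{-b} dμ(z) ≤ C A ε^a (d(x,y)+ε)^{-b}`, `b < a`. -/
theorem setLIntegral_ker_off (μ : Measure X) {a b : ℕ} (hba : b < a) {A : ℝ} (hA : 0 ≤ A)
    (hμ : ∀ (x : X) (r : ℝ), 0 < r → μ (ball x r) ≤ ENNReal.ofReal (A * r ^ a))
    (x y : X) {ε : ℝ} (hε : 0 < ε) :
    ∫⁻ z in ball x ε, ker b (dist z y) ∂μ ≤
      ENNReal.ofReal (6 ^ (a + 1) * A * ε ^ a) * ker b (dist x y + ε) := by
  have hpos : 0 < dist x y + ε := by have := dist_nonneg (x := x) (y := y); linarith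
  by_cases h : 2 * ε ≤ dist x y
  · have hpt : ∀ z ∈ ball x ε, ker b (dist z y) ≤ ENNReal.ofReal (3 ^ b) * ker b (dist x y + ε) := by
      intro z hz
      have h1 := dist_triangle x z y
      have h2 : dist x z < ε := by rw [mem_ball, dist_comm] at hz; exact hz
      have h3 : (1 / 3 : ℝ) * (dist x y + ε) ≤ dist z y := by linarith
      refine (ker_anti b h3).trans (le_of_eq ?_)
      rw [ker_mul b (by norm_num)]
      congr 2
      rw [one_div, inv_pow, inv_inv]
    calc ∫⁻ z in ball x ε, ker b (dist z y) ∂μ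
        ≤ ∫⁻ _ in ball x ε, ENNReal.ofReal (3 ^ b) * ker b (dist x y + ε) ∂μ :=
          setLIntegral_mono' measurableSet_ball hpt
      _ = ENNReal.ofReal (3 ^ b) * ker b (dist x y + ε) * μ (ball x ε) := by
          rw [setLIntegral_const]
      _ ≤ ENNReal.ofReal (3 ^ b) * ker b (dist x y + ε) * ENNReal.ofReal (A * ε ^ a) := by
          gcongr; exact hμ x ε hε
      _ = ENNReal.ofReal (3 ^ b * (A * ε ^ a)) * ker b (dist x y + ε) := by
          rw [ENNReal.ofReal_mul (p := 3 ^ b) (by positivity)]; ring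
      _ ≤ _ := by
          gcongr ?_ * _
          apply ENNReal.ofReal_le_ofReal
          have h36 : (3 : ℝ) ^ b ≤ 6 ^ (a + 1) := by
            calc (3 : ℝ) ^ b ≤ 6 ^ b := pow_le_pow_left₀ (by norm_num) (by norm_num) b
              _ ≤ 6 ^ (a + 1) := pow_le_pow_right₀ (by norm_num) (by omega)
          have : 0 ≤ A * ε ^ a := by positivity
          nlinarith [mul_le_mul_of_nonneg_right h36 this]
  · rw [not_le] at h
    obtain ⟨c, hc⟩ : ∃ c, a = b + c := ⟨a - b, by omega⟩
    have hsub : ball x ε ⊆ ball y (3 * ε) := by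
      intro z hz
      rw [mem_ball] at hz ⊢
      have h1 := dist_triangle z x y
      linarith
    calc ∫⁻ z in ball x ε, ker b (dist z y) ∂μ
        ≤ ∫⁻ z in ball y (3 * ε), ker b (dist z y) ∂μ := lintegral_mono_set hsub
      _ = ∫⁻ z in ball y (3 * ε), ker b (dist y z) ∂μ := by simp only [dist_comm]
      _ ≤ ENNReal.ofReal (2 ^ (b + 1) * A * (3 * ε) ^ c) :=
          setLIntegral_ker μ y (by omega) (fun r hr => by rw [← hc]; exact hμ y r hr) hA
            (by positivity)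
      _ ≤ ENNReal.ofReal (6 ^ (a + 1) * A * ε ^ a) * ker b (3 * ε) := by
          rw [ker_of_pos b (by positivity), ← ENNReal.ofReal_mul (by positivity)]
          apply ENNReal.ofReal_le_ofReal
          have e : 6 ^ (a + 1) * A * ε ^ a * ((3 * ε) ^ b)⁻¹ =
              6 * 2 ^ a * A * (3 * ε) ^ c := by
            have h6 : (6 : ℝ) ^ (a + 1) = 6 * (2 ^ a * 3 ^ a) := by
              rw [pow_succ, ← mul_pow]; norm_num; ring
            rw [h6]
            rw [mul_pow 3 ε b, mul_pow 3 ε c]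
            have e3 : (3 : ℝ) ^ a = 3 ^ b * 3 ^ c := by rw [hc, pow_add]
            have e4 : ε ^ a = ε ^ b * ε ^ c := by rw [hc, pow_add]
            rw [e3, e4]
            field_simp
          rw [e]
          have h2 : (2 : ℝ) ^ (b + 1) ≤ 6 * 2 ^ a := by
            calc (2 : ℝ) ^ (b + 1) ≤ 2 ^ (a + 1) := pow_le_pow_right₀ one_le_two (by omega)
              _ = 2 * 2 ^ a := by rw [pow_succ]; ring
              _ ≤ 6 * 2 ^ a := by gcongr; norm_num
          gcongr
      _ ≤ _ := by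
          gcongr
          apply ker_anti
          linarith

/-- Tonelli for balls: `∫ f(z) s(ball z r) dμ(z) = ∫ (∫_{ball y r} f dμ) ds(y)`. -/
theorem lintegral_mul_meas_ball [SecondCountableTopology X] [BorelSpace X]
    (μ s : Measure X) [SFinite μ] [SFinite s]
    {f : X → ℝ≥0∞} (hf : Measurable f) (r : ℝ) :
    ∫⁻ z, f z * s (ball z r) ∂μ = ∫⁻ y, ∫⁻ z in ball y r, f z ∂μ ∂s := by
  have hE : MeasurableSet {q : X × X | dist q.1 q.2 < r} :=
    measurableSet_lt (measurable_fst.dist measurable_snd) measurable_const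
  have h1 : ∀ z, f z * s (ball z r) =
      ∫⁻ y, ({q : X × X | dist q.1 q.2 < r}.indicator (fun q => f q.1)) (z, y) ∂s := by
    intro z
    have : ∀ y, ({q : X × X | dist q.1 q.2 < r}.indicator (fun q => f q.1)) (z, y) =
        (ball z r).indicator (fun _ => f z) y := by
      intro y
      simp only [Set.indicator, mem_ball]
      by_cases h : dist z y < r
      · rw [if_pos (show (z, y) ∈ {q : X × X | dist q.1 q.2 < r} from h),
          if_pos (by rwa [dist_comm])]
      · rw [if_neg (show ¬ (z, y) ∈ {q : X × X | dist q.1 q.2 < r} from h),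
          if_neg (by rwa [dist_comm])]
    simp_rw [this]
    rw [lintegral_indicator measurableSet_ball, setLIntegral_const]
  simp_rw [h1]
  have hm : Measurable (Function.uncurry fun (z y : X) =>
      ({q : X × X | dist q.1 q.2 < r}.indicator (fun q => f q.1)) (z, y)) :=
    (hf.comp measurable_fst).indicator hE
  rw [lintegral_lintegral_swap hm.aemeasurable]
  apply lintegral_congr
  intro y
  rw [← lintegral_indicator measurableSet_ball]
  apply lintegral_congr
  intro z
  simp only [Set.indicator, mem_ball]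
  by_cases h : dist z y < r
  · rw [if_pos (show (z, y) ∈ {q : X × X | dist q.1 q.2 < r} from h), if_pos h]
  · rw [if_neg (show ¬ (z, y) ∈ {q : X × X | dist q.1 q.2 < r} from h), if_neg h]

/-- Mollified density against a kernel:
`∫ d(x,z)^{-b} s(ball z ε) dμ(z) ≤ C A ε^a ∫ (d(x,y)+ε)^{-b} ds(y)`. -/
theorem lintegral_ker_mul_meas_ball [SecondCountableTopology X] [BorelSpace X]
    (μ s : Measure X) [SFinite μ] [SFinite s] {a b : ℕ} (hba : b < a) {A : ℝ} (hA : 0 ≤ A)
    (hμ : ∀ (x : X) (r : ℝ), 0 < r → μ (ball x r) ≤ ENNReal.ofReal (A * r ^ a))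
    (x : X) {ε : ℝ} (hε : 0 < ε) :
    ∫⁻ z, ker b (dist x z) * s (ball z ε) ∂μ ≤
      ENNReal.ofReal (6 ^ (a + 1) * A * ε ^ a) * ∫⁻ y, ker b (dist x y + ε) ∂s := by
  have m2 : Measurable fun z => ker b (dist x z) := (measurable_ker b).comp (by fun_prop)
  have m1 : Measurable fun z => ker b (dist x z + ε) := (measurable_ker b).comp (by fun_prop)
  rw [lintegral_mul_meas_ball μ s m2 ε, ← lintegral_const_mul _ m1]
  apply lintegral_mono
  intro y
  have := setLIntegral_ker_off μ hba hA hμ y x hε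
  simpa only [dist_comm] using this

end comp

section w

variable {X : Type*} [PseudoMetricSpace X] [MeasurableSpace X] [OpensMeasurableSpace X]

/-- `w_ε(x) = ∫ (d(x,y)+ε)^{-2} ds(y)`. -/
noncomputable def we (s : Measure X) (ε : ℝ) (x : X) : ℝ≥0∞ := ∫⁻ y, ker 2 (dist x y + ε) ∂s

/-- `w(x) = ∫ d(x,y)^{-2} ds(y)`. -/
noncomputable def w (s : Measure X) (x : X) : ℝ≥0∞ := ∫⁻ y, ker 2 (dist x y) ∂s

omit [OpensMeasurableSpace X] in
theorem we_zero (s : Measure X) (x : X) : we s 0 x = w s x := by simp [we, w]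

omit [OpensMeasurableSpace X] in
theorem we_anti (s : Measure X) {ε ε' : ℝ} (h : ε ≤ ε') (x : X) : we s ε' x ≤ we s ε x :=
  lintegral_mono fun y => ker_anti 2 (by linarith)

omit [OpensMeasurableSpace X] in
theorem we_le_w (s : Measure X) {ε : ℝ} (h : 0 ≤ ε) (x : X) : we s ε x ≤ w s x := by
  rw [← we_zero]; exact we_anti s h x

omit [OpensMeasurableSpace X] in
/-- `w_ε(x) ≤ w(y)` for `d(x,y) ≤ ε`. -/
theorem we_le_w_of_dist (s : Measure X) {ε : ℝ} {x y : X} (h : dist x y ≤ ε) :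
    we s ε x ≤ w s y :=
  lintegral_mono fun z => ker_anti 2 (by
    have := dist_triangle y x z; rw [dist_comm y x] at this; linarith)

/-- General kernels: `∫ (d(x,z)+ε)^{-b} ds ≤ 2^b ∫ (d(y,z)+ε)^{-b} ds` for `d(x,y) ≤ ε`. -/
theorem lintegral_ker_le_of_dist (s : Measure X) (b : ℕ) {ε : ℝ} {x y : X} (h : dist x y ≤ ε) :
    ∫⁻ z, ker b (dist x z + ε) ∂s ≤ ENNReal.ofReal (2 ^ b) * ∫⁻ z, ker b (dist y z + ε) ∂s := by
  have m1 : Measurable fun z => ker b (dist y z + ε) := (measurable_ker b).comp (by fun_prop)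
  rw [← lintegral_const_mul _ m1]
  apply lintegral_mono
  intro z
  have h1 := dist_triangle y x z
  rw [dist_comm y x] at h1
  have h3 : (1 / 2 : ℝ) * (dist y z + ε) ≤ dist x z + ε := by
    have := dist_nonneg (x := x) (y := z)
    have := dist_nonneg (x := x) (y := y)
    linarith
  refine (ker_anti b h3).trans (le_of_eq ?_)
  rw [ker_mul b (by norm_num)]
  congr 2
  rw [one_div, inv_pow, inv_inv]

theorem we_le_we_of_dist (s : Measure X) {ε : ℝ} {x y : X} (h : dist x y ≤ ε) :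
    we s ε x ≤ 4 * we s ε y := by
  have := lintegral_ker_le_of_dist s 2 h
  refine this.trans (le_of_eq ?_)
  unfold we
  congr 1
  norm_num

omit [OpensMeasurableSpace X] in
theorem we_ne_top (s : Measure X) [IsFiniteMeasure s] {ε : ℝ} (hε : 0 < ε) (x : X) :
    we s ε x ≠ ⊤ := by
  have h : we s ε x ≤ ker 2 ε * s univ := by
    unfold we
    calc ∫⁻ y, ker 2 (dist x y + ε) ∂s ≤ ∫⁻ _, ker 2 ε ∂s :=
          lintegral_mono fun y => ker_anti 2 (by have := dist_nonneg (x := x) (y := y); linarith)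
      _ = _ := by rw [lintegral_const]
  exact ne_top_of_le_ne_top (ENNReal.mul_ne_top (ker_ne_top 2 hε) (measure_ne_top s _)) h

/-- Real version of `w_ε`. -/
theorem we_eq_ofReal_integral (s : Measure X) [IsFiniteMeasure s] {ε : ℝ} (hε : 0 < ε) (x : X) :
    we s ε x = ENNReal.ofReal (∫ y, ((dist x y + ε) ^ 2)⁻¹ ∂s) := by
  have h0 : ∀ y, 0 < dist x y + ε := fun y => by
    have := dist_nonneg (x := x) (y := y); linarith
  have hm : Measurable fun y => ((dist x y + ε) ^ 2)⁻¹ := by fun_prop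
  rw [ofReal_integral_eq_lintegral_ofReal]
  · unfold we
    exact lintegral_congr fun y => ker_of_pos 2 (h0 y)
  · refine Integrable.of_bound hm.aestronglyMeasurable ((ε ^ 2)⁻¹) ?_
    refine ae_of_all _ fun y => ?_
    rw [Real.norm_of_nonneg (by positivity)]
    have := dist_nonneg (x := x) (y := y)
    apply inv_anti₀ (by positivity)
    exact pow_le_pow_left₀ hε.le (by linarith) 2
  · exact ae_of_all _ fun y => by have := h0 y; positivity

/-- `w_ε(x) ↑ w(x)` as `ε ↓ 0`. -/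
theorem tendsto_we (s : Measure X) (x : X) :
    Tendsto (fun ε => we s ε x) (𝓝[>] (0 : ℝ)) (𝓝 (w s x)) := by
  -- along the sequence `1/(n+1)`
  have hseq : ⨆ n : ℕ, we s (1 / ((n : ℝ) + 1)) x = w s x := by
    unfold we w
    rw [← lintegral_iSup]
    · apply lintegral_congr
      intro y
      have ht : Tendsto (fun n : ℕ => ker 2 (dist x y + 1 / ((n : ℝ) + 1))) atTop
          (𝓝 (ker 2 (dist x y))) := by
        have h1 : Tendsto (fun n : ℕ => dist x y + 1 / ((n : ℝ) + 1)) atTop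
            (𝓝 (dist x y + 0)) := tendsto_const_nhds.add tendsto_one_div_add_atTop_nhds_zero_nat
        rw [add_zero] at h1
        exact ((continuous_ker 2).tendsto _).comp h1
      have hmono : Monotone fun n : ℕ => ker 2 (dist x y + 1 / ((n : ℝ) + 1)) := by
        intro n m hnm
        apply ker_anti
        have : (1 : ℝ) / ((m : ℝ) + 1) ≤ 1 / ((n : ℝ) + 1) := by
          apply one_div_le_one_div_of_le (by positivity)
          have : (n : ℝ) ≤ m := by exact_mod_cast hnm
          linarith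
        linarith
      exact tendsto_nhds_unique (tendsto_atTop_iSup hmono) ht
    · intro n
      exact (measurable_ker 2).comp (by fun_prop)
    · intro n m hnm y
      apply ker_anti
      have : (1 : ℝ) / ((m : ℝ) + 1) ≤ 1 / ((n : ℝ) + 1) := by
        apply one_div_le_one_div_of_le (by positivity)
        have : (n : ℝ) ≤ m := by exact_mod_cast hnm
        linarith
      linarith
  rw [tendsto_order]
  constructor
  · intro b hb
    rw [← hseq] at hb
    obtain ⟨n, hn⟩ := lt_iSup_iff.mp hb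
    have hpos : (0 : ℝ) < 1 / ((n : ℝ) + 1) := by positivity
    filter_upwards [Ioo_mem_nhdsGT hpos] with ε hε
    exact hn.trans_le (we_anti s hε.2.le x)
  · intro b hb
    filter_upwards [self_mem_nhdsWithin] with ε hε
    exact (we_le_w s (le_of_lt hε) x).trans_lt hb

/-- Where `w = ∞`, the functions `w_ε` blow up uniformly at scale `ε`. -/
theorem we_unif_large (s : Measure X) {y : X} (hy : w s y = ⊤) {M : ℝ≥0∞} (hM : M ≠ ⊤) :
    ∀ᶠ ε in 𝓝[>] (0 : ℝ), ∀ x, dist x y ≤ ε → M ≤ we s ε x := by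
  have ht := tendsto_we s y
  rw [hy] at ht
  have hM4 : 4 * M < ⊤ := (ENNReal.mul_ne_top (by norm_num) hM).lt_top
  have := (tendsto_order.mp ht).1 (4 * M) hM4
  filter_upwards [this] with ε hε x hx
  have h2 : we s ε y ≤ 4 * we s ε x := we_le_we_of_dist s (by rwa [dist_comm])
  have h3 : 4 * M ≤ 4 * we s ε x := hε.le.trans h2
  exact (ENNReal.mul_le_mul_iff_right (by norm_num) (by norm_num)).mp h3

theorem measurable_we [SecondCountableTopology X] [BorelSpace X] (s : Measure X) [SFinite s]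
    (ε : ℝ) : Measurable (we s ε) := by
  unfold we
  apply Measurable.lintegral_prod_right'
    (f := fun q : X × X => ker 2 (dist q.1 q.2 + ε))
  exact (measurable_ker 2).comp ((measurable_fst.dist measurable_snd).add_const ε)

theorem measurable_w [SecondCountableTopology X] [BorelSpace X] (s : Measure X) [SFinite s] :
    Measurable (w s) := by
  unfold w
  apply Measurable.lintegral_prod_right'
    (f := fun q : X × X => ker 2 (dist q.1 q.2))
  exact (measurable_ker 2).comp (measurable_fst.dist measurable_snd)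

/-- `w(x) < ∞` for `μ`-almost every `x`, when `μ` is finite with growth exponent `a ≥ 3`. -/
theorem ae_w_lt_top [SecondCountableTopology X] [BorelSpace X] (μ s : Measure X)
    [IsFiniteMeasure μ] [IsFiniteMeasure s] {c : ℕ} (hc : 1 ≤ c) {A : ℝ} (hA : 0 ≤ A)
    (hμ : ∀ (x : X) (r : ℝ), 0 < r → μ (ball x r) ≤ ENNReal.ofReal (A * r ^ (2 + c))) :
    ∀ᵐ x ∂μ, w s x < ⊤ := by
  apply ae_lt_top (measurable_w s)
  have hm : Measurable fun q : X × X => ker 2 (dist q.1 q.2) :=
    (measurable_ker 2).comp (measurable_fst.dist measurable_snd)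
  unfold w
  rw [lintegral_lintegral_swap hm.aemeasurable]
  have hb : ∀ y, ∫⁻ x, ker 2 (dist x y) ∂μ ≤ ENNReal.ofReal (2 ^ 3 * A) + μ univ := by
    intro y
    rw [← lintegral_add_compl _ (measurableSet_ball (x := y) (ε := 1))]
    gcongr
    · have := setLIntegral_ker μ y (b := 2) hc (fun r hr => hμ y r hr) hA one_pos
      simp only [one_pow, mul_one] at this
      simpa only [dist_comm] using this
    · calc ∫⁻ x in (ball y 1)ᶜ, ker 2 (dist x y) ∂μ ≤ ∫⁻ _ in (ball y 1)ᶜ, 1 ∂μ := by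
            apply setLIntegral_mono' measurableSet_ball.compl
            intro x hx
            rw [mem_compl_iff, mem_ball, not_lt] at hx
            calc ker 2 (dist x y) ≤ ker 2 1 := ker_anti 2 hx
              _ = 1 := by simp [ker]
        _ = μ (ball y 1)ᶜ := by rw [setLIntegral_one]
        _ ≤ μ univ := measure_mono (subset_univ _)
  refine ne_top_of_le_ne_top ?_ (lintegral_mono hb)
  rw [lintegral_const]
  exact ENNReal.mul_ne_top (ENNReal.add_ne_top.mpr ⟨ENNReal.ofReal_ne_top, measure_ne_top _ _⟩)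
    (measure_ne_top _ _)

/-- `ε ∫ (d+ε)^{-3} ds ≤ w_ε`. -/
theorem ofReal_mul_lintegral_ker_three_le (s : Measure X) {ε : ℝ} (hε : 0 < ε) (x : X) :
    ENNReal.ofReal ε * ∫⁻ y, ker 3 (dist x y + ε) ∂s ≤ we s ε x := by
  have m1 : Measurable fun z => ker 3 (dist x z + ε) := (measurable_ker 3).comp (by fun_prop)
  rw [← lintegral_const_mul _ m1]
  exact lintegral_mono fun y => ofReal_mul_ker_succ 2 dist_nonneg hε

/-- `∫ (d+ε)^{-3} ds ≤ 16 A/ε` for `s(B_r) ≤ A r²`. -/
theorem lintegral_ker_three_le (s : Measure X) (x : X) {A ε : ℝ}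
    (hs : ∀ r : ℝ, 0 < r → s (ball x r) ≤ ENNReal.ofReal (A * r ^ 2)) (hA : 0 ≤ A) (hε : 0 < ε) :
    ∫⁻ y, ker 3 (dist x y + ε) ∂s ≤ ENNReal.ofReal (16 * A / ε) := by
  have := lintegral_ker_add s x (a := 2) (c := 1) le_rfl hs hA hε
  norm_num at this
  exact this

end w

section E4

/-- Volume growth of `R⁴`: `|B_r| ≤ 5 r⁴`. -/
theorem volume_ball_le (x : EuclideanSpace ℝ (Fin 4)) {r : ℝ} (hr : 0 < r) :
    (volume : Measure (EuclideanSpace ℝ (Fin 4))) (ball x r) ≤ ENNReal.ofReal (5 * r ^ 4) := by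
  rw [EuclideanSpace.volume_ball, ← ENNReal.ofReal_pow hr.le,
    ← ENNReal.ofReal_mul (by positivity)]
  apply ENNReal.ofReal_le_ofReal
  have hG : Real.Gamma (((Fintype.card (Fin 4) : ℕ) : ℝ) / 2 + 1) = 2 := by
    have : (((Fintype.card (Fin 4) : ℕ) : ℝ) / 2 + 1) = ((2 : ℕ) : ℝ) + 1 := by
      norm_num [Fintype.card_fin]
    rw [this, Real.Gamma_nat_eq_factorial]
    norm_num
  rw [hG]
  have hs : √Real.pi ^ Fintype.card (Fin 4) = Real.pi ^ 2 := by
    rw [Fintype.card_fin, show (4 : ℕ) = 2 * 2 by norm_num, pow_mul,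
      Real.sq_sqrt Real.pi_pos.le]
  rw [hs, Fintype.card_fin]
  have h1 := Real.pi_lt_d2
  have h0 := Real.pi_pos
  have h2 : Real.pi ^ 2 / 2 ≤ 5 := by nlinarith
  have : 0 ≤ r ^ 4 := by positivity
  nlinarith

/-- `∫_{R⁴} |x-z|^{-3} (|z-y|+ε)^{-3} dz ≤ 5·2^22 (|x-y|+ε)^{-2}`. -/
theorem comp_ker_three_E4 (x y : EuclideanSpace ℝ (Fin 4)) {ε : ℝ} (hε : 0 ≤ ε) :
    ∫⁻ z, ker 3 (dist x z) * ker 3 (dist z y + ε) ≤
      ENNReal.ofReal (2 ^ 22 * 5) * ker 2 (dist x y + ε) :=
  comp_ker_three volume (by norm_num) (fun x _ hr => volume_ball_le x hr) x y hε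

/-- `∫_{B(x,R)} |x-z|^{-3} dz ≤ 80 R`. -/
theorem setLIntegral_ker_three_E4 (x : EuclideanSpace ℝ (Fin 4)) {R : ℝ} (hR : 0 < R) :
    ∫⁻ z in ball x R, ker 3 (dist x z) ≤ ENNReal.ofReal (80 * R) := by
  have := setLIntegral_ker (volume : Measure (EuclideanSpace ℝ (Fin 4))) x (b := 3) (c := 1)
    le_rfl (fun r hr => volume_ball_le x hr) (by norm_num) hR
  refine this.trans (ENNReal.ofReal_le_ofReal ?_)
  norm_num

/-- `∫_{B(x,R)} |x-z|^{-2} dz ≤ 40 R²`. -/
theorem setLIntegral_ker_two_E4 (x : EuclideanSpace ℝ (Fin 4)) {R : ℝ} (hR : 0 < R) :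
    ∫⁻ z in ball x R, ker 2 (dist x z) ≤ ENNReal.ofReal (40 * R ^ 2) := by
  have := setLIntegral_ker (volume : Measure (EuclideanSpace ℝ (Fin 4))) x (b := 2) (c := 2)
    (by norm_num) (fun r hr => volume_ball_le x hr) (by norm_num) hR
  refine this.trans (ENNReal.ofReal_le_ofReal ?_)
  norm_num

end E4

end Crest.Agent.R240.Kern
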