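import Crest.Agent.R240.FrId
import Crest.Agent.R240.Kern

/-!
Row 240, Lemma P (helper849): bounds of the frozen operators and of their derivatives with respect
to the frozen point.
-/

set_option autoImplicit false
open scoped ContDiff Topology ENNReal
open MeasureTheory Set Filter Crest.Agent.R240.En Crest.Agent.R240.Pot Crest.Agent.R240.Kern

namespace Crest.Agent.R240.Fr

noncomputable section

variable {F G : Type*} [NormedAddCommGroup F] [NormedSpace ℝ F] [NormedAddCommGroup G]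
  [NormedSpace ℝ G]
variable {g : E4 → Bil} {A B : E4 → E4 →L[ℝ] E4}

/-- potential of `f` in frozen coordinates -/
def PE (A0 : E4 →L[ℝ] E4) (b : ℕ) (f : E4 → F) (x : E4) : ℝ≥0∞ :=
  ∫⁻ η, ker b ‖η‖ * ‖f (x - A0 η)‖ₑ

/-- potential of `f` -/
def PT (b : ℕ) (f : E4 → F) (x : E4) : ℝ≥0∞ := ∫⁻ y, ker b (dist x y) * ‖f y‖ₑ

theorem T_bound {k : E4 → ℝ} {b : ℕ} {C : ℝ} (hC : 0 ≤ C)
    (hk : ∀ η : E4, η ≠ 0 → |k η| ≤ C * (‖η‖ ^ b)⁻¹)
    (f : E4 → F) (x0 x : E4) :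
    ‖T A k f x0 x‖ₑ ≤ ENNReal.ofReal C * PE (A x0) b f x := by
  unfold T PE
  refine (enorm_integral_le_lintegral_enorm _).trans ?_
  rw [← lintegral_const_mul' _ _ ENNReal.ofReal_ne_top]
  refine lintegral_mono_ae ?_
  filter_upwards [ae_ne_zero] with η hη
  have hη' : 0 < ‖η‖ := norm_pos_iff.2 hη
  rw [enorm_smul, ← mul_assoc]
  refine mul_le_mul' ?_ le_rfl
  rw [ker_of_pos _ hη', ← ENNReal.ofReal_mul hC, ← ofReal_norm, Real.norm_eq_abs]
  exact ENNReal.ofReal_le_ofReal (hk η hη)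

/-- derivative in the frozen point of `T` for a kernel of degree `-(a+1)`, `a + 1 ≤ 3`. -/
theorem T_fst_bound [CompleteSpace F] (hAB : Frame g A B) {k : E4 → ℝ} {a : ℕ} (ha : a + 1 ≤ 3)
    {C : ℝ} (hC : 0 ≤ C) (hk : Ker (a + 1) C k) {f : E4 → F} (hf : ContDiff ℝ ∞ f)
    (hfs : HasCompactSupport f) (x0 x h : E4) :
    ‖fderiv ℝ (fun x0 => T A k f x0 x) x0 h‖ₑ ≤
      ENNReal.ofReal (4 * (2 * C * (‖B x0‖ * (‖fderiv ℝ A x0‖ * ‖h‖)))) *
        PE (A x0) (a + 1) f x := by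
  have hkL := hk.locInt ha
  rw [T_fderiv_fst hAB hkL hf hfs]
  set M : E4 →L[ℝ] E4 := (B x0).comp (fderiv ℝ A x0 h) with hM
  let l : Fin 4 → (E4 →L[ℝ] ℝ) := fun j => (EuclideanSpace.proj j : E4 →L[ℝ] ℝ).comp M
  have hMn : ‖M‖ ≤ ‖B x0‖ * (‖fderiv ℝ A x0‖ * ‖h‖) := by
    refine (ContinuousLinearMap.opNorm_comp_le _ _).trans ?_
    gcongr
    exact (fderiv ℝ A x0).le_opNorm h
  have hl : ∀ j, ‖l j‖ ≤ ‖B x0‖ * (‖fderiv ℝ A x0‖ * ‖h‖) := by
    intro j
    refine (ContinuousLinearMap.opNorm_comp_le _ _).trans ?_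
    calc ‖(EuclideanSpace.proj j : E4 →L[ℝ] ℝ)‖ * ‖M‖ ≤ 1 * ‖M‖ := by
          gcongr; exact norm_proj_le j
      _ ≤ _ := by rw [one_mul]; exact hMn
  have hexp : ∀ η, fderiv ℝ A x0 h η = ∑ j, l j η • A x0 (ee j) := by
    intro η
    have h1 : A x0 (M η) = fderiv ℝ A x0 h η := by
      simp only [hM, ContinuousLinearMap.comp_apply]
      exact hAB.AB _ _
    rw [← h1]
    conv_lhs => rw [sum_ee (M η)]
    simp only [map_add, map_smul, Fin.sum_univ_four]
    rfl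
  have hkj : ∀ j, Ker a (2 * C * ‖l j‖) (fun η => k η * l j η) := fun j => hk.mul_lin hC (l j)
  have hfA : ∀ j, ContDiff ℝ ∞ (fun y => fderiv ℝ f y (A x0 (ee j))) := fun j =>
    (hf.fderiv_right (m := ∞) (by simp)).clm_apply contDiff_const
  have hfAs : ∀ j, HasCompactSupport (fun y => fderiv ℝ f y (A x0 (ee j))) := fun j =>
    hfs.fderiv_apply (𝕜 := ℝ) _
  have hint : ∀ j, Integrable (fun η => (k η * l j η) • fderiv ℝ f (x - A x0 η) (A x0 (ee j))) :=
    fun j => T_integrable hAB ((hkj j).locInt (by omega)) (hfA j).continuous (hfAs j) x0 x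
  have e1 : (∫ η, k η • fderiv ℝ f (x - A x0 η) (fderiv ℝ A x0 h η)) =
      ∑ j, T A (fun η => fderiv ℝ (fun η => k η * l j η) η (ee j)) f x0 x := by
    have e2 : ∀ η, k η • fderiv ℝ f (x - A x0 η) (fderiv ℝ A x0 h η) =
        ∑ j, (k η * l j η) • fderiv ℝ f (x - A x0 η) (A x0 (ee j)) := by
      intro η
      rw [hexp, map_sum, Finset.smul_sum]
      refine Finset.sum_congr rfl fun j _ => ?_
      rw [map_smul, smul_smul]
    simp_rw [e2]
    rw [integral_finsetSum _ fun j _ => hint j]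
    refine Finset.sum_congr rfl fun j _ => ?_
    have := T_parts hAB ha (hkj j) hf hfs x0 x (ee j)
    rw [← this]
    rfl
  rw [e1, enorm_neg]
  refine (enorm_sum_le _ _).trans ?_
  have hb : ∀ j ∈ (Finset.univ : Finset (Fin 4)),
      ‖T A (fun η => fderiv ℝ (fun η => k η * l j η) η (ee j)) f x0 x‖ₑ ≤
      ENNReal.ofReal (2 * C * (‖B x0‖ * (‖fderiv ℝ A x0‖ * ‖h‖))) * PE (A x0) (a + 1) f x := by
    intro j _
    refine T_bound (by positivity) (fun η hη => ?_) f x0 x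
    have h1 := (fderiv ℝ (fun η => k η * l j η) η).le_opNorm (ee j)
    have h2 : ‖ee j‖ = 1 := by simp [ee]
    rw [h2, mul_one, Real.norm_eq_abs] at h1
    refine h1.trans (((hkj j).bd' η hη).trans ?_)
    gcongr
    exact hl j
  refine (Finset.sum_le_sum hb).trans ?_
  rw [Finset.sum_const, Finset.card_univ, Fintype.card_fin, nsmul_eq_mul, ← mul_assoc]
  rw [ENNReal.ofReal_mul (by norm_num : (0:ℝ) ≤ 4)]
  simp

/-- change of variables: from frozen coordinates to the original ones. -/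
theorem PE_le (hAB : Frame g A B) (b : ℕ) (f : E4 → F) (x0 x : E4) {M : ℝ} (hM : 1 ≤ M)
    (hA : ‖A x0‖ ≤ M) (hB : ‖B x0‖ ≤ M) :
    PE (A x0) b f x ≤ ENNReal.ofReal (M ^ b * M ^ 4) * PT b f x := by
  have hM0 : 0 < M := by linarith
  -- determinant
  have hdet0 : LinearMap.det ((A x0 : E4 →L[ℝ] E4) : E4 →ₗ[ℝ] E4) ≠ 0 := by
    have h1 : ((B x0 : E4 →L[ℝ] E4) : E4 →ₗ[ℝ] E4) ∘ₗ ((A x0 : E4 →L[ℝ] E4) : E4 →ₗ[ℝ] E4) =
        LinearMap.id := by
      ext1 v; exact hAB.BA x0 v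
    have h2 := congrArg LinearMap.det h1
    rw [LinearMap.det_comp, LinearMap.det_id] at h2
    intro h0
    rw [h0, mul_zero] at h2
    exact zero_ne_one h2
  have hdet : |(LinearMap.det ((A x0 : E4 →L[ℝ] E4) : E4 →ₗ[ℝ] E4))⁻¹| ≤ M ^ 4 := by
    -- B maps the unit ball into the ball of radius M
    have h1 : ((B x0 : E4 →L[ℝ] E4) : E4 →ₗ[ℝ] E4) ∘ₗ ((A x0 : E4 →L[ℝ] E4) : E4 →ₗ[ℝ] E4) =
        LinearMap.id := by
      ext1 v; exact hAB.BA x0 v
    have h2 := congrArg LinearMap.det h1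
    rw [LinearMap.det_comp, LinearMap.det_id] at h2
    have h3 : (LinearMap.det ((A x0 : E4 →L[ℝ] E4) : E4 →ₗ[ℝ] E4))⁻¹ =
        LinearMap.det ((B x0 : E4 →L[ℝ] E4) : E4 →ₗ[ℝ] E4) := by
      field_simp
      linarith
    rw [h3]
    have h4 := Measure.addHaar_image_linearMap (volume : Measure E4)
      ((B x0 : E4 →L[ℝ] E4) : E4 →ₗ[ℝ] E4) (Metric.ball 0 1)
    have h5 : ((B x0 : E4 →L[ℝ] E4) : E4 →ₗ[ℝ] E4) '' (Metric.ball 0 1) ⊆ Metric.ball 0 M := by
      rintro _ ⟨v, hv, rfl⟩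
      rw [mem_ball_zero_iff] at hv ⊢
      by_cases hv0 : v = 0
      · subst hv0; simp; exact hM0
      · have hv' : 0 < ‖v‖ := norm_pos_iff.2 hv0
        calc ‖(B x0) v‖ ≤ ‖B x0‖ * ‖v‖ := (B x0).le_opNorm v
          _ ≤ M * ‖v‖ := by gcongr
          _ < M * 1 := by gcongr
          _ = M := mul_one M
    have h6 := measure_mono (μ := (volume : Measure E4)) h5
    rw [h4, Measure.addHaar_ball_of_pos (volume : Measure E4) 0 hM0] at h6
    have h7 : Module.finrank ℝ E4 = 4 := by simp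
    rw [h7] at h6
    have h8 : (volume : Measure E4) (Metric.ball 0 1) ≠ 0 :=
      (Metric.measure_ball_pos volume 0 one_pos).ne'
    have h9 : (volume : Measure E4) (Metric.ball 0 1) ≠ ⊤ := measure_ball_lt_top.ne
    have h10 := (ENNReal.mul_le_mul_iff_left h8 h9).1 h6
    exact (ENNReal.ofReal_le_ofReal_iff (by positivity)).1 h10
  set H : E4 → ℝ≥0∞ := fun y => ENNReal.ofReal (M ^ b) * (ker b (dist x y) * ‖f y‖ₑ) with hH
  have h1 : PE (A x0) b f x ≤ ∫⁻ η, H (x - A x0 η) := by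
    unfold PE
    refine lintegral_mono fun η => ?_
    simp only [hH, ← mul_assoc]
    refine mul_le_mul' ?_ le_rfl
    have e1 : dist x (x - A x0 η) = ‖A x0 η‖ := by
      rw [dist_eq_norm]; simp
    rw [e1]
    have e2 : M⁻¹ * ‖A x0 η‖ ≤ ‖η‖ := by
      rw [inv_mul_le_iff₀ hM0]
      exact ((A x0).le_opNorm η).trans (by gcongr)
    refine (ker_anti b e2).trans ?_
    rw [ker_mul b (by positivity)]
    simp
  refine h1.trans ?_
  have h2 : ∫⁻ η, H (x - A x0 η) =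
      ENNReal.ofReal |(LinearMap.det ((A x0 : E4 →L[ℝ] E4) : E4 →ₗ[ℝ] E4))⁻¹| * ∫⁻ y, H y := by
    let e : E4 ≃L[ℝ] E4 :=
      (((A x0 : E4 →L[ℝ] E4) : E4 →ₗ[ℝ] E4).equivOfDetNeZero hdet0).toContinuousLinearEquiv
    have he : ∀ v, e v = A x0 v := fun v => rfl
    have h3 : ∫⁻ η, H (x - A x0 η) = ∫⁻ y, H (x - y) ∂(Measure.map (A x0) volume) := by
      have := (e.toHomeomorph.measurableEmbedding).lintegral_map (μ := (volume : Measure E4))
        (fun y => H (x - y))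
      exact this.symm
    rw [h3]
    have h4 := Measure.map_linearMap_addHaar_eq_smul_addHaar (volume : Measure E4) hdet0
    have h5 : Measure.map (A x0) (volume : Measure E4) =
      ENNReal.ofReal |(LinearMap.det ((A x0 : E4 →L[ℝ] E4) : E4 →ₗ[ℝ] E4))⁻¹| • volume := h4
    rw [h5, lintegral_smul_measure, smul_eq_mul]
    congr 1
    exact lintegral_sub_left_eq_self H x
  rw [h2]
  unfold PT
  rw [hH, lintegral_const_mul' _ _ ENNReal.ofReal_ne_top, ← mul_assoc]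
  refine mul_le_mul' ?_ le_rfl
  rw [← ENNReal.ofReal_mul (by positivity)]
  apply ENNReal.ofReal_le_ofReal
  rw [mul_comm]
  gcongr

end

end Crest.Agent.R240.Fr
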