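import Crest.Agent.R240.Lin1

/-!
Row 240, Lemma P (helper849): smooth orthonormal frames by Gram-Schmidt.
-/

set_option autoImplicit false
open scoped ContDiff Topology

namespace Crest.Agent.R240.Fr

noncomputable section

/-- normalisation of a vector with respect to a bilinear form -/
def nz (g : Bil) (w : E4) : E4 := (√(g w w))⁻¹ • w

theorem nz_self {g : Bil} {w : E4} (h : 0 < g w w) : g (nz g w) (nz g w) = 1 := by
  unfold nz
  simp only [map_smul, smul_apply, smul_eq_mul]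
  have h1 : √(g w w) * √(g w w) = g w w := Real.mul_self_sqrt h.le
  have h2 : √(g w w) ≠ 0 := (Real.sqrt_pos.2 h).ne'
  field_simp
  rw [sq, h1]

theorem nz_contDiff {g : E4 → Bil} {w : E4 → E4} (hg : ContDiff ℝ ∞ g) (hw : ContDiff ℝ ∞ w)
    (h : ∀ x, 0 < g x (w x) (w x)) : ContDiff ℝ ∞ fun x => nz (g x) (w x) := by
  unfold nz
  have h1 : ContDiff ℝ ∞ fun x => g x (w x) (w x) := (hg.clm_apply hw).clm_apply hw
  have h2 : ContDiff ℝ ∞ fun x => √(g x (w x) (w x)) := h1.sqrt fun x => (h x).ne'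
  exact (h2.inv fun x => (Real.sqrt_pos.2 (h x)).ne').smul hw

theorem ne_zero_of_coord {w : E4} (i : Fin 4) (h : w i = 1) : w ≠ 0 := by
  intro h0
  rw [h0] at h
  simp at h

/-- Existence of a smooth `g`-orthonormal frame. -/
theorem exists_frame_fields {g : E4 → Bil} (hg : ContDiff ℝ ∞ g)
    (hs : ∀ x v w, g x v w = g x w v) (hp : ∀ x v, v ≠ 0 → 0 < g x v v) :
    ∃ v : Fin 4 → E4 → E4, (∀ i, ContDiff ℝ ∞ (v i)) ∧
      ∀ x i j, g x (v i x) (v j x) = if i = j then 1 else 0 := by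
  -- step 0
  let v0 : E4 → E4 := fun x => nz (g x) (ee 0)
  have hee : ∀ i : Fin 4, ee i ≠ 0 := fun i => ne_zero_of_coord i (by simp)
  have hv0 : ContDiff ℝ ∞ v0 := nz_contDiff hg contDiff_const fun x => hp x _ (hee 0)
  have h00 : ∀ x, g x (v0 x) (v0 x) = 1 := fun x => nz_self (hp x _ (hee 0))
  have c0 : ∀ x (j : Fin 4), j ≠ 0 → v0 x j = 0 := by
    intro x j hj
    simp [v0, nz, hj]
  -- step 1
  let w1 : E4 → E4 := fun x => ee 1 - (g x (ee 1) (v0 x)) • v0 x
  have hw1 : ContDiff ℝ ∞ w1 :=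
    contDiff_const.sub (((hg.clm_apply contDiff_const).clm_apply hv0).smul hv0)
  have n1 : ∀ x, 0 < g x (w1 x) (w1 x) := fun x => hp x _ (ne_zero_of_coord 1 (by
    simp [w1, c0 x 1 (by decide)]))
  let v1 : E4 → E4 := fun x => nz (g x) (w1 x)
  have hv1 : ContDiff ℝ ∞ v1 := nz_contDiff hg hw1 n1
  have h11 : ∀ x, g x (v1 x) (v1 x) = 1 := fun x => nz_self (n1 x)
  have h10 : ∀ x, g x (v1 x) (v0 x) = 0 := by
    intro x
    simp only [v1, nz, w1, map_smul, map_sub, smul_apply, sub_apply, smul_eq_mul, h00 x]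
    ring
  have c1 : ∀ x (j : Fin 4), j ≠ 0 → j ≠ 1 → v1 x j = 0 := by
    intro x j hj hj1
    simp [v1, w1, nz, c0 x j hj, hj1]
  -- step 2
  let w2 : E4 → E4 := fun x => ee 2 - (g x (ee 2) (v0 x)) • v0 x - (g x (ee 2) (v1 x)) • v1 x
  have hw2 : ContDiff ℝ ∞ w2 :=
    (contDiff_const.sub (((hg.clm_apply contDiff_const).clm_apply hv0).smul hv0)).sub
      (((hg.clm_apply contDiff_const).clm_apply hv1).smul hv1)
  have n2 : ∀ x, 0 < g x (w2 x) (w2 x) := fun x => hp x _ (ne_zero_of_coord 2 (by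
    simp [w2, c0 x 2 (by decide), c1 x 2 (by decide) (by decide)]))
  let v2 : E4 → E4 := fun x => nz (g x) (w2 x)
  have hv2 : ContDiff ℝ ∞ v2 := nz_contDiff hg hw2 n2
  have h22 : ∀ x, g x (v2 x) (v2 x) = 1 := fun x => nz_self (n2 x)
  have h20 : ∀ x, g x (v2 x) (v0 x) = 0 := by
    intro x
    simp only [v2, nz, w2, map_smul, map_sub, smul_apply, sub_apply, smul_eq_mul, h00 x, h10 x]
    ring
  have h21 : ∀ x, g x (v2 x) (v1 x) = 0 := by
    intro x
    have h01 : g x (v0 x) (v1 x) = 0 := by rw [hs, h10]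
    simp only [v2, nz, w2, map_smul, map_sub, smul_apply, sub_apply, smul_eq_mul, h11 x, h01]
    ring
  have c2 : ∀ x (j : Fin 4), j ≠ 0 → j ≠ 1 → j ≠ 2 → v2 x j = 0 := by
    intro x j hj hj1 hj2
    simp [v2, w2, nz, c0 x j hj, c1 x j hj hj1, hj2]
  -- step 3
  let w3 : E4 → E4 := fun x => ee 3 - (g x (ee 3) (v0 x)) • v0 x - (g x (ee 3) (v1 x)) • v1 x
    - (g x (ee 3) (v2 x)) • v2 x
  have hw3 : ContDiff ℝ ∞ w3 :=
    ((contDiff_const.sub (((hg.clm_apply contDiff_const).clm_apply hv0).smul hv0)).sub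
      (((hg.clm_apply contDiff_const).clm_apply hv1).smul hv1)).sub
      (((hg.clm_apply contDiff_const).clm_apply hv2).smul hv2)
  have n3 : ∀ x, 0 < g x (w3 x) (w3 x) := fun x => hp x _ (ne_zero_of_coord 3 (by
    simp [w3, c0 x 3 (by decide), c1 x 3 (by decide) (by decide),
      c2 x 3 (by decide) (by decide) (by decide)]))
  let v3 : E4 → E4 := fun x => nz (g x) (w3 x)
  have hv3 : ContDiff ℝ ∞ v3 := nz_contDiff hg hw3 n3
  have h33 : ∀ x, g x (v3 x) (v3 x) = 1 := fun x => nz_self (n3 x)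
  have h30 : ∀ x, g x (v3 x) (v0 x) = 0 := by
    intro x
    simp only [v3, nz, w3, map_smul, map_sub, smul_apply, sub_apply, smul_eq_mul, h00 x, h10 x,
      h20 x]
    ring
  have h31 : ∀ x, g x (v3 x) (v1 x) = 0 := by
    intro x
    have h01 : g x (v0 x) (v1 x) = 0 := by rw [hs, h10]
    simp only [v3, nz, w3, map_smul, map_sub, smul_apply, sub_apply, smul_eq_mul, h11 x, h01, h21 x]
    ring
  have h32 : ∀ x, g x (v3 x) (v2 x) = 0 := by
    intro x
    have h02 : g x (v0 x) (v2 x) = 0 := by rw [hs, h20]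
    have h12 : g x (v1 x) (v2 x) = 0 := by rw [hs, h21]
    simp only [v3, nz, w3, map_smul, map_sub, smul_apply, sub_apply, smul_eq_mul, h22 x, h02, h12]
    ring
  refine ⟨![v0, v1, v2, v3], ?_, ?_⟩
  · intro i
    fin_cases i
    · exact hv0
    · exact hv1
    · exact hv2
    · exact hv3
  · intro x i j
    fin_cases i <;> fin_cases j <;>
      simp [h00 x, h11 x, h22 x, h33 x, h10 x, h20 x, h30 x, h21 x, h31 x, h32 x,
        hs x (v0 x) (v1 x), hs x (v0 x) (v2 x), hs x (v0 x) (v3 x), hs x (v1 x) (v2 x),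
        hs x (v1 x) (v3 x), hs x (v2 x) (v3 x)]

/-- smooth frame of a metric: `A x` maps the standard orthonormal basis to a `g x`-orthonormal one,
`B x` is its inverse. -/
structure Frame (g : E4 → Bil) (A B : E4 → E4 →L[ℝ] E4) : Prop where
  smA : ContDiff ℝ ∞ A
  smB : ContDiff ℝ ∞ B
  BA : ∀ x u, B x (A x u) = u
  AB : ∀ x u, A x (B x u) = u
  iso : ∀ x u v, g x (A x u) (A x v) = inner ℝ u v

theorem exists_frame {g : E4 → Bil} (hg : ContDiff ℝ ∞ g)
    (hs : ∀ x v w, g x v w = g x w v) (hp : ∀ x v, v ≠ 0 → 0 < g x v v) :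
    ∃ A B : E4 → E4 →L[ℝ] E4, Frame g A B := by
  obtain ⟨v, hv, hvo⟩ := exists_frame_fields hg hs hp
  let pr : Fin 4 → (E4 →L[ℝ] ℝ) := fun i => EuclideanSpace.proj i
  have hpr : ∀ i (u : E4), pr i u = u i := fun i u => rfl
  let A : E4 → E4 →L[ℝ] E4 := fun x => ∑ i, (pr i).smulRight (v i x)
  let B : E4 → E4 →L[ℝ] E4 := fun x => ∑ i, (g x (v i x)).smulRight (ee i)
  have hAa : ∀ x u, A x u = ∑ i, u i • v i x := by
    intro x u
    simp [A, hpr]
  have hBa : ∀ x u, B x u = ∑ i, (g x (v i x) u) • ee i := by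
    intro x u
    simp [B]
  have hgA : ∀ x i u, g x (v i x) (A x u) = u i := by
    intro x i u
    rw [hAa, map_sum]
    simp only [map_smul, hvo, smul_eq_mul]
    simp
  have hBA : ∀ x u, B x (A x u) = u := by
    intro x u
    rw [hBa]
    simp only [hgA]
    ext j
    simp [Finset.sum_apply]
  refine ⟨A, B, ⟨?_, ?_, hBA, ?_, ?_⟩⟩
  · refine ContDiff.sum fun i _ => ?_
    exact contDiff_const.smulRight (hv i)
  · refine ContDiff.sum fun i _ => ?_
    exact (hg.clm_apply (hv i)).smulRight contDiff_const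
  · intro x u
    have hinj : Function.Injective (A x) := Function.LeftInverse.injective (hBA x)
    have hsurj : Function.Surjective ((A x : E4 →L[ℝ] E4) : E4 →ₗ[ℝ] E4) :=
      LinearMap.injective_iff_surjective.1 hinj
    obtain ⟨w, hw⟩ := hsurj u
    have hw' : A x w = u := hw
    rw [← hw', hBA]
  · intro x u w
    have h1 : g x (A x u) (A x w) = ∑ i, u i * g x (v i x) (A x w) := by
      rw [hAa x u, map_sum, sum_apply]
      simp
    rw [h1]
    simp only [hgA]
    simp [PiLp.inner_apply, mul_comm]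

end

end Crest.Agent.R240.Fr
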