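import Mathlib
import Crest.Agent.R216.ParamInt

/-!
Row 240 (S0371), helper838: averaged Poincaré homotopy for closed two-forms on balls of `ℝ⁴`
with the kernel bound `|α(x)| ≤ C ∫ |x - z|⁻³ |Ψ(z)| dz`.
-/

set_option autoImplicit false
set_option maxSynthPendingDepth 3

open MeasureTheory Set Filter Topology Metric
open scoped ContDiff ENNReal Convolution

namespace Crest.Agent.R240.PotPoinc

noncomputable section

/-! ### parametric integrals over compact sets -/

section Param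

variable {P : Type*} [NormedAddCommGroup P] [NormedSpace ℝ P] [ProperSpace P]
  {F : Type*} [NormedAddCommGroup F] [NormedSpace ℝ F]
  {G : Type*} [TopologicalSpace G] [MeasurableSpace G] [OpensMeasurableSpace G]
  [SecondCountableTopologyEither G F] [SecondCountableTopologyEither G (P →L[ℝ] F)]

theorem hasFDerivAt_param {μ : Measure G} {k : Set G} (hk : IsCompact k) (hkm : MeasurableSet k)
    (hμ : μ k < ⊤) {h : P → G → F} {D : P → G → P →L[ℝ] F}
    (hh : Continuous (Function.uncurry h)) (hD : Continuous (Function.uncurry D))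
    (hd : ∀ x t, HasFDerivAt (fun x => h x t) (D x t) x) (x₀ : P) :
    HasFDerivAt (fun x => ∫ t in k, h x t ∂μ) (∫ t in k, D x₀ t ∂μ) x₀ := by
  have : IsFiniteMeasure (μ.restrict k) := ⟨by simpa using hμ⟩
  have hK : IsCompact ((closedBall x₀ 1) ×ˢ k) := (isCompact_closedBall x₀ 1).prod hk
  obtain ⟨C, hC⟩ := hK.exists_bound_of_continuousOn (f := Function.uncurry D) hD.continuousOn
  have hK0 : IsCompact (({x₀} : Set P) ×ˢ k) := isCompact_singleton.prod hk
  obtain ⟨C0, hC0⟩ := hK0.exists_bound_of_continuousOn (f := Function.uncurry h) hh.continuousOn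
  have hhx : ∀ x, Continuous (h x) := fun x => hh.comp (by fun_prop : Continuous fun t => (x, t))
  have hDx : ∀ x, Continuous (D x) := fun x => hD.comp (by fun_prop : Continuous fun t => (x, t))
  refine hasFDerivAt_integral_of_dominated_of_fderiv_le (F' := D) (bound := fun _ => C)
    (s := closedBall x₀ 1) (closedBall_mem_nhds x₀ one_pos) ?_ ?_ ?_ ?_ ?_ ?_
  · exact Eventually.of_forall fun x => (hhx x).aestronglyMeasurable
  · refine Integrable.mono' (g := fun _ => C0) (integrable_const _) (hhx x₀).aestronglyMeasurable ?_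
    filter_upwards [ae_restrict_mem hkm] with t ht
    exact hC0 (x₀, t) ⟨rfl, ht⟩
  · exact (hDx x₀).aestronglyMeasurable
  · filter_upwards [ae_restrict_mem hkm] with t ht x hx
    exact hC (x, t) ⟨hx, ht⟩
  · exact integrable_const _
  · exact Eventually.of_forall fun t x _ => hd x t

end Param

/-! ### the homotopy -/

section Hom

variable {E : Type*} [NormedAddCommGroup E] [NormedSpace ℝ E]

/-- the integrand of the homotopy with centre `a`. -/
def hin (Ψ : E → E →L[ℝ] E →L[ℝ] ℝ) (a x : E) (t : ℝ) : E →L[ℝ] ℝ :=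
  t • Ψ (a + t • (x - a)) (x - a)

/-- the homotopy with centre `a`. -/
def hom (Ψ : E → E →L[ℝ] E →L[ℝ] ℝ) (a x : E) : E →L[ℝ] ℝ :=
  ∫ t in (0:ℝ)..1, hin Ψ a x t

/-- derivative of the integrand. -/
def hinD (Ψ : E → E →L[ℝ] E →L[ℝ] ℝ) (a x : E) (t : ℝ) : E →L[ℝ] E →L[ℝ] ℝ :=
  t • (t • (fderiv ℝ Ψ (a + t • (x - a))).flip (x - a) + Ψ (a + t • (x - a)))

lemma contDiff_hin {Ψ : E → E →L[ℝ] E →L[ℝ] ℝ} (hΨ : ContDiff ℝ ∞ Ψ) :
    ContDiff ℝ ∞ (Function.uncurry fun (p : E × E) (t : ℝ) => hin Ψ p.1 p.2 t) := by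
  unfold hin Function.uncurry
  have h1 : ContDiff ℝ ∞ (fun q : (E × E) × ℝ => q.1.1 + q.2 • (q.1.2 - q.1.1)) := by fun_prop
  have h2 : ContDiff ℝ ∞ (fun q : (E × E) × ℝ => (q.1.2 - q.1.1)) := by fun_prop
  exact contDiff_snd.smul ((hΨ.comp h1).clm_apply h2)

lemma contDiff_hom {Ψ : E → E →L[ℝ] E →L[ℝ] ℝ} (hΨ : ContDiff ℝ ∞ Ψ) :
    ContDiff ℝ ∞ (fun p : E × E => hom Ψ p.1 p.2) :=
  Crest.Agent.R216.contDiff_param_integral 0 1 (contDiff_hin hΨ)

lemma continuous_hinD {Ψ : E → E →L[ℝ] E →L[ℝ] ℝ} (hΨ : ContDiff ℝ ∞ Ψ) :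
    Continuous (fun q : (E × E) × ℝ => hinD Ψ q.1.1 q.1.2 q.2) := by
  unfold hinD
  have h1 : Continuous (fun q : (E × E) × ℝ => q.1.1 + q.2 • (q.1.2 - q.1.1)) := by fun_prop
  have h2 : Continuous (fun q : (E × E) × ℝ => (q.1.2 - q.1.1)) := by fun_prop
  have h3 : Continuous (fderiv ℝ Ψ) := hΨ.continuous_fderiv (by norm_num)
  have h4 : Continuous (fun q : (E × E) × ℝ =>
      (fderiv ℝ Ψ (q.1.1 + q.2 • (q.1.2 - q.1.1))).flip (q.1.2 - q.1.1)) := by
    have h5 : Continuous (fun q : (E × E) × ℝ =>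
      (fderiv ℝ Ψ (q.1.1 + q.2 • (q.1.2 - q.1.1))).flip) :=
      (ContinuousLinearMap.flipₗᵢ ℝ E E (E →L[ℝ] ℝ)).continuous.comp (h3.comp h1)
    exact h5.clm_apply h2
  exact continuous_snd.smul ((continuous_snd.smul h4).add (hΨ.continuous.comp h1))

lemma hasFDerivAt_hin {Ψ : E → E →L[ℝ] E →L[ℝ] ℝ} (hΨ : ContDiff ℝ ∞ Ψ) (a x : E) (t : ℝ) :
    HasFDerivAt (fun x => hin Ψ a x t) (hinD Ψ a x t) x := by
  have h1 : HasFDerivAt (fun x : E => a + t • (x - a)) (t • ContinuousLinearMap.id ℝ E) x := by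
    have e1 : HasFDerivAt (fun x : E => x - a) (ContinuousLinearMap.id ℝ E) x :=
      (hasFDerivAt_id x).sub_const a
    exact (e1.const_smul t).const_add a
  have h2 : HasFDerivAt (fun x : E => x - a) (ContinuousLinearMap.id ℝ E) x :=
    (hasFDerivAt_id x).sub_const a
  have h3 : HasFDerivAt Ψ (fderiv ℝ Ψ (a + t • (x - a))) (a + t • (x - a)) :=
    (hΨ.differentiable (by norm_num) _).hasFDerivAt
  have h4 := (h3.comp x h1).clm_apply h2
  have h5 := h4.const_smul t
  refine h5.congr_fderiv ?_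
  ext u v
  simp [hinD]
  ring

lemma integrand_identity {Ψ : E → E →L[ℝ] E →L[ℝ] ℝ} {U : Set E} (hU : IsOpen U)
    (hΨ : ContDiff ℝ ∞ Ψ) (halt : ∀ y ∈ U, ∀ u v, Ψ y u v = - Ψ y v u)
    (hcl : ∀ y ∈ U, ∀ u v w, fderiv ℝ Ψ y u v w + fderiv ℝ Ψ y v w u + fderiv ℝ Ψ y w u v = 0)
    (a x : E) (t : ℝ) (hy : a + t • (x - a) ∈ U) (u v : E) :
    hinD Ψ a x t u v - hinD Ψ a x t v u
      = t ^ 2 * fderiv ℝ Ψ (a + t • (x - a)) (x - a) u v + 2 * t * Ψ (a + t • (x - a)) u v := by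
  set y := a + t • (x - a) with hy'
  have hd : ∀ p q w : E, fderiv ℝ Ψ y w p q = - fderiv ℝ Ψ y w q p := by
    intro p q w
    have hdiff : DifferentiableAt ℝ Ψ y := hΨ.differentiable (by norm_num) y
    have e1 : HasFDerivAt (fun z => Ψ z p q) ((ContinuousLinearMap.apply ℝ ℝ q).comp
        ((ContinuousLinearMap.apply ℝ (E →L[ℝ] ℝ) p).comp (fderiv ℝ Ψ y))) y :=
      (ContinuousLinearMap.apply ℝ ℝ q).hasFDerivAt.comp y
        ((ContinuousLinearMap.apply ℝ (E →L[ℝ] ℝ) p).hasFDerivAt.comp y hdiff.hasFDerivAt)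
    have e2 : HasFDerivAt (fun z => - Ψ z q p) (-((ContinuousLinearMap.apply ℝ ℝ p).comp
        ((ContinuousLinearMap.apply ℝ (E →L[ℝ] ℝ) q).comp (fderiv ℝ Ψ y)))) y :=
      ((ContinuousLinearMap.apply ℝ ℝ p).hasFDerivAt.comp y
        ((ContinuousLinearMap.apply ℝ (E →L[ℝ] ℝ) q).hasFDerivAt.comp y hdiff.hasFDerivAt)).neg
    have e3 : (fun z => Ψ z p q) =ᶠ[𝓝 y] (fun z => - Ψ z q p) := by
      filter_upwards [hU.mem_nhds hy] with z hz
      exact halt z hz p q
    have e4 := (e2.congr_of_eventuallyEq e3).unique e1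
    have := congrArg (fun L : E →L[ℝ] ℝ => L w) e4
    simp at this
    linarith
  have h1 := hcl y hy u v (x - a)
  have h2 := hd v (x - a) u
  have h3 := halt y hy u v
  simp only [hinD, smul_apply, add_apply, smul_eq_mul,
    ← hy', ContinuousLinearMap.flip_apply]
  have h4 := hd (x - a) v u
  have h5 : fderiv ℝ Ψ y u (x - a) v - fderiv ℝ Ψ y v (x - a) u = fderiv ℝ Ψ y (x - a) u v := by
    linarith
  have h6 : Ψ y v u = - Ψ y u v := by linarith
  rw [h6]
  linear_combination t ^ 2 * h5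

lemma hom_eq (Ψ : E → E →L[ℝ] E →L[ℝ] ℝ) (a x : E) :
    hom Ψ a x = ∫ t in Icc (0:ℝ) 1, hin Ψ a x t := by
  rw [hom, intervalIntegral.integral_of_le zero_le_one, integral_Icc_eq_integral_Ioc]

/-- derivative of the homotopy with centre `a`. -/
def homD (Ψ : E → E →L[ℝ] E →L[ℝ] ℝ) (a x : E) : E →L[ℝ] E →L[ℝ] ℝ :=
  ∫ t in Icc (0:ℝ) 1, hinD Ψ a x t

lemma hasFDerivAt_hom [FiniteDimensional ℝ E] {Ψ : E → E →L[ℝ] E →L[ℝ] ℝ} (hΨ : ContDiff ℝ ∞ Ψ)
    (a x : E) : HasFDerivAt (fun x => hom Ψ a x) (homD Ψ a x) x := by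
  have : ProperSpace E := FiniteDimensional.proper ℝ E
  simp_rw [hom_eq]
  refine hasFDerivAt_param (h := fun x t => hin Ψ a x t) (D := fun x t => hinD Ψ a x t)
    isCompact_Icc measurableSet_Icc (by simp) ?_ ?_ (fun x t => hasFDerivAt_hin hΨ a x t) x
  · exact (contDiff_hin hΨ).continuous.comp
      (by fun_prop : Continuous fun q : E × ℝ => (((a, q.1), q.2) : (E × E) × ℝ))
  · exact (continuous_hinD hΨ).comp
      (by fun_prop : Continuous fun q : E × ℝ => (((a, q.1), q.2) : (E × E) × ℝ))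

lemma homD_antisymm {Ψ : E → E →L[ℝ] E →L[ℝ] ℝ} {U : Set E} (hU : IsOpen U)
    (hUc : Convex ℝ U)
    (hΨ : ContDiff ℝ ∞ Ψ) (halt : ∀ y ∈ U, ∀ u v, Ψ y u v = - Ψ y v u)
    (hcl : ∀ y ∈ U, ∀ u v w, fderiv ℝ Ψ y u v w + fderiv ℝ Ψ y v w u + fderiv ℝ Ψ y w u v = 0)
    {a x : E} (ha : a ∈ U) (hx : x ∈ U) (u v : E) :
    homD Ψ a x u v - homD Ψ a x v u = Ψ x u v := by
  have hc : Continuous (fun t : ℝ => hinD Ψ a x t) :=
    (continuous_hinD hΨ).comp (by fun_prop : Continuous fun t : ℝ => (((a, x), t) : (E × E) × ℝ))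
  have hi : IntegrableOn (fun t : ℝ => hinD Ψ a x t) (Icc 0 1) :=
    hc.continuousOn.integrableOn_Icc
  have e : ∀ u v : E, homD Ψ a x u v = ∫ t in Icc (0:ℝ) 1, hinD Ψ a x t u v := by
    intro u v
    have e1 : homD Ψ a x u = ∫ t in Icc (0:ℝ) 1, hinD Ψ a x t u := by
      rw [homD]
      exact (ContinuousLinearMap.integral_apply hi u)
    rw [e1]
    refine ContinuousLinearMap.integral_apply ?_ v
    exact (hc.clm_apply continuous_const).continuousOn.integrableOn_Icc
  have hcuv : ∀ u v : E, Continuous (fun t : ℝ => hinD Ψ a x t u v) := fun u v =>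
    (hc.clm_apply continuous_const).clm_apply continuous_const
  rw [e u v, e v u, ← integral_sub (hcuv u v).continuousOn.integrableOn_Icc
    (hcuv v u).continuousOn.integrableOn_Icc]
  have hmem : ∀ t ∈ Icc (0:ℝ) 1, a + t • (x - a) ∈ U := by
    intro t ht
    exact hUc.add_smul_sub_mem ha hx ht
  have e2 : ∀ t ∈ Icc (0:ℝ) 1, hinD Ψ a x t u v - hinD Ψ a x t v u
      = t ^ 2 * fderiv ℝ Ψ (a + t • (x - a)) (x - a) u v + 2 * t * Ψ (a + t • (x - a)) u v :=
    fun t ht => integrand_identity hU hΨ halt hcl a x t (hmem t ht) u v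
  rw [setIntegral_congr_fun measurableSet_Icc e2, integral_Icc_eq_integral_Ioc,
    ← intervalIntegral.integral_of_le zero_le_one]
  have hder : ∀ t : ℝ, HasDerivAt (fun t : ℝ => t ^ 2 * Ψ (a + t • (x - a)) u v)
      (t ^ 2 * fderiv ℝ Ψ (a + t • (x - a)) (x - a) u v + 2 * t * Ψ (a + t • (x - a)) u v) t := by
    intro t
    have h1 : HasDerivAt (fun t : ℝ => a + t • (x - a)) (x - a) t := by
      have := ((hasDerivAt_id t).smul_const (x - a)).const_add a
      simpa using this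
    have h3 : HasFDerivAt Ψ (fderiv ℝ Ψ (a + t • (x - a))) (a + t • (x - a)) :=
      (hΨ.differentiable (by norm_num) _).hasFDerivAt
    have h4 : HasDerivAt (fun t : ℝ => Ψ (a + t • (x - a)))
        (fderiv ℝ Ψ (a + t • (x - a)) (x - a)) t := h3.comp_hasDerivAt t h1
    have h5 : HasDerivAt (fun t : ℝ => Ψ (a + t • (x - a)) u)
        (fderiv ℝ Ψ (a + t • (x - a)) (x - a) u) t := by
      have := h4.clm_apply (hasDerivAt_const t u)
      simpa using this
    have h6 : HasDerivAt (fun t : ℝ => Ψ (a + t • (x - a)) u v)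
        (fderiv ℝ Ψ (a + t • (x - a)) (x - a) u v) t := by
      have := h5.clm_apply (hasDerivAt_const t v)
      simpa using this
    have h7 := (hasDerivAt_pow 2 t).mul h6
    refine h7.congr_deriv ?_
    simp
    ring
  rw [intervalIntegral.integral_eq_sub_of_hasDerivAt (fun t _ => hder t)]
  · simp
  · refine Continuous.intervalIntegrable ?_ _ _
    have h1 : Continuous (fun t : ℝ => a + t • (x - a)) := by fun_prop
    have h3 : Continuous (fderiv ℝ Ψ) := hΨ.continuous_fderiv (by norm_num)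
    have h4 : Continuous fun t : ℝ => fderiv ℝ Ψ (a + t • (x - a)) (x - a) u v :=
      (((h3.comp h1).clm_apply continuous_const).clm_apply continuous_const).clm_apply
        continuous_const
    have h5 : Continuous fun t : ℝ => Ψ (a + t • (x - a)) u v :=
      ((hΨ.continuous.comp h1).clm_apply continuous_const).clm_apply continuous_const
    fun_prop

end Hom

/-! ### averaging over the centres -/

section AvgGen

variable {P : Type*} [NormedAddCommGroup P] [NormedSpace ℝ P] [FiniteDimensional ℝ P]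
  {F : Type*} [NormedAddCommGroup F] [NormedSpace ℝ F]
  {G : Type*} [NormedAddCommGroup G] [NormedSpace ℝ G] [FiniteDimensional ℝ G]
  [MeasurableSpace G] [BorelSpace G]

omit [FiniteDimensional ℝ P] in
lemma contDiff_avgGen {μ : Measure G} [IsFiniteMeasureOnCompacts μ] {φ : G → ℝ}
    (hφ : ContDiff ℝ ∞ φ) (hs : HasCompactSupport φ)
    {h : G → P → F} (hh : ContDiff ℝ ∞ (Function.uncurry h)) :
    ContDiff ℝ ∞ (fun x => ∫ a, φ a • h a x ∂μ) := by
  have : ProperSpace G := FiniteDimensional.proper ℝ G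
  have : IsLocallyFiniteMeasure μ := isLocallyFiniteMeasure_of_isFiniteMeasureOnCompacts
  have key' : (fun x => ∫ a, φ a • h a x ∂μ) = fun x =>
      (((fun _ : G => (1:ℝ)) ⋆[ContinuousLinearMap.lsmul ℝ ℝ, μ]
      (fun s => φ (-s) • h (-s) x)) (0:G)) := by
    funext x
    rw [convolution_def]
    refine integral_congr_ae (Filter.Eventually.of_forall fun t => ?_)
    simp
  rw [key', ← contDiffOn_univ]
  obtain ⟨R, hR⟩ := hs.isCompact.isBounded.subset_closedBall (0:G)
  refine contDiffOn_convolution_right_with_param_comp (ContinuousLinearMap.lsmul ℝ ℝ)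
    (v := fun _ => (0:G)) contDiffOn_const isOpen_univ
    (k := Metric.closedBall (0:G) R) (isCompact_closedBall _ _) ?_ (locallyIntegrable_const _) ?_
  · intro p t _ ht
    have : φ (-t) = 0 := by
      by_contra h
      have h1 : -t ∈ tsupport φ := subset_tsupport _ h
      have h2 := hR h1
      apply ht
      simpa using h2
    simp [this]
  · refine ContDiff.contDiffOn ?_
    have h1 : ContDiff ℝ ∞ (fun q : P × G => φ (-q.2)) := hφ.comp contDiff_snd.neg
    have h2 : ContDiff ℝ ∞ (fun q : P × G => h (-q.2) q.1) :=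
      hh.comp (contDiff_snd.neg.prodMk contDiff_fst)
    exact h1.smul h2

omit [FiniteDimensional ℝ P] [FiniteDimensional ℝ G] [MeasurableSpace G] [BorelSpace G] in
lemma continuous_derivGen {h : G → P → F} (hh : ContDiff ℝ ∞ (Function.uncurry h))
    {D : G → P → P →L[ℝ] F} (hD : ∀ a x, HasFDerivAt (h a) (D a x) x) :
    Continuous (fun q : P × G => D q.2 q.1) := by
  have h1 : ∀ q : P × G, D q.2 q.1 = (fderiv ℝ (Function.uncurry h)
      (q.2, q.1)).comp (ContinuousLinearMap.inr ℝ G P) := by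
    intro q
    have h2 := hD q.2 q.1
    have h3 : HasFDerivAt (Function.uncurry h) (fderiv ℝ (Function.uncurry h) (q.2, q.1))
        (q.2, q.1) := (hh.differentiable (by norm_num) _).hasFDerivAt
    have h4 := h3.comp q.1 (hasFDerivAt_prodMk_right q.2 q.1)
    exact h2.unique h4
  simp_rw [h1]
  have h5 : Continuous (fderiv ℝ (Function.uncurry h)) := hh.continuous_fderiv (by norm_num)
  have h6 : Continuous (fun q : P × G => fderiv ℝ (Function.uncurry h) (q.2, q.1)) :=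
    h5.comp (by fun_prop)
  exact h6.clm_comp continuous_const

lemma hasFDerivAt_avgGen {μ : Measure G} [IsFiniteMeasureOnCompacts μ] {φ : G → ℝ}
    (hφ : ContDiff ℝ ∞ φ) (hs : HasCompactSupport φ)
    {h : G → P → F} (hh : ContDiff ℝ ∞ (Function.uncurry h))
    {D : G → P → P →L[ℝ] F} (hD : ∀ a x, HasFDerivAt (h a) (D a x) x) (x : P) :
    HasFDerivAt (fun x => ∫ a, φ a • h a x ∂μ) (∫ a in tsupport φ, φ a • D a x ∂μ) x := by
  have : ProperSpace P := FiniteDimensional.proper ℝ P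
  have : ProperSpace G := FiniteDimensional.proper ℝ G
  have key : (fun x => ∫ a, φ a • h a x ∂μ) = fun x => ∫ a in tsupport φ, φ a • h a x ∂μ := by
    funext x
    symm
    refine setIntegral_eq_integral_of_forall_compl_eq_zero fun a ha => ?_
    rw [image_eq_zero_of_notMem_tsupport ha, zero_smul]
  rw [key]
  refine hasFDerivAt_param (h := fun x a => φ a • h a x) (D := fun x a => φ a • D a x)
    hs.isCompact hs.isCompact.measurableSet hs.isCompact.measure_lt_top ?_ ?_ ?_ x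
  · have h2 : Continuous (fun q : P × G => h q.2 q.1) :=
      hh.continuous.comp (by fun_prop : Continuous fun q : P × G => (q.2, q.1))
    exact (hφ.continuous.comp continuous_snd).smul h2
  · exact (hφ.continuous.comp continuous_snd).smul (continuous_derivGen hh hD)
  · intro x a
    exact (hD a x).const_smul (φ a)

omit [FiniteDimensional ℝ P] [FiniteDimensional ℝ G] [NormedSpace ℝ G] in
lemma integral_applyGen {μ : Measure G} [IsFiniteMeasureOnCompacts μ] {k : Set G}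
    (hk : IsCompact k) {φ : G → ℝ} (hφ : Continuous φ) {D : G → P →L[ℝ] F} (hD : Continuous D)
    (u : P) :
    (∫ a in k, φ a • D a ∂μ) u = ∫ a in k, φ a • D a u ∂μ :=
  ContinuousLinearMap.integral_apply ((hφ.smul hD).continuousOn.integrableOn_compact hk) u

end AvgGen

section Avg

variable {E : Type*} [NormedAddCommGroup E] [NormedSpace ℝ E] [FiniteDimensional ℝ E]
  [MeasurableSpace E] [BorelSpace E]

/-- average of the homotopies over the centres. -/
def avg (μ : Measure E) (φ : E → ℝ) (Ψ : E → E →L[ℝ] E →L[ℝ] ℝ) (x : E) : E →L[ℝ] ℝ :=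
  ∫ a, φ a • hom Ψ a x ∂μ

lemma contDiff_avg {μ : Measure E} [IsFiniteMeasureOnCompacts μ] {φ : E → ℝ}
    (hφ : ContDiff ℝ ∞ φ) (hs : HasCompactSupport φ)
    {Ψ : E → E →L[ℝ] E →L[ℝ] ℝ} (hΨ : ContDiff ℝ ∞ Ψ) : ContDiff ℝ ∞ (avg μ φ Ψ) :=
  contDiff_avgGen (P := E) (G := E) (F := E →L[ℝ] ℝ) (h := fun a x => hom Ψ a x) hφ hs
    (contDiff_hom hΨ)

omit [MeasurableSpace E] [BorelSpace E] in
lemma continuous_homD {Ψ : E → E →L[ℝ] E →L[ℝ] ℝ} (hΨ : ContDiff ℝ ∞ Ψ) :
    Continuous (fun q : E × E => homD Ψ q.2 q.1) :=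
  continuous_derivGen (P := E) (G := E) (F := E →L[ℝ] ℝ) (h := fun a x => hom Ψ a x)
    (D := homD Ψ) (contDiff_hom hΨ) (fun a x => hasFDerivAt_hom hΨ a x)

lemma hasFDerivAt_avg {μ : Measure E} [IsFiniteMeasureOnCompacts μ] {φ : E → ℝ}
    (hφ : ContDiff ℝ ∞ φ) (hs : HasCompactSupport φ)
    {Ψ : E → E →L[ℝ] E →L[ℝ] ℝ} (hΨ : ContDiff ℝ ∞ Ψ) (x : E) :
    HasFDerivAt (avg μ φ Ψ) (∫ a in tsupport φ, φ a • homD Ψ a x ∂μ) x :=
  hasFDerivAt_avgGen (P := E) (G := E) (F := E →L[ℝ] ℝ) (h := fun a x => hom Ψ a x)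
    (D := homD Ψ) hφ hs (contDiff_hom hΨ) (fun a x => hasFDerivAt_hom hΨ a x) x

lemma avg_antisymm {μ : Measure E} [IsFiniteMeasureOnCompacts μ] {φ : E → ℝ}
    (hφ : ContDiff ℝ ∞ φ) (hs : HasCompactSupport φ) (hφ1 : ∫ a, φ a ∂μ = 1)
    {Ψ : E → E →L[ℝ] E →L[ℝ] ℝ} {U : Set E} (hU : IsOpen U)
    (hUc : Convex ℝ U) (hsU : tsupport φ ⊆ U)
    (hΨ : ContDiff ℝ ∞ Ψ) (halt : ∀ y ∈ U, ∀ u v, Ψ y u v = - Ψ y v u)
    (hcl : ∀ y ∈ U, ∀ u v w, fderiv ℝ Ψ y u v w + fderiv ℝ Ψ y v w u + fderiv ℝ Ψ y w u v = 0)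
    {x : E} (hx : x ∈ U) (u v : E) :
    fderiv ℝ (avg μ φ Ψ) x u v - fderiv ℝ (avg μ φ Ψ) x v u = Ψ x u v := by
  rw [(hasFDerivAt_avg hφ hs hΨ x).fderiv]
  have hc00 : Continuous (fun a : E => (x, a)) := by fun_prop
  have hc0 : Continuous (fun a : E => homD Ψ a x) :=
    Continuous.comp (g := fun q : E × E => homD Ψ q.2 q.1) (f := fun a : E => (x, a))
      (continuous_homD hΨ) hc00
  have hcu : ∀ u : E, Continuous (fun a : E => homD Ψ a x u) := fun u =>
    hc0.clm_apply continuous_const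
  have hcuv : ∀ u v : E, Continuous (fun a : E => φ a * homD Ψ a x u v) := fun u v =>
    hφ.continuous.mul ((hc0.clm_apply continuous_const).clm_apply continuous_const)
  have e : ∀ u v : E, (∫ a in tsupport φ, φ a • homD Ψ a x ∂μ) u v
      = ∫ a in tsupport φ, φ a * homD Ψ a x u v ∂μ := by
    intro u v
    have e1 : (∫ a in tsupport φ, φ a • homD Ψ a x ∂μ) u
        = ∫ a in tsupport φ, φ a • homD Ψ a x u ∂μ :=
      integral_applyGen (P := E) (G := E) (F := E →L[ℝ] ℝ) hs.isCompact hφ.continuous hc0 u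
    have e2 : (∫ a in tsupport φ, φ a • homD Ψ a x u ∂μ) v
        = ∫ a in tsupport φ, φ a * homD Ψ a x u v ∂μ :=
      integral_applyGen (P := E) (G := E) (F := ℝ) hs.isCompact hφ.continuous (hcu u) v
    rw [e1, e2]
  rw [e u v, e v u, ← integral_sub ((hcuv u v).continuousOn.integrableOn_compact hs.isCompact)
    ((hcuv v u).continuousOn.integrableOn_compact hs.isCompact)]
  have e2 : ∀ a ∈ tsupport φ, φ a * homD Ψ a x u v - φ a * homD Ψ a x v u = φ a * Ψ x u v := by
    intro a ha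
    rw [← mul_sub, homD_antisymm hU hUc hΨ halt hcl (hsU ha) hx u v]
  rw [setIntegral_congr_fun hs.isCompact.measurableSet e2, integral_mul_const]
  have e3 : ∫ a in tsupport φ, φ a ∂μ = 1 := by
    rw [← hφ1]
    exact setIntegral_eq_integral_of_forall_compl_eq_zero fun a ha =>
      image_eq_zero_of_notMem_tsupport ha
  rw [e3, one_mul]

end Avg

end

end Crest.Agent.R240.PotPoinc
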