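import Mathlib
import Crest.Agent.R240.Lin1
import Crest.Agent.R240.PotPoinc

/-!
Row 240 (S0371), helper838: averaged Poincaré homotopy, kernel bound in `ℝ⁴`.
-/

set_option autoImplicit false
set_option maxSynthPendingDepth 3

open MeasureTheory Set Filter Topology Metric
open scoped ContDiff ENNReal

namespace Crest.Agent.R240.PotPoinc

noncomputable section

lemma enorm_hom_le {E : Type*} [NormedAddCommGroup E] [NormedSpace ℝ E]
    (Ψ : E → E →L[ℝ] E →L[ℝ] ℝ) (a x : E) :
    ‖hom Ψ a x‖ₑ ≤ ‖x - a‖ₑ * ∫⁻ t in Ioo (0:ℝ) 1, ‖Ψ (a + t • (x - a))‖ₑ := by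
  rw [hom, intervalIntegral.integral_of_le zero_le_one, integral_Ioc_eq_integral_Ioo]
  refine (enorm_integral_le_lintegral_enorm _).trans ?_
  rw [← lintegral_const_mul' _ _ enorm_ne_top]
  refine lintegral_mono_ae ?_
  filter_upwards [ae_restrict_mem measurableSet_Ioo] with t ht
  rw [hin, enorm_smul]
  have h1 : ‖t‖ₑ ≤ 1 := by
    rw [Real.enorm_eq_ofReal ht.1.le]
    exact ENNReal.ofReal_le_one.2 ht.2.le
  have h2 : ‖(Ψ (a + t • (x - a))) (x - a)‖ₑ ≤ ‖Ψ (a + t • (x - a))‖ₑ * ‖x - a‖ₑ :=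
    ContinuousLinearMap.le_opENorm _ _
  calc ‖t‖ₑ * ‖(Ψ (a + t • (x - a))) (x - a)‖ₑ
      ≤ 1 * (‖Ψ (a + t • (x - a))‖ₑ * ‖x - a‖ₑ) := mul_le_mul' h1 h2
    _ = ‖x - a‖ₑ * ‖Ψ (a + t • (x - a))‖ₑ := by rw [one_mul, mul_comm]

lemma lintegral_affine (g : E4 → ℝ≥0∞) (hg : Measurable g) (x : E4) {s : ℝ} (hs : 0 < s) :
    ∫⁻ a, g (s • a + (1 - s) • x) = ENNReal.ofReal (s⁻¹ ^ 4) * ∫⁻ z, g z := by
  have h1 : ∫⁻ a, g (s • a + (1 - s) • x)
      = ∫⁻ z, g (z + (1 - s) • x) ∂(Measure.map (s • ·) (volume : Measure E4)) := by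
    rw [lintegral_map]
    · exact hg.comp (measurable_id.add_const _)
    · exact measurable_const_smul s
  rw [h1, Measure.map_addHaar_smul volume hs.ne', lintegral_smul_measure,
    lintegral_add_right_eq_self (fun z => g z)]
  rw [abs_of_nonneg (by positivity), finrank_euclideanSpace_fin, inv_pow]
  rfl

lemma inner_time {ρ R : ℝ} (hρ : 0 < ρ) (hR : 0 < R) :
    ∫⁻ t in Ioo (0:ℝ) 1, ENNReal.ofReal ((1 - t)⁻¹ ^ 4) *
      (if ρ < R * (1 - t) then 1 else 0) ≤ ENNReal.ofReal (R ^ 3 / (3 * ρ ^ 3)) := by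
  by_cases hT : 1 - ρ / R ≤ 0
  · refine le_trans (le_of_eq ?_) zero_le
    rw [lintegral_eq_zero_iff']
    · filter_upwards [ae_restrict_mem measurableSet_Ioo] with t ht
      have : ¬ ρ < R * (1 - t) := by
        have h1 : R ≤ ρ := by
          have : 1 ≤ ρ / R := by linarith
          exact (one_le_div hR).1 this
        have h2 : R * (1 - t) ≤ R := by nlinarith [ht.1]
        linarith
      simp [this]
    · refine AEMeasurable.mul ?_ ?_
      · fun_prop
      · refine Measurable.aemeasurable (Measurable.ite ?_ measurable_const measurable_const)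
        exact measurableSet_lt measurable_const (by fun_prop)
  · push Not at hT
    set T := 1 - ρ / R with hTdef
    have hT1 : T < 1 := by
      have : 0 < ρ / R := div_pos hρ hR
      linarith
    have h1 : ∫⁻ t in Ioo (0:ℝ) 1, ENNReal.ofReal ((1 - t)⁻¹ ^ 4) *
        (if ρ < R * (1 - t) then 1 else 0) ≤ ∫⁻ t in Ioc (0:ℝ) T, ENNReal.ofReal ((1 - t)⁻¹ ^ 4) := by
      rw [← lintegral_indicator measurableSet_Ioo, ← lintegral_indicator measurableSet_Ioc]
      refine lintegral_mono fun t => ?_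
      by_cases ht : t ∈ Ioo (0:ℝ) 1
      · rw [indicator_of_mem ht]
        by_cases hl : ρ < R * (1 - t)
        · have : t ∈ Ioc 0 T := by
            refine ⟨ht.1, ?_⟩
            have : ρ / R < 1 - t := by rw [div_lt_iff₀ hR]; linarith
            linarith
          rw [indicator_of_mem this]
          simp [hl]
        · simp [hl]
      · rw [indicator_of_notMem ht]
        exact zero_le
    refine h1.trans ?_
    have hcont : ContinuousOn (fun t : ℝ => (1 - t)⁻¹ ^ 4) (Icc 0 T) := by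
      refine ContinuousOn.pow (ContinuousOn.inv₀ (by fun_prop) ?_) 4
      intro t ht
      have : t < 1 := lt_of_le_of_lt ht.2 hT1
      linarith
    have hint : IntegrableOn (fun t : ℝ => (1 - t)⁻¹ ^ 4) (Ioc 0 T) :=
      (hcont.integrableOn_Icc).mono_set Ioc_subset_Icc_self
    rw [← ofReal_integral_eq_lintegral_ofReal hint (Eventually.of_forall fun t => by positivity)]
    refine ENNReal.ofReal_le_ofReal ?_
    rw [← intervalIntegral.integral_of_le hT.le]
    have hder : ∀ t ∈ uIcc (0:ℝ) T, HasDerivAt (fun t : ℝ => (1 - t)⁻¹ ^ 3 / 3)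
        ((1 - t)⁻¹ ^ 4) t := by
      intro t ht
      rw [uIcc_of_le hT.le] at ht
      have hne : (1 - t) ≠ 0 := by
        have : t < 1 := lt_of_le_of_lt ht.2 hT1
        linarith
      have h2 : HasDerivAt (fun t : ℝ => 1 - t) (-1) t := by
        simpa using (hasDerivAt_id t).const_sub 1
      have h3 := ((h2.inv hne).pow 3).div_const 3
      refine h3.congr_deriv ?_
      have e5 : ((fun t : ℝ => 1 - t)⁻¹ t) = (1 - t)⁻¹ := rfl
      have e6 : ((1 - t) ^ 2) * ((1 - t) ^ 2)⁻¹ = 1 := mul_inv_cancel₀ (pow_ne_zero 2 hne)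
      rw [e5]
      norm_num
      field_simp
      try linear_combination 3 * e6
    rw [intervalIntegral.integral_eq_sub_of_hasDerivAt hder]
    · have h4 : (1 - T) = ρ / R := by rw [hTdef]; ring
      rw [h4]
      have h5 : (ρ / R)⁻¹ ^ 3 / 3 = R ^ 3 / (3 * ρ ^ 3) := by
        field_simp
      rw [h5]
      norm_num
    · rw [intervalIntegrable_iff_integrableOn_Ioc_of_le hT.le]
      exact hint

/-- auxiliary function for the change of variables. -/
def GG (g : E4 → ℝ≥0∞) (c : E4) (r : ℝ) (x : E4) (t : ℝ) (z : E4) : ℝ≥0∞ :=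
  (ball c r).indicator (fun z => (if ‖x - z‖ < (2 * r) * (1 - t) then 1 else 0) * g z) z

lemma GG_mem {g : E4 → ℝ≥0∞} {c : E4} {r : ℝ} {x : E4} {t : ℝ} {z : E4} (hz : z ∈ ball c r) :
    GG g c r x t z = (if ‖x - z‖ < (2 * r) * (1 - t) then 1 else 0) * g z := by
  rw [GG, indicator_of_mem hz]

lemma GG_not_mem {g : E4 → ℝ≥0∞} {c : E4} {r : ℝ} {x : E4} {t : ℝ} {z : E4}
    (hz : z ∉ ball c r) : GG g c r x t z = 0 := by
  rw [GG, indicator_of_notMem hz]

lemma GG_meas {g : E4 → ℝ≥0∞} (hg : Measurable g) (c : E4) (r : ℝ) (x : E4) :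
    Measurable (Function.uncurry (GG g c r x)) := by
  have e : Function.uncurry (GG g c r x) = (Prod.snd ⁻¹' ball c r).indicator
      (fun q : ℝ × E4 => (if ‖x - q.2‖ < (2 * r) * (1 - q.1) then 1 else 0) * g q.2) := by
    funext q
    by_cases hq : q.2 ∈ ball c r
    · rw [indicator_of_mem (show q ∈ Prod.snd ⁻¹' ball c r from hq)]
      exact GG_mem hq
    · rw [indicator_of_notMem (show q ∉ Prod.snd ⁻¹' ball c r from hq)]
      exact GG_not_mem hq
  rw [e]
  refine Measurable.indicator ?_ (measurable_snd measurableSet_ball)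
  refine Measurable.mul ?_ (hg.comp measurable_snd)
  refine Measurable.ite ?_ measurable_const measurable_const
  exact measurableSet_lt (by fun_prop) (by fun_prop)

lemma kernel_step {g : E4 → ℝ≥0∞} (hg : Measurable g) (c : E4) {r : ℝ}
    {x : E4} (hx : x ∈ ball c r) {t : ℝ} (ht : t ∈ Ioo (0:ℝ) 1) :
    ∫⁻ a in ball c r, g (a + t • (x - a))
      ≤ ∫⁻ z, ENNReal.ofReal ((1 - t)⁻¹ ^ 4) * GG g c r x t z := by
  have hGt : Measurable (GG g c r x t) := (GG_meas hg c r x).of_uncurry_left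
  rw [lintegral_const_mul _ hGt,
    ← lintegral_affine (GG g c r x t) hGt x (by linarith [ht.2] : 0 < 1 - t),
    ← lintegral_indicator measurableSet_ball]
  refine lintegral_mono fun a => ?_
  by_cases ha : a ∈ ball c r
  · rw [indicator_of_mem ha]
    have e1 : (1 - t) • a + (1 - (1 - t)) • x = a + t • (x - a) := by
      module
    have hy : a + t • (x - a) ∈ ball c r :=
      (convex_ball c r).add_smul_sub_mem ha hx ⟨ht.1.le, ht.2.le⟩
    have hn : ‖x - (a + t • (x - a))‖ < (2 * r) * (1 - t) := by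
      have e2 : x - (a + t • (x - a)) = (1 - t) • (x - a) := by module
      rw [e2, norm_smul, Real.norm_eq_abs, abs_of_pos (by linarith [ht.2]), mul_comm]
      refine mul_lt_mul_of_pos_right ?_ (by linarith [ht.2])
      rw [← dist_eq_norm]
      have h3 := dist_triangle_right x a c
      have h4 : dist x c < r := hx
      have h5 : dist a c < r := ha
      linarith
    rw [e1, GG_mem hy, if_pos hn, one_mul]
  · rw [indicator_of_notMem ha]
    exact zero_le

lemma kernel_inner {g : E4 → ℝ≥0∞} (c : E4) {r : ℝ} (hr : 0 < r)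
    (x z : E4) :
    ∫⁻ t in Ioo (0:ℝ) 1, ENNReal.ofReal ((1 - t)⁻¹ ^ 4) * GG g c r x t z
      ≤ (ball c r).indicator (fun z => ENNReal.ofReal (8 / 3 * r ^ 3) *
          ((‖x - z‖ₑ ^ 3)⁻¹ * g z)) z := by
  by_cases hz : z ∈ ball c r
  · rw [indicator_of_mem hz]
    have e1 : ∀ t : ℝ, ENNReal.ofReal ((1 - t)⁻¹ ^ 4) * GG g c r x t z
        = (ENNReal.ofReal ((1 - t)⁻¹ ^ 4) *
          (if ‖x - z‖ < (2 * r) * (1 - t) then 1 else 0)) * g z := by
      intro t
      rw [GG_mem hz]
      exact (mul_assoc _ _ _).symm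
    simp_rw [e1]
    rw [lintegral_mul_const'' _ ?_]
    · rw [← mul_assoc]
      refine mul_le_mul' ?_ le_rfl
      by_cases hxz : x = z
      · have : (‖x - z‖ₑ ^ 3)⁻¹ = ⊤ := by simp [hxz]
        rw [this, ENNReal.mul_top]
        · exact le_top
        · have : 0 < 8 / 3 * r ^ 3 := by positivity
          simpa using this
      · have hρ : 0 < ‖x - z‖ := norm_pos_iff.2 (sub_ne_zero.2 hxz)
        refine (inner_time hρ (by positivity : 0 < 2 * r)).trans (le_of_eq ?_)
        have e2 : (‖x - z‖ₑ ^ 3)⁻¹ = ENNReal.ofReal ((‖x - z‖ ^ 3)⁻¹) := by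
          rw [ENNReal.ofReal_inv_of_pos (by positivity), ENNReal.ofReal_pow (norm_nonneg _),
            ofReal_norm]
        rw [e2, ← ENNReal.ofReal_mul (by positivity)]
        congr 1
        field_simp
        norm_num
    · refine AEMeasurable.mul ?_ ?_
      · fun_prop
      · refine Measurable.aemeasurable (Measurable.ite ?_ measurable_const measurable_const)
        exact measurableSet_lt measurable_const (by fun_prop)
  · rw [indicator_of_notMem hz]
    have : ∀ t, GG g c r x t z = 0 := fun t => GG_not_mem hz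
    simp [this]

theorem kernel_bound {g : E4 → ℝ≥0∞} (hg : Measurable g) (c : E4) {r : ℝ} (hr : 0 < r)
    {x : E4} (hx : x ∈ ball c r) :
    ∫⁻ a in ball c r, ∫⁻ t in Ioo (0:ℝ) 1, g (a + t • (x - a))
      ≤ ENNReal.ofReal (8 / 3 * r ^ 3) * ∫⁻ z in ball c r, (‖x - z‖ₑ ^ 3)⁻¹ * g z := by
  have hmeas : Measurable (Function.uncurry fun (a : E4) (t : ℝ) => g (a + t • (x - a))) := by
    refine hg.comp ?_
    fun_prop
  rw [lintegral_lintegral_swap hmeas.aemeasurable]
  calc ∫⁻ t in Ioo (0:ℝ) 1, ∫⁻ a in ball c r, g (a + t • (x - a))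
      ≤ ∫⁻ t in Ioo (0:ℝ) 1, ∫⁻ z, ENNReal.ofReal ((1 - t)⁻¹ ^ 4) * GG g c r x t z :=
        setLIntegral_mono' measurableSet_Ioo fun t ht => kernel_step hg c hx ht
    _ = ∫⁻ z, ∫⁻ t in Ioo (0:ℝ) 1, ENNReal.ofReal ((1 - t)⁻¹ ^ 4) * GG g c r x t z := by
        rw [lintegral_lintegral_swap]
        refine Measurable.aemeasurable ?_
        refine Measurable.mul ?_ (GG_meas hg c r x)
        fun_prop
    _ ≤ ∫⁻ z, (ball c r).indicator (fun z => ENNReal.ofReal (8 / 3 * r ^ 3) *
          ((‖x - z‖ₑ ^ 3)⁻¹ * g z)) z := lintegral_mono fun z => kernel_inner c hr x z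
    _ = ENNReal.ofReal (8 / 3 * r ^ 3) * ∫⁻ z in ball c r, (‖x - z‖ₑ ^ 3)⁻¹ * g z := by
        rw [lintegral_indicator measurableSet_ball, lintegral_const_mul']
        exact ENNReal.ofReal_ne_top

end

end Crest.Agent.R240.PotPoinc
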