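import Crest.Agent.R240.FrPar
import Crest.Agent.R240.PotPoinc2
import Crest.Agent.R240.En1

/-!
Row 240, Lemma P (helper849): averaged line integrals of a family of closed 1-forms.
-/

set_option autoImplicit false
open scoped ContDiff Topology ENNReal
open MeasureTheory Set Filter Metric Crest.Agent.R240.En

namespace Crest.Agent.R240.Fr

noncomputable section

abbrev oo : WithTop ℕ∞ := ((⊤ : ℕ∞) : WithTop ℕ∞)

instance instHaarProd : (volume : Measure (E4 × ℝ)).IsAddHaarMeasure := by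
  rw [Measure.volume_eq_prod]; infer_instance

/-- indicator of the time interval -/
def kI (z : E4 × ℝ) : ℝ := (Icc (0:ℝ) 1).indicator (fun _ => (1:ℝ)) z.2

theorem kI_meas : Measurable kI :=
  (measurable_const.indicator measurableSet_Icc).comp measurable_snd

theorem kI_locInt : LocallyIntegrable kI (volume : Measure (E4 × ℝ)) := by
  have h1 : LocallyIntegrable (fun _ : E4 × ℝ => (1:ℝ)) := locallyIntegrable_const 1
  refine h1.mono kI_meas.aestronglyMeasurable (Eventually.of_forall fun z => ?_)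
  unfold kI
  by_cases h : z.2 ∈ Icc (0:ℝ) 1 <;> simp [h]

/-- a bump function of time, equal to one on `[0,1]` -/
def tb : ContDiffBump (0 : ℝ) := ⟨1, 2, by norm_num, by norm_num⟩

theorem tb_one {t : ℝ} (ht : t ∈ Icc (0:ℝ) 1) : tb t = 1 := by
  apply tb.one_of_mem_closedBall
  rw [mem_closedBall, dist_zero_right, Real.norm_eq_abs, abs_of_nonneg ht.1]
  exact ht.2

theorem tb_zero {t : ℝ} (ht : t ∉ closedBall (0:ℝ) 2) : tb t = 0 := by
  apply tb.zero_of_le_dist
  rw [mem_closedBall, not_le] at ht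
  exact ht.le

/-- integrand of the averaged line integral -/
def lamG (θ : E4 → ℝ) (D : E4 × E4 → Cov) (q : E4 × E4) (z : E4 × ℝ) : ℝ :=
  θ z.1 * tb z.2 * D (q.1, z.1 + z.2 • (q.2 - z.1)) (q.2 - z.1)

/-- averaged line integral -/
def lam (θ : E4 → ℝ) (D : E4 × E4 → Cov) (q : E4 × E4) : ℝ :=
  ∫ z : E4 × ℝ, kI z • lamG θ D q z

variable {θ : E4 → ℝ} {D : E4 × E4 → Cov}

theorem lamG_smooth (hθ : ContDiff ℝ oo θ) (hD : ContDiff ℝ oo D) :
    ContDiff ℝ oo (fun w : (E4 × E4) × (E4 × ℝ) => lamG θ D w.1 w.2) := by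
  unfold lamG
  have h1 : ContDiff ℝ oo (fun w : (E4 × E4) × (E4 × ℝ) => w.1.2 - w.2.1) := by fun_prop
  have h2 : ContDiff ℝ oo (fun w : (E4 × E4) × (E4 × ℝ) =>
      (w.1.1, w.2.1 + w.2.2 • (w.1.2 - w.2.1))) := by fun_prop
  have h3 : ContDiff ℝ oo (fun w : (E4 × E4) × (E4 × ℝ) => θ w.2.1) :=
    hθ.comp (by fun_prop)
  have h4 : ContDiff ℝ oo (fun w : (E4 × E4) × (E4 × ℝ) => (tb : ℝ → ℝ) w.2.2) :=
    (tb.contDiff).comp (by fun_prop)
  exact (h3.mul h4).mul ((hD.comp h2).clm_apply h1)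

theorem lamG_supp (hθs : HasCompactSupport θ) (q : E4 × E4) (z : E4 × ℝ)
    (hz : z ∉ (tsupport θ) ×ˢ (closedBall (0:ℝ) 2)) : lamG θ D q z = 0 := by
  unfold lamG
  rw [mem_prod, not_and_or] at hz
  rcases hz with h | h
  · rw [image_eq_zero_of_notMem_tsupport h]; simp
  · rw [tb_zero h]; simp

theorem lamG_locSupp (hθs : HasCompactSupport θ) : LocSupp (lamG θ D) := fun q =>
  ⟨univ, isOpen_univ, mem_univ _, (tsupport θ) ×ˢ (closedBall (0:ℝ) 2),
    hθs.isCompact.prod (isCompact_closedBall _ _), fun q _ z hz => lamG_supp hθs q z hz⟩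

theorem lam_smooth (hθ : ContDiff ℝ oo θ) (hθs : HasCompactSupport θ) (hD : ContDiff ℝ oo D) :
    ContDiff ℝ oo (lam θ D) :=
  param_contDiff kI_locInt (lamG_smooth hθ hD) (lamG_locSupp hθs)

theorem lam_fderiv (hθ : ContDiff ℝ oo θ) (hθs : HasCompactSupport θ) (hD : ContDiff ℝ oo D)
    (q h : E4 × E4) :
    fderiv ℝ (lam θ D) q h = ∫ z : E4 × ℝ, kI z * fderiv ℝ (fun q => lamG θ D q z) q h := by
  have hh := param_hasFDerivAt (μ := (volume : Measure (E4 × ℝ))) kI_locInt
    (lamG_smooth hθ hD) (lamG_locSupp hθs) q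
  have h1 : lam θ D = fun q => ∫ z : E4 × ℝ, kI z • lamG θ D q z := rfl
  have hsm : ContDiff ℝ oo (fun w : (E4 × E4) × (E4 × ℝ) =>
      fderiv ℝ (fun q => lamG θ D q w.2) w.1) := by
    have h7 : ContDiff ℝ oo (fun v : ((E4 × E4) × (E4 × ℝ)) × (E4 × E4) =>
        lamG θ D v.2 v.1.2) :=
      (lamG_smooth hθ hD).comp (contDiff_snd.prodMk (contDiff_snd.comp contDiff_fst))
    exact ContDiff.fderiv (f := fun (w : (E4 × E4) × (E4 × ℝ)) (q : E4 × E4) => lamG θ D q w.2)
      (n := oo) (m := oo) h7 contDiff_fst (by simp)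
  have hint : Integrable (fun z => kI z • fderiv ℝ (fun q => lamG θ D q z) q) := by
    refine param_integrable kI_locInt (hsm.continuous.comp (continuous_const.prodMk continuous_id))
      (hθs.isCompact.prod (isCompact_closedBall (0:ℝ) 2)) fun z hz => ?_
    have : (fun q => lamG θ D q z) = fun _ => 0 := by
      funext q'; exact lamG_supp hθs q' z hz
    simp [this]
  rw [h1, hh.fderiv, ContinuousLinearMap.integral_apply hint]
  rfl

/-- closedness of the family in the second variable -/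
def FamCl (D : E4 × E4 → Cov) : Prop :=
  ∀ x0 x u v, fderiv ℝ (fun x => D (x0, x)) x u v = fderiv ℝ (fun x => D (x0, x)) x v u

theorem D_snd_hasFDerivAt (hD : ContDiff ℝ oo D) (x0 x : E4) :
    HasFDerivAt (fun x => D (x0, x)) (fderiv ℝ (fun x => D (x0, x)) x) x := by
  have h1 : ContDiff ℝ oo (fun x => D (x0, x)) := hD.comp (by fun_prop)
  exact ((h1.differentiable (by simp)) x).hasFDerivAt

/-- derivative in the second variable of the integrand -/
theorem lamG_fderiv_snd (hD : ContDiff ℝ oo D) (hθ : ContDiff ℝ oo θ) (hcl : FamCl D)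
    (x0 x h : E4) (z : E4 × ℝ) :
    fderiv ℝ (fun q => lamG θ D q z) (x0, x) (0, h) =
      θ z.1 * tb z.2 * (z.2 * fderiv ℝ (fun x => D (x0, x)) (z.1 + z.2 • (x - z.1)) (x - z.1) h +
        D (x0, z.1 + z.2 • (x - z.1)) h) := by
  -- restrict to the second variable
  have hs : ContDiff ℝ oo (fun q => lamG θ D q z) :=
    (lamG_smooth hθ hD).comp (contDiff_id.prodMk contDiff_const)
  have h1 : HasFDerivAt (fun x : E4 => ((x0, x) : E4 × E4)) (ContinuousLinearMap.inr ℝ E4 E4) x :=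
    hasFDerivAt_prodMk_right x0 x
  have h2 := (((hs.differentiable (by simp)) (x0, x)).hasFDerivAt.comp x h1).fderiv
  have h3 : fderiv ℝ (fun q => lamG θ D q z) (x0, x) (0, h) =
      fderiv ℝ ((fun q => lamG θ D q z) ∘ fun x : E4 => ((x0, x) : E4 × E4)) x h := by
    rw [h2]; simp
  rw [h3]
  have h4 : ((fun q => lamG θ D q z) ∘ fun x : E4 => ((x0, x) : E4 × E4)) =
      fun x => θ z.1 * tb z.2 * (D (x0, z.1 + z.2 • (x - z.1)) (x - z.1)) := rfl
  rw [h4]
  have h5 : HasFDerivAt (fun x : E4 => z.1 + z.2 • (x - z.1))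
      (z.2 • ContinuousLinearMap.id ℝ E4) x :=
    (((hasFDerivAt_id x).sub_const z.1).const_smul z.2).const_add z.1
  have h6 := (D_snd_hasFDerivAt hD x0 (z.1 + z.2 • (x - z.1))).comp x h5
  have h7 := ((h6.clm_apply ((hasFDerivAt_id x).sub_const z.1)).const_mul (θ z.1 * tb z.2)).fderiv
  have h8 : (fun x => θ z.1 * tb z.2 * (D (x0, z.1 + z.2 • (x - z.1)) (x - z.1))) =
    fun x => θ z.1 * tb z.2 *
      (((fun x => D (x0, x)) ∘ fun x : E4 => z.1 + z.2 • (x - z.1)) x (id x - z.1)) := rfl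
  rw [h8, h7]
  simp only [smul_apply, add_apply, smul_eq_mul, ContinuousLinearMap.comp_apply,
    ContinuousLinearMap.flip_apply, Function.comp_apply, ContinuousLinearMap.id_apply, id_eq,
    map_smul]
  rw [hcl x0 _ h (x - z.1)]
  ring

/-- the derivative of `lam` in the second variable is `D`. -/
theorem lam_fderiv_snd (hθ : ContDiff ℝ oo θ) (hθs : HasCompactSupport θ) (hθ1 : ∫ p, θ p = 1)
    (hD : ContDiff ℝ oo D) (hcl : FamCl D) (x0 x h : E4) :
    fderiv ℝ (lam θ D) (x0, x) (0, h) = D (x0, x) h := by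
  rw [lam_fderiv hθ hθs hD]
  -- continuity of the integrand
  set H : E4 × ℝ → ℝ := fun z => θ z.1 * (tb z.2 *
    (z.2 * fderiv ℝ (fun x => D (x0, x)) (z.1 + z.2 • (x - z.1)) (x - z.1) h +
        D (x0, z.1 + z.2 • (x - z.1)) h)) with hH
  have hHe : ∀ z, fderiv ℝ (fun q => lamG θ D q z) (x0, x) (0, h) = H z := by
    intro z; rw [lamG_fderiv_snd hD hθ hcl, hH]; ring
  have hDx : ContDiff ℝ oo (fun x => D (x0, x)) := hD.comp (by fun_prop)
  have hDD : Continuous (fderiv ℝ (fun x => D (x0, x))) :=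
    (hDx.fderiv_right (m := oo) (by simp)).continuous
  have hHc : Continuous H := by
    have c1 : Continuous (fun z : E4 × ℝ => z.1 + z.2 • (x - z.1)) := by fun_prop
    have c2 : Continuous (fun z : E4 × ℝ => x - z.1) := by fun_prop
    have c3 : Continuous (fun z : E4 × ℝ => θ z.1) := hθ.continuous.comp continuous_fst
    have c4 : Continuous (fun z : E4 × ℝ => (tb : ℝ → ℝ) z.2) :=
      (tb.contDiff (n := 0)).continuous.comp continuous_snd
    exact c3.mul (c4.mul ((continuous_snd.mul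
      (((hDD.comp c1).clm_apply c2).clm_apply continuous_const)).add
      ((hDx.continuous.comp c1).clm_apply continuous_const)))
  have hHs : ∀ z, z ∉ (tsupport θ) ×ˢ (closedBall (0:ℝ) 2) → H z = 0 := by
    intro z hz
    rw [mem_prod, not_and_or] at hz
    rcases hz with h | h
    · simp [hH, image_eq_zero_of_notMem_tsupport h]
    · simp [hH, tb_zero h]
  simp_rw [hHe]
  have hint : Integrable (fun z => kI z * H z) := by
    have := param_integrable (μ := (volume : Measure (E4 × ℝ))) kI_locInt hHc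
      (hθs.isCompact.prod (isCompact_closedBall (0:ℝ) 2)) hHs
    simpa using this
  rw [Measure.volume_eq_prod] at hint ⊢
  rw [integral_prod _ hint]
  have hin : ∀ p : E4, ∫ t : ℝ, kI (p, t) * H (p, t) = θ p * D (x0, x) h := by
    intro p
    have e1 : (fun t : ℝ => kI (p, t) * H (p, t)) = (Icc (0:ℝ) 1).indicator (fun t => θ p *
        (t * fderiv ℝ (fun x => D (x0, x)) (p + t • (x - p)) (x - p) h +
          D (x0, p + t • (x - p)) h)) := by
      funext t
      unfold kI
      by_cases ht : t ∈ Icc (0:ℝ) 1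
      · simp [ht, hH, tb_one ht]
      · simp [ht]
    rw [e1, integral_indicator measurableSet_Icc, integral_Icc_eq_integral_Ioc,
      ← intervalIntegral.integral_of_le zero_le_one, intervalIntegral.integral_const_mul]
    congr 1
    -- fundamental theorem of calculus
    have hder : ∀ t ∈ uIcc (0:ℝ) 1, HasDerivAt (fun t : ℝ => t * D (x0, p + t • (x - p)) h)
        (t * fderiv ℝ (fun x => D (x0, x)) (p + t • (x - p)) (x - p) h +
          D (x0, p + t • (x - p)) h) t := by
      intro t _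
      have d1 : HasDerivAt (fun t : ℝ => p + t • (x - p)) (x - p) t := by
        simpa using ((hasDerivAt_id t).smul_const (x - p)).const_add p
      have d2 := (D_snd_hasFDerivAt hD x0 (p + t • (x - p))).comp_hasDerivAt t d1
      have d3 := d2.clm_apply (hasDerivAt_const t h)
      have d4 := (hasDerivAt_id t).mul d3
      refine (d4.congr_deriv ?_)
      simp
      ring
    have hcont : Continuous (fun t : ℝ => t * fderiv ℝ (fun x => D (x0, x)) (p + t • (x - p))
        (x - p) h + D (x0, p + t • (x - p)) h) := by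
      have c1 : Continuous (fun t : ℝ => p + t • (x - p)) := by fun_prop
      exact (continuous_id.mul (((hDD.comp c1).clm_apply continuous_const).clm_apply
        continuous_const)).add ((hDx.continuous.comp c1).clm_apply continuous_const)
    rw [intervalIntegral.integral_eq_sub_of_hasDerivAt hder (hcont.intervalIntegrable _ _)]
    simp
  simp_rw [hin]
  rw [integral_mul_const, hθ1, one_mul]

/-- bound of the derivative in the first variable -/
theorem lam_fderiv_fst_bound (hθ : ContDiff ℝ oo θ) (hD : ContDiff ℝ oo D)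
    {c : E4} {r K : ℝ} (hr : 0 < r) (hK : 0 ≤ K) (hθb : ∀ p, |θ p| ≤ K)
    (hθ0 : ∀ p, p ∉ ball c r → θ p = 0) {x0 x h : E4} (hx : x ∈ ball c r) :
    ‖fderiv ℝ (lam θ D) (x0, x) (h, 0)‖ₑ ≤
      ENNReal.ofReal (K * (2 * r) * (8 / 3 * r ^ 3)) *
        ∫⁻ z in ball c r, (‖x - z‖ₑ ^ 3)⁻¹ * ‖fderiv ℝ (fun x0 => D (x0, z)) x0 h‖ₑ := by
  have hθs : HasCompactSupport θ := by
    refine HasCompactSupport.intro (isCompact_closedBall c r) fun p hp => ?_
    exact hθ0 p fun h => hp (ball_subset_closedBall h)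
  rw [lam_fderiv hθ hθs hD]
  have hG : ∀ z : E4 × ℝ, fderiv ℝ (fun q => lamG θ D q z) (x0, x) (h, 0) =
      θ z.1 * tb z.2 * (fderiv ℝ (fun x0 => D (x0, z.1 + z.2 • (x - z.1))) x0 h (x - z.1)) := by
    intro z
    have hs : ContDiff ℝ oo (fun q => lamG θ D q z) :=
      (lamG_smooth hθ hD).comp (contDiff_id.prodMk contDiff_const)
    have h1 : HasFDerivAt (fun x0 : E4 => ((x0, x) : E4 × E4))
        (ContinuousLinearMap.inl ℝ E4 E4) x0 := hasFDerivAt_prodMk_left x0 x
    have h2 := (((hs.differentiable (by simp)) (x0, x)).hasFDerivAt.comp x0 h1).fderiv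
    have h3 : fderiv ℝ (fun q => lamG θ D q z) (x0, x) (h, 0) =
        fderiv ℝ ((fun q => lamG θ D q z) ∘ fun x0 : E4 => ((x0, x) : E4 × E4)) x0 h := by
      rw [h2]; simp
    rw [h3]
    have h4 : ((fun q => lamG θ D q z) ∘ fun x0 : E4 => ((x0, x) : E4 × E4)) =
        fun x0 => θ z.1 * tb z.2 * (D (x0, z.1 + z.2 • (x - z.1)) (x - z.1)) := rfl
    rw [h4]
    have h5 : ContDiff ℝ oo (fun x0 => D (x0, z.1 + z.2 • (x - z.1))) := hD.comp (by fun_prop)
    have h6 := ((h5.differentiable (by simp)) x0).hasFDerivAt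
    have h7 := ((h6.clm_apply (hasFDerivAt_const (x - z.1) x0)).const_mul
      (θ z.1 * tb z.2)).fderiv
    rw [h7]
    simp
  simp_rw [hG]
  set g : E4 → ℝ≥0∞ := fun z => ‖fderiv ℝ (fun x0 => D (x0, z)) x0 h‖ₑ with hg
  have hgm : Measurable g := by
    have h7 : ContDiff ℝ oo (fun v : E4 × E4 => D (v.2, v.1)) := hD.comp (by fun_prop)
    have h8 : ContDiff ℝ oo (fun z : E4 => fderiv ℝ (fun x0 => D (x0, z)) x0) :=
      ContDiff.fderiv (f := fun (z : E4) (x0 : E4) => D (x0, z)) (g := fun _ => x0)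
        (n := oo) (m := oo) h7 contDiff_const (by simp)
    exact (h8.continuous.clm_apply continuous_const).enorm.measurable
  have hgm2 : Measurable (fun z : E4 × ℝ => g (z.1 + z.2 • (x - z.1))) :=
    hgm.comp (by fun_prop)
  -- pointwise bound
  have hpt : ∀ z : E4 × ℝ, ‖kI z * (θ z.1 * tb z.2 *
      (fderiv ℝ (fun x0 => D (x0, z.1 + z.2 • (x - z.1))) x0 h (x - z.1)))‖ₑ ≤
      ((ball c r) ×ˢ (Icc (0:ℝ) 1)).indicator (fun z => ENNReal.ofReal (K * (2 * r)) *
        g (z.1 + z.2 • (x - z.1))) z := by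
    intro z
    by_cases hz : z ∈ (ball c r) ×ˢ (Icc (0:ℝ) 1)
    · rw [indicator_of_mem hz]
      obtain ⟨hz1, hz2⟩ := hz
      have e1 : kI z = 1 := by simp [kI, hz2]
      rw [e1, one_mul, tb_one hz2, mul_one, enorm_mul]
      have e2 : ‖θ z.1‖ₑ ≤ ENNReal.ofReal K := by
        rw [← ofReal_norm]
        exact ENNReal.ofReal_le_ofReal (hθb _)
      have e3 : ‖fderiv ℝ (fun x0 => D (x0, z.1 + z.2 • (x - z.1))) x0 h (x - z.1)‖ₑ ≤
          g (z.1 + z.2 • (x - z.1)) * ENNReal.ofReal (2 * r) := by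
        refine (ContinuousLinearMap.le_opENorm _ _).trans ?_
        refine mul_le_mul' le_rfl ?_
        rw [← ofReal_norm]
        apply ENNReal.ofReal_le_ofReal
        have := norm_sub_le_of_le (a₁ := x - c) (a₂ := z.1 - c) (r₁ := r) (r₂ := r)
          (by rw [← dist_eq_norm]; exact (mem_ball.1 hx).le)
          (by rw [← dist_eq_norm]; exact (mem_ball.1 hz1).le)
        have e4 : x - z.1 = (x - c) - (z.1 - c) := by abel
        rw [e4]; linarith
      calc ‖θ z.1‖ₑ * ‖fderiv ℝ (fun x0 => D (x0, z.1 + z.2 • (x - z.1))) x0 h (x - z.1)‖ₑ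
          ≤ ENNReal.ofReal K * (g (z.1 + z.2 • (x - z.1)) * ENNReal.ofReal (2 * r)) :=
            mul_le_mul' e2 e3
        _ = _ := by
            rw [ENNReal.ofReal_mul hK]; ring
    · rw [indicator_of_notMem hz]
      have : kI z * (θ z.1 * tb z.2 *
          (fderiv ℝ (fun x0 => D (x0, z.1 + z.2 • (x - z.1))) x0 h (x - z.1))) = 0 := by
        rw [mem_prod, not_and_or] at hz
        rcases hz with h | h
        · simp [hθ0 _ h]
        · simp [kI, h]
      rw [this]; simp
  calc ‖∫ z : E4 × ℝ, kI z * (θ z.1 * tb z.2 *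
      (fderiv ℝ (fun x0 => D (x0, z.1 + z.2 • (x - z.1))) x0 h (x - z.1)))‖ₑ
      ≤ ∫⁻ z : E4 × ℝ, ‖kI z * (θ z.1 * tb z.2 *
      (fderiv ℝ (fun x0 => D (x0, z.1 + z.2 • (x - z.1))) x0 h (x - z.1)))‖ₑ :=
        enorm_integral_le_lintegral_enorm _
    _ ≤ ∫⁻ z : E4 × ℝ, ((ball c r) ×ˢ (Icc (0:ℝ) 1)).indicator
        (fun z => ENNReal.ofReal (K * (2 * r)) * g (z.1 + z.2 • (x - z.1))) z :=
        lintegral_mono hpt
    _ = ∫⁻ a in ball c r, ∫⁻ t in Icc (0:ℝ) 1,
        ENNReal.ofReal (K * (2 * r)) * g (a + t • (x - a)) := by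
        rw [lintegral_indicator (measurableSet_ball.prod measurableSet_Icc),
          Measure.volume_eq_prod, ← Measure.prod_restrict, lintegral_prod]
        exact (measurable_const.mul hgm2).aemeasurable
    _ = ENNReal.ofReal (K * (2 * r)) * ∫⁻ a in ball c r, ∫⁻ t in Ioo (0:ℝ) 1,
          g (a + t • (x - a)) := by
        simp_rw [lintegral_const_mul' _ _ ENNReal.ofReal_ne_top]
        congr 1
        refine lintegral_congr fun a => ?_
        exact setLIntegral_congr Ioo_ae_eq_Icc.symm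
    _ ≤ ENNReal.ofReal (K * (2 * r)) * (ENNReal.ofReal (8 / 3 * r ^ 3) *
          ∫⁻ z in ball c r, (‖x - z‖ₑ ^ 3)⁻¹ * g z) :=
        mul_le_mul' le_rfl (PotPoinc.kernel_bound hgm c hr hx)
    _ = _ := by
        rw [← mul_assoc, ← ENNReal.ofReal_mul (by positivity)]

end

end Crest.Agent.R240.Fr
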