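import Mathlib
import Crest.Agent.R240.Lin1

/-!
Row 240 (S0371), Part P: pointwise algebra of the frozen Kaehler identity.

`E4 = EuclideanSpace ℝ (Fin 4)`, 1-forms are `E4 →L[ℝ] ℝ`, 2-forms are `E4 →L[ℝ] E4 →L[ℝ] ℝ`.
`G i j` is the inverse metric matrix, `J` the (frozen) almost complex structure.
-/

set_option autoImplicit false

namespace Crest.Agent.R240.Pot

open Finset

/-- the 3-form `ξ ∧ A` as a function of three vectors -/
def wed3 (ξ : E4 → ℝ) (A : E4 → E4 → ℝ) (u v w : E4) : ℝ :=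
  ξ u * A v w - ξ v * A u w + ξ w * A u v

/-- trace of a 2-form: `Λ A = 1/2 Σ G^{ij} A(e_i, J e_j)` -/
noncomputable def trJ (G : Fin 4 → Fin 4 → ℝ) (J : E4 → E4) (A : E4 → E4 → ℝ) : ℝ :=
  (1 / 2) * ∑ i, ∑ j, G i j * A (ee i) (J (ee j))

/-- `L τ (w) = 1/2 Σ G^{ij} τ(e_i, J e_j, J w)` -/
noncomputable def Lop (G : Fin 4 → Fin 4 → ℝ) (J : E4 → E4) (τ : E4 → E4 → E4 → ℝ) (w : E4) : ℝ :=
  (1 / 2) * ∑ i, ∑ j, G i j * τ (ee i) (J (ee j)) (J w)

/-- `ξ^# = Σ G^{ij} ξ(e_i) e_j` -/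
noncomputable def sharp (G : Fin 4 → Fin 4 → ℝ) (ξ : E4 → ℝ) : E4 :=
  ∑ i, ∑ j, (G i j * ξ (ee i)) • ee j

/-- contraction `Σ G^{ij} τ_i(e_j, v, w)` of a family of three forms -/
noncomputable def ctr (G : Fin 4 → Fin 4 → ℝ) (τ : Fin 4 → E4 → E4 → E4 → ℝ) (v w : E4) : ℝ :=
  ∑ i, ∑ j, G i j * τ i (ee j) v w

theorem A_sharp (G : Fin 4 → Fin 4 → ℝ) (A : E4 →L[ℝ] E4 →L[ℝ] ℝ) (ξ : E4 → ℝ) (v : E4) :
    A (sharp G ξ) v = ∑ i, ∑ j, G i j * ξ (ee i) * A (ee j) v := by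
  simp [sharp, map_sum]

/-- Key pointwise identity: for a `J`-invariant alternating `A`,
`A(ξ^#, v) = L(ξ ∧ A)(v) - (tr A) ξ(J v)`. -/
theorem key (G : Fin 4 → Fin 4 → ℝ) (hG : ∀ i j, G i j = G j i) (J : E4 →L[ℝ] E4)
    (hGJ : ∀ ξ : E4 →L[ℝ] ℝ, sharp G (fun v => ξ (J v)) = -J (sharp G ξ))
    (A : E4 →L[ℝ] E4 →L[ℝ] ℝ) (hA : ∀ v, A v v = 0) (hAJ : ∀ v w, A (J v) (J w) = A v w)
    (ξ : E4 →L[ℝ] ℝ) (v : E4) :
    A (sharp G ξ) v = Lop G J (wed3 ξ fun a b => A a b) v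
      - trJ G J (fun a b => A a b) * ξ (J v) := by
  have hanti : ∀ a b, A a b = - A b a := by
    intro a b
    have h := hA (a + b)
    simp only [map_add, add_apply, hA] at h
    linarith
  have h1 : ∑ i, ∑ j, G i j * (ξ (ee i) * A (J (ee j)) (J v)) = A (sharp G ξ) v := by
    rw [A_sharp]
    refine Finset.sum_congr rfl fun i _ => Finset.sum_congr rfl fun j _ => ?_
    rw [hAJ]; ring
  have h2 : ∑ i, ∑ j, G i j * (ξ (J (ee j)) * A (ee i) (J v)) = - A (sharp G ξ) v := by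
    have h3 : A (sharp G (fun v => ξ (J v))) (J v) = - A (sharp G ξ) v := by
      rw [hGJ, map_neg, neg_apply, hAJ]
    rw [A_sharp] at h3
    rw [← h3, Finset.sum_comm]
    refine Finset.sum_congr rfl fun i _ => Finset.sum_congr rfl fun j _ => ?_
    rw [hG j i]; ring
  have h4 : Lop G J (wed3 ξ fun a b => A a b) v =
      (1 / 2) * (∑ i, ∑ j, G i j * (ξ (ee i) * A (J (ee j)) (J v))
        - ∑ i, ∑ j, G i j * (ξ (J (ee j)) * A (ee i) (J v))
        + ξ (J v) * ∑ i, ∑ j, G i j * A (ee i) (J (ee j))) := by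
    unfold Lop wed3
    congr 1
    simp only [Finset.mul_sum, ← Finset.sum_sub_distrib, ← Finset.sum_add_distrib]
    refine Finset.sum_congr rfl fun i _ => Finset.sum_congr rfl fun j _ => ?_
    ring
  rw [h4, h1, h2]
  unfold trJ
  ring

/-- Frozen Kaehler identity at the level of a symmetric bilinear form `H` (the Hessian of the
kernel): `(tr_G H) A = (tr A) (dd^c)_H + d(L(dN ∧ A)) + d^*(dN ∧ A)`. -/
theorem frozen (G : Fin 4 → Fin 4 → ℝ) (hG : ∀ i j, G i j = G j i) (J : E4 →L[ℝ] E4)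
    (hGJ : ∀ ξ : E4 →L[ℝ] ℝ, sharp G (fun v => ξ (J v)) = -J (sharp G ξ))
    (A : E4 →L[ℝ] E4 →L[ℝ] ℝ) (hA : ∀ v, A v v = 0) (hAJ : ∀ v w, A (J v) (J w) = A v w)
    (H : E4 →L[ℝ] E4 →L[ℝ] ℝ) (hH : ∀ v w, H v w = H w v) (v w : E4) :
    (∑ i, ∑ j, G i j * H (ee i) (ee j)) * A v w =
      trJ G J (fun a b => A a b) * (H w (J v) - H v (J w))
      + (Lop G J (wed3 (H v) fun a b => A a b) w - Lop G J (wed3 (H w) fun a b => A a b) v)
      + ctr G (fun i => wed3 (H (ee i)) fun a b => A a b) v w := by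
  have k1 := key G hG J hGJ A hA hAJ (H v) w
  have k2 := key G hG J hGJ A hA hAJ (H w) v
  have hanti : ∀ a b, A a b = - A b a := by
    intro a b
    have h := hA (a + b)
    simp only [map_add, add_apply, hA] at h
    linarith
  have h3 : ctr G (fun i => wed3 (H (ee i)) fun a b => A a b) v w =
      (∑ i, ∑ j, G i j * H (ee i) (ee j)) * A v w - A (sharp G (H v)) w
        + A (sharp G (H w)) v := by
    rw [A_sharp, A_sharp, Finset.sum_mul]
    unfold ctr wed3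
    rw [← Finset.sum_sub_distrib, ← Finset.sum_add_distrib]
    refine Finset.sum_congr rfl fun i _ => ?_
    rw [Finset.sum_mul, ← Finset.sum_sub_distrib, ← Finset.sum_add_distrib]
    refine Finset.sum_congr rfl fun j _ => ?_
    rw [hH v (ee i), hH w (ee i)]
    ring
  rw [h3, k1, k2]
  ring

end Crest.Agent.R240.Pot
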