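import Mathlib
import Crest.Agent.R240.Lin1
import Crest.Agent.R240.PotAlg

/-!
Row 240 (S0371), Part P: the metric `g_y(v,w) = F_y(v, J_y w)`, its inverse matrix, its volume.
-/

set_option autoImplicit false
set_option maxSynthPendingDepth 3
open scoped ContDiff

namespace Crest.Agent.R240.Pot

/-- `g(v,w) = F(v, J w)` -/
noncomputable def gm (J : E4 →L[ℝ] E4) (F : Bil) : Bil := (F.flip.comp J).flip

@[simp] lemma gm_apply (J : E4 →L[ℝ] E4) (F : Bil) (v w : E4) : gm J F v w = F v (J w) := rfl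

section pointwise

variable {J : E4 →L[ℝ] E4} {F : Bil}

lemma gm_symm (hJ : ∀ v, J (J v) = -v) (hF : SPos J F) (v w : E4) : gm J F v w = gm J F w v := by
  simp only [gm_apply]
  have h1 := hF.inv v (J w)
  rw [hJ, map_neg] at h1
  rw [← h1, hF.alt.swap, neg_neg]

lemma gm_pos (hF : SPos J F) {v : E4} (hv : v ≠ 0) : 0 < gm J F v v := hF.pos v hv

lemma gm_nonneg (hF : SPos J F) (v : E4) : 0 ≤ gm J F v v := by
  by_cases h : v = 0
  · simp [h]
  · exact (gm_pos hF h).le

lemma gm_inv (hF : SPos J F) (v w : E4) : gm J F (J v) (J w) = gm J F v w := by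
  simp only [gm_apply]; exact hF.inv v (J w)

/-- Gram matrix -/
noncomputable def gM (g : Bil) : Matrix (Fin 4) (Fin 4) ℝ := Matrix.of fun i j => g (ee i) (ee j)

lemma gM_apply (g : Bil) (i j : Fin 4) : gM g i j = g (ee i) (ee j) := rfl

lemma bil_sum (g : Bil) (u v : E4) : g u v = ∑ i, ∑ j, u i * v j * g (ee i) (ee j) :=
  bil_expand g u v

lemma gM_posDef {g : Bil} (hs : ∀ v w, g v w = g w v) (hp : ∀ v, v ≠ 0 → 0 < g v v) :
    (gM g).PosDef := by
  refine Matrix.PosDef.of_dotProduct_mulVec_pos ?_ ?_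
  · ext i j
    simp [gM, Matrix.conjTranspose_apply, hs]
  · intro x hx
    have h1 : dotProduct (star x) ((gM g).mulVec x) =
        g (WithLp.toLp 2 x) (WithLp.toLp 2 x) := by
      rw [bil_sum]
      simp only [dotProduct, Matrix.mulVec, gM, Matrix.of_apply, star_trivial, Finset.mul_sum]
      refine Finset.sum_congr rfl fun i _ => Finset.sum_congr rfl fun j _ => ?_
      ring
    rw [h1]
    refine hp _ ?_
    intro h
    apply hx
    have := congrArg (fun z : E4 => (WithLp.ofLp z)) h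
    simpa using this

lemma gM_det_pos {g : Bil} (hs : ∀ v w, g v w = g w v) (hp : ∀ v, v ≠ 0 → 0 < g v v) :
    0 < (gM g).det := (gM_posDef hs hp).det_pos

/-- inverse metric matrix -/
noncomputable def gI (g : Bil) : Fin 4 → Fin 4 → ℝ := fun i j => (gM g)⁻¹ i j

lemma gI_mul {g : Bil} (hs : ∀ v w, g v w = g w v) (hp : ∀ v, v ≠ 0 → 0 < g v v) (i k : Fin 4) :
    ∑ j, gI g i j * g (ee j) (ee k) = if i = k then 1 else 0 := by
  have hd : IsUnit (gM g).det := (gM_det_pos hs hp).ne'.isUnit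
  have h := Matrix.nonsing_inv_mul (gM g) hd
  have h2 := congrFun (congrFun h i) k
  rw [Matrix.mul_apply, Matrix.one_apply] at h2
  exact h2

lemma gI_symm {g : Bil} (hs : ∀ v w, g v w = g w v) (i j : Fin 4) : gI g i j = gI g j i := by
  have h : (gM g).transpose = gM g := by
    ext a b; simp [gM, hs]
  have h2 : ((gM g)⁻¹).transpose = (gM g)⁻¹ := by
    rw [Matrix.transpose_nonsing_inv, h]
  unfold gI
  conv_lhs => rw [← h2]
  rfl

lemma sharp_gI {g : Bil} (hs : ∀ v w, g v w = g w v) (hp : ∀ v, v ≠ 0 → 0 < g v v)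
    (ξ : E4 →L[ℝ] ℝ) (v : E4) : g (sharp (gI g) ξ) v = ξ v := by
  have h1 : ∀ k, g (sharp (gI g) ξ) (ee k) = ξ (ee k) := by
    intro k
    rw [A_sharp]
    have h2 : ∀ i, ∑ j, gI g i j * ξ (ee i) * g (ee j) (ee k) = ξ (ee i) * (if i = k then 1 else 0) := by
      intro i
      rw [← gI_mul hs hp i k, Finset.mul_sum]
      refine Finset.sum_congr rfl fun j _ => ?_
      ring
    simp only [h2]
    simp
  conv_lhs => rw [sum_ee v]
  conv_rhs => rw [sum_ee v]
  simp only [map_add, map_smul, h1]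

lemma pos_unique {g : Bil} (hp : ∀ v, v ≠ 0 → 0 < g v v) {a b : E4} (h : ∀ v, g a v = g b v) :
    a = b := by
  by_contra hne
  have h1 : a - b ≠ 0 := sub_ne_zero.2 hne
  have h2 := hp _ h1
  have h3 : g (a - b) (a - b) = g a (a - b) - g b (a - b) := by
    rw [show g (a - b) = g a - g b from map_sub g a b]; rfl
  rw [h3, h, sub_self] at h2
  exact lt_irrefl _ h2

/-- compatibility of the inverse metric with `J` -/
theorem sharp_J (hJ : ∀ v, J (J v) = -v) (hF : SPos J F) (ξ : E4 →L[ℝ] ℝ) :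
    sharp (gI (gm J F)) (fun v => ξ (J v)) = -J (sharp (gI (gm J F)) ξ) := by
  have hs := gm_symm hJ hF
  have hp : ∀ v, v ≠ 0 → 0 < gm J F v v := fun v hv => gm_pos hF hv
  refine pos_unique (g := gm J F) hp fun v => ?_
  have h1 : gm J F (sharp (gI (gm J F)) (ξ.comp J)) v = (ξ.comp J) v := sharp_gI hs hp _ v
  have h2 : gm J F (sharp (gI (gm J F)) fun v => ξ (J v)) v = ξ (J v) := h1
  rw [h2, map_neg, neg_apply]
  have h3 : gm J F (J (sharp (gI (gm J F)) ξ)) v = - gm J F (sharp (gI (gm J F)) ξ) (J v) := by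
    have h4 := gm_inv hF (sharp (gI (gm J F)) ξ) (J v)
    rw [hJ, map_neg] at h4
    rw [← h4, neg_neg]
  rw [h3, sharp_gI hs hp, neg_neg]

end pointwise

/-! ### smooth dependence -/

section smooth

variable {J : E4 → E4 →L[ℝ] E4} {F : E4 → Bil}

lemma gm_contDiff (hJ : ContDiff ℝ ∞ J) (hF : ContDiff ℝ ∞ F) :
    ContDiff ℝ ∞ fun y => gm (J y) (F y) := by
  have h1 : ContDiff ℝ ∞ fun y => (F y).flip :=
    (ContinuousLinearMap.flipₗᵢ ℝ E4 E4 ℝ).toContinuousLinearEquiv.contDiff.comp hF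
  have h2 : ContDiff ℝ ∞ fun y => (F y).flip.comp (J y) := h1.clm_comp hJ
  exact (ContinuousLinearMap.flipₗᵢ ℝ E4 E4 ℝ).toContinuousLinearEquiv.contDiff.comp h2

lemma entry_contDiff {g : E4 → Bil} (hg : ContDiff ℝ ∞ g) (v w : E4) :
    ContDiff ℝ ∞ fun y => g y v w :=
  (hg.clm_apply contDiff_const).clm_apply contDiff_const

lemma det_contDiff {M : E4 → Matrix (Fin 4) (Fin 4) ℝ} (hM : ∀ i j, ContDiff ℝ ∞ fun y => M y i j) :
    ContDiff ℝ ∞ fun y => (M y).det := by
  simp only [Matrix.det_apply']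
  refine ContDiff.sum fun σ _ => ?_
  exact contDiff_const.mul (contDiff_prod fun i _ => hM _ _)

lemma gI_contDiff {g : E4 → Bil} (hg : ContDiff ℝ ∞ g) (hs : ∀ y v w, g y v w = g y w v)
    (hp : ∀ y v, v ≠ 0 → 0 < g y v v) (i j : Fin 4) : ContDiff ℝ ∞ fun y => gI (g y) i j := by
  have h1 : ∀ y, gI (g y) i j = ((gM (g y)).det)⁻¹ * ((gM (g y)).updateRow j (Pi.single i 1)).det := by
    intro y
    unfold gI
    rw [Matrix.inv_def, Matrix.smul_apply, Ring.inverse_eq_inv', smul_eq_mul, Matrix.adjugate_apply]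
  simp only [h1]
  have h2 : ContDiff ℝ ∞ fun y => (gM (g y)).det := det_contDiff fun a b => entry_contDiff hg _ _
  refine (h2.inv fun y => (gM_det_pos (hs y) (hp y)).ne').mul (det_contDiff fun a b => ?_)
  by_cases ha : a = j
  · simp only [Matrix.updateRow_apply, ha, if_true]
    exact contDiff_const
  · simp only [Matrix.updateRow_apply, ha, if_false]
    exact entry_contDiff hg _ _

/-- the normalising factor `κ = c0 sqrt(det g)` -/
noncomputable def kap (c0 : ℝ) (g : Bil) : ℝ := c0 * Real.sqrt (gM g).det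

lemma kap_contDiff (c0 : ℝ) {g : E4 → Bil} (hg : ContDiff ℝ ∞ g) (hs : ∀ y v w, g y v w = g y w v)
    (hp : ∀ y v, v ≠ 0 → 0 < g y v v) : ContDiff ℝ ∞ fun y => kap c0 (g y) := by
  have h2 : ContDiff ℝ ∞ fun y => (gM (g y)).det := det_contDiff fun a b => entry_contDiff hg _ _
  exact contDiff_const.mul (h2.sqrt fun y => (gM_det_pos (hs y) (hp y)).ne')

lemma kap_pos {c0 : ℝ} (hc : 0 < c0) {g : Bil} (hs : ∀ v w, g v w = g w v)
    (hp : ∀ v, v ≠ 0 → 0 < g v v) : 0 < kap c0 g :=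
  mul_pos hc (Real.sqrt_pos.2 (gM_det_pos hs hp))

end smooth

end Crest.Agent.R240.Pot
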