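import Crest.Agent.R240.FrOp
import Crest.Agent.R240.En1
import Crest.Agent.R240.PotGeo

/-!
Row 240, Lemma P (helper849): identities at a frozen point.
`gam x0 x (X) = Σ_i D W(f_i)(f_i, X)`, `W = N_{x0} * f`, satisfies `d (gam x0) = f` for every `x0`,
and `gam x0 x (J X) = d(tr W)(X) + 2 Σ_i (N_i * f'')(f_i, J X)`.
-/

set_option autoImplicit false
open scoped ContDiff Topology
open MeasureTheory Set Filter Crest.Agent.R240.En Crest.Agent.R240.Pot

namespace Crest.Agent.R240.Fr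

noncomputable section

variable {F G : Type*} [NormedAddCommGroup F] [NormedSpace ℝ F] [NormedAddCommGroup G]
  [NormedSpace ℝ G]
variable {g : E4 → Bil} {A B : E4 → E4 →L[ℝ] E4}

theorem T_map [CompleteSpace F] [CompleteSpace G] (hAB : Frame g A B) {k : E4 → ℝ}
    (hk : LocallyIntegrable k)
    {f : E4 → F} (hf : Continuous f) (hfs : HasCompactSupport f) (L : F →L[ℝ] G) (x0 x : E4) :
    L (T A k f x0 x) = T A k (fun y => L (f y)) x0 x := by
  unfold T
  rw [← L.integral_comp_comm (T_integrable hAB hk hf hfs x0 x)]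
  simp

theorem T_map_zero [CompleteSpace F] [CompleteSpace G] (hAB : Frame g A B) {k : E4 → ℝ}
    (hk : LocallyIntegrable k)
    {f : E4 → F} (hf : Continuous f) (hfs : HasCompactSupport f) (L : F →L[ℝ] G)
    (h : ∀ y, L (f y) = 0) (x0 x : E4) :
    L (T A k f x0 x) = 0 := by
  rw [T_map hAB hk hf hfs L]
  unfold T
  simp [h]

/-- evaluation at a vector -/
def ap (F : Type*) [NormedAddCommGroup F] [NormedSpace ℝ F] (u : E4) : (E4 →L[ℝ] F) →L[ℝ] F :=
  ContinuousLinearMap.apply ℝ F u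

@[simp] theorem ap_apply (u : E4) (b : E4 →L[ℝ] F) : ap F u b = b u := rfl

/-- cyclic sum -/
def cyc (u v w : E4) : (E4 →L[ℝ] Bil) →L[ℝ] ℝ :=
  (ap ℝ w).comp ((ap Cov v).comp (ap Bil u)) + (ap ℝ u).comp ((ap Cov w).comp (ap Bil v)) +
    (ap ℝ v).comp ((ap Cov u).comp (ap Bil w))

@[simp] theorem cyc_apply (u v w : E4) (b : E4 →L[ℝ] Bil) :
    cyc u v w b = b u v w + b v w u + b w u v := rfl

/-- hypotheses on the form -/
structure Form (f : E4 → Bil) : Prop where
  sm : ContDiff ℝ ∞ f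
  cs : HasCompactSupport f
  alt : ∀ x, Alt (f x)
  cl : ∀ x, Cl f x

variable {f : E4 → Bil}

theorem Form.smD (hf : Form f) : ContDiff ℝ ∞ (fderiv ℝ f) := hf.sm.fderiv_right (by simp)
theorem Form.csD (hf : Form f) : HasCompactSupport (fderiv ℝ f) := hf.cs.fderiv (𝕜 := ℝ)
theorem Form.smD2 (hf : Form f) : ContDiff ℝ ∞ (fderiv ℝ (fderiv ℝ f)) :=
  hf.smD.fderiv_right (by simp)
theorem Form.csD2 (hf : Form f) : HasCompactSupport (fderiv ℝ (fderiv ℝ f)) :=
  hf.csD.fderiv (𝕜 := ℝ)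

theorem Form.diffD (hf : Form f) (x : E4) : DifferentiableAt ℝ (fderiv ℝ f) x :=
  (hf.smD.differentiable (by simp)) x
theorem Form.diff (hf : Form f) (x : E4) : DifferentiableAt ℝ f x :=
  (hf.sm.differentiable (by simp)) x

theorem Form.altD (hf : Form f) (y Z v : E4) : fderiv ℝ f y Z v v = 0 := by
  have h1 := (((hf.diff y).hasFDerivAt.clm_apply (hasFDerivAt_const v y)).clm_apply
    (hasFDerivAt_const v y)).fderiv
  have h2 : (fun y => f y v v) = fun _ => (0 : ℝ) := by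
    funext y; exact hf.alt y v
  rw [h2] at h1
  have h3 := congrArg (fun L : E4 →L[ℝ] ℝ => L Z) h1
  simp at h3
  exact h3.symm

theorem Form.clD (hf : Form f) (y Z u v w : E4) :
    cyc u v w (fderiv ℝ (fderiv ℝ f) y Z) = 0 := by
  have h1 := ((cyc u v w).hasFDerivAt.comp y (hf.diffD y).hasFDerivAt).fderiv
  have h2 : (⇑(cyc u v w) ∘ fderiv ℝ f) = fun _ => (0 : ℝ) := by
    funext y; exact hf.cl y u v w
  rw [h2] at h1
  have h3 := congrArg (fun L : E4 →L[ℝ] ℝ => L Z) h1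
  simpa using h3.symm

theorem Form.symmD (hf : Form f) (y u v : E4) :
    fderiv ℝ (fderiv ℝ f) y u v = fderiv ℝ (fderiv ℝ f) y v u := by
  have h1 : ∀ y, HasFDerivAt f (fderiv ℝ f y) y := fun y => (hf.diff y).hasFDerivAt
  exact second_derivative_symmetric h1 (hf.diffD y).hasFDerivAt u v

theorem locInt_NK : LocallyIntegrable NK := ker_NK.locInt (by norm_num)
theorem locInt_NKi (i : Fin 4) : LocallyIntegrable (NKi i) := (ker_NKi i).locInt le_rfl

/-- `W = N_{x0} * f` -/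
def WW (A : E4 → E4 →L[ℝ] E4) (f : E4 → Bil) (x0 x : E4) : Bil := T A NK f x0 x
/-- first derivative -/
def DW (A : E4 → E4 →L[ℝ] E4) (f : E4 → Bil) (x0 x : E4) : E4 →L[ℝ] Bil :=
  T A NK (fderiv ℝ f) x0 x
/-- second derivative -/
def D2W (A : E4 → E4 →L[ℝ] E4) (f : E4 → Bil) (x0 x : E4) : E4 →L[ℝ] E4 →L[ℝ] Bil :=
  T A NK (fderiv ℝ (fderiv ℝ f)) x0 x

theorem hasFDerivAt_WW (hAB : Frame g A B) (hf : Form f) (x0 x : E4) :
    HasFDerivAt (fun x => WW A f x0 x) (DW A f x0 x) x :=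
  T_hasFDerivAt_snd hAB locInt_NK hf.sm hf.cs x0 x

theorem hasFDerivAt_DW (hAB : Frame g A B) (hf : Form f) (x0 x : E4) :
    HasFDerivAt (fun x => DW A f x0 x) (D2W A f x0 x) x :=
  T_hasFDerivAt_snd hAB locInt_NK hf.smD hf.csD x0 x

theorem DW_cl (hAB : Frame g A B) (hf : Form f) (x0 x u v w : E4) :
    DW A f x0 x u v w + DW A f x0 x v w u + DW A f x0 x w u v = 0 :=
  T_map_zero hAB locInt_NK hf.smD.continuous hf.csD (cyc u v w) (fun y => hf.cl y u v w) x0 x

theorem D2W_cl (hAB : Frame g A B) (hf : Form f) (x0 x Z u v w : E4) :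
    D2W A f x0 x Z u v w + D2W A f x0 x Z v w u + D2W A f x0 x Z w u v = 0 := by
  have h := T_map_zero hAB locInt_NK hf.smD2.continuous hf.csD2
    ((cyc u v w).comp (ap (E4 →L[ℝ] Bil) Z))
    (fun y => by
      rw [ContinuousLinearMap.comp_apply, ap_apply]
      exact hf.clD y Z u v w) x0 x
  rw [ContinuousLinearMap.comp_apply, ap_apply, cyc_apply] at h
  exact h

theorem D2W_symm (hAB : Frame g A B) (hf : Form f) (x0 x u v : E4) :
    D2W A f x0 x u v = D2W A f x0 x v u := by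
  have h := T_map_zero hAB locInt_NK hf.smD2.continuous hf.csD2
    ((ap Bil v).comp (ap _ u) - (ap Bil u).comp (ap _ v))
    (fun y => by simp [hf.symmD y u v]) x0 x
  exact sub_eq_zero.1 h

theorem DW_alt (hAB : Frame g A B) (hf : Form f) (x0 x u v w : E4) :
    DW A f x0 x u v w = - DW A f x0 x u w v := by
  have h := T_map_zero hAB locInt_NK hf.smD.continuous hf.csD
    ((ap ℝ w).comp ((ap Cov v).comp (ap Bil u)) + (ap ℝ v).comp ((ap Cov w).comp (ap Bil u)))
    (fun y => by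
      have h1 := hf.altD y u (v + w)
      have h2 := hf.altD y u v
      have h3 := hf.altD y u w
      simp only [map_add, add_apply] at h1
      simp only [add_apply, ContinuousLinearMap.comp_apply, ap_apply]
      linarith) x0 x
  simp only [add_apply, ContinuousLinearMap.comp_apply, ap_apply] at h
  have h' : DW A f x0 x u v w + DW A f x0 x u w v = 0 := h
  linarith

theorem D2W_alt (hAB : Frame g A B) (hf : Form f) (x0 x Z u v w : E4) :
    D2W A f x0 x Z u v w = - D2W A f x0 x Z u w v := by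
  have key : ∀ y, fderiv ℝ (fderiv ℝ f) y Z u v w + fderiv ℝ (fderiv ℝ f) y Z u w v = 0 := by
    intro y
    let L : (E4 →L[ℝ] Bil) →L[ℝ] ℝ :=
      (ap ℝ w).comp ((ap Cov v).comp (ap Bil u)) + (ap ℝ v).comp ((ap Cov w).comp (ap Bil u))
    have h1 := (L.hasFDerivAt.comp y (hf.diffD y).hasFDerivAt).fderiv
    have h2 : (⇑L ∘ fderiv ℝ f) = fun _ => (0 : ℝ) := by
      funext y
      have h1 := hf.altD y u (v + w)
      have h2 := hf.altD y u v
      have h3 := hf.altD y u w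
      simp only [map_add, add_apply] at h1
      simp only [L, Function.comp_apply, add_apply, ContinuousLinearMap.comp_apply, ap_apply]
      linarith
    rw [h2] at h1
    have h3 := congrArg (fun M : E4 →L[ℝ] ℝ => M Z) h1
    simpa [L] using h3.symm
  have h := T_map_zero hAB locInt_NK hf.smD2.continuous hf.csD2
    (((ap ℝ w).comp ((ap Cov v).comp (ap Bil u))).comp (ap _ Z) +
      ((ap ℝ v).comp ((ap Cov w).comp (ap Bil u))).comp (ap _ Z))
    (fun y => by
      simp only [add_apply, ContinuousLinearMap.comp_apply, ap_apply]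
      exact key y) x0 x
  simp only [add_apply, ContinuousLinearMap.comp_apply, ap_apply] at h
  have h' : D2W A f x0 x Z u v w + D2W A f x0 x Z u w v = 0 := h
  linarith

/-- frame vectors -/
def fr (A : E4 → E4 →L[ℝ] E4) (x0 : E4) (i : Fin 4) : E4 := A x0 (ee i)

/-- the Laplacian of `W` is `f` -/
theorem lap_WW (hAB : Frame g A B) (hf : Form f) (x0 x : E4) :
    ∑ i, D2W A f x0 x (fr A x0 i) (fr A x0 i) = f x := by
  have hfc := T_arg_contDiff_eta (A x0) hf.sm x
  have hfs := T_arg_hasCompactSupport hAB hf.cs x0 x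
  have hN := newton hfc hfs
  have h1 := T_map hAB locInt_NK hf.smD2.continuous hf.csD2
    (∑ i, (ap Bil (fr A x0 i)).comp (ap _ (fr A x0 i))) x0 x
  have h2 : (∑ i, (ap Bil (fr A x0 i)).comp (ap _ (fr A x0 i))) (D2W A f x0 x) =
      ∑ i, D2W A f x0 x (fr A x0 i) (fr A x0 i) := by
    simp
  rw [← h2]
  refine h1.trans ?_
  unfold T
  have h3 : ∀ η, lap (fun η => f (x - A x0 η)) η =
      (∑ i, (ap Bil (fr A x0 i)).comp (ap _ (fr A x0 i)))
        (fderiv ℝ (fderiv ℝ f) (x - A x0 η)) := by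
    intro η
    rw [lap_comp_lin (A x0) hf.sm]
    simp [fr]
  simp_rw [← h3, hN]
  simp

/-- the frozen primitive -/
def gam (A : E4 → E4 →L[ℝ] E4) (f : E4 → Bil) (x0 x : E4) : Cov :=
  ∑ i, DW A f x0 x (fr A x0 i) (fr A x0 i)

theorem hasFDerivAt_gam (hAB : Frame g A B) (hf : Form f) (x0 x : E4) :
    HasFDerivAt (fun x => gam A f x0 x)
      (∑ i, ((ap Cov (fr A x0 i)).comp (ap Bil (fr A x0 i))).comp (D2W A f x0 x)) x := by
  unfold gam
  refine HasFDerivAt.fun_sum fun i _ => ?_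
  exact ((ap Cov (fr A x0 i)).comp (ap Bil (fr A x0 i))).hasFDerivAt.comp x
    (hasFDerivAt_DW hAB hf x0 x)

/-- `d (gam x0) = f` for every frozen point. -/
theorem d1_gam (hAB : Frame g A B) (hf : Form f) (x0 x : E4) :
    d1 (fun x => gam A f x0 x) x = f x := by
  ext X Y
  rw [d1_apply, (hasFDerivAt_gam hAB hf x0 x).fderiv, ← lap_WW hAB hf x0 x]
  simp only [sum_apply, ContinuousLinearMap.comp_apply, ap_apply]
  rw [← Finset.sum_sub_distrib]
  refine Finset.sum_congr rfl fun i _ => ?_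
  set fi := fr A x0 i
  rw [D2W_symm hAB hf x0 x X fi, D2W_symm hAB hf x0 x Y fi]
  have h1 := D2W_cl hAB hf x0 x fi X fi Y
  have h2 := D2W_alt hAB hf x0 x fi fi Y X
  have h3 := D2W_alt hAB hf x0 x fi Y X fi
  linarith

/-! ### the trace -/

/-- trace of a two-form in the frame at `x0` -/
def trf (A J : E4 → E4 →L[ℝ] E4) (x0 : E4) (b : Bil) : ℝ :=
  (1/2 : ℝ) * ∑ i, b (fr A x0 i) (J x0 (fr A x0 i))

/-- `Σ J f_i ⊗ f_i = - Σ f_i ⊗ J f_i` -/
theorem sum_J (hAB : Frame g A B) {J : E4 → E4 →L[ℝ] E4} (x0 : E4)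
    (hJ : ∀ v, J x0 (J x0 v) = -v) (hJg : ∀ u v, g x0 (J x0 u) (J x0 v) = g x0 u v)
    (b : Bil) :
    ∑ i, b (J x0 (fr A x0 i)) (fr A x0 i) = - ∑ i, b (fr A x0 i) (J x0 (fr A x0 i)) := by
  -- matrix of J in the frame
  let m : Fin 4 → Fin 4 → ℝ := fun i j => (B x0 (J x0 (fr A x0 i))) j
  have hexp : ∀ i, J x0 (fr A x0 i) = ∑ j, m i j • fr A x0 j := by
    intro i
    have h1 : A x0 (B x0 (J x0 (fr A x0 i))) = J x0 (fr A x0 i) := hAB.AB _ _
    rw [← h1]
    conv_lhs => rw [sum_ee (B x0 (J x0 (fr A x0 i)))]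
    simp only [map_add, map_smul, Fin.sum_univ_four, m, fr]
  have horth : ∀ i j, g x0 (fr A x0 i) (fr A x0 j) = if i = j then 1 else 0 := by
    intro i j
    unfold fr
    rw [hAB.iso, inner_ee]
    simp [eq_comm]
  have hm : ∀ i j, g x0 (J x0 (fr A x0 i)) (fr A x0 j) = m i j := by
    intro i j
    rw [hexp i, map_sum, sum_apply]
    simp [horth]
  have hm' : ∀ i j, g x0 (fr A x0 i) (J x0 (fr A x0 j)) = m j i := by
    intro i j
    rw [hexp j, map_sum]
    simp [horth]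
  have hanti : ∀ i j, m i j = - m j i := by
    intro i j
    rw [← hm i j]
    have h1 := hJg (fr A x0 i) (J x0 (fr A x0 j))
    rw [hJ, map_neg] at h1
    rw [← hm' i j]
    have h2 : g x0 (J x0 (fr A x0 i)) (fr A x0 j) = -(g x0 (fr A x0 i) (J x0 (fr A x0 j))) := by
      rw [← h1, neg_neg]
    rw [h2]
  have e1 : ∑ i, b (J x0 (fr A x0 i)) (fr A x0 i) = ∑ i, ∑ j, m i j * b (fr A x0 j) (fr A x0 i) := by
    refine Finset.sum_congr rfl fun i _ => ?_
    rw [hexp i, map_sum, sum_apply]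
    simp
  have e2 : ∑ i, b (fr A x0 i) (J x0 (fr A x0 i)) = ∑ i, ∑ j, m i j * b (fr A x0 i) (fr A x0 j) := by
    refine Finset.sum_congr rfl fun i _ => ?_
    rw [hexp i, map_sum]
    simp
  rw [e1, e2, Finset.sum_comm, ← Finset.sum_neg_distrib]
  refine Finset.sum_congr rfl fun i _ => ?_
  rw [← Finset.sum_neg_distrib]
  refine Finset.sum_congr rfl fun j _ => ?_
  rw [hanti j i]; ring

/-- the first order identity -/
theorem gam_J (hAB : Frame g A B) (hf : Form f) {J : E4 → E4 →L[ℝ] E4} (x0 x : E4)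
    (hJ : ∀ v, J x0 (J x0 v) = -v) (hJg : ∀ u v, g x0 (J x0 u) (J x0 v) = g x0 u v) (X : E4) :
    gam A f x0 x (J x0 X) = trf A J x0 (DW A f x0 x X) +
      2 * ∑ i, antip (J x0) (DW A f x0 x (fr A x0 i)) (fr A x0 i) (J x0 X) := by
  have h1 : ∀ i, DW A f x0 x X (fr A x0 i) (J x0 (fr A x0 i)) =
      - DW A f x0 x (fr A x0 i) (J x0 (fr A x0 i)) X + DW A f x0 x (J x0 (fr A x0 i)) (fr A x0 i) X := by
    intro i
    have a1 := DW_cl hAB hf x0 x X (fr A x0 i) (J x0 (fr A x0 i))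
    have a2 := DW_alt hAB hf x0 x (J x0 (fr A x0 i)) X (fr A x0 i)
    linarith
  have h2 : ∑ i, DW A f x0 x (J x0 (fr A x0 i)) (fr A x0 i) X =
      - ∑ i, DW A f x0 x (fr A x0 i) (J x0 (fr A x0 i)) X := by
    have := sum_J hAB x0 hJ hJg ((ContinuousLinearMap.compL ℝ E4 Cov ℝ (ap ℝ X)).comp (DW A f x0 x))
    simpa using this
  have h3 : trf A J x0 (DW A f x0 x X) = - ∑ i, DW A f x0 x (fr A x0 i) (J x0 (fr A x0 i)) X := by
    unfold trf
    simp_rw [h1]
    rw [Finset.sum_add_distrib, h2, Finset.sum_neg_distrib]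
    ring
  have h4 : ∀ i, antip (J x0) (DW A f x0 x (fr A x0 i)) (fr A x0 i) (J x0 X) =
      (DW A f x0 x (fr A x0 i) (fr A x0 i) (J x0 X) +
        DW A f x0 x (fr A x0 i) (J x0 (fr A x0 i)) X) / 2 := by
    intro i
    rw [antip_apply, hJ, map_neg]
    ring
  rw [h3]
  simp_rw [h4]
  unfold gam
  rw [sum_apply, ← Finset.sum_div, Finset.sum_add_distrib]
  ring

/-- first derivatives of `W` in the frame directions as kernel integrals -/
theorem DW_fr (hAB : Frame g A B) (hf : Form f) (x0 x : E4) (i : Fin 4) :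
    DW A f x0 x (fr A x0 i) = T A (NKi i) f x0 x := by
  have h1 := T_clm_apply hAB locInt_NK hf.smD.continuous hf.csD x0 x (fr A x0 i)
  have h2 := T_parts hAB (a := 2) le_rfl ker_NK hf.sm hf.cs x0 x (ee i)
  unfold DW
  rw [h1]
  unfold fr
  rw [h2]
  unfold T
  refine integral_congr_ae ?_
  filter_upwards [ae_ne_zero] with η hη
  simp only [fderiv_NK i hη]

end

end Crest.Agent.R240.Fr
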