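import Crest.Agent.R240.Lin1

/-!
Row 240, Lemma P (helper849): weakly singular kernels on `E4`: local integrability of `‖η‖^{-a}`,
`a ≤ 3`, integration by parts.
-/

set_option autoImplicit false
open scoped ContDiff Topology
open MeasureTheory Set Filter

namespace Crest.Agent.R240.Fr

noncomputable section

theorem integrableOn_ball_inv_pow (a : ℕ) (ha : a ≤ 3) (r : ℝ) :
    IntegrableOn (fun η : E4 => (‖η‖ ^ a)⁻¹) (Metric.ball 0 r) := by
  have h := (integrableOn_fun_norm_addHaar (volume : Measure E4) (f := fun y : ℝ => (y ^ a)⁻¹)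
    (r := r)).2
  apply h
  have hd : Module.finrank ℝ E4 - 1 = 3 := by simp
  rw [hd]
  have h2 : IntegrableOn (fun y : ℝ => y ^ (3 - a)) (Ioo 0 r) :=
    ((continuous_pow _).continuousOn.integrableOn_compact isCompact_Icc).mono_set
      Ioo_subset_Icc_self
  refine h2.congr_fun (fun y hy => ?_) measurableSet_Ioo
  have hy0 : y ≠ 0 := hy.1.ne'
  simp only [smul_eq_mul]
  rw [pow_sub₀ _ hy0 ha]

theorem locInt_inv_pow (a : ℕ) (ha : a ≤ 3) :
    LocallyIntegrable (fun η : E4 => (‖η‖ ^ a)⁻¹) := by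
  intro x
  exact ⟨Metric.ball 0 (‖x‖ + 1), Metric.isOpen_ball.mem_nhds (by simp),
    integrableOn_ball_inv_pow a ha _⟩

theorem ae_ne_zero : ∀ᵐ η : E4, η ≠ 0 := by
  have := (measure_singleton (μ := (volume : Measure E4)) (0 : E4))
  rw [ae_iff]; simpa using this

/-- kernels which are smooth off the origin and bounded by `‖η‖^{-a}` together with their first
derivative. -/
structure Ker (a : ℕ) (C : ℝ) (k : E4 → ℝ) : Prop where
  smooth : ContDiffOn ℝ 1 k {0}ᶜ
  bd : ∀ η : E4, η ≠ 0 → |k η| ≤ C * (‖η‖ ^ a)⁻¹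
  bd' : ∀ η : E4, η ≠ 0 → ‖fderiv ℝ k η‖ ≤ C * (‖η‖ ^ (a + 1))⁻¹

theorem aesm_of_continuousOn {F : Type*} [NormedAddCommGroup F] [SecondCountableTopology F]
    {k : E4 → F}
    (hk : ContinuousOn k {0}ᶜ) : AEStronglyMeasurable k (volume : Measure E4) := by
  have h := hk.aestronglyMeasurable (μ := (volume : Measure E4)) (measurableSet_singleton 0).compl
  rwa [restrict_compl_singleton] at h

theorem locInt_of_bound {k : E4 → ℝ} {a : ℕ} (ha : a ≤ 3) {C : ℝ}
    (hk : AEStronglyMeasurable k (volume : Measure E4))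
    (hb : ∀ η : E4, η ≠ 0 → |k η| ≤ C * (‖η‖ ^ a)⁻¹) : LocallyIntegrable k := by
  have h1 : LocallyIntegrable (fun η : E4 => C * (‖η‖ ^ a)⁻¹) := by
    exact (locInt_inv_pow a ha).smul C
  refine h1.mono hk ?_
  filter_upwards [ae_ne_zero] with η hη
  rw [Real.norm_eq_abs]
  exact (hb η hη).trans (le_abs_self _)

theorem Ker.locInt {a : ℕ} (ha : a ≤ 3) {C : ℝ} {k : E4 → ℝ} (hk : Ker a C k) :
    LocallyIntegrable k :=
  locInt_of_bound ha (aesm_of_continuousOn hk.smooth.continuousOn) hk.bd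

theorem Ker.fderiv_aesm {a : ℕ} {C : ℝ} {k : E4 → ℝ} (hk : Ker a C k) (v : E4) :
    AEStronglyMeasurable (fun η => fderiv ℝ k η v) (volume : Measure E4) := by
  have h1 : ContinuousOn (fun η => fderiv ℝ k η) {0}ᶜ :=
    hk.smooth.continuousOn_fderiv_of_isOpen isOpen_compl_singleton le_rfl
  exact aesm_of_continuousOn (h1.clm_apply continuousOn_const)

theorem Ker.locInt' {a : ℕ} (ha : a + 1 ≤ 3) {C : ℝ} {k : E4 → ℝ} (hk : Ker a C k) (v : E4) :
    LocallyIntegrable (fun η => fderiv ℝ k η v) := by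
  refine locInt_of_bound ha (C := C * ‖v‖) (hk.fderiv_aesm v) fun η hη => ?_
  have h1 := (fderiv ℝ k η).le_opNorm v
  rw [Real.norm_eq_abs] at h1
  calc |fderiv ℝ k η v| ≤ ‖fderiv ℝ k η‖ * ‖v‖ := h1
    _ ≤ (C * (‖η‖ ^ (a + 1))⁻¹) * ‖v‖ := by gcongr; exact hk.bd' η hη
    _ = C * ‖v‖ * (‖η‖ ^ (a + 1))⁻¹ := by ring

/-- a fixed bump function, equal to one on the unit ball, supported in the ball of radius two. -/
def bump : ContDiffBump (0 : E4) := ⟨1, 2, by norm_num, by norm_num⟩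

/-- cutoff near the origin -/
def cut (n : ℕ) (η : E4) : ℝ := 1 - bump (((n : ℝ) + 1) • η)

theorem cut_contDiff (n : ℕ) : ContDiff ℝ ∞ (cut n) := by
  unfold cut
  exact contDiff_const.sub (bump.contDiff.comp (contDiff_const_smul _))

theorem cut_eq_zero {n : ℕ} {η : E4} (h : ((n : ℝ) + 1) * ‖η‖ ≤ 1) : cut n η = 0 := by
  unfold cut
  rw [bump.one_of_mem_closedBall]
  · simp
  · rw [Metric.mem_closedBall, dist_zero_right, norm_smul, Real.norm_of_nonneg (by positivity)]
    exact h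

theorem cut_eq_one {n : ℕ} {η : E4} (h : 2 ≤ ((n : ℝ) + 1) * ‖η‖) : cut n η = 1 := by
  unfold cut
  rw [bump.zero_of_le_dist]
  · simp
  · rw [dist_zero_right, norm_smul, Real.norm_of_nonneg (by positivity)]
    exact h

theorem cut_abs_le (n : ℕ) (η : E4) : |cut n η| ≤ 1 := by
  unfold cut
  have h1 := bump.nonneg (x := (((n : ℝ) + 1) • η))
  have h2 := bump.le_one (x := (((n : ℝ) + 1) • η))
  rw [abs_le]; constructor <;> linarith

theorem exists_bump_bound : ∃ C, 0 ≤ C ∧ ∀ η : E4, ‖fderiv ℝ bump η‖ ≤ C := by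
  have h1 : HasCompactSupport (fderiv ℝ (bump : E4 → ℝ)) := bump.hasCompactSupport.fderiv (𝕜 := ℝ)
  have h2 : Continuous (fderiv ℝ (bump : E4 → ℝ)) :=
    (bump.contDiff (n := 1)).continuous_fderiv (by simp)
  obtain ⟨C, hC⟩ := h1.exists_bound_of_continuous h2
  exact ⟨C, (norm_nonneg _).trans (hC 0), hC⟩

theorem fderiv_cut (n : ℕ) (η : E4) :
    fderiv ℝ (cut n) η = -(((n : ℝ) + 1) • fderiv ℝ bump (((n : ℝ) + 1) • η)) := by
  have hb : DifferentiableAt ℝ (bump : E4 → ℝ) (((n : ℝ) + 1) • η) :=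
    ((bump.contDiff (n := 1)).differentiable (by simp)).differentiableAt
  have h1 : HasFDerivAt (fun η : E4 => bump (((n : ℝ) + 1) • η))
      ((fderiv ℝ bump (((n : ℝ) + 1) • η)).comp (((n : ℝ) + 1) • ContinuousLinearMap.id ℝ E4)) η :=
    hb.hasFDerivAt.comp η ((hasFDerivAt_id η).const_smul ((n : ℝ) + 1))
  have h2 := h1.const_sub 1
  rw [show cut n = fun η : E4 => 1 - bump (((n : ℝ) + 1) • η) from rfl, h2.fderiv]
  ext v
  simp

/-- `‖D cut n‖ ≤ C ‖η‖^{-1}` -/
theorem exists_fderiv_cut_bound : ∃ C, 0 ≤ C ∧ ∀ (n : ℕ) (η : E4), η ≠ 0 →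
    ‖fderiv ℝ (cut n) η‖ ≤ C * ‖η‖⁻¹ := by
  obtain ⟨C, hC0, hC⟩ := exists_bump_bound
  refine ⟨2 * C, by positivity, fun n η hη => ?_⟩
  have hη' : 0 < ‖η‖ := norm_pos_iff.2 hη
  by_cases h : 2 < ((n : ℝ) + 1) * ‖η‖
  · have h1 : cut n =ᶠ[𝓝 η] fun _ => (1 : ℝ) := by
      have : ∀ᶠ η' in 𝓝 η, 2 < ((n : ℝ) + 1) * ‖η'‖ :=
        (continuous_const.mul continuous_norm).continuousAt.eventually (lt_mem_nhds h)
      filter_upwards [this] with η' h'
      exact cut_eq_one h'.le
    rw [h1.fderiv_eq]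
    simp only [fderiv_fun_const, Pi.zero_apply, norm_zero]
    positivity
  · push Not at h
    rw [fderiv_cut, norm_neg, norm_smul, Real.norm_of_nonneg (by positivity)]
    have h2 : ((n : ℝ) + 1) ≤ 2 * ‖η‖⁻¹ := by
      rw [← div_eq_mul_inv, le_div_iff₀ hη']; exact h
    calc ((n : ℝ) + 1) * ‖fderiv ℝ bump (((n : ℝ) + 1) • η)‖ ≤ (2 * ‖η‖⁻¹) * C := by
          gcongr; exact hC _
      _ = 2 * C * ‖η‖⁻¹ := by ring

variable {F : Type*} [NormedAddCommGroup F] [NormedSpace ℝ F]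

/-- integration by parts for weakly singular kernels -/
theorem Ker.ibp {a : ℕ} (ha : a + 1 ≤ 3) {C : ℝ} {k : E4 → ℝ} (hk : Ker a C k) {f : E4 → F}
    (hf : ContDiff ℝ 1 f) (hfs : HasCompactSupport f) (v : E4) :
    ∫ η, k η • fderiv ℝ f η v = - ∫ η, fderiv ℝ k η v • f η := by
  classical
  have hC0 : 0 ≤ C := by
    have h1 := hk.bd (ee 0) (by
      intro h
      have := congrArg (fun w : E4 => w 0) h
      simp at this)
    have h2 : (0 : ℝ) ≤ C * (‖ee 0‖ ^ a)⁻¹ := (abs_nonneg _).trans h1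
    have h3 : 0 < (‖ee 0‖ ^ a)⁻¹ := by
      have : 0 < ‖ee 0‖ := by simp [ee]
      positivity
    exact nonneg_of_mul_nonneg_left h2 h3
  obtain ⟨B, hB0, hB⟩ := exists_fderiv_cut_bound
  have hfc : Continuous (fun η => fderiv ℝ f η v) := (hf.continuous_fderiv (by simp)).clm_apply
    continuous_const
  have hfcs : HasCompactSupport (fun η => fderiv ℝ f η v) := hfs.fderiv_apply (𝕜 := ℝ) v
  have hkLI := hk.locInt (by omega)
  have hkLI' := hk.locInt' ha v
  -- the smooth kernels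
  let kn : ℕ → E4 → ℝ := fun n η => cut n η * k η
  have hkn0 : ∀ η, η ≠ 0 → DifferentiableAt ℝ k η := fun η hη =>
    (hk.smooth.differentiableOn (by simp)).differentiableAt (isOpen_compl_singleton.mem_nhds hη)
  have hknd : ∀ n η, η ≠ 0 → fderiv ℝ (kn n) η v =
      cut n η * fderiv ℝ k η v + fderiv ℝ (cut n) η v * k η := by
    intro n η hη
    have h1 : DifferentiableAt ℝ (cut n) η :=
      ((cut_contDiff n).differentiable (by simp)).differentiableAt
    have := (h1.hasFDerivAt.mul (hkn0 η hη).hasFDerivAt).fderiv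
    change fderiv ℝ (cut n * k) η v = _
    rw [this]
    simp; ring
  have hkz : ∀ n, kn n =ᶠ[𝓝 0] fun _ => (0 : ℝ) := by
    intro n
    have : Metric.ball (0 : E4) (((n : ℝ) + 1)⁻¹) ∈ 𝓝 (0 : E4) :=
      Metric.ball_mem_nhds _ (by positivity)
    filter_upwards [this] with η hη
    have h1 : ((n : ℝ) + 1) * ‖η‖ ≤ 1 := by
      rw [Metric.mem_ball, dist_zero_right] at hη
      have hp : (0 : ℝ) < (n : ℝ) + 1 := by positivity
      calc ((n : ℝ) + 1) * ‖η‖ ≤ ((n : ℝ) + 1) * ((n : ℝ) + 1)⁻¹ := by gcongr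
        _ = 1 := mul_inv_cancel₀ hp.ne'
    simp [kn, cut_eq_zero h1]
  have hkdiff : ∀ n, Differentiable ℝ (kn n) := by
    intro n η
    by_cases hη : η = 0
    · subst hη
      exact (differentiableAt_const (0 : ℝ)).congr_of_eventuallyEq (hkz n)
    · exact ((cut_contDiff n).differentiable (by simp)).differentiableAt.mul (hkn0 η hη)
  have hknb : ∀ n η, η ≠ 0 → |kn n η| ≤ C * (‖η‖ ^ a)⁻¹ := by
    intro n η hη
    simp only [kn, abs_mul]
    calc |cut n η| * |k η| ≤ 1 * (C * (‖η‖ ^ a)⁻¹) := by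
          gcongr
          · exact cut_abs_le n η
          · exact hk.bd η hη
      _ = _ := by ring
  have hknb' : ∀ n η, η ≠ 0 → |fderiv ℝ (kn n) η v| ≤ ((1 + B) * C * ‖v‖) * (‖η‖ ^ (a + 1))⁻¹ := by
    intro n η hη
    have hη' : 0 < ‖η‖ := norm_pos_iff.2 hη
    rw [hknd n η hη]
    have h1 : |fderiv ℝ k η v| ≤ (C * (‖η‖ ^ (a + 1))⁻¹) * ‖v‖ := by
      have := (fderiv ℝ k η).le_opNorm v
      rw [Real.norm_eq_abs] at this
      exact this.trans (by gcongr; exact hk.bd' η hη)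
    have h2 : |fderiv ℝ (cut n) η v| ≤ (B * ‖η‖⁻¹) * ‖v‖ := by
      have := (fderiv ℝ (cut n) η).le_opNorm v
      rw [Real.norm_eq_abs] at this
      exact this.trans (by gcongr; exact hB n η hη)
    calc |cut n η * fderiv ℝ k η v + fderiv ℝ (cut n) η v * k η|
        ≤ |cut n η| * |fderiv ℝ k η v| + |fderiv ℝ (cut n) η v| * |k η| := by
          rw [← abs_mul, ← abs_mul]; exact abs_add_le _ _
      _ ≤ 1 * ((C * (‖η‖ ^ (a + 1))⁻¹) * ‖v‖) + ((B * ‖η‖⁻¹) * ‖v‖) * (C * (‖η‖ ^ a)⁻¹) := by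
          gcongr
          · exact cut_abs_le n η
          · exact hk.bd η hη
      _ = ((1 + B) * C * ‖v‖) * (‖η‖ ^ (a + 1))⁻¹ := by
          rw [pow_succ]; field_simp
  have hknm : ∀ n, AEStronglyMeasurable (fun η => fderiv ℝ (kn n) η v) (volume : Measure E4) := by
    intro n
    exact ((measurable_fderiv_apply_const ℝ (kn n) v)).aestronglyMeasurable
  have hknLI : ∀ n, LocallyIntegrable (kn n) := fun n =>
    locInt_of_bound (by omega) (hkdiff n).continuous.aestronglyMeasurable (hknb n)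
  have hknLI' : ∀ n, LocallyIntegrable (fun η => fderiv ℝ (kn n) η v) := fun n =>
    locInt_of_bound ha (hknm n) (hknb' n)
  have hparts : ∀ n, ∫ η, kn n η • fderiv ℝ f η v = - ∫ η, fderiv ℝ (kn n) η v • f η := by
    intro n
    refine integral_smul_fderiv_eq_neg_fderiv_smul_of_integrable ?_ ?_ ?_
      (fun x _ => (hkdiff n) x) (fun x _ => (hf.differentiable (by simp)) x)
    · exact (hknLI' n).integrable_smul_right_of_hasCompactSupport hf.continuous hfs
    · exact (hknLI n).integrable_smul_right_of_hasCompactSupport hfc hfcs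
    · exact (hknLI n).integrable_smul_right_of_hasCompactSupport hf.continuous hfs
  -- pointwise limits
  have hlim : ∀ η : E4, η ≠ 0 → ∀ᶠ n : ℕ in atTop, kn n =ᶠ[𝓝 η] k := by
    intro η hη
    have hη' : 0 < ‖η‖ := norm_pos_iff.2 hη
    obtain ⟨N, hN⟩ := exists_nat_gt (2 / ‖η‖)
    filter_upwards [eventually_ge_atTop N] with n hn
    have h2 : 2 < ((n : ℝ) + 1) * ‖η‖ := by
      have : (N : ℝ) ≤ n := by exact_mod_cast hn
      rw [div_lt_iff₀ hη'] at hN
      nlinarith
    have : ∀ᶠ η' in 𝓝 η, 2 < ((n : ℝ) + 1) * ‖η'‖ :=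
      (continuous_const.mul continuous_norm).continuousAt.eventually (lt_mem_nhds h2)
    filter_upwards [this] with η' h'
    simp [kn, cut_eq_one h'.le]
  have hL : Tendsto (fun n => ∫ η, kn n η • fderiv ℝ f η v) atTop
      (𝓝 (∫ η, k η • fderiv ℝ f η v)) := by
    refine tendsto_integral_of_dominated_convergence
      (fun η => ‖(C * (‖η‖ ^ a)⁻¹) • ‖fderiv ℝ f η v‖‖) ?_ ?_ ?_ ?_
    · intro n
      exact ((hknLI n).integrable_smul_right_of_hasCompactSupport hfc hfcs).aestronglyMeasurable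
    · have h1 : LocallyIntegrable (fun η : E4 => C * (‖η‖ ^ a)⁻¹) := by
        exact (locInt_inv_pow a (by omega)).smul C
      exact (h1.integrable_smul_right_of_hasCompactSupport hfc.norm hfcs.norm).norm
    · intro n
      filter_upwards [ae_ne_zero] with η hη
      rw [norm_smul, norm_smul, norm_norm]
      gcongr
      rw [Real.norm_eq_abs]
      exact (hknb n η hη).trans (le_abs_self _)
    · filter_upwards [ae_ne_zero] with η hη
      refine Tendsto.smul_const ?_ _
      refine tendsto_const_nhds.congr' ?_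
      filter_upwards [hlim η hη] with n hn
      exact hn.self_of_nhds.symm
  have hR : Tendsto (fun n => ∫ η, fderiv ℝ (kn n) η v • f η) atTop
      (𝓝 (∫ η, fderiv ℝ k η v • f η)) := by
    refine tendsto_integral_of_dominated_convergence
      (fun η => ‖(((1 + B) * C * ‖v‖) * (‖η‖ ^ (a + 1))⁻¹) • ‖f η‖‖) ?_ ?_ ?_ ?_
    · intro n
      exact ((hknLI' n).integrable_smul_right_of_hasCompactSupport
        hf.continuous hfs).aestronglyMeasurable
    · have h1 : LocallyIntegrable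
          (fun η : E4 => ((1 + B) * C * ‖v‖) * (‖η‖ ^ (a + 1))⁻¹) := by
        exact (locInt_inv_pow (a + 1) ha).smul ((1 + B) * C * ‖v‖)
      exact (h1.integrable_smul_right_of_hasCompactSupport hf.continuous.norm hfs.norm).norm
    · intro n
      filter_upwards [ae_ne_zero] with η hη
      rw [norm_smul, norm_smul, norm_norm]
      gcongr
      rw [Real.norm_eq_abs]
      exact (hknb' n η hη).trans (le_abs_self _)
    · filter_upwards [ae_ne_zero] with η hη
      refine Tendsto.smul_const ?_ _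
      refine tendsto_const_nhds.congr' ?_
      filter_upwards [hlim η hη] with n hn
      rw [hn.fderiv_eq]
  refine tendsto_nhds_unique hL ?_
  simp_rw [hparts]
  exact hR.neg

end

end Crest.Agent.R240.Fr
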