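import Crest.Agent.R240.FrKer

/-!
Row 240, Lemma P (helper849): the Newton kernel on `E4`.
-/

set_option autoImplicit false
open scoped ContDiff Topology
open MeasureTheory Set Filter

namespace Crest.Agent.R240.Fr

noncomputable section

variable {F : Type*} [NormedAddCommGroup F] [NormedSpace ℝ F]

theorem norm_sq_sum (η : E4) : ‖η‖ ^ 2 = ∑ i, (η i) ^ 2 := EuclideanSpace.real_norm_sq_eq η

theorem sreg_pos {e : ℝ} (he : 0 < e) (η : E4) : 0 < ‖η‖ ^ 2 + e ^ 2 := by positivity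

/-- regularised Newton kernel (up to the constant) -/
def Jr (e : ℝ) (η : E4) : ℝ := (‖η‖ ^ 2 + e ^ 2)⁻¹

/-- its derivative in the direction `i` -/
def J1 (i : Fin 4) (e : ℝ) (η : E4) : ℝ := -2 * η i * ((‖η‖ ^ 2 + e ^ 2) ^ 2)⁻¹

theorem hasFDerivAt_sreg (e : ℝ) (η : E4) :
    HasFDerivAt (fun η : E4 => ‖η‖ ^ 2 + e ^ 2) (2 • innerSL ℝ η) η :=
  (hasStrictFDerivAt_norm_sq η).hasFDerivAt.add_const _

theorem inner_ee (η : E4) (i : Fin 4) : inner ℝ η (ee i) = η i := by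
  simp [ee, EuclideanSpace.inner_single_right]

theorem contDiff_sreg (e : ℝ) : ContDiff ℝ ∞ (fun η : E4 => ‖η‖ ^ 2 + e ^ 2) :=
  (contDiff_norm_sq ℝ).add contDiff_const

theorem contDiff_Jr {e : ℝ} (he : 0 < e) : ContDiff ℝ ∞ (Jr e) :=
  (contDiff_sreg e).inv fun η => (sreg_pos he η).ne'

theorem contDiff_coord (i : Fin 4) : ContDiff ℝ ∞ (fun η : E4 => η i) :=
  (EuclideanSpace.proj (𝕜 := ℝ) i : E4 →L[ℝ] ℝ).contDiff

theorem contDiff_J1 {e : ℝ} (he : 0 < e) (i : Fin 4) : ContDiff ℝ ∞ (J1 i e) :=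
  (contDiff_const.mul (contDiff_coord i)).mul
    (((contDiff_sreg e).pow 2).inv fun η => (pow_pos (sreg_pos he η) 2).ne')

theorem fderiv_Jr {e : ℝ} (he : 0 < e) (i : Fin 4) (η : E4) :
    fderiv ℝ (Jr e) η (ee i) = J1 i e η := by
  have h := ((hasDerivAt_inv (sreg_pos he η).ne').comp_hasFDerivAt η
    (hasFDerivAt_sreg e η)).fderiv
  have h2 : Jr e = Inv.inv ∘ (fun η : E4 => ‖η‖ ^ 2 + e ^ 2) := rfl
  rw [h2, h]
  simp only [smul_apply, J1,
    innerSL_apply_apply, inner_ee, smul_eq_mul, nsmul_eq_mul]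
  push_cast
  ring

theorem fderiv_J1 {e : ℝ} (he : 0 < e) (i : Fin 4) (η : E4) :
    fderiv ℝ (J1 i e) η (ee i) =
      -2 * ((‖η‖ ^ 2 + e ^ 2) ^ 2)⁻¹ + 8 * (η i) ^ 2 * ((‖η‖ ^ 2 + e ^ 2) ^ 3)⁻¹ := by
  have hs := sreg_pos he η
  have h1 : HasFDerivAt (fun η : E4 => η i) (EuclideanSpace.proj (𝕜 := ℝ) i : E4 →L[ℝ] ℝ) η :=
    (EuclideanSpace.proj (𝕜 := ℝ) i : E4 →L[ℝ] ℝ).hasFDerivAt
  have h2 := (hasDerivAt_inv (pow_pos hs 2).ne').comp_hasFDerivAt η
    ((hasFDerivAt_sreg e η).pow 2)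
  have h3 := ((h1.const_mul (-2)).mul h2).fderiv
  have h4 : J1 i e = (fun η : E4 => -2 * η i) *
      (Inv.inv ∘ (fun η : E4 => (‖η‖ ^ 2 + e ^ 2) ^ 2)) := by
    ext η; simp [J1]
  have h5 : (EuclideanSpace.proj (𝕜 := ℝ) i : E4 →L[ℝ] ℝ) (ee i) = 1 := by simp
  rw [h4, h3]
  simp only [add_apply, smul_apply, smul_eq_mul,
    innerSL_apply_apply, inner_ee, nsmul_eq_mul, Function.comp_apply, h5]
  push_cast
  field_simp
  ring

theorem sum_fderiv_J1 {e : ℝ} (he : 0 < e) (η : E4) :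
    ∑ i, fderiv ℝ (J1 i e) η (ee i) = -(8 * e ^ 2 * ((‖η‖ ^ 2 + e ^ 2) ^ 3)⁻¹) := by
  have hs := sreg_pos he η
  simp_rw [fderiv_J1 he]
  have h0 := norm_sq_sum η
  rw [Fin.sum_univ_four] at h0 ⊢
  have h1 : ∀ t : ℝ, t = ‖η‖ ^ 2 + e ^ 2 → 0 < t →
      (-2 * (t ^ 2)⁻¹ + 8 * η.ofLp 0 ^ 2 * (t ^ 3)⁻¹ + (-2 * (t ^ 2)⁻¹ + 8 * η.ofLp 1 ^ 2 * (t ^ 3)⁻¹)
      + (-2 * (t ^ 2)⁻¹ + 8 * η.ofLp 2 ^ 2 * (t ^ 3)⁻¹)
      + (-2 * (t ^ 2)⁻¹ + 8 * η.ofLp 3 ^ 2 * (t ^ 3)⁻¹)) = -(8 * e ^ 2 * (t ^ 3)⁻¹) := by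
    intro t ht ht0
    have h2 : η.ofLp 0 ^ 2 + η.ofLp 1 ^ 2 + η.ofLp 2 ^ 2 + η.ofLp 3 ^ 2 = t - e ^ 2 := by
      rw [ht, h0]; ring
    field_simp
    linear_combination 8 * h2
  exact h1 _ rfl hs

/-- the Laplacian -/
def lap (f : E4 → F) (η : E4) : F := ∑ i, fderiv ℝ (fun z => fderiv ℝ f z (ee i)) η (ee i)

theorem fderiv_apply_contDiff {f : E4 → F} (hf : ContDiff ℝ ∞ f) (v : E4) :
    ContDiff ℝ ∞ (fun z => fderiv ℝ f z v) :=
  (hf.fderiv_right (m := ∞) (by simp)).clm_apply contDiff_const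

theorem parts_reg {e : ℝ} (he : 0 < e) {f : E4 → F} (hf : ContDiff ℝ ∞ f)
    (hfs : HasCompactSupport f) :
    ∫ η, Jr e η • lap f η = - ∫ η, (8 * e ^ 2 * ((‖η‖ ^ 2 + e ^ 2) ^ 3)⁻¹) • f η := by
  have hJ := contDiff_Jr he
  have hfi : ∀ i, ContDiff ℝ ∞ (fun z => fderiv ℝ f z (ee i)) := fun i => fderiv_apply_contDiff hf _
  have hfis : ∀ i, HasCompactSupport (fun z => fderiv ℝ f z (ee i)) := fun i =>
    hfs.fderiv_apply (𝕜 := ℝ) _
  have hfii : ∀ i, Continuous (fun η => fderiv ℝ (fun z => fderiv ℝ f z (ee i)) η (ee i)) := fun i =>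
    (fderiv_apply_contDiff (hfi i) _).continuous
  have hfiis : ∀ i, HasCompactSupport
    (fun η => fderiv ℝ (fun z => fderiv ℝ f z (ee i)) η (ee i)) := fun i =>
    (hfis i).fderiv_apply (𝕜 := ℝ) _
  have hint : ∀ {k : E4 → ℝ} {g : E4 → F}, Continuous k → Continuous g → HasCompactSupport g →
      Integrable (fun η => k η • g η) := fun hk hg hgs =>
    (hk.smul hg).integrable_of_hasCompactSupport (hgs.smul_left)
  have h1 : ∀ i, ∫ η, Jr e η • fderiv ℝ (fun z => fderiv ℝ f z (ee i)) η (ee i) =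
      ∫ η, (fderiv ℝ (J1 i e) η (ee i)) • f η := by
    intro i
    have hJ1 := contDiff_J1 he i
    rw [integral_smul_fderiv_eq_neg_fderiv_smul_of_integrable]
    · simp_rw [fderiv_Jr he]
      rw [integral_smul_fderiv_eq_neg_fderiv_smul_of_integrable, neg_neg]
      · exact hint (fderiv_apply_contDiff hJ1 _).continuous hf.continuous hfs
      · exact hint hJ1.continuous (hfi i).continuous (hfis i)
      · exact hint hJ1.continuous hf.continuous hfs
      · exact fun x _ => (hJ1.differentiable (by simp)) x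
      · exact fun x _ => (hf.differentiable (by simp)) x
    · exact hint (fderiv_apply_contDiff hJ _).continuous (hfi i).continuous (hfis i)
    · exact hint hJ.continuous (hfii i) (hfiis i)
    · exact hint hJ.continuous (hfi i).continuous (hfis i)
    · exact fun x _ => (hJ.differentiable (by simp)) x
    · exact fun x _ => ((hfi i).differentiable (by simp)) x
  unfold lap
  simp_rw [Finset.smul_sum]
  rw [integral_finsetSum _ (fun i _ => hint hJ.continuous (hfii i) (hfiis i))]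
  simp_rw [h1]
  rw [← integral_finsetSum _ (fun i _ => hint
    (fderiv_apply_contDiff (contDiff_J1 he i) _).continuous hf.continuous hfs)]
  simp_rw [← Finset.sum_smul, sum_fderiv_J1 he, neg_smul]
  rw [integral_neg]

theorem scale_reg {e : ℝ} (he : 0 < e) (f : E4 → F) :
    ∫ η, (8 * e ^ 2 * ((‖η‖ ^ 2 + e ^ 2) ^ 3)⁻¹) • f η =
      ∫ ζ : E4, (8 * ((‖ζ‖ ^ 2 + 1) ^ 3)⁻¹) • f (e • ζ) := by
  have h := Measure.integral_comp_smul (volume : Measure E4)
    (fun η : E4 => (8 * e ^ 2 * ((‖η‖ ^ 2 + e ^ 2) ^ 3)⁻¹) • f η) e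
  have hd : Module.finrank ℝ E4 = 4 := by simp
  rw [hd] at h
  have h2 : ∫ η, (8 * e ^ 2 * ((‖η‖ ^ 2 + e ^ 2) ^ 3)⁻¹) • f η =
      (e ^ 4) • ∫ x : E4, (8 * e ^ 2 * ((‖e • x‖ ^ 2 + e ^ 2) ^ 3)⁻¹) • f (e • x) := by
    rw [h, smul_smul, abs_of_pos (by positivity), mul_inv_cancel₀ (by positivity), one_smul]
  rw [h2, ← integral_smul]
  refine integral_congr_ae (Eventually.of_forall fun x => ?_)
  simp only [smul_smul, norm_smul, Real.norm_of_nonneg he.le]
  congr 1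
  have : 0 < ‖x‖ ^ 2 + 1 := by positivity
  field_simp

theorem integrable_I3 : Integrable (fun ζ : E4 => ((‖ζ‖ ^ 2 + 1) ^ 3)⁻¹) := by
  have h := integrable_rpow_neg_one_add_norm_sq (E := E4) (r := 6) (μ := volume) (by
    simp; norm_num)
  refine h.congr (Eventually.of_forall fun x => ?_)
  have hp : 0 < ‖x‖ ^ 2 + 1 := by positivity
  change (1 + ‖x‖ ^ 2) ^ (-(6 : ℝ) / 2) = _
  rw [show -(6 : ℝ) / 2 = -((3 : ℕ) : ℝ) by norm_num, Real.rpow_neg (by positivity),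
    Real.rpow_natCast, add_comm]

/-- `∫ (1+|ζ|²)^{-3}` -/
def I3 : ℝ := ∫ ζ : E4, ((‖ζ‖ ^ 2 + 1) ^ 3)⁻¹

theorem I3_pos : 0 < I3 := by
  unfold I3
  rw [integral_pos_iff_support_of_nonneg _ integrable_I3]
  · have : Function.support (fun ζ : E4 => ((‖ζ‖ ^ 2 + 1) ^ 3)⁻¹) = univ := by
      ext ζ
      simp only [Function.mem_support, mem_univ, iff_true]
      positivity
    rw [this]
    simp
  · intro ζ
    simp only [Pi.zero_apply]
    positivity

/-- the Newton constant -/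
def cN : ℝ := (8 * I3)⁻¹

theorem cN_pos : 0 < cN := by unfold cN; have := I3_pos; positivity

/-- the Newton kernel, normalised so that its Laplacian is the delta function -/
def NK (η : E4) : ℝ := -cN * (‖η‖ ^ 2)⁻¹

theorem lap_continuous {f : E4 → F} (hf : ContDiff ℝ ∞ f) : Continuous (lap f) := by
  unfold lap
  exact continuous_finsetSum _ fun i _ =>
    (fderiv_apply_contDiff (fderiv_apply_contDiff hf (ee i)) _).continuous

theorem lap_hasCompactSupport {f : E4 → F} (hfs : HasCompactSupport f) :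
    HasCompactSupport (lap f) := by
  refine HasCompactSupport.intro (K := tsupport f) hfs fun x hx => ?_
  unfold lap
  refine Finset.sum_eq_zero fun i _ => ?_
  have h1 : (fun z => fderiv ℝ f z (ee i)) =ᶠ[𝓝 x] fun _ => (0 : F) := by
    have : (tsupport f)ᶜ ∈ 𝓝 x := (isClosed_tsupport f).isOpen_compl.mem_nhds hx
    filter_upwards [this] with z hz
    rw [fderiv_of_notMem_tsupport (𝕜 := ℝ) hz]; rfl
  rw [h1.fderiv_eq]
  simp

theorem newton [CompleteSpace F] {f : E4 → F} (hf : ContDiff ℝ ∞ f) (hfs : HasCompactSupport f) :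
    ∫ η, NK η • lap f η = f 0 := by
  let en : ℕ → ℝ := fun n => 1 / ((n : ℝ) + 1)
  have hen : ∀ n, 0 < en n := fun n => by positivity
  have hent : Tendsto en atTop (𝓝 0) := tendsto_one_div_add_atTop_nhds_zero_nat
  have hlc := lap_continuous hf
  have hls : HasCompactSupport (lap f) := lap_hasCompactSupport hfs
  have hL : Tendsto (fun n => ∫ η, Jr (en n) η • lap f η) atTop
      (𝓝 (∫ η, ((‖η‖ ^ 2)⁻¹) • lap f η)) := by
    refine tendsto_integral_of_dominated_convergence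
      (fun η => ‖((‖η‖ ^ 2)⁻¹) • ‖lap f η‖‖) ?_ ?_ ?_ ?_
    · intro n
      exact ((contDiff_Jr (hen n)).continuous.smul hlc).aestronglyMeasurable
    · exact ((locInt_inv_pow 2 (by norm_num)).integrable_smul_right_of_hasCompactSupport
        hlc.norm hls.norm).norm
    · intro n
      filter_upwards [ae_ne_zero] with η hη
      rw [norm_smul, norm_smul, norm_norm]
      gcongr
      have h1 : 0 < ‖η‖ := norm_pos_iff.2 hη
      have h2 := hen n
      rw [Real.norm_of_nonneg (by unfold Jr; positivity), Real.norm_of_nonneg (by positivity)]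
      unfold Jr
      apply inv_anti₀ (by positivity)
      nlinarith [sq_nonneg (en n)]
    · filter_upwards [ae_ne_zero] with η hη
      refine Tendsto.smul_const ?_ _
      unfold Jr
      have h1 : 0 < ‖η‖ := norm_pos_iff.2 hη
      have h2 : Tendsto (fun n => ‖η‖ ^ 2 + en n ^ 2) atTop (𝓝 (‖η‖ ^ 2 + 0 ^ 2)) :=
        tendsto_const_nhds.add (hent.pow 2)
      have h3 := h2.inv₀ (by positivity)
      simpa using h3
  have hR : Tendsto (fun n => ∫ ζ : E4, (8 * ((‖ζ‖ ^ 2 + 1) ^ 3)⁻¹) • f (en n • ζ)) atTop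
      (𝓝 (∫ ζ : E4, (8 * ((‖ζ‖ ^ 2 + 1) ^ 3)⁻¹) • f 0)) := by
    obtain ⟨B, hB⟩ := hfs.exists_bound_of_continuous hf.continuous
    refine tendsto_integral_of_dominated_convergence
      (fun ζ : E4 => (8 * ((‖ζ‖ ^ 2 + 1) ^ 3)⁻¹) * B) ?_ ?_ ?_ ?_
    · intro n
      refine Continuous.aestronglyMeasurable ?_
      refine Continuous.smul ?_ (hf.continuous.comp (continuous_const_smul _))
      refine continuous_const.mul (Continuous.inv₀ (by fun_prop) fun ζ => ?_)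
      positivity
    · exact (integrable_I3.const_mul 8).mul_const B
    · intro n
      refine Eventually.of_forall fun ζ => ?_
      rw [norm_smul, Real.norm_of_nonneg (by positivity)]
      gcongr
      exact hB _
    · refine Eventually.of_forall fun ζ => ?_
      refine Tendsto.const_smul ?_ _
      have h1 : Tendsto (fun n => en n • ζ) atTop (𝓝 0) := by
        simpa using hent.smul_const ζ
      exact (hf.continuous.tendsto 0).comp h1
  have hEq : (∫ η, ((‖η‖ ^ 2)⁻¹) • lap f η) = -(8 * I3) • f 0 := by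
    refine tendsto_nhds_unique hL ?_
    have h1 : ∀ n, ∫ η, Jr (en n) η • lap f η =
        -∫ ζ : E4, (8 * ((‖ζ‖ ^ 2 + 1) ^ 3)⁻¹) • f (en n • ζ) := fun n => by
      rw [parts_reg (hen n) hf hfs, scale_reg (hen n)]
    simp_rw [h1]
    have h2 := hR.neg
    rw [integral_smul_const, integral_const_mul] at h2
    rw [neg_smul]
    exact h2
  unfold NK
  simp_rw [mul_smul]
  rw [integral_smul, hEq, smul_smul]
  have := I3_pos
  have h3 : -cN * -(8 * I3) = 1 := by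
    unfold cN; field_simp
  rw [h3, one_smul]

end

end Crest.Agent.R240.Fr
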