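import Crest.Agent.R240.FrNew

/-!
Row 240, Lemma P (helper849, for helper657): the fundamental solution of a constant-coefficient
Laplacian on `E4`.
-/

set_option autoImplicit false
open scoped ContDiff Topology MatrixOrder Matrix
open MeasureTheory Set Filter

namespace Crest.Agent.R240.Pot

open Crest.Agent.R240.Fr

noncomputable section

theorem exists_frame_matrix (M : Matrix (Fin 4) (Fin 4) ℝ) (hM : M.PosDef) :
    ∃ A : Matrix (Fin 4) (Fin 4) ℝ, A.det ≠ 0 ∧ A.transpose * M * A = 1 ∧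
      √ M.det * |A.det| = 1 := by
  have h0 : 0 ≤ M := hM.posSemidef.nonneg
  set S := CFC.sqrt M with hS
  have hSS : S * S = M := CFC.sqrt_mul_sqrt_self M h0
  have hSn : 0 ≤ S := CFC.sqrt_nonneg M
  have hSH : S.IsHermitian := (Matrix.nonneg_iff_posSemidef.1 hSn).1
  have hST : S.transpose = S := by
    have := hSH.eq
    rwa [Matrix.conjTranspose_eq_transpose_of_trivial] at this
  have hMd : 0 < M.det := hM.det_pos
  have hdet : S.det * S.det = M.det := by rw [← Matrix.det_mul, hSS]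
  have hSd : S.det ≠ 0 := by
    intro h
    rw [h] at hdet
    simp at hdet
    exact hMd.ne hdet
  have hSu : IsUnit S.det := isUnit_iff_ne_zero.2 hSd
  refine ⟨S⁻¹, ?_, ?_, ?_⟩
  · rw [Matrix.det_nonsing_inv]
    simp [hSd]
  · rw [Matrix.transpose_nonsing_inv, hST, ← hSS]
    rw [← Matrix.mul_assoc, Matrix.nonsing_inv_mul _ hSu, Matrix.one_mul,
      Matrix.mul_nonsing_inv _ hSu]
  · rw [Matrix.det_nonsing_inv, ← hdet, Ring.inverse_eq_inv', abs_inv, Real.sqrt_mul_self_eq_abs]
    exact mul_inv_cancel₀ (abs_ne_zero.2 hSd)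

/-- the linear map of a matrix -/
def mlin (A : Matrix (Fin 4) (Fin 4) ℝ) : E4 →L[ℝ] E4 :=
  LinearMap.toContinuousLinearMap (Matrix.toEuclideanLin A)

theorem mlin_ee (A : Matrix (Fin 4) (Fin 4) ℝ) (k i : Fin 4) : (mlin A (ee k)) i = A i k := by
  simp [mlin, ee, Matrix.toEuclideanLin, Matrix.toLpLin]

theorem det_mlin (A : Matrix (Fin 4) (Fin 4) ℝ) :
    LinearMap.det ((mlin A : E4 →L[ℝ] E4) : E4 →ₗ[ℝ] E4) = A.det := by
  rw [det_eq]
  congr 1
  ext i j
  simp [mlin_ee]

/-- change of variables for an invertible linear map -/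
theorem integral_comp_lin {F : Type*} [NormedAddCommGroup F] [NormedSpace ℝ F]
    (A : E4 →L[ℝ] E4) (hA : LinearMap.det (A : E4 →ₗ[ℝ] E4) ≠ 0) (h : E4 → F) :
    ∫ x, h x = |LinearMap.det (A : E4 →ₗ[ℝ] E4)| • ∫ η, h (A η) := by
  have h1 := Measure.map_linearMap_addHaar_eq_smul_addHaar (volume : Measure E4)
    (f := (A : E4 →ₗ[ℝ] E4)) hA
  let e : E4 ≃L[ℝ] E4 := ((A : E4 →ₗ[ℝ] E4).equivOfDetNeZero hA).toContinuousLinearEquiv
  have he : ∀ x, e x = A x := fun x => rfl
  have h2 : ∫ η, h (A η) = ∫ x, h x ∂(Measure.map (A : E4 →ₗ[ℝ] E4) volume) := by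
    have := (e.toHomeomorph.measurableEmbedding).integral_map (μ := (volume : Measure E4)) h
    exact this.symm
  rw [h2, h1, integral_smul_measure, ENNReal.toReal_ofReal (abs_nonneg _), smul_smul, abs_inv,
    mul_inv_cancel₀ (abs_ne_zero.2 hA), one_smul]

theorem lap_comp_lin {F : Type*} [NormedAddCommGroup F] [NormedSpace ℝ F]
    (A : E4 →L[ℝ] E4) {rho : E4 → F} (hr : ContDiff ℝ ∞ rho) (z η : E4) :
    lap (fun η => rho (z - A η)) η =
      ∑ k, fderiv ℝ (fderiv ℝ rho) (z - A η) (A (ee k)) (A (ee k)) := by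
  unfold lap
  refine Finset.sum_congr rfl fun k _ => ?_
  have hz : ∀ η : E4, HasFDerivAt (fun η => z - A η) (-A) η := fun η =>
    (A.hasFDerivAt).const_sub z
  have h1 : (fun y => fderiv ℝ (fun η => rho (z - A η)) y (ee k)) =
      fun y => -(fderiv ℝ rho (z - A y) (A (ee k))) := by
    funext y
    have := ((hr.differentiable (by simp)) (z - A y)).hasFDerivAt.comp y (hz y)
    rw [show (fun η => rho (z - A η)) = rho ∘ (fun η => z - A η) from rfl, this.fderiv]
    simp
  rw [h1]
  have hr' : ContDiff ℝ ∞ (fderiv ℝ rho) := hr.fderiv_right (by simp)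
  have h2 := ((hr'.differentiable (by simp)) (z - A η)).hasFDerivAt.comp η (hz η)
  have h3 := (h2.clm_apply (hasFDerivAt_const (A (ee k)) η)).neg
  have h4 : (fun y => -(fderiv ℝ rho (z - A y) (A (ee k)))) =
    -(fun y => ((fderiv ℝ rho) ∘ fun η => z - A η) y (A (ee k))) := rfl
  rw [h4, h3.fderiv]
  simp

theorem fund : ∃ c0 : ℝ, 0 < c0 ∧ ∀ (g : Bil) (_ : ∀ v w, g v w = g w v)
    (_ : ∀ v, v ≠ 0 → 0 < g v v) (G : Fin 4 → Fin 4 → ℝ)
    (_ : ∀ i k, ∑ j, G i j * g (ee j) (ee k) = if i = k then 1 else 0)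
    (rho : E4 → ℝ), ContDiff ℝ ∞ rho → HasCompactSupport rho → ∀ z : E4,
    ∫ ζ, (∑ i, ∑ j, G i j * fderiv ℝ (fderiv ℝ rho) (z - ζ) (ee i) (ee j)) *
      (-(c0 * √ (Matrix.of fun i j => g (ee i) (ee j)).det) / g ζ ζ) = rho z := by
  refine ⟨cN, cN_pos, ?_⟩
  intro g hsym hpos G hG rho hr hrs z
  set M : Matrix (Fin 4) (Fin 4) ℝ := Matrix.of fun i j => g (ee i) (ee j) with hMdef
  have hM : M.PosDef := by
    refine Matrix.PosDef.of_dotProduct_mulVec_pos ?_ ?_
    · ext i j
      simp [M, hsym]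
    · intro x hx
      have hv : (WithLp.toLp 2 x : E4) ≠ 0 := by
        intro h
        apply hx
        ext i
        have := congrArg (fun w : E4 => w i) h
        simpa using this
      have h1 := hpos _ hv
      rw [bil_expand] at h1
      have h2 : star x ⬝ᵥ (M *ᵥ x) = ∑ i, ∑ j, (WithLp.toLp 2 x : E4) i * (WithLp.toLp 2 x : E4) j *
          ent g i j := by
        simp only [dotProduct, Matrix.mulVec, M, Matrix.of_apply, ent, star_trivial]
        refine Finset.sum_congr rfl fun i _ => ?_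
        rw [Finset.mul_sum]
        refine Finset.sum_congr rfl fun j _ => ?_
        ring
      rw [h2]; exact h1
  obtain ⟨Am, hAd, hAM, hAdet⟩ := exists_frame_matrix M hM
  set A := mlin Am with hAdef
  have hdetA : LinearMap.det (A : E4 →ₗ[ℝ] E4) ≠ 0 := by rw [hAdef, det_mlin]; exact hAd
  -- inverse matrix
  have hGM : (Matrix.of G) * M = 1 := by
    ext i k
    rw [Matrix.mul_apply, Matrix.one_apply, ← hG i k]
    rfl
  have hMA : M * (Am * Am.transpose) = 1 := by
    have h1 : (Am.transpose * M) * Am = 1 := hAM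
    have h2 := mul_eq_one_comm.1 h1
    rw [← Matrix.mul_assoc] at h2
    exact mul_eq_one_comm.1 h2
  have hGA : Matrix.of G = Am * Am.transpose := by
    calc Matrix.of G = Matrix.of G * (M * (Am * Am.transpose)) := by rw [hMA, Matrix.mul_one]
      _ = (Matrix.of G * M) * (Am * Am.transpose) := by rw [Matrix.mul_assoc]
      _ = _ := by rw [hGM, Matrix.one_mul]
  have hGij : ∀ i j, G i j = ∑ k, Am i k * Am j k := by
    intro i j
    have := congrFun (congrFun hGA i) j
    rw [Matrix.mul_apply] at this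
    simpa using this
  -- g in the frame
  have hgee : ∀ k l, ent (pull A g) k l = if k = l then 1 else 0 := by
    intro k l
    have h1 := congrFun (congrFun hAM k) l
    rw [Matrix.one_apply] at h1
    rw [← h1]
    unfold ent
    rw [pull_apply, bil_expand, Matrix.mul_apply]
    simp only [Matrix.mul_apply, Matrix.transpose_apply, M, Matrix.of_apply, ent, A, mlin_ee]
    rw [Finset.sum_comm]
    refine Finset.sum_congr rfl fun j _ => ?_
    rw [Finset.sum_mul]
    refine Finset.sum_congr rfl fun i _ => ?_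
    ring
  have hgA : ∀ η : E4, g (A η) (A η) = ‖η‖ ^ 2 := by
    intro η
    have h1 : g (A η) (A η) = pull A g η η := by simp
    rw [h1, bil_expand, norm_sq_sum]
    simp only [hgee]
    refine Finset.sum_congr rfl fun i _ => ?_
    rw [Finset.sum_eq_single i]
    · simp; ring
    · intro j _ hj
      simp [hj.symm]
    · simp
  rw [integral_comp_lin A hdetA]
  have hcomp : ∀ η, (∑ i, ∑ j, G i j * fderiv ℝ (fderiv ℝ rho) (z - A η) (ee i) (ee j)) =
      lap (fun η => rho (z - A η)) η := by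
    intro η
    rw [lap_comp_lin A hr]
    have h1 : ∀ k, fderiv ℝ (fderiv ℝ rho) (z - A η) (A (ee k)) (A (ee k)) =
        ∑ i, ∑ j, Am i k * Am j k * fderiv ℝ (fderiv ℝ rho) (z - A η) (ee i) (ee j) := by
      intro k
      rw [bil_expand (fderiv ℝ (fderiv ℝ rho) (z - A η))]
      simp only [A, mlin_ee, ent]
    simp_rw [h1, hGij, Finset.sum_mul]
    rw [Finset.sum_comm]
    rw [Finset.sum_comm]
    conv_rhs => rw [Finset.sum_comm]
    refine Finset.sum_congr rfl fun i _ => ?_
    conv_rhs => rw [Finset.sum_comm]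
  have hfs : HasCompactSupport (fun η => rho (z - A η)) := by
    let e : E4 ≃L[ℝ] E4 := ((A : E4 →ₗ[ℝ] E4).equivOfDetNeZero hdetA).toContinuousLinearEquiv
    have he : ∀ x, e x = A x := fun x => rfl
    have : (fun η => rho (z - A η)) = rho ∘ (e.toHomeomorph.trans (Homeomorph.subLeft z)) := by
      ext η; simp [he]
    rw [this]
    exact hrs.comp_homeomorph _
  have hfc : ContDiff ℝ ∞ (fun η => rho (z - A η)) :=
    hr.comp (contDiff_const.sub A.contDiff)
  have hN := newton hfc hfs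
  have hint : ∫ η, (∑ i, ∑ j, G i j * fderiv ℝ (fderiv ℝ rho) (z - A η) (ee i) (ee j)) *
      (-(cN * √ M.det) / g (A η) (A η)) = √ M.det * rho z := by
    have h1 : (fun η => (∑ i, ∑ j, G i j * fderiv ℝ (fderiv ℝ rho) (z - A η) (ee i) (ee j)) *
      (-(cN * √ M.det) / g (A η) (A η))) =
      fun η => √ M.det • (NK η • lap (fun η => rho (z - A η)) η) := by
      funext η
      rw [hcomp, hgA]
      simp only [NK, smul_eq_mul]
      rw [div_eq_mul_inv]
      ring
    rw [h1, integral_smul, hN]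
    simp
  rw [hint, smul_eq_mul, hAdef, det_mlin]
  rw [← mul_assoc, mul_comm |Am.det|, hAdet, one_mul]

end

end Crest.Agent.R240.Pot
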