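import Crest.Agent.R240.FrPar
import Crest.Agent.R240.FrNew
import Crest.Agent.R240.FrFrame
import Crest.Agent.R240.PotFS

/-!
Row 240, Lemma P (helper849): frozen convolution operators
`T A k f x0 x = ∫ k η • f (x - A x0 η) dη`.
-/

set_option autoImplicit false
open scoped ContDiff Topology
open MeasureTheory Set Filter

namespace Crest.Agent.R240.Fr

noncomputable section

variable {F : Type*} [NormedAddCommGroup F] [NormedSpace ℝ F]

/-- multiplication of a kernel by a linear form -/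
theorem Ker.mul_lin {a : ℕ} {C : ℝ} {k : E4 → ℝ} (hC : 0 ≤ C) (hk : Ker (a + 1) C k)
    (l : E4 →L[ℝ] ℝ) : Ker a (2 * C * ‖l‖) (fun η => k η * l η) := by
  have hkd : ∀ η : E4, η ≠ 0 → DifferentiableAt ℝ k η := fun η hη =>
    (hk.smooth.differentiableOn (by simp)).differentiableAt (isOpen_compl_singleton.mem_nhds hη)
  have hl : ∀ η : E4, |l η| ≤ ‖l‖ * ‖η‖ := fun η => by
    have := l.le_opNorm η; rwa [Real.norm_eq_abs] at this
  refine ⟨hk.smooth.mul l.contDiff.contDiffOn, fun η hη => ?_, fun η hη => ?_⟩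
  · have hη' : 0 < ‖η‖ := norm_pos_iff.2 hη
    rw [abs_mul]
    calc |k η| * |l η| ≤ (C * (‖η‖ ^ (a + 1))⁻¹) * (‖l‖ * ‖η‖) := by
          gcongr
          · exact hk.bd η hη
          · exact hl η
      _ = C * ‖l‖ * (‖η‖ ^ a)⁻¹ := by rw [pow_succ]; field_simp
      _ ≤ 2 * C * ‖l‖ * (‖η‖ ^ a)⁻¹ := by
          gcongr
          linarith
  · have hη' : 0 < ‖η‖ := norm_pos_iff.2 hη
    have h1 := ((hkd η hη).hasFDerivAt.mul (l.hasFDerivAt (x := η))).fderiv
    have h2 : fderiv ℝ (fun η => k η * l η) η = k η • l + l η • fderiv ℝ k η := h1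
    rw [h2]
    calc ‖k η • l + l η • fderiv ℝ k η‖ ≤ ‖k η • l‖ + ‖l η • fderiv ℝ k η‖ := norm_add_le _ _
      _ = |k η| * ‖l‖ + |l η| * ‖fderiv ℝ k η‖ := by
          rw [norm_smul, norm_smul, Real.norm_eq_abs, Real.norm_eq_abs]
      _ ≤ (C * (‖η‖ ^ (a + 1))⁻¹) * ‖l‖ + (‖l‖ * ‖η‖) * (C * (‖η‖ ^ (a + 1 + 1))⁻¹) := by
          gcongr
          · exact hk.bd η hη
          · exact hl η
          · exact hk.bd' η hη
      _ = 2 * C * ‖l‖ * (‖η‖ ^ (a + 1))⁻¹ := by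
          rw [pow_succ _ (a + 1)]; field_simp; ring

theorem contDiffOn_normsq_inv (m : ℕ) : ContDiffOn ℝ ∞ (fun η : E4 => ((‖η‖ ^ 2) ^ m)⁻¹) {0}ᶜ := by
  refine ContDiffOn.inv ((contDiff_norm_sq ℝ).pow m).contDiffOn fun η hη => ?_
  have : 0 < ‖η‖ := norm_pos_iff.2 hη
  positivity

/-- the derivative of the Newton kernel in the direction `i` -/
def NKi (i : Fin 4) (η : E4) : ℝ := 2 * cN * η i * ((‖η‖ ^ 2) ^ 2)⁻¹

theorem hasFDerivAt_normsq_inv (m : ℕ) {η : E4} (hη : η ≠ 0) :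
    HasFDerivAt (fun η : E4 => ((‖η‖ ^ 2) ^ m)⁻¹)
      ((-(((‖η‖ ^ 2) ^ m) ^ 2)⁻¹ * (m * (‖η‖ ^ 2) ^ (m - 1)) * 2) • innerSL ℝ η) η := by
  have hη' : 0 < ‖η‖ := norm_pos_iff.2 hη
  have h1 : HasFDerivAt (fun η : E4 => ‖η‖ ^ 2) (2 • innerSL ℝ η) η :=
    (hasStrictFDerivAt_norm_sq η).hasFDerivAt
  have h2 := (hasDerivAt_inv (x := (‖η‖ ^ 2) ^ m) (by positivity)).comp_hasFDerivAt η (h1.pow m)
  refine h2.congr_fderiv ?_
  ext v
  simp only [smul_apply, smul_eq_mul, nsmul_eq_mul]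
  push_cast
  ring

theorem norm_proj_le (i : Fin 4) : ‖(EuclideanSpace.proj (𝕜 := ℝ) i : E4 →L[ℝ] ℝ)‖ ≤ 1 := by
  refine ContinuousLinearMap.opNorm_le_bound _ zero_le_one fun v => ?_
  rw [one_mul]
  exact PiLp.norm_apply_le v i

theorem coord_le (η : E4) (i : Fin 4) : |η i| ≤ ‖η‖ := by
  have := PiLp.norm_apply_le η i
  rwa [Real.norm_eq_abs] at this

theorem ker_NK : Ker 2 (2 * cN) NK := by
  refine ⟨?_, fun η hη => ?_, fun η hη => ?_⟩
  · have h1 := (contDiffOn_const (c := -cN)).mul (contDiffOn_normsq_inv 1)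
    refine (h1.of_le (by simp : (1 : WithTop ℕ∞) ≤ ∞)).congr fun η _ => ?_
    simp [NK]
  · have hη' : 0 < ‖η‖ := norm_pos_iff.2 hη
    have := cN_pos
    unfold NK
    rw [abs_mul, abs_neg, abs_of_pos cN_pos, abs_of_pos (by positivity)]
    gcongr
    linarith
  · have hη' : 0 < ‖η‖ := norm_pos_iff.2 hη
    have hc := cN_pos
    have h1 := ((hasFDerivAt_normsq_inv 1 hη).const_mul (-cN)).fderiv
    have h2 : NK = fun η : E4 => (-cN) * ((‖η‖ ^ 2) ^ 1)⁻¹ := by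
      funext η; simp [NK]
    rw [h2, h1, norm_smul, norm_smul, innerSL_apply_norm]
    rw [Real.norm_eq_abs, Real.norm_eq_abs, abs_neg, abs_of_pos hc]
    have h3 : |(-(((‖η‖ ^ 2) ^ 1) ^ 2)⁻¹ * (((1 : ℕ) : ℝ) * (‖η‖ ^ 2) ^ (1 - 1)) * 2)| =
        2 * (‖η‖ ^ 4)⁻¹ := by
      rw [abs_mul, abs_mul, abs_neg]
      rw [abs_of_pos (by positivity), abs_of_pos (by positivity), abs_of_pos (by positivity)]
      simp
      ring
    rw [h3]
    apply le_of_eq
    field_simp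

theorem fderiv_NK (i : Fin 4) {η : E4} (hη : η ≠ 0) : fderiv ℝ NK η (ee i) = NKi i η := by
  have h1 := ((hasFDerivAt_normsq_inv 1 hη).const_mul (-cN)).fderiv
  have h2 : NK = fun η : E4 => (-cN) * ((‖η‖ ^ 2) ^ 1)⁻¹ := by
    funext η; simp [NK]
  rw [h2, h1]
  simp only [smul_apply, innerSL_apply_apply, inner_ee, smul_eq_mul, NKi]
  have hη' : 0 < ‖η‖ := norm_pos_iff.2 hη
  simp
  ring

theorem ker_NKi (i : Fin 4) : Ker 3 (10 * cN) (NKi i) := by
  have hc := cN_pos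
  refine ⟨?_, fun η hη => ?_, fun η hη => ?_⟩
  · have h1 := ((contDiff_const (c := 2 * cN)).mul (contDiff_coord i)).contDiffOn.mul
      (contDiffOn_normsq_inv 2)
    exact (h1.of_le (by simp : (1 : WithTop ℕ∞) ≤ ∞))
  · have hη' : 0 < ‖η‖ := norm_pos_iff.2 hη
    unfold NKi
    rw [abs_mul, abs_mul, abs_of_pos (by positivity : 0 < 2 * cN),
      abs_of_pos (by positivity : 0 < ((‖η‖ ^ 2) ^ 2)⁻¹)]
    calc 2 * cN * |η i| * ((‖η‖ ^ 2) ^ 2)⁻¹ ≤ 2 * cN * ‖η‖ * ((‖η‖ ^ 2) ^ 2)⁻¹ := by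
          gcongr
          exact coord_le η i
      _ = 2 * cN * (‖η‖ ^ 3)⁻¹ := by field_simp
      _ ≤ 10 * cN * (‖η‖ ^ 3)⁻¹ := by gcongr; norm_num
  · have hη' : 0 < ‖η‖ := norm_pos_iff.2 hη
    have h0 : HasFDerivAt (fun η : E4 => η i) (EuclideanSpace.proj (𝕜 := ℝ) i : E4 →L[ℝ] ℝ) η :=
      (EuclideanSpace.proj (𝕜 := ℝ) i : E4 →L[ℝ] ℝ).hasFDerivAt
    have h1 := ((h0.const_mul (2 * cN)).mul (hasFDerivAt_normsq_inv 2 hη)).fderiv
    have h2 : NKi i = (fun η : E4 => 2 * cN * η i) * fun η : E4 => ((‖η‖ ^ 2) ^ 2)⁻¹ := rfl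
    rw [h2, h1]
    refine (norm_add_le _ _).trans ?_
    rw [norm_smul, norm_smul, norm_smul, norm_smul, innerSL_apply_norm]
    simp only [Real.norm_eq_abs]
    have h3 : |(-(((‖η‖ ^ 2) ^ 2) ^ 2)⁻¹ * (((2 : ℕ) : ℝ) * (‖η‖ ^ 2) ^ (2 - 1)) * 2)| =
        4 * (‖η‖ ^ 6)⁻¹ := by
      rw [abs_mul, abs_mul, abs_neg]
      rw [abs_of_pos (by positivity), abs_of_pos (by positivity), abs_of_pos (by positivity)]
      field_simp
      norm_num
      ring
    rw [h3, abs_mul, abs_of_pos (by positivity : 0 < 2 * cN),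
      abs_of_pos (by positivity : 0 < ((‖η‖ ^ 2) ^ 2)⁻¹)]
    calc 2 * cN * |η i| * (4 * (‖η‖ ^ 6)⁻¹ * ‖η‖) +
        ((‖η‖ ^ 2) ^ 2)⁻¹ * (2 * cN * ‖(EuclideanSpace.proj (𝕜 := ℝ) i : E4 →L[ℝ] ℝ)‖)
        ≤ 2 * cN * ‖η‖ * (4 * (‖η‖ ^ 6)⁻¹ * ‖η‖) + ((‖η‖ ^ 2) ^ 2)⁻¹ * (2 * cN * 1) := by
          gcongr
          · exact coord_le η i
          · exact norm_proj_le i
      _ = 10 * cN * (‖η‖ ^ (3 + 1))⁻¹ := by field_simp; ring

/-! ### the operators -/

/-- frozen convolution operator -/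
def T (A : E4 → E4 →L[ℝ] E4) (k : E4 → ℝ) (f : E4 → F) (x0 x : E4) : F :=
  ∫ η, k η • f (x - A x0 η)

variable {g : E4 → Bil} {A B : E4 → E4 →L[ℝ] E4}

theorem Frame.norm_le (hAB : Frame g A B) (x0 η : E4) : ‖η‖ ≤ ‖B x0‖ * ‖A x0 η‖ := by
  conv_lhs => rw [← hAB.BA x0 η]
  exact (B x0).le_opNorm _

theorem locSupp_T (hAB : Frame g A B) {f : E4 → F} (hfs : HasCompactSupport f) :
    LocSupp (fun (q : E4 × E4) η => f (q.2 - A q.1 η)) := by
  obtain ⟨ρ, hρ⟩ := hfs.isCompact.isBounded.subset_closedBall 0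
  have hf0 : ∀ y, ρ < ‖y‖ → f y = 0 := by
    intro y hy
    by_contra hne
    have h1 := hρ (subset_tsupport f hne)
    rw [mem_closedBall_zero_iff] at h1
    linarith
  intro q0
  refine ⟨{q | ‖B q.1‖ < ‖B q0.1‖ + 1 ∧ ‖q.2‖ < ‖q0.2‖ + 1}, ?_, ?_,
    Metric.closedBall 0 ((‖B q0.1‖ + 1) * (|ρ| + (‖q0.2‖ + 1))), isCompact_closedBall _ _, ?_⟩
  · exact (isOpen_lt ((hAB.smB.continuous.comp continuous_fst).norm) continuous_const).inter
      (isOpen_lt continuous_snd.norm continuous_const)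
  · constructor <;> simp
  · intro q hq t ht
    apply hf0
    rw [mem_closedBall_zero_iff, not_le] at ht
    by_contra hcon
    push Not at hcon
    have h1 : ‖A q.1 t‖ ≤ |ρ| + (‖q0.2‖ + 1) := by
      have h2 : ‖A q.1 t‖ ≤ ‖q.2‖ + ‖q.2 - A q.1 t‖ := by
        have := norm_sub_le q.2 (q.2 - A q.1 t)
        simpa using this
      have h3 := le_abs_self ρ
      have h4 := hq.2.le
      linarith
    have h5 : ‖t‖ ≤ (‖B q0.1‖ + 1) * (|ρ| + (‖q0.2‖ + 1)) := by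
      refine (hAB.norm_le q.1 t).trans ?_
      gcongr
      exact hq.1.le
    linarith

theorem T_arg_contDiff (hAB : Frame g A B) {f : E4 → F} (hf : ContDiff ℝ ∞ f) :
    ContDiff ℝ ∞ (fun z : (E4 × E4) × E4 => f (z.1.2 - A z.1.1 z.2)) := by
  refine hf.comp ?_
  have h1 : ContDiff ℝ ∞ (fun z : (E4 × E4) × E4 => A z.1.1) :=
    hAB.smA.comp (contDiff_fst.comp contDiff_fst)
  exact (contDiff_snd.comp contDiff_fst).sub (h1.clm_apply contDiff_snd)

theorem T_contDiff (hAB : Frame g A B) {k : E4 → ℝ} (hk : LocallyIntegrable k) {f : E4 → F}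
    (hf : ContDiff ℝ ∞ f) (hfs : HasCompactSupport f) :
    ContDiff ℝ ∞ (fun q : E4 × E4 => T A k f q.1 q.2) :=
  param_contDiff hk (T_arg_contDiff hAB hf) (locSupp_T hAB hfs)

theorem locSupp_T_snd (hAB : Frame g A B) {f : E4 → F} (hfs : HasCompactSupport f) (x0 : E4) :
    LocSupp (fun (x : E4) η => f (x - A x0 η)) := by
  intro x
  obtain ⟨s, hs, hxs, K, hK, h⟩ := locSupp_T hAB hfs (x0, x)
  exact ⟨(fun x => (x0, x)) ⁻¹' s, hs.preimage (by fun_prop), hxs, K, hK, fun q hq => h _ hq⟩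

theorem locSupp_T_fst (hAB : Frame g A B) {f : E4 → F} (hfs : HasCompactSupport f) (x : E4) :
    LocSupp (fun (x0 : E4) η => f (x - A x0 η)) := by
  intro x0
  obtain ⟨s, hs, hxs, K, hK, h⟩ := locSupp_T hAB hfs (x0, x)
  exact ⟨(fun x0 => (x0, x)) ⁻¹' s, hs.preimage (by fun_prop), hxs, K, hK, fun q hq => h _ hq⟩

theorem T_arg_contDiff_eta (A0 : E4 →L[ℝ] E4) {f : E4 → F} (hf : ContDiff ℝ ∞ f) (x : E4) :
    ContDiff ℝ ∞ (fun η : E4 => f (x - A0 η)) :=
  hf.comp (contDiff_const.sub A0.contDiff)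

theorem T_arg_hasCompactSupport (hAB : Frame g A B) {f : E4 → F} (hfs : HasCompactSupport f)
    (x0 x : E4) : HasCompactSupport (fun η => f (x - A x0 η)) := by
  obtain ⟨s, hs, hxs, K, hK, h⟩ := locSupp_T hAB hfs (x0, x)
  exact HasCompactSupport.intro hK fun t ht => h _ hxs t ht

theorem T_integrable (hAB : Frame g A B) {k : E4 → ℝ} (hk : LocallyIntegrable k) {f : E4 → F}
    (hf : Continuous f) (hfs : HasCompactSupport f) (x0 x : E4) :
    Integrable (fun η => k η • f (x - A x0 η)) :=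
  hk.integrable_smul_right_of_hasCompactSupport
    (hf.comp (continuous_const.sub (A x0).continuous)) (T_arg_hasCompactSupport hAB hfs x0 x)

theorem T_hasFDerivAt_snd (hAB : Frame g A B) {k : E4 → ℝ} (hk : LocallyIntegrable k)
    {f : E4 → F} (hf : ContDiff ℝ ∞ f) (hfs : HasCompactSupport f) (x0 x : E4) :
    HasFDerivAt (fun x => T A k f x0 x) (T A k (fderiv ℝ f) x0 x) x := by
  have h1 : ContDiff ℝ ∞ (fun z : E4 × E4 => f (z.1 - A x0 z.2)) :=
    hf.comp (contDiff_fst.sub ((A x0).contDiff.comp contDiff_snd))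
  have h := param_hasFDerivAt (μ := (volume : Measure E4)) hk h1 (locSupp_T_snd hAB hfs x0) x
  refine h.congr_fderiv ?_
  unfold T
  refine integral_congr_ae (Eventually.of_forall fun η => ?_)
  simp only []
  congr 1
  have h2 := ((hf.differentiable (by simp)) (x - A x0 η)).hasFDerivAt.comp x
    ((hasFDerivAt_id x).sub_const (A x0 η))
  exact h2.fderiv

theorem T_fderiv_snd (hAB : Frame g A B) {k : E4 → ℝ} (hk : LocallyIntegrable k)
    {f : E4 → F} (hf : ContDiff ℝ ∞ f) (hfs : HasCompactSupport f) (x0 x : E4) :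
    fderiv ℝ (fun x => T A k f x0 x) x = T A k (fderiv ℝ f) x0 x :=
  (T_hasFDerivAt_snd hAB hk hf hfs x0 x).fderiv

/-- evaluation commutes with `T` -/
theorem T_clm_apply [CompleteSpace F] (hAB : Frame g A B) {k : E4 → ℝ} (hk : LocallyIntegrable k)
    {f : E4 → (E4 →L[ℝ] F)} (hf : Continuous f) (hfs : HasCompactSupport f) (x0 x v : E4) :
    T A k f x0 x v = T A k (fun y => f y v) x0 x := by
  unfold T
  rw [ContinuousLinearMap.integral_apply (T_integrable hAB hk hf hfs x0 x) v]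
  rfl

/-- derivative with respect to the frozen point -/
theorem T_fderiv_fst (hAB : Frame g A B) {k : E4 → ℝ} (hk : LocallyIntegrable k)
    {f : E4 → F} (hf : ContDiff ℝ ∞ f) (hfs : HasCompactSupport f) [CompleteSpace F]
    (x0 x h : E4) :
    fderiv ℝ (fun x0 => T A k f x0 x) x0 h =
      - ∫ η, k η • fderiv ℝ f (x - A x0 η) (fderiv ℝ A x0 h η) := by
  have h1 : ContDiff ℝ ∞ (fun z : E4 × E4 => f (x - A z.1 z.2)) :=
    hf.comp (contDiff_const.sub ((hAB.smA.comp contDiff_fst).clm_apply contDiff_snd))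
  have hh := param_hasFDerivAt (μ := (volume : Measure E4)) hk h1 (locSupp_T_fst hAB hfs x) x0
  have hLS := locSupp_T_fst hAB hfs x
  obtain ⟨s, hs, hx0, K, hK, hsK⟩ := hLS x0
  have hA : ∀ η : E4, HasFDerivAt (fun x0 => x - A x0 η) (-((fderiv ℝ A x0).flip η)) x0 := by
    intro η
    have h2 := ((hAB.smA.differentiable (by simp)) x0).hasFDerivAt
    have h3 := (h2.clm_apply (hasFDerivAt_const η x0)).const_sub x
    refine h3.congr_fderiv ?_
    ext v
    simp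
  have hfd : ∀ η, fderiv ℝ (fun x0 => f (x - A x0 η)) x0 h =
      - (fderiv ℝ f (x - A x0 η) (fderiv ℝ A x0 h η)) := by
    intro η
    have h4 := ((hf.differentiable (by simp)) (x - A x0 η)).hasFDerivAt.comp x0 (hA η)
    have h5 : (fun x0 => f (x - A x0 η)) = f ∘ fun x0 => x - A x0 η := rfl
    rw [h5, h4.fderiv]
    simp
  have hint : Integrable (fun η => k η • fderiv ℝ (fun x0 => f (x - A x0 η)) x0) := by
    refine param_integrable hk ?_ hK ?_
    · have h6 : ContDiff ℝ ∞ (fun z : E4 × E4 => fderiv ℝ (fun q => f (x - A q z.2)) z.1) := by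
        have h7 : ContDiff ℝ ∞ (fun w : (E4 × E4) × E4 => f (x - A w.2 w.1.2)) :=
          h1.comp (contDiff_snd.prodMk (contDiff_snd.comp contDiff_fst))
        exact ContDiff.fderiv (f := fun (z : E4 × E4) (q : E4) => f (x - A q z.2)) (n := ∞)
          (m := ∞) h7 contDiff_fst (by simp)
      exact h6.continuous.comp (continuous_const.prodMk continuous_id)
    · intro t ht
      have : (fun q => f (x - A q t)) =ᶠ[𝓝 x0] (fun _ => (0 : F)) := by
        filter_upwards [hs.mem_nhds hx0] with q' hq'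
        exact hsK q' hq' t ht
      rw [this.fderiv_eq]; simp
  have h8 : (fun x0 => T A k f x0 x) = fun q => ∫ t, k t • f (x - A q t) := rfl
  rw [h8, hh.fderiv, ContinuousLinearMap.integral_apply hint, ← integral_neg]
  refine integral_congr_ae (Eventually.of_forall fun η => ?_)
  simp only [smul_apply]
  rw [hfd, smul_neg]

/-- integration by parts -/
theorem T_parts (hAB : Frame g A B) {a : ℕ} (ha : a + 1 ≤ 3) {C : ℝ} {k : E4 → ℝ}
    (hk : Ker a C k) {f : E4 → F} (hf : ContDiff ℝ ∞ f) (hfs : HasCompactSupport f)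
    (x0 x v : E4) :
    T A k (fun y => fderiv ℝ f y (A x0 v)) x0 x = T A (fun η => fderiv ℝ k η v) f x0 x := by
  unfold T
  have hc := T_arg_contDiff_eta (A x0) hf x
  have h1 : ∀ η, fderiv ℝ (fun η => f (x - A x0 η)) η v = -(fderiv ℝ f (x - A x0 η) (A x0 v)) := by
    intro η
    have h2 : HasFDerivAt (fun η => x - A x0 η) (-(A x0)) η := (A x0).hasFDerivAt.const_sub x
    have h3 := ((hf.differentiable (by simp)) (x - A x0 η)).hasFDerivAt.comp η h2
    have h4 : (fun η => f (x - A x0 η)) = f ∘ fun η => x - A x0 η := rfl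
    rw [h4, h3.fderiv]
    simp
  have h5 := hk.ibp ha (hc.of_le (by simp)) (T_arg_hasCompactSupport hAB hfs x0 x) v
  simp_rw [h1, smul_neg] at h5
  rw [integral_neg, neg_inj] at h5
  exact h5

end

end Crest.Agent.R240.Fr
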