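import Mathlib

/-!
Row 240, Lemma P (frozen at x0; helper849): parametric integrals against locally integrable kernels.
-/

set_option autoImplicit false
open scoped ContDiff Topology
open MeasureTheory Set Filter

namespace Crest.Agent.R240.Fr

noncomputable section

variable {P : Type*} [NormedAddCommGroup P] [NormedSpace ℝ P] [FiniteDimensional ℝ P]
  {G : Type*} [NormedAddCommGroup G] [NormedSpace ℝ G] [FiniteDimensional ℝ G]
  [MeasurableSpace G] [BorelSpace G] {μ : Measure G} [μ.IsAddHaarMeasure]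
  {F : Type*} [NormedAddCommGroup F] [NormedSpace ℝ F]

/-- locally uniformly compact support in the second variable -/
def LocSupp (g : P → G → F) : Prop :=
  ∀ q0 : P, ∃ s : Set P, IsOpen s ∧ q0 ∈ s ∧ ∃ K : Set G, IsCompact K ∧
    ∀ q ∈ s, ∀ t, t ∉ K → g q t = 0

theorem param_contDiff {k : G → ℝ} (hk : LocallyIntegrable k μ) {g : P → G → F}
    (hg : ContDiff ℝ ∞ (fun z : P × G => g z.1 z.2)) (hs : LocSupp g) :
    ContDiff ℝ ∞ (fun q => ∫ t, k t • g q t ∂μ) := by
  rw [contDiff_iff_contDiffAt]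
  intro q0
  obtain ⟨s, hso, hq0, K, hK, hgs⟩ := hs q0
  have hg' : ContDiffOn ℝ ∞ (↿(fun (p : P) (x : G) => g p (-x))) (s ×ˢ univ) := by
    have : ContDiff ℝ ∞ (fun z : P × G => g z.1 (-z.2)) :=
      hg.comp (contDiff_fst.prodMk contDiff_snd.neg)
    exact this.contDiffOn
  have h := contDiffOn_convolution_right_with_param (μ := μ) (n := ⊤)
    (ContinuousLinearMap.lsmul ℝ ℝ : ℝ →L[ℝ] F →L[ℝ] F) (f := k)
    (g := fun (p : P) (x : G) => g p (-x)) (k := -K) hso hK.neg
    (fun p x hp hx => hgs p hp (-x) (by simpa using hx)) hk hg'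
  have h2 : ContDiffAt ℝ ∞ (fun q : P × G =>
      (convolution k (fun x : G => g q.1 (-x)) (ContinuousLinearMap.lsmul ℝ ℝ) μ) q.2) (q0, 0) :=
    h.contDiffAt ((hso.prod isOpen_univ).mem_nhds ⟨hq0, mem_univ _⟩)
  have h3 := h2.comp q0 (contDiffAt_id.prodMk contDiffAt_const : ContDiffAt ℝ ∞
    (fun q : P => ((q, (0 : G)) : P × G)) q0)
  refine h3.congr_of_eventuallyEq (Eventually.of_forall fun q => ?_)
  simp [convolution]

theorem param_integrable {k : G → ℝ} (hk : LocallyIntegrable k μ) {g : G → F}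
    (hg : Continuous g) {K : Set G} (hK : IsCompact K) (hs : ∀ t, t ∉ K → g t = 0) :
    Integrable (fun t => k t • g t) μ := by
  have h1 : IntegrableOn (fun t => k t • g t) K μ :=
    (hk.integrableOn_isCompact hK).smul_continuousOn hg.continuousOn hK
  rw [← integrableOn_iff_integrable_of_support_subset (s := K)]
  · exact h1
  · intro t ht
    by_contra hcon
    exact ht (by simp [hs t hcon])

theorem param_hasFDerivAt {k : G → ℝ} (hk : LocallyIntegrable k μ) {g : P → G → F}
    (hg : ContDiff ℝ ∞ (fun z : P × G => g z.1 z.2)) (hs : LocSupp g) (q0 : P) :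
    HasFDerivAt (fun q => ∫ t, k t • g q t ∂μ)
      (∫ t, k t • fderiv ℝ (fun q => g q t) q0 ∂μ) q0 := by
  obtain ⟨s, hso, hq0, K, hK, hgs⟩ := hs q0
  obtain ⟨r, hr, hrs⟩ := Metric.nhds_basis_closedBall.mem_iff.1 (hso.mem_nhds hq0)
  have hgt : ∀ t, ContDiff ℝ ∞ (fun q => g q t) := fun t =>
    hg.comp (contDiff_id.prodMk contDiff_const)
  have hgq : ∀ q, Continuous (g q) := fun q =>
    hg.continuous.comp (continuous_const.prodMk continuous_id)
  -- joint continuity of the derivative in q
  have hD : ContDiff ℝ ∞ (fun z : P × G => fderiv ℝ (fun q => g q z.2) z.1) := by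
    have h1 : ContDiff ℝ ∞ (fun w : (P × G) × P => g w.2 w.1.2) :=
      hg.comp (contDiff_snd.prodMk (contDiff_snd.comp contDiff_fst))
    exact ContDiff.fderiv (f := fun (z : P × G) (q : P) => g q z.2) (n := ∞) (m := ∞)
      h1 contDiff_fst (by simp)
  have hDK : ∃ C, ∀ z ∈ (Metric.closedBall q0 r) ×ˢ K, ‖fderiv ℝ (fun q => g q z.2) z.1‖ ≤ C :=
    ((isCompact_closedBall q0 r).prod hK).exists_bound_of_continuousOn hD.continuous.continuousOn
  obtain ⟨C, hC⟩ := hDK
  have hDzero : ∀ q ∈ s, ∀ t, t ∉ K → fderiv ℝ (fun q => g q t) q = 0 := by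
    intro q hq t ht
    have : (fun q => g q t) =ᶠ[𝓝 q] (fun _ => (0 : F)) := by
      filter_upwards [hso.mem_nhds hq] with q' hq'
      exact hgs q' hq' t ht
    rw [this.fderiv_eq]; simp
  have hDc : ∀ q, Continuous (fun t => fderiv ℝ (fun q => g q t) q) := fun q =>
    hD.continuous.comp (continuous_const.prodMk continuous_id)
  refine hasFDerivAt_integral_of_dominated_of_fderiv_le (s := Metric.ball q0 r)
    (bound := fun t => ‖k t‖ * (K.indicator (fun _ => C) t)) (Metric.ball_mem_nhds q0 hr)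
    (F' := fun q t => k t • fderiv ℝ (fun q => g q t) q) ?_ ?_ ?_ ?_ ?_ ?_
  · filter_upwards [hso.mem_nhds hq0] with q hq
    exact (param_integrable hk (hgq q) hK (hgs q hq)).aestronglyMeasurable
  · exact param_integrable hk (hgq q0) hK (hgs q0 hq0)
  · exact (param_integrable hk (hDc q0) hK (hDzero q0 hq0)).aestronglyMeasurable
  · refine Eventually.of_forall fun t q hq => ?_
    rw [norm_smul]
    refine mul_le_mul_of_nonneg_left ?_ (norm_nonneg _)
    by_cases ht : t ∈ K
    · rw [indicator_of_mem ht]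
      exact hC (q, t) ⟨Metric.ball_subset_closedBall hq, ht⟩
    · rw [indicator_of_notMem ht, hDzero q (hrs (Metric.ball_subset_closedBall hq)) t ht]
      simp
  · have h1 : IntegrableOn (fun t => ‖k t‖ * C) K μ :=
      (hk.integrableOn_isCompact hK).norm.mul_const C
    have h2 : (fun t => ‖k t‖ * (K.indicator (fun _ => C) t)) =
        K.indicator (fun t => ‖k t‖ * C) := by
      ext t
      by_cases ht : t ∈ K <;> simp [ht]
    rw [h2]
    exact (integrable_indicator_iff hK.measurableSet).2 h1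
  · refine Eventually.of_forall fun t q _ => ?_
    exact (((hgt t).differentiable (by simp)).differentiableAt.hasFDerivAt).const_smul (k t)

end

end Crest.Agent.R240.Fr
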