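import Mathlib
import Crest.Agent.R240.Cmp
import Crest.Agent.R240.Ch4

/-!
Row 240 (S0371), CH (helper955): Frechet completeness of the space of smooth forms.
-/

set_option autoImplicit false
set_option maxSynthPendingDepth 3
set_option linter.unusedSectionVars false

open Set Function Filter Topology
open scoped Manifold ContDiff

namespace Crest.Agent.R240.Ch

noncomputable section

section Series

variable {E : Type*} [NormedAddCommGroup E] [NormedSpace ℝ E]
variable {F : Type*} [NormedAddCommGroup F] [NormedSpace ℝ F] [CompleteSpace F]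

lemma iter_diffAt {f : E → F} {y : E} (hf : ContDiffAt ℝ ∞ f y) (l : ℕ) :
    DifferentiableAt ℝ (iteratedFDeriv ℝ l f) y := by
  have h : ContDiffAt ℝ 1 (iteratedFDeriv ℝ l f) y :=
    hf.iteratedFDeriv_right (by exact_mod_cast le_top)
  exact h.differentiableAt one_ne_zero

/-- one step of term-by-term differentiation. -/
lemma series_step {f : ℕ → E → F} {U : Set E} (hU : IsOpen U)
    (hf : ∀ n, ContDiffOn ℝ ∞ (f n) U) {u : ℕ → ℕ → ℝ} (hu : ∀ l, Summable (u l))
    (hb : ∀ l n, ∀ y ∈ U, ‖iteratedFDeriv ℝ l (f n) y‖ ≤ u l n) (l : ℕ) {y : E} (hy : y ∈ U) :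
    HasFDerivAt (fun y => ∑' n, iteratedFDeriv ℝ l (f n) y)
      (∑' n, fderiv ℝ (iteratedFDeriv ℝ l (f n)) y) y := by
  obtain ⟨ε, hε, hball⟩ := Metric.isOpen_iff.1 hU y hy
  refine hasFDerivAt_tsum_of_isPreconnected (hu (l + 1)) Metric.isOpen_ball
    (convex_ball y ε).isPreconnected (x₀ := y) (fun n z hz => ?_) (fun n z hz => ?_)
    (Metric.mem_ball_self hε) ?_ (Metric.mem_ball_self hε)
  · exact (iter_diffAt ((hf n).contDiffAt (hU.mem_nhds (hball hz))) l).hasFDerivAt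
  · rw [norm_fderiv_iteratedFDeriv]
    exact hb (l + 1) n z (hball hz)
  · exact Summable.of_norm_bounded (hu l) fun n => hb l n y hy

/-- term-by-term differentiation of a series of smooth functions on an open set. -/
theorem series_iter {f : ℕ → E → F} {U : Set E} (hU : IsOpen U)
    (hf : ∀ n, ContDiffOn ℝ ∞ (f n) U) {u : ℕ → ℕ → ℝ} (hu : ∀ l, Summable (u l))
    (hb : ∀ l n, ∀ y ∈ U, ‖iteratedFDeriv ℝ l (f n) y‖ ≤ u l n) (l : ℕ) :
    ∀ y ∈ U, iteratedFDeriv ℝ l (fun y => ∑' n, f n y) y = ∑' n, iteratedFDeriv ℝ l (f n) y := by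
  induction l with
  | zero =>
    intro y _
    simp_rw [iteratedFDeriv_zero_eq_comp]
    exact (continuousMultilinearCurryFin0 ℝ E F).symm.toContinuousLinearEquiv.map_tsum
  | succ l ih =>
    intro y hy
    have h1 : iteratedFDeriv ℝ l (fun y => ∑' n, f n y) =ᶠ[𝓝 y]
        fun y => ∑' n, iteratedFDeriv ℝ l (f n) y := by
      filter_upwards [hU.mem_nhds hy] with z hz using ih z hz
    have h2 := (series_step hU hf hu hb l hy).congr_of_eventuallyEq h1
    rw [iteratedFDeriv_succ_eq_comp_left, comp_apply, h2.fderiv]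
    simp_rw [iteratedFDeriv_succ_eq_comp_left, comp_apply]
    exact (continuousMultilinearCurryLeftEquiv ℝ
        (fun _ : Fin (l + 1) => E) F).symm.toContinuousLinearEquiv.map_tsum

theorem series_contDiffOn {f : ℕ → E → F} {U : Set E} (hU : IsOpen U)
    (hf : ∀ n, ContDiffOn ℝ ∞ (f n) U) {u : ℕ → ℕ → ℝ} (hu : ∀ l, Summable (u l))
    (hb : ∀ l n, ∀ y ∈ U, ‖iteratedFDeriv ℝ l (f n) y‖ ≤ u l n) :
    ContDiffOn ℝ ∞ (fun y => ∑' n, f n y) U := by
  refine contDiffOn_of_differentiableOn (n := ⊤) fun l _ y hy => ?_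
  have h1 : iteratedFDerivWithin ℝ l (fun y => ∑' n, f n y) U =ᶠ[𝓝 y]
      fun y => ∑' n, iteratedFDeriv ℝ l (f n) y := by
    filter_upwards [hU.mem_nhds hy] with z hz
    rw [iteratedFDerivWithin_of_isOpen l hU hz]
    exact series_iter hU hf hu hb l z hz
  exact ((series_step hU hf hu hb l hy).congr_of_eventuallyEq
    h1).differentiableAt.differentiableWithinAt

/-- tails. -/
theorem series_tail {f : ℕ → E → F} {U : Set E} (hU : IsOpen U)
    (hf : ∀ n, ContDiffOn ℝ ∞ (f n) U) {u : ℕ → ℕ → ℝ} (hu : ∀ l, Summable (u l))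
    (hb : ∀ l n, ∀ y ∈ U, ‖iteratedFDeriv ℝ l (f n) y‖ ≤ u l n) (l N : ℕ) {y : E} (hy : y ∈ U) :
    ‖iteratedFDeriv ℝ l (fun y => ∑' n, f n y - ∑ n ∈ Finset.range N, f n y) y‖
      ≤ ∑' n, u l (n + N) := by
  have hs : ∀ z ∈ U, Summable fun n => f n z := by
    intro z hz
    refine Summable.of_norm_bounded (hu 0) fun n => ?_
    simpa using hb 0 n z hz
  have h1 : (fun y => ∑' n, f n y - ∑ n ∈ Finset.range N, f n y) =ᶠ[𝓝 y]
      fun y => ∑' n, f (n + N) y := by
    filter_upwards [hU.mem_nhds hy] with z hz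
    rw [← (hs z hz).sum_add_tsum_nat_add N]
    abel
  have hu' : ∀ l, Summable (fun n => u l (n + N)) := fun l => (summable_nat_add_iff N).2 (hu l)
  have h2 := series_iter (f := fun n => f (n + N)) hU (fun n => hf _)
    (u := fun l n => u l (n + N)) hu' (fun l n z hz => hb l _ z hz) l y hy
  rw [(h1.iteratedFDeriv ℝ l).eq_of_nhds, h2]
  exact tsum_of_norm_bounded (hu' l).hasSum fun n => hb l _ y hy

end Series

section Manifold

variable {E : Type*} [NormedAddCommGroup E] [NormedSpace ℝ E]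
variable {M : Type*} [TopologicalSpace M] [ChartedSpace E M] [IsManifold 𝓘(ℝ, E) ∞ M]

lemma at2_eq_pbL {p x : M} (hx : x ∈ (chartAt E p).source) (a : F2 E M) :
    at2 a x = pbL (tcc x p x) (rep p a (chartAt E p x)) := by
  ext u v
  exact apply_eq_rep hx a u v

lemma rep_eq_pbL' (p : M) (a : F2 E M) (y : E) :
    rep p a y = pbL (tcc p ((chartAt E p).symm y) ((chartAt E p).symm y))
      (at2 a ((chartAt E p).symm y)) := rfl

lemma summable_at2 {c : ℕ → F2 E M} {p x : M} (hx : x ∈ (chartAt E p).source)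
    (h : Summable fun n => rep p (c n) (chartAt E p x)) : Summable fun n => at2 (c n) x := by
  have := (pbL (tcc x p x)).summable h
  refine this.congr fun n => ?_
  exact (at2_eq_pbL hx (c n)).symm

/-- the sum of a series of forms, in charts. -/
lemma rep_tsum {c : ℕ → F2 E M} (hs : ∀ x, Summable fun n => at2 (c n) x) (p : M) (y : E) :
    rep p (fun x => ∑' n, at2 (c n) x : F2 E M) y = ∑' n, rep p (c n) y := by
  rw [rep_eq_pbL']
  have h1 : at2 (fun x => ∑' n, at2 (c n) x : F2 E M) ((chartAt E p).symm y) =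
    ∑' n, at2 (c n) ((chartAt E p).symm y) := rfl
  rw [h1, ContinuousLinearMap.map_tsum _ (hs _)]
  rfl

/-- FRECHET COMPLETENESS, general form. -/
theorem fre_complete [FiniteDimensional ℝ E] [T2Space M]
    {ι : Type*} [Finite ι] (ch : ι → M) (K : ι → Set E)
    (hK : ∀ i, K i ⊆ (chartAt E (ch i)).target)
    (hcov : ∀ x : M, ∃ i, x ∈ (chartAt E (ch i)).source ∧ chartAt E (ch i) x ∈ interior (K i))
    (c : ℕ → F2 E M) (hc : ∀ n, Smooth2 (c n)) (u : ℕ → ℕ → ℝ) (hu : ∀ l, Summable (u l))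
    (hb : ∀ l n i, ∀ y ∈ K i, ‖iteratedFDeriv ℝ l (rep (ch i) (c n)) y‖ ≤ u l n) :
    ∃ s : F2 E M, Smooth2 s ∧ (∀ x, HasSum (fun n => at2 (c n) x) (at2 s x)) ∧
      ((∀ n, Closed2 (c n)) → Closed2 s) ∧
      ∀ (l N : ℕ) (i : ι), ∀ y ∈ interior (K i),
        ‖iteratedFDeriv ℝ l (rep (ch i) (s - ∑ n ∈ Finset.range N, c n)) y‖
          ≤ ∑' n, u l (n + N) := by
  have hs : ∀ x, Summable fun n => at2 (c n) x := by
    intro x
    obtain ⟨i, h1, h2⟩ := hcov x
    refine summable_at2 h1 (Summable.of_norm_bounded (hu 0) fun n => ?_)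
    have := hb 0 n i _ (interior_subset h2)
    simpa using this
  set s : F2 E M := fun x => ∑' n, at2 (c n) x with hsdef
  have hrep : ∀ p, rep p s = fun y => ∑' n, rep p (c n) y := fun p => funext (rep_tsum hs p)
  have hco : ∀ i, ∀ n, ContDiffOn ℝ ∞ (rep (ch i) (c n)) (interior (K i)) := fun i n =>
    ((hc n).2 _).mono (interior_subset.trans (hK i))
  have hbo : ∀ i, ∀ l n, ∀ y ∈ interior (K i),
      ‖iteratedFDeriv ℝ l (rep (ch i) (c n)) y‖ ≤ u l n := fun i l n y hy =>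
    hb l n i y (interior_subset hy)
  have hsm : Smooth2 s := by
    refine Smooth2.of_local (fun x v => ?_) fun x => ?_
    · have h1 : at2 s x = ∑' n, at2 (c n) x := rfl
      have h2 : HasSum (fun n => at2 (c n) x v v) (at2 s x v v) := by
        have h3 := ((ContinuousLinearMap.apply ℝ ℝ v).comp
          (ContinuousLinearMap.apply ℝ (E →L[ℝ] ℝ) v)).hasSum (hs x).hasSum
        exact h3
      have h4 : (fun n => at2 (c n) x v v) = fun _ => 0 := funext fun n => (hc n).1 x v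
      rw [h4] at h2
      exact (h2.unique hasSum_zero)
    · obtain ⟨i, h1, h2⟩ := hcov x
      refine ⟨ch i, h1, ?_⟩
      rw [hrep]
      exact (series_contDiffOn isOpen_interior (hco i) hu (hbo i)).contDiffAt
        (isOpen_interior.mem_nhds h2)
  refine ⟨s, hsm, fun x => (hs x).hasSum, fun hcl => ?_, fun l N i y hy => ?_⟩
  · refine Closed2.of_local hsm fun x => ?_
    obtain ⟨i, h1, h2⟩ := hcov x
    refine ⟨ch i, h1, fun w₁ w₂ w₃ => ?_⟩
    set y := chartAt E (ch i) x with hy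
    have hyt := hK i (interior_subset h2)
    have e0 : ∀ n, fderiv ℝ (rep (ch i) (c n)) y = fderiv ℝ (rep (ch i) (c n)) y := fun n => rfl
    have hfd : HasFDerivAt (rep (ch i) s) (∑' n, fderiv ℝ (rep (ch i) (c n)) y) y := by
      rw [hrep]
      obtain ⟨ε, hε, hball⟩ := Metric.isOpen_iff.1 isOpen_interior y h2
      refine hasFDerivAt_tsum_of_isPreconnected (hu 1) Metric.isOpen_ball
        (convex_ball y ε).isPreconnected (x₀ := y) (fun n z hz => ?_) (fun n z hz => ?_)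
        (Metric.mem_ball_self hε) ?_ (Metric.mem_ball_self hε)
      · exact (((hco i n).contDiffAt (isOpen_interior.mem_nhds (hball hz))).differentiableAt
          (by simp)).hasFDerivAt
      · have := hbo i 1 n z (hball hz)
        rwa [norm_iteratedFDeriv_one] at this
      · refine Summable.of_norm_bounded (hu 0) fun n => ?_
        simpa using hbo i 0 n y h2
    have hsd : Summable fun n => fderiv ℝ (rep (ch i) (c n)) y := by
      refine Summable.of_norm_bounded (hu 1) fun n => ?_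
      have := hbo i 1 n y h2
      rwa [norm_iteratedFDeriv_one] at this
    have hev : ∀ a b d : E, HasSum (fun n => fderiv ℝ (rep (ch i) (c n)) y a b d)
        (fderiv ℝ (rep (ch i) s) y a b d) := by
      intro a b d
      rw [hfd.fderiv]
      exact ((ContinuousLinearMap.apply ℝ ℝ d).comp
        ((ContinuousLinearMap.apply ℝ (E →L[ℝ] ℝ) b).comp
          (ContinuousLinearMap.apply ℝ (E →L[ℝ] E →L[ℝ] ℝ) a))).hasSum hsd.hasSum
    have h5 := ((hev w₁ w₂ w₃).sub (hev w₂ w₁ w₃)).add (hev w₃ w₁ w₂)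
    have h6 : (fun n => fderiv ℝ (rep (ch i) (c n)) y w₁ w₂ w₃ -
        fderiv ℝ (rep (ch i) (c n)) y w₂ w₁ w₃ + fderiv ℝ (rep (ch i) (c n)) y w₃ w₁ w₂) =
        fun _ => 0 := funext fun n => hcl n (ch i) y hyt w₁ w₂ w₃
    rw [h6] at h5
    exact h5.unique hasSum_zero
  · have h1 : rep (ch i) (s - ∑ n ∈ Finset.range N, c n) =
        fun y => ∑' n, rep (ch i) (c n) y - ∑ n ∈ Finset.range N, rep (ch i) (c n) y := by
      funext z
      rw [rep_sub, hrep]
      congr 1
      induction N with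
      | zero => simp [rep_zero]
      | succ N ih => rw [Finset.sum_range_succ, Finset.sum_range_succ, rep_add, ih]
    rw [h1]
    exact series_tail isOpen_interior (hco i) hu (hbo i) l N hy

end Manifold

/-! ### with `Cover.cm` -/

section Four

variable {M : Type*} [TopologicalSpace M] [ChartedSpace E4 M] [IsManifold 𝓘(ℝ, E4) ∞ M]

/-- a cover with slightly smaller cores, still covering. -/
theorem smooth2_sum {c : ℕ → F2 E4 M} (hc : ∀ n, Smooth2 (c n)) (N : ℕ) :
    Smooth2 (∑ n ∈ Finset.range N, c n) := by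
  induction N with
  | zero => simpa using smooth2_zero
  | succ N ih => rw [Finset.sum_range_succ]; exact ih.add (hc N)

lemma Smooth2.sub' {a b : F2 E4 M} (ha : Smooth2 a) (hb : Smooth2 b) : Smooth2 (a - b) := by
  have h : a - b = a + (-1 : ℝ) • b := by rw [neg_one_smul, sub_eq_add_neg]
  rw [h]; exact ha.add (hb.smul _)

lemma cm_sum_le (𝒰 : Cover M) {c : ℕ → F2 E4 M} (hc : ∀ n, Smooth2 (c n)) (l N : ℕ) :
    𝒰.cm l (∑ n ∈ Finset.range N, c n) ≤ ∑ n ∈ Finset.range N, 𝒰.cm l (c n) := by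
  induction N with
  | zero => simp [cm_zero]
  | succ N ih =>
    rw [Finset.sum_range_succ, Finset.sum_range_succ]
    exact (cm_add_le 𝒰 l (smooth2_sum hc N) (hc N)).trans (add_le_add ih le_rfl)

/-- bounds on the interiors of the cores control `cm`. -/
lemma cm_le_of_interior [T2Space M] (𝒰 : Cover M) (l : ℕ) :
    ∃ C : ℝ, 0 ≤ C ∧ ∀ b : F2 E4 M, Smooth2 b → ∀ B : ℝ, 0 ≤ B →
      (∀ i, ∀ j ≤ l, ∀ y ∈ interior (𝒰.K i), ‖iteratedFDeriv ℝ j (rep (𝒰.p i) b) y‖ ≤ B) →
      𝒰.cm l b ≤ C * B := by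
  have hcmp := fun i : Fin 𝒰.N => cmp_family 𝒰.p (fun i => interior (𝒰.K i))
    (fun i => interior_subset.trans (𝒰.sub i))
    (fun x => by
      obtain ⟨i, h1, h2⟩ := 𝒰.cov x
      exact ⟨i, h1, by rwa [interior_interior]⟩) (𝒰.p i) (𝒰.cpt i) (𝒰.sub i) l
  choose C hC h using hcmp
  refine ⟨∑ i, C i, Finset.sum_nonneg fun i _ => hC i, fun b hb B hB hB' => ?_⟩
  refine cm_le 𝒰 (mul_nonneg (Finset.sum_nonneg fun i _ => hC i) hB) fun i j hj y hy => ?_
  exact (h i b hb B hB hB' j hj y hy).trans (mul_le_mul_of_nonneg_right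
    (Finset.single_le_sum (f := C) (fun k _ => hC k) (Finset.mem_univ i)) hB)

/-- FRECHET COMPLETENESS of the space of smooth two-forms (and of the closed ones). -/
theorem cm_complete [T2Space M] (𝒰 : Cover M) (c : ℕ → F2 E4 M) (hc : ∀ n, Smooth2 (c n))
    (hs : ∀ l, Summable fun n => 𝒰.cm l (c n)) :
    ∃ s : F2 E4 M, Smooth2 s ∧ (∀ x, HasSum (fun n => at2 (c n) x) (at2 s x)) ∧
      ((∀ n, Closed2 (c n)) → Closed2 s) ∧
      (∀ l, Tendsto (fun N => 𝒰.cm l (s - ∑ n ∈ Finset.range N, c n)) atTop (𝓝 0)) := by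
  obtain ⟨s, hsm, hsum, hcl, htail⟩ := fre_complete 𝒰.p 𝒰.K 𝒰.sub 𝒰.cov c hc
    (fun l n => 𝒰.cm l (c n)) hs (fun l n i y hy => le_cm 𝒰 le_rfl (hc n) hy)
  refine ⟨s, hsm, hsum, hcl, fun l => ?_⟩
  obtain ⟨C, hC, h⟩ := cm_le_of_interior 𝒰 l
  have hle : ∀ N, 𝒰.cm l (s - ∑ n ∈ Finset.range N, c n) ≤
      C * ∑' n, 𝒰.cm l (c (n + N)) := by
    intro N
    have h0 : 0 ≤ ∑' n, 𝒰.cm l (c (n + N)) := tsum_nonneg fun n => cm_nonneg _ _ _
    have hsub : Smooth2 (s - ∑ n ∈ Finset.range N, c n) := hsm.sub' (smooth2_sum hc N)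
    have e1 : ∀ j, Summable (fun n => 𝒰.cm j (c (n + N))) := fun j =>
      (summable_nat_add_iff (f := fun n => 𝒰.cm j (c n)) N).2 (hs j)
    refine h _ hsub _ h0 fun i j hj y hy => ?_
    refine (htail j N i y hy).trans ?_
    exact (e1 j).tsum_le_tsum (fun n => cm_mono 𝒰 hj (hc _)) (e1 l)
  have hlim : Tendsto (fun N => C * ∑' n, 𝒰.cm l (c (n + N))) atTop (𝓝 0) := by
    have := (tendsto_sum_nat_add (fun n => 𝒰.cm l (c n))).const_mul C
    simpa using this
  exact squeeze_zero (fun N => cm_nonneg _ _ _) hle hlim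

/-- norm of a limit of partial sums. -/
theorem cm_limit_le (𝒰 : Cover M) {c : ℕ → F2 E4 M} (hc : ∀ n, Smooth2 (c n)) {l : ℕ}
    (hs : Summable fun n => 𝒰.cm l (c n)) {s : F2 E4 M} (hsm : Smooth2 s)
    (hlim : Tendsto (fun N => 𝒰.cm l (s - ∑ n ∈ Finset.range N, c n)) atTop (𝓝 0)) :
    𝒰.cm l s ≤ ∑' n, 𝒰.cm l (c n) := by
  have h1 : ∀ N, 𝒰.cm l s ≤
      𝒰.cm l (s - ∑ n ∈ Finset.range N, c n) + ∑' n, 𝒰.cm l (c n) := by
    intro N
    have hsub : Smooth2 (s - ∑ n ∈ Finset.range N, c n) := hsm.sub' (smooth2_sum hc N)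
    have h2 := cm_add_le 𝒰 l hsub (smooth2_sum hc N)
    rw [sub_add_cancel] at h2
    refine h2.trans (add_le_add le_rfl ?_)
    exact (cm_sum_le 𝒰 hc l N).trans (hs.sum_le_tsum _ fun n _ => cm_nonneg _ _ _)
  have h3 : Tendsto (fun N => 𝒰.cm l (s - ∑ n ∈ Finset.range N, c n) + ∑' n, 𝒰.cm l (c n)) atTop
      (𝓝 (0 + ∑' n, 𝒰.cm l (c n))) := hlim.add_const _
  rw [zero_add] at h3
  exact ge_of_tendsto' h3 h1

end Four

end

end Crest.Agent.R240.Ch
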