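import Crest.Agent.R240.Nsq
import Crest.Agent.R240.Iface
import Crest.Agent.R240.IntTop
import Crest.Agent.R240.Cmp

/-!
Row 240 (S0371), helper456: the Hodge norm on `M` for the data `D : Dat M`: continuity, smoothness,
positivity, the `L²` norm, Cauchy-Schwarz, the seminorms `cm`.
-/

set_option autoImplicit false
set_option maxSynthPendingDepth 3

open Set Function Filter MeasureTheory Metric
open scoped Manifold ContDiff Topology ENNReal

namespace Crest.Agent.R240.NM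

open Ch

noncomputable section

/-! ### smoothness of `q` in charts -/

section Local

theorem contDiffOn_ent {n : WithTop ℕ∞} {s : Set E4} {b : E4 → Bil} (hb : ContDiffOn ℝ n b s)
    (i j : Fin 4) : ContDiffOn ℝ n (fun y => ent (b y) i j) s :=
  (hb.clm_apply contDiffOn_const).clm_apply contDiffOn_const

theorem contDiffOn_W {n : WithTop ℕ∞} {s : Set E4} {b c : E4 → Bil} (hb : ContDiffOn ℝ n b s)
    (hc : ContDiffOn ℝ n c s) : ContDiffOn ℝ n (fun y => W (b y) (c y)) s := by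
  unfold W
  have e := fun i j => contDiffOn_ent hb i j
  have f := fun i j => contDiffOn_ent hc i j
  exact (((((e 0 1).mul (f 2 3)).sub ((e 0 2).mul (f 1 3))).add ((e 0 3).mul (f 1 2))).add
    ((e 1 2).mul (f 0 3))).sub ((e 1 3).mul (f 0 2)) |>.add ((e 2 3).mul (f 0 1))

theorem contDiffOn_q {n : WithTop ℕ∞} {s : Set E4} {F b c : E4 → Bil} (hF : ContDiffOn ℝ n F s)
    (hF0 : ∀ y ∈ s, W (F y) (F y) ≠ 0) (hb : ContDiffOn ℝ n b s)
    (hc : ContDiffOn ℝ n c s) : ContDiffOn ℝ n (fun y => q (F y) (b y) (c y)) s := by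
  unfold q
  exact (contDiffOn_W hb hc).div (contDiffOn_W hF hF) hF0

end Local

section Gen

variable {M : Type*}

theorem posG_add' {J : EndF E4 M} {P R : F2 E4 M} (hP : PosG J P) (hR : PosG J R) :
    PosG J (P + R) := fun x => Ns.pos_add2 (hP x) (hR x)

theorem posG_fmul {J : EndF E4 M} {P : F2 E4 M} (hP : PosG J P) {f : M → ℝ} (hf : ∀ x, 0 ≤ f x) :
    PosG J (Ch.fmul f P) := fun x => Ns.pos_smul (hP x) (hf x)

theorem posG_smul {J : EndF E4 M} {P : F2 E4 M} (hP : PosG J P) {r : ℝ} (hr : 0 ≤ r) :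
    PosG J (r • P) := fun x => Ns.pos_smul (hP x) hr

variable [TopologicalSpace M] [ChartedSpace E4 M] [IsManifold 𝓘(ℝ, E4) ∞ M]

theorem alt_at {b : F2 E4 M} (hb : Smooth2 b) (x : M) : Alt (at2 b x) := fun v => hb.1 x v

theorem alt_X (b : X2 M) (x : M) : Alt (at2 b.1 x) := alt_at b.2 x

theorem _root_.Crest.Agent.R240.Ch.Smooth2.neg' {b : F2 E4 M} (hb : Smooth2 b) : Smooth2 (-b) := by
  have := Smooth2.smul (-1) hb
  rwa [neg_one_smul] at this

theorem _root_.Crest.Agent.R240.Ch.Smooth2.sub' {b c : F2 E4 M} (hb : Smooth2 b)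
    (hc : Smooth2 c) : Smooth2 (b - c) := by
  rw [sub_eq_add_neg]; exact hb.add hc.neg'

end Gen

theorem le_of_sq_le_sq' {x y : ℝ} (h : x ^ 2 ≤ y ^ 2) (hy : 0 ≤ y) : x ≤ y :=
  le_trans (le_abs_self x) (abs_le_of_sq_le_sq h hy)

variable {M : Type*} [MetricSpace M] [CompactSpace M] [ChartedSpace E4 M]
    [IsManifold 𝓘(ℝ, E4) ∞ M] [MeasurableSpace M] [BorelSpace M]

/-! ### data at a point -/

theorem dJ (D : Dat M) (x : M) : ∀ v, atJ D.J x (atJ D.J x v) = -v := D.sq x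

theorem dF (D : Dat M) (x : M) : SPos (atJ D.J x) (at2 D.F x) := Int.dat_sposF D x

theorem smF (D : Dat M) : Smooth2 D.F := Int.dat_smF D

theorem FX_coe (D : Dat M) : ((D.FX : X2 M) : F2 E4 M) = D.F := rfl

theorem smoothF_qG (D : Dat M) {b c : F2 E4 M} (hb : Smooth2 b) (hc : Smooth2 c) :
    SmoothF E4 (qG D.F b c) := by
  intro p
  have h1 := contDiffOn_q ((smF D).2 p) (fun y hy => (Int.dat_volF D).rep_ne hy) (hb.2 p) (hc.2 p)
  refine h1.congr fun y hy => ?_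
  exact Int.qG_chart (Int.dat_volF D) (fun x => alt_at hb x) (fun x => alt_at hc x) hy

theorem continuous_qG (D : Dat M) {b c : F2 E4 M} (hb : Smooth2 b) (hc : Smooth2 c) :
    Continuous (qG D.F b c) :=
  Int.continuous_qG (Int.dat_volF D) (Int.Smooth2.cont2 hb) (Int.Smooth2.cont2 hc)

theorem nsqG_eq (D : Dat M) (b : F2 E4 M) (x : M) : nsqG D.J D.F b x =
    2 * qG D.F b D.F x * qG D.F b D.F x - qG D.F (bp D.J b) (bp D.J b) x
      + qG D.F (bpp D.J b) (bpp D.J b) x := rfl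

theorem smoothF_nsq (D : Dat M) {b : F2 E4 M} (hb : Smooth2 b) : SmoothF E4 (nsqG D.J D.F b) := by
  have h1 := smoothF_qG D hb (smF D)
  have h2 := smoothF_qG D (Smooth2.bp D.smJ hb) (Smooth2.bp D.smJ hb)
  have h3 := smoothF_qG D (Smooth2.bpp D.smJ hb) (Smooth2.bpp D.smJ hb)
  exact (((SmoothF.mul (smoothF_const (E := E4) (M := M) 2) h1).mul h1).sub h2).add h3

theorem continuous_nsq (D : Dat M) {b : F2 E4 M} (hb : Smooth2 b) :
    Continuous (nsqG D.J D.F b) := by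
  have h1 := continuous_qG D hb (smF D)
  have h2 := continuous_qG D (Smooth2.bp D.smJ hb) (Smooth2.bp D.smJ hb)
  have h3 := continuous_qG D (Smooth2.bpp D.smJ hb) (Smooth2.bpp D.smJ hb)
  exact (((continuous_const.mul h1).mul h1).sub h2).add h3

/-- continuity of `x ↦ |b|_x`. -/
theorem continuous_nr (D : Dat M) {b : F2 E4 M} (hb : Smooth2 b) : Continuous (D.nr b) :=
  Real.continuous_sqrt.comp (continuous_nsq D hb)

theorem nr_nonneg (D : Dat M) (b : F2 E4 M) (x : M) : 0 ≤ D.nr b x := Real.sqrt_nonneg _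

theorem nsq_nonneg (D : Dat M) {b : F2 E4 M} (hb : Smooth2 b) (x : M) : 0 ≤ nsqG D.J D.F b x :=
  Ns.nsq_nonneg (dJ D x) (dF D x) (alt_at hb x)

theorem nr_sq (D : Dat M) {b : F2 E4 M} (hb : Smooth2 b) (x : M) :
    D.nr b x ^ 2 = nsqG D.J D.F b x := Real.sq_sqrt (nsq_nonneg D hb x)

theorem abs_qG_le (D : Dat M) {b c : F2 E4 M} (hb : Smooth2 b) (hc : Smooth2 c) (x : M) :
    |qG D.F b c x| ≤ D.nr b x * D.nr c x :=
  Ns.abs_q_le' (dJ D x) (dF D x) (alt_at hb x) (alt_at hc x)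

theorem nr_add_le (D : Dat M) {b c : F2 E4 M} (hb : Smooth2 b) (hc : Smooth2 c) (x : M) :
    D.nr (b + c) x ≤ D.nr b x + D.nr c x :=
  Ns.pn_add_le (dJ D x) (dF D x) (alt_at hb x) (alt_at hc x)

theorem nr_sub_le (D : Dat M) {b c : F2 E4 M} (hb : Smooth2 b) (hc : Smooth2 c) (x : M) :
    D.nr (b - c) x ≤ D.nr b x + D.nr c x :=
  Ns.pn_sub_le (dJ D x) (dF D x) (alt_at hb x) (alt_at hc x)

theorem nr_smul (D : Dat M) (r : ℝ) (b : F2 E4 M) (x : M) : D.nr (r • b) x = |r| * D.nr b x :=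
  Ns.pn_smul _ _ r _

theorem nr_fmul (D : Dat M) (f : M → ℝ) (b : F2 E4 M) (x : M) :
    D.nr (fmul f b) x = |f x| * D.nr b x := Ns.pn_smul _ _ (f x) _

theorem nr_neg (D : Dat M) (b : F2 E4 M) (x : M) : D.nr (-b) x = D.nr b x := Ns.pn_neg _ _ _

theorem nr_zero (D : Dat M) (x : M) : D.nr 0 x = 0 := Ns.pn_zero _ _

theorem nr_F (D : Dat M) (x : M) : D.nr D.F x = 1 := Ns.pn_F (dJ D x) (dF D x)

theorem nr_bp_le (D : Dat M) {b : F2 E4 M} (hb : Smooth2 b) (x : M) :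
    D.nr (bp D.J b) x ≤ D.nr b x := Ns.pn_invp_le (dJ D x) (dF D x) (alt_at hb x)

theorem nr_bpp_le (D : Dat M) {b : F2 E4 M} (hb : Smooth2 b) (x : M) :
    D.nr (bpp D.J b) x ≤ D.nr b x := Ns.pn_antip_le (dJ D x) (dF D x) (alt_at hb x)

theorem nsq_split (D : Dat M) {b : F2 E4 M} (hb : Smooth2 b) (x : M) :
    nsqG D.J D.F b x = nsqG D.J D.F (bp D.J b) x + nsqG D.J D.F (bpp D.J b) x :=
  Ns.nsq_split (dJ D x) (dF D x) (alt_at hb x)

theorem nsq_bpp (D : Dat M) {b : F2 E4 M} (hb : Smooth2 b) (x : M) :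
    nsqG D.J D.F (bpp D.J b) x = qG D.F (bpp D.J b) (bpp D.J b) x :=
  Ns.nsq_antip (dJ D x) (dF D x) (alt_at hb x)

theorem nsq_bp (D : Dat M) {b : F2 E4 M} (hb : Smooth2 b) (x : M) :
    nsqG D.J D.F (bp D.J b) x = 2 * qG D.F b D.F x ^ 2 - qG D.F (bp D.J b) (bp D.J b) x :=
  Ns.nsq_invp (dJ D x) (dF D x) (alt_at hb x)

theorem q_split (D : Dat M) {b c : F2 E4 M} (hb : Smooth2 b) (hc : Smooth2 c) (x : M) :
    qG D.F b c x = qG D.F (bp D.J b) (bp D.J c) x + qG D.F (bpp D.J b) (bpp D.J c) x :=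
  Ns.q_split' (dJ D x) (dF D x) (alt_at hb x) (alt_at hc x)

theorem q_bp_bpp (D : Dat M) {b c : F2 E4 M} (hb : Smooth2 b) (hc : Smooth2 c) (x : M) :
    qG D.F (bp D.J b) (bpp D.J c) x = 0 :=
  Ns.q_invp_antip (dJ D x) (dF D x) (alt_at hb x) (alt_at hc x)

theorem q_bpp_bp (D : Dat M) {b c : F2 E4 M} (hb : Smooth2 b) (hc : Smooth2 c) (x : M) :
    qG D.F (bpp D.J b) (bp D.J c) x = 0 :=
  Ns.q_antip_invp (dJ D x) (dF D x) (alt_at hb x) (alt_at hc x)

theorem q_bp_F (D : Dat M) {b : F2 E4 M} (hb : Smooth2 b) (x : M) :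
    qG D.F (bp D.J b) D.F x = qG D.F b D.F x := Ns.q_F_invp (dJ D x) (dF D x) (alt_at hb x)

theorem q_bpp_F (D : Dat M) {b : F2 E4 M} (hb : Smooth2 b) (x : M) :
    qG D.F (bpp D.J b) D.F x = 0 := Ns.q_F_antip (dJ D x) (dF D x) (alt_at hb x)

theorem q_F_F (D : Dat M) (x : M) : qG D.F D.F D.F x = 1 := Ns.q_FF (dJ D x) (dF D x)

/-! ### positivity -/

/-- `b' + hF ≥ 0` if `h ≥ √2 |b|`. -/
theorem posG_add (D : Dat M) {b : F2 E4 M} (hb : Smooth2 b) {h : M → ℝ}
    (hh : ∀ x, Real.sqrt 2 * D.nr b x ≤ h x) : PosG D.J (bp D.J b + fmul h D.F) := fun x =>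
  Ns.pos_add_pn (dJ D x) (dF D x) (alt_at hb x) (hh x)

/-- `hF - b' ≥ 0` if `h ≥ √2 |b|`. -/
theorem posG_sub (D : Dat M) {b : F2 E4 M} (hb : Smooth2 b) {h : M → ℝ}
    (hh : ∀ x, Real.sqrt 2 * D.nr b x ≤ h x) : PosG D.J (fmul h D.F - bp D.J b) := fun x =>
  Ns.pos_sub_pn (dJ D x) (dF D x) (alt_at hb x) (hh x)

theorem abs_diag_le (D : Dat M) {b : F2 E4 M} (hb : Smooth2 b) (x : M) (v : E4) :
    |at2 b x v (atJ D.J x v)| ≤ Real.sqrt 2 * D.nr b x * at2 D.F x v (atJ D.J x v) :=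
  Ns.abs_diag_le (dJ D x) (dF D x) (alt_at hb x) v

theorem F_diag_nonneg (D : Dat M) (x : M) (v : E4) : 0 ≤ at2 D.F x v (atJ D.J x v) :=
  Ns.F_nonneg (dF D x) v

theorem geF_neg_nr (D : Dat M) {b : F2 E4 M} (hb : Smooth2 b) :
    GeF D.J D.F b (fun x => - (Real.sqrt 2 * D.nr b x)) := by
  intro x v
  have h := (abs_le.1 (abs_diag_le D hb x v)).1
  linarith

/-- `GeF` and positivity. -/
theorem geF_iff (D : Dat M) {b : F2 E4 M} (hb : Smooth2 b) (h : M → ℝ) :
    GeF D.J D.F b h ↔ PosG D.J (bp D.J b - fmul h D.F) := by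
  constructor
  · intro hg x
    refine ⟨((alt_at hb x).invp _).sub ((dF D x).alt.smul _), fun u v => ?_, fun v => ?_⟩
    · have e1 : ∀ u v, at2 (bp D.J b - fmul h D.F) x u v =
        invp (atJ D.J x) (at2 b x) u v - h x * at2 D.F x u v := fun _ _ => rfl
      rw [e1, e1, invp_inv (dJ D x), (dF D x).inv]
    · have e1 : at2 (bp D.J b - fmul h D.F) x v (atJ D.J x v) =
        invp (atJ D.J x) (at2 b x) v (atJ D.J x v) - h x * at2 D.F x v (atJ D.J x v) := rfl
      rw [e1, invp_diag (dJ D x) (alt_at hb x)]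
      have := hg x v
      linarith
  · intro hp x v
    have h1 := (hp x).nonneg v
    have e1 : at2 (bp D.J b - fmul h D.F) x v (atJ D.J x v) =
        invp (atJ D.J x) (at2 b x) v (atJ D.J x v) - h x * at2 D.F x v (atJ D.J x v) := rfl
    rw [e1, invp_diag (dJ D x) (alt_at hb x)] at h1
    linarith

/-- `|P| ≤ √2 q(P,F)` for `P ≥ 0`. -/
theorem nr_pos_le (D : Dat M) {P : F2 E4 M} (hP : PosG D.J P) (x : M) :
    D.nr P x ≤ Real.sqrt 2 * qG D.F P D.F x := Ns.pn_pos_le (dJ D x) (dF D x) (hP x)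

theorem q_pos_F_nonneg (D : Dat M) {P : F2 E4 M} (hP : PosG D.J P) (x : M) :
    0 ≤ qG D.F P D.F x := Ns.q_PF_nonneg (dJ D x) (dF D x) (hP x)

theorem q_pos_pos_nonneg (D : Dat M) {P R : F2 E4 M} (hP : PosG D.J P) (hR : PosG D.J R) (x : M) :
    0 ≤ qG D.F P R x := Ns.q_PR_nonneg (dJ D x) (dF D x) (hP x) (hR x)

theorem posG_bp (D : Dat M) {P : F2 E4 M} (hP : PosG D.J P) : bp D.J P = P := by
  funext x; exact Ns.pos_invp (hP x)

theorem posG_bpp (D : Dat M) {P : F2 E4 M} (hP : PosG D.J P) : bpp D.J P = 0 := by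
  funext x; exact Ns.pos_antip (hP x)

theorem posG_F (D : Dat M) : PosG D.J D.F := fun x => Ns.spos_pos (dF D x)

theorem posG_fmul_F (D : Dat M) {f : M → ℝ} (hf : ∀ x, 0 ≤ f x) : PosG D.J (fmul f D.F) :=
  fun x => Ns.pos_smul (Ns.spos_pos (dF D x)) (hf x)

/-- the dual cone, pointwise. -/
theorem posG_of_dual (D : Dat M) {X : F2 E4 M} (hX : Smooth2 X)
    (h : ∀ x, ∀ ξ : E4 →L[ℝ] ℝ, 0 ≤ q (at2 D.F x) (at2 X x) (wed ξ (Jc (atJ D.J x) ξ))) :
    PosG D.J (bp D.J X) := fun x => Ns.pos_of_dual (dJ D x) (dF D x) (alt_at hX x) (h x)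

/-! ### the `L²` norm and the pairing -/

instance instFin (D : Dat M) : IsFiniteMeasure D.μ := D.fin

theorem integrable_cont (D : Dat M) {f : M → ℝ} (hf : Continuous f) : Integrable f D.μ :=
  hf.integrable_of_hasCompactSupport (HasCompactSupport.of_compactSpace f)

omit [ChartedSpace E4 M] [IsManifold 𝓘(ℝ, E4) ∞ M] in
theorem integrable_cont' {s : Measure M} [IsFiniteMeasure s] {f : M → ℝ} (hf : Continuous f) :
    Integrable f s :=
  hf.integrable_of_hasCompactSupport (HasCompactSupport.of_compactSpace f)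

theorem I_add_left (D : Dat M) {a b c : F2 E4 M} (ha : Smooth2 a) (hb : Smooth2 b)
    (hc : Smooth2 c) : D.I (a + b) c = D.I a c + D.I b c := by
  unfold Dat.I IG
  rw [← integral_add (integrable_cont D (continuous_qG D ha hc))
    (integrable_cont D (continuous_qG D hb hc))]
  refine integral_congr_ae (Eventually.of_forall fun x => ?_)
  exact Int.qG_add_left _ _ _ _ x

theorem I_comm (D : Dat M) (b c : F2 E4 M) : D.I b c = D.I c b := by
  unfold Dat.I IG
  refine integral_congr_ae (Eventually.of_forall fun x => ?_)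
  exact Int.qG_comm _ _ _ x

theorem I_add_right (D : Dat M) {a b c : F2 E4 M} (ha : Smooth2 a) (hb : Smooth2 b)
    (hc : Smooth2 c) : D.I a (b + c) = D.I a b + D.I a c := by
  rw [I_comm, I_add_left D hb hc ha, I_comm D b, I_comm D c]

theorem I_smul_left (D : Dat M) (r : ℝ) (b c : F2 E4 M) : D.I (r • b) c = r * D.I b c := by
  unfold Dat.I IG
  rw [← integral_const_mul]
  refine integral_congr_ae (Eventually.of_forall fun x => ?_)
  exact Int.qG_smul_left _ _ _ _ x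

theorem I_smul_right (D : Dat M) (r : ℝ) (b c : F2 E4 M) : D.I b (r • c) = r * D.I b c := by
  rw [I_comm, I_smul_left, I_comm]

theorem I_neg_left (D : Dat M) (b c : F2 E4 M) : D.I (-b) c = - D.I b c := by
  have h := I_smul_left D (-1) b c
  rw [neg_one_smul] at h
  linarith

theorem I_neg_right (D : Dat M) (b c : F2 E4 M) : D.I b (-c) = - D.I b c := by
  rw [I_comm, I_neg_left, I_comm]

theorem I_sub_left (D : Dat M) {a b c : F2 E4 M} (ha : Smooth2 a) (hb : Smooth2 b)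
    (hc : Smooth2 c) : D.I (a - b) c = D.I a c - D.I b c := by
  have hn : Smooth2 (-b) := hb.neg'
  rw [sub_eq_add_neg, I_add_left D ha hn hc, I_neg_left]; ring

theorem I_sub_right (D : Dat M) {a b c : F2 E4 M} (ha : Smooth2 a) (hb : Smooth2 b)
    (hc : Smooth2 c) : D.I a (b - c) = D.I a b - D.I a c := by
  rw [I_comm, I_sub_left D hb hc ha, I_comm D b, I_comm D c]

/-- the pairing as a bilinear map on `X2 M`. -/
def Ilin (D : Dat M) (b : X2 M) : X2 M →ₗ[ℝ] ℝ where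
  toFun c := D.I b.1 c.1
  map_add' c d := I_add_right D b.2 c.2 d.2
  map_smul' r c := I_smul_right D r b.1 c.1

theorem n2_nonneg (D : Dat M) (b : F2 E4 M) : 0 ≤ D.n2 b := Real.sqrt_nonneg _

theorem n2_sq (D : Dat M) {b : F2 E4 M} (hb : Smooth2 b) :
    D.n2 b ^ 2 = ∫ x, nsqG D.J D.F b x ∂D.μ :=
  Real.sq_sqrt (integral_nonneg fun x => nsq_nonneg D hb x)

/-- Cauchy-Schwarz for continuous functions. -/
theorem cs_cont (D : Dat M) {f g : M → ℝ} (hf : Continuous f) (hg : Continuous g) :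
    |∫ x, f x * g x ∂D.μ| ≤ √(∫ x, f x ^ 2 ∂D.μ) * √(∫ x, g x ^ 2 ∂D.μ) := by
  have hA : 0 ≤ ∫ x, f x ^ 2 ∂D.μ := integral_nonneg fun x => sq_nonneg _
  have hB : 0 ≤ ∫ x, g x ^ 2 ∂D.μ := integral_nonneg fun x => sq_nonneg _
  have iA : Integrable (fun x => f x ^ 2) D.μ := integrable_cont D (hf.pow 2)
  have iB : Integrable (fun x => g x ^ 2) D.μ := integrable_cont D (hg.pow 2)
  have iC : Integrable (fun x => f x * g x) D.μ := integrable_cont D (hf.mul hg)
  have key : ∀ t : ℝ, 0 ≤ (∫ x, g x ^ 2 ∂D.μ) * (t * t) + (2 * ∫ x, f x * g x ∂D.μ) * t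
      + ∫ x, f x ^ 2 ∂D.μ := by
    intro t
    have h1 : 0 ≤ ∫ x, (f x + t * g x) ^ 2 ∂D.μ := integral_nonneg fun x => sq_nonneg _
    have h2 : ∫ x, (f x + t * g x) ^ 2 ∂D.μ = (∫ x, f x ^ 2 ∂D.μ) + ((2 * t) * ∫ x, f x * g x ∂D.μ
        + (t * t) * ∫ x, g x ^ 2 ∂D.μ) := by
      have iD : Integrable (fun x => 2 * t * (f x * g x)) D.μ := iC.const_mul _
      have iE : Integrable (fun x => t * t * g x ^ 2) D.μ := iB.const_mul _
      have iF : Integrable (fun x => 2 * t * (f x * g x) + t * t * g x ^ 2) D.μ := iD.add iE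
      rw [← integral_const_mul, ← integral_const_mul, ← integral_add iD iE, ← integral_add iA iF]
      refine integral_congr_ae (Eventually.of_forall fun x => ?_)
      simp only
      ring
    rw [h2] at h1
    linarith
  have hd := discrim_le_zero key
  unfold discrim at hd
  have h3 : (∫ x, f x * g x ∂D.μ) ^ 2 ≤ (∫ x, f x ^ 2 ∂D.μ) * ∫ x, g x ^ 2 ∂D.μ := by
    nlinarith
  rw [← Real.sqrt_mul hA, ← Real.sqrt_sq_eq_abs]
  exact Real.sqrt_le_sqrt h3

theorem n2_eq (D : Dat M) {b : F2 E4 M} (hb : Smooth2 b) :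
    D.n2 b = √(∫ x, D.nr b x ^ 2 ∂D.μ) := by
  have : ∀ x, D.nr b x ^ 2 = nsqG D.J D.F b x := fun x => nr_sq D hb x
  simp only [this]
  rfl

theorem int_nr_mul_le (D : Dat M) {b c : F2 E4 M} (hb : Smooth2 b) (hc : Smooth2 c) :
    ∫ x, D.nr b x * D.nr c x ∂D.μ ≤ D.n2 b * D.n2 c := by
  rw [n2_eq D hb, n2_eq D hc]
  exact (le_abs_self _).trans (cs_cont D (continuous_nr D hb) (continuous_nr D hc))

/-- `|I(b,c)| ≤ ‖b‖₂‖c‖₂`. -/
theorem abs_I_le (D : Dat M) {b c : F2 E4 M} (hb : Smooth2 b) (hc : Smooth2 c) :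
    |D.I b c| ≤ D.n2 b * D.n2 c := by
  refine le_trans ?_ (int_nr_mul_le D hb hc)
  unfold Dat.I IG
  rw [← Real.norm_eq_abs]
  refine (norm_integral_le_integral_norm _).trans ?_
  refine integral_mono (integrable_cont D (continuous_qG D hb hc).norm)
    (integrable_cont D ((continuous_nr D hb).mul (continuous_nr D hc))) fun x => ?_
  exact abs_qG_le D hb hc x

theorem n2_add_le (D : Dat M) {b c : F2 E4 M} (hb : Smooth2 b) (hc : Smooth2 c) :
    D.n2 (b + c) ≤ D.n2 b + D.n2 c := by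
  have h1 := n2_sq D (Smooth2.add hb hc)
  have h2 := int_nr_mul_le D hb hc
  have h3 : ∫ x, nsqG D.J D.F (b + c) x ∂D.μ ≤ (D.n2 b + D.n2 c) ^ 2 := by
    have h4 : ∫ x, nsqG D.J D.F (b + c) x ∂D.μ ≤ ∫ x, (nsqG D.J D.F b x
        + (2 * (D.nr b x * D.nr c x) + nsqG D.J D.F c x)) ∂D.μ := by
      refine integral_mono (integrable_cont D (continuous_nsq D (Smooth2.add hb hc)))
        (integrable_cont D ((continuous_nsq D hb).add ((continuous_const.mul
          ((continuous_nr D hb).mul (continuous_nr D hc))).add (continuous_nsq D hc))))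
        fun x => ?_
      show nsqG D.J D.F (b + c) x ≤ nsqG D.J D.F b x
        + (2 * (D.nr b x * D.nr c x) + nsqG D.J D.F c x)
      rw [← nr_sq D (Smooth2.add hb hc), ← nr_sq D hb, ← nr_sq D hc]
      have := nr_add_le D hb hc x
      have := nr_nonneg D (b + c) x
      have := nr_nonneg D b x
      have := nr_nonneg D c x
      nlinarith
    have i1 : Integrable (fun x => nsqG D.J D.F b x) D.μ := integrable_cont D (continuous_nsq D hb)
    have i2 : Integrable (fun x => nsqG D.J D.F c x) D.μ := integrable_cont D (continuous_nsq D hc)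
    have i3 : Integrable (fun x => 2 * (D.nr b x * D.nr c x)) D.μ :=
      integrable_cont D (continuous_const.mul ((continuous_nr D hb).mul (continuous_nr D hc)))
    have i4 : Integrable (fun x => 2 * (D.nr b x * D.nr c x) + nsqG D.J D.F c x) D.μ := i3.add i2
    rw [integral_add i1 i4, integral_add i3 i2, integral_const_mul, ← n2_sq D hb,
      ← n2_sq D hc] at h4
    nlinarith
  rw [← h1] at h3
  exact le_of_sq_le_sq' h3 (add_nonneg (n2_nonneg D b) (n2_nonneg D c))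

theorem n2_smul (D : Dat M) (r : ℝ) (b : F2 E4 M) : D.n2 (r • b) = |r| * D.n2 b := by
  unfold Dat.n2 R240.n2
  have : ∀ x, nsqG D.J D.F (r • b) x = r ^ 2 * nsqG D.J D.F b x := fun x =>
    nsq_smul _ _ r _
  simp only [this]
  rw [integral_const_mul, Real.sqrt_mul (sq_nonneg r), Real.sqrt_sq_eq_abs]

theorem n2_neg (D : Dat M) (b : F2 E4 M) : D.n2 (-b) = D.n2 b := by
  have h := n2_smul D (-1) b
  rwa [neg_one_smul, abs_neg, abs_one, one_mul] at h

theorem n2_sub_le (D : Dat M) {b c : F2 E4 M} (hb : Smooth2 b) (hc : Smooth2 c) :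
    D.n2 (b - c) ≤ D.n2 b + D.n2 c := by
  have hn : Smooth2 (-c) := by
    have := Smooth2.smul (-1) hc
    rwa [neg_one_smul] at this
  rw [sub_eq_add_neg, ← n2_neg D c]
  exact n2_add_le D hb hn

theorem n2_sq_split (D : Dat M) {b : F2 E4 M} (hb : Smooth2 b) :
    D.n2 b ^ 2 = D.n2 (bp D.J b) ^ 2 + D.n2 (bpp D.J b) ^ 2 := by
  have h1 := Smooth2.bp D.smJ hb
  have h2 := Smooth2.bpp D.smJ hb
  rw [n2_sq D hb, n2_sq D h1, n2_sq D h2, ← integral_add (integrable_cont D (continuous_nsq D h1))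
    (integrable_cont D (continuous_nsq D h2))]
  exact integral_congr_ae (Eventually.of_forall fun x => nsq_split D hb x)

theorem n2_bp_le (D : Dat M) {b : F2 E4 M} (hb : Smooth2 b) : D.n2 (bp D.J b) ≤ D.n2 b := by
  have h := n2_sq_split D hb
  have h1 := sq_nonneg (D.n2 (bpp D.J b))
  exact le_of_sq_le_sq' (by linarith) (n2_nonneg D b)

theorem n2_bpp_le (D : Dat M) {b : F2 E4 M} (hb : Smooth2 b) : D.n2 (bpp D.J b) ≤ D.n2 b := by
  have h := n2_sq_split D hb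
  have h1 := sq_nonneg (D.n2 (bp D.J b))
  exact le_of_sq_le_sq' (by linarith) (n2_nonneg D b)

/-- `I(b'',b'') = ‖b''‖₂²`. -/
theorem I_bpp (D : Dat M) {b : F2 E4 M} (hb : Smooth2 b) :
    D.I (bpp D.J b) (bpp D.J b) = D.n2 (bpp D.J b) ^ 2 := by
  rw [n2_sq D (Smooth2.bpp D.smJ hb)]
  exact integral_congr_ae (Eventually.of_forall fun x => (nsq_bpp D hb x).symm)

theorem I_bp_bpp (D : Dat M) {b c : F2 E4 M} (hb : Smooth2 b) (hc : Smooth2 c) :
    D.I (bp D.J b) (bpp D.J c) = 0 := by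
  unfold Dat.I IG
  have : ∀ x, qG D.F (bp D.J b) (bpp D.J c) x = 0 := fun x => q_bp_bpp D hb hc x
  simp only [this, integral_zero]

theorem I_bpp_bp (D : Dat M) {b c : F2 E4 M} (hb : Smooth2 b) (hc : Smooth2 c) :
    D.I (bpp D.J b) (bp D.J c) = 0 := by
  rw [I_comm]; exact I_bp_bpp D hc hb

/-- `I(b,c) = I(b',c') + I(b'',c'')`. -/
theorem I_split (D : Dat M) {b c : F2 E4 M} (hb : Smooth2 b) (hc : Smooth2 c) :
    D.I b c = D.I (bp D.J b) (bp D.J c) + D.I (bpp D.J b) (bpp D.J c) := by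
  have h1 := Smooth2.bp D.smJ hb
  have h2 := Smooth2.bpp D.smJ hb
  have h3 := Smooth2.bp D.smJ hc
  have h4 := Smooth2.bpp D.smJ hc
  unfold Dat.I IG
  rw [← integral_add (integrable_cont D (continuous_qG D h1 h3))
    (integrable_cont D (continuous_qG D h2 h4))]
  exact integral_congr_ae (Eventually.of_forall fun x => q_split D hb hc x)

/-- `I(P,R) ≥ 0` for `P, R ≥ 0`. -/
theorem I_pos_pos (D : Dat M) {P R : F2 E4 M} (hP : PosG D.J P) (hR : PosG D.J R) :
    0 ≤ D.I P R := integral_nonneg fun x => q_pos_pos_nonneg D hP hR x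

/-! ### the star -/

theorem hstarM_eq (D : Dat M) (b : F2 E4 M) :
    hstarM D.J D.F b = fmul (fun x => 2 * qG D.F b D.F x) D.F - bp D.J b + bpp D.J b := rfl

theorem smooth_hstar (D : Dat M) {b : F2 E4 M} (hb : Smooth2 b) :
    Smooth2 (hstarM D.J D.F b) := by
  rw [hstarM_eq]
  have h1 : SmoothF E4 (fun x => 2 * qG D.F b D.F x) :=
    SmoothF.mul (smoothF_const (E := E4) (M := M) 2) (smoothF_qG D hb (smF D))
  have hn : Smooth2 (-(bp D.J b)) := by
    have := Smooth2.smul (-1) (Smooth2.bp D.smJ hb)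
    rwa [neg_one_smul] at this
  rw [sub_eq_add_neg]
  exact ((Smooth2.fmul h1 (smF D)).add hn).add (Smooth2.bpp D.smJ hb)

theorem q_hstar (D : Dat M) {b c : F2 E4 M} (hb : Smooth2 b) (hc : Smooth2 c) (x : M) :
    qG D.F b (hstarM D.J D.F c) x = ipM D.J D.F b c x :=
  Ns.q_hstar (dJ D x) (dF D x) (alt_at hb x) (alt_at hc x)

/-- `I(b, ⋆b) = ‖b‖₂²`. -/
theorem I_hstar (D : Dat M) {b : F2 E4 M} (hb : Smooth2 b) :
    D.I b (hstarM D.J D.F b) = D.n2 b ^ 2 := by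
  rw [n2_sq D hb]
  exact integral_congr_ae (Eventually.of_forall fun x => q_hstar D hb hb x)

/-! ### the seminorms `cm` -/

/-- the `C^m` seminorm on `X2 M`. -/
def cmS {M : Type*} [TopologicalSpace M] [ChartedSpace E4 M] [IsManifold 𝓘(ℝ, E4) ∞ M]
    (𝒰 : Cover M) (m : ℕ) : Seminorm ℝ (X2 M) :=
  Seminorm.of (fun b => 𝒰.cm m b.1) (fun a b => cm_add_le 𝒰 m a.2 b.2)
    (fun r a => by
      rw [Real.norm_eq_abs]
      exact cm_smul 𝒰 m a.2 r)

theorem cmS_apply {M : Type*} [TopologicalSpace M] [ChartedSpace E4 M]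
    [IsManifold 𝓘(ℝ, E4) ∞ M] (𝒰 : Cover M) (m : ℕ) (b : X2 M) :
    cmS 𝒰 m b = 𝒰.cm m b.1 := rfl

end

end Crest.Agent.R240.NM
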