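import Crest.Agent.R240.FundLoc
import Crest.Agent.R240.NrmM
import Crest.Agent.R240.Ch7

/-!
Row 240 (S0371), helper456: node FUND (du Bois-Reymond on `M`): a smooth two-form orthogonal to all
exact forms is closed.
-/

set_option autoImplicit false
set_option maxSynthPendingDepth 3

open Set Function Filter MeasureTheory Metric
open scoped Manifold ContDiff Topology ENNReal

namespace Crest.Agent.R240.Fund

open Ch

noncomputable section

/-- conversion between the two closedness expressions. -/
theorem dd_of_Cl {b : E4 → Bil} {y : E4} (hb : DifferentiableAt ℝ b y) (halt : ∀ z, Alt (b z))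
    (h : En.Cl b y) (u v w : E4) : dd b y u v w = 0 := by
  have hs : fderiv ℝ b y v u w = - fderiv ℝ b y v w u := by
    rw [← fderiv_entry hb, ← fderiv_entry hb]
    have : (fun y => b y u w) = fun y => - (b y w u) := by
      funext z; exact (halt z).swap _ _
    rw [this, fderiv_fun_neg]; simp
  unfold dd
  have := h u v w
  rw [hs]
  linarith

variable {M : Type*} [MetricSpace M] [CompactSpace M] [ChartedSpace E4 M]
    [IsManifold 𝓘(ℝ, E4) ∞ M] [MeasurableSpace M] [BorelSpace M]

theorem W_zero_right (b : Bil) : W b 0 = 0 := by simp [W, ent_zero]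

/-- **node FUND**. -/
theorem fund (D : Dat M) : D.FUND := by
  intro η hη
  show Closed2 η.1
  have hV := Int.dat_volF D
  intro p y0 hy0 u v w
  have hsm : Smooth2 η.1 := η.2
  -- a ball on which the chart orientation is constant
  have hev := (Int.sg_locally_const hV hy0).and ((chartAt E4 p).open_target.mem_nhds hy0)
  obtain ⟨r, hr, hball⟩ := Metric.eventually_nhds_iff_ball.1 hev
  have hσ : Int.sg D.F p y0 ≠ 0 := by
    unfold Int.sg
    have h := hV.rep_ne hy0
    rcases lt_or_gt_of_ne h with h1 | h1
    · rw [sign_neg h1]; norm_num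
    · rw [sign_pos h1]; norm_num
  have hcl : En.Cl (rep p η.1) y0 := by
    refine cl_of_weak (U := ball y0 r) isOpen_ball
      ((hsm.2 p).mono fun z hz => (hball z hz).2) (fun z _ => ?_) ?_ (mem_ball_self hr)
    · intro v
      rw [rep_apply]
      exact hsm.1 _ _
    · intro S hS hSc hSU
      have hsub : tsupport S ⊆ (chartAt E4 p).target := fun z hz => (hball z (hSU hz)).2
      have hEx : IsEx (ext2 p (Ch.d1 S)) := isEx_ext2_d1' hS hSc hsub
      have h0 := hη ⟨ext2 p (Ch.d1 S), IsEx.smooth2 hEx⟩ hEx
      have hb2 : Smooth2 (ext2 p (Ch.d1 S)) := IsEx.smooth2 hEx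
      have h1 : D.I η.1 (ext2 p (Ch.d1 S)) = ∫ y in (chartAt E4 p).target,
          Int.dens D.F p y • qG D.F η.1 (ext2 p (Ch.d1 S)) ((chartAt E4 p).symm y) := by
        unfold Dat.I IG
        refine Int.isVol_integral hV (Int.dat_isVol D) p
          (NM.continuous_qG D hsm hb2).aestronglyMeasurable ?_
        intro x hx
        unfold qG q
        rw [Sm4.at2_ext2_of_notMem hx, W_zero_right, zero_div]
      have h2 : ∫ y in (chartAt E4 p).target,
          Int.dens D.F p y • qG D.F η.1 (ext2 p (Ch.d1 S)) ((chartAt E4 p).symm y) =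
          ∫ y in (chartAt E4 p).target, Int.sg D.F p y0 * W (rep p η.1 y) (En.d1 S y) := by
        refine setIntegral_congr_fun (chartAt E4 p).open_target.measurableSet fun y hy => ?_
        rw [Int.qG_chart hV (fun x => NM.alt_at hsm x) (fun x => NM.alt_at hb2 x) hy,
          smul_eq_mul, Int.dens_mul_q hV hy, Sm4.rep_ext2_self hy]
        show Int.sg D.F p y * W (rep p η.1 y) (En.d1 S y) = _
        by_cases hyU : y ∈ ball y0 r
        · rw [(hball y hyU).1]
        · have hy' : y ∉ tsupport S := fun h' => hyU (hSU h')
          have h0 : fderiv ℝ S y = 0 := by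
            have : S =ᶠ[𝓝 y] fun _ => 0 := by
              filter_upwards [(isClosed_tsupport S).isOpen_compl.mem_nhds hy'] with z hz
              exact image_eq_zero_of_notMem_tsupport hz
            rw [this.fderiv_eq]; simp
          have h00 : En.d1 S y = 0 := by
            ext a b
            rw [En.d1_apply, h0]; simp
          rw [h00, W_zero_right, mul_zero, mul_zero]
      have h3 : ∫ y in (chartAt E4 p).target, Int.sg D.F p y0 * W (rep p η.1 y) (En.d1 S y) =
          ∫ y, Int.sg D.F p y0 * W (rep p η.1 y) (En.d1 S y) := by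
        refine setIntegral_eq_integral_of_forall_compl_eq_zero fun y hy => ?_
        have hy' : y ∉ tsupport S := fun h' => hy (hsub h')
        have h0 : fderiv ℝ S y = 0 := by
          have : S =ᶠ[𝓝 y] fun _ => 0 := by
            filter_upwards [(isClosed_tsupport S).isOpen_compl.mem_nhds hy'] with z hz
            exact image_eq_zero_of_notMem_tsupport hz
          rw [this.fderiv_eq]; simp
        have h00 : En.d1 S y = 0 := by
          ext a b
          rw [En.d1_apply, h0]; simp
        rw [h00, W_zero_right, mul_zero]
      rw [h2, h3, integral_const_mul] at h1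
      have h4 : D.I η.1 (ext2 p (Ch.d1 S)) = 0 := h0
      rw [h4] at h1
      exact (mul_eq_zero.1 h1.symm).resolve_left hσ
  refine dd_of_Cl (hsm.diff hy0) (fun z v => ?_) hcl u v w
  rw [rep_apply]
  exact hsm.1 _ _

end

end Crest.Agent.R240.Fund
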