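import Mathlib
import Crest.Agent.R240.IfaceR
import Crest.Agent.R240.IntBall

/-!
Row 240, PART INT (helper240): the interface nodes STOKES, VG, COV and the final conversion in the
`Goal` form.
-/

set_option autoImplicit false
set_option maxSynthPendingDepth 3

open MeasureTheory Set Filter Topology Function Metric
open scoped Manifold ContDiff ENNReal
open Crest.GeometryTopology.TwoForm

namespace Crest.Agent.R240.Int

open Crest.Agent.R240 Crest.Agent.R240.Ch

noncomputable section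

section
variable {M : Type*} [MetricSpace M] [CompactSpace M] [ChartedSpace E4 M]
    [IsManifold 𝓘(ℝ, E4) ∞ M] [MeasurableSpace M] [BorelSpace M]

theorem IG_comm (F : F2 E4 M) (μ : Measure M) (b c : F2 E4 M) : IG F μ b c = IG F μ c b := by
  unfold IG; congr 1; funext x; exact qG_comm F b c x

/-- node STOKES. -/
theorem node_STOKES (D : Dat M) : D.STOKES := by
  intro η hη b hb
  have h := dat_stokes D hb (η : X2 M).2 (mem_Z2.1 hη)
  show IG D.F D.μ _ _ = 0
  rw [IG_comm]; exact h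

/-- node VG. -/
theorem node_VG (D : Dat M) : D.VG := by
  obtain ⟨C, hC, h⟩ := dat_ball_le D
  refine ⟨C, fun x r hr => ?_⟩
  have h1 := ENNReal.toReal_mono ENNReal.ofReal_ne_top (h x r hr)
  rwa [ENNReal.toReal_ofReal (by positivity)] at h1

/-- node COV. -/
theorem node_COV (D : Dat M) : D.COV := by
  obtain ⟨A⟩ := exists_FA (E := E4) (M := M)
  exact ⟨⟨A.n, A.c, A.K, A.isCompact_K, A.K_sub, A.cover⟩⟩

end

universe u

/-- **final conversion** in the `Goal` form. -/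
theorem final_goal {M : Type u} [TopologicalSpace M] [T2Space M] [CompactSpace M]
    [ConnectedSpace M]
    [ChartedSpace (EuclideanSpace ℝ (Fin 4)) M] [IsManifold (𝓡 4) ∞ M]
    (H : ∀ (N : Type u) [MetricSpace N] [CompactSpace N] [ConnectedSpace N] [ChartedSpace E4 N]
      [IsManifold 𝓘(ℝ, E4) ∞ N] [MeasurableSpace N] [BorelSpace N] (D : Dat N), D.Goal)
    (J : Π x : M, TangentSpace (𝓡 4) x →L[ℝ] TangentSpace (𝓡 4) x)
    (hJ : IsAlmostComplexStructure (𝓡 4) M J)
    (hα : ∃ α : Π x : M, TangentSpace (𝓡 4) x →L[ℝ] TangentSpace (𝓡 4) x →L[ℝ] ℝ,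
      IsSmoothTwoForm (𝓡 4) M α ∧ IsClosedTwoForm (𝓡 4) M α ∧ Tames (𝓡 4) M α J) :
    ∃ α' : Π x : M, TangentSpace (𝓡 4) x →L[ℝ] TangentSpace (𝓡 4) x →L[ℝ] ℝ,
      IsSmoothTwoForm (𝓡 4) M α' ∧ IsClosedTwoForm (𝓡 4) M α' ∧
        IsCompatible (𝓡 4) M α' J := by
  refine final (fun N _ _ _ _ _ _ _ D => ?_) J hJ hα
  obtain ⟨b, hb, hb2, hb3⟩ := H N D
  refine ⟨((b : X2 N) : F2 E4 N), (b : X2 N).2, mem_Z2.1 hb, fun x => ⟨fun v => b.2.1 x v, ?_, ?_⟩⟩
  · intro u v
    have h0 : at2 (bpp D.J ((b : X2 N) : F2 E4 N)) x = 0 := by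
      have h1 : ((D.pi'' b : X2 N) : F2 E4 N) = 0 := by rw [hb2]; rfl
      have h2 : ((D.pi'' b : X2 N) : F2 E4 N) = bpp D.J (b : F2 E4 N) := rfl
      rw [← h2, h1]; rfl
    have h3 : antip (atJ D.J x) (at2 ((b : X2 N) : F2 E4 N) x) u v = 0 := by
      have h4 : antip (atJ D.J x) (at2 ((b : X2 N) : F2 E4 N) x) = 0 := h0
      rw [h4]; rfl
    rw [antip_apply] at h3
    linarith
  · intro v hv
    exact hb3 x v hv

end

end Crest.Agent.R240.Int
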