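import Mathlib
import Crest.Agent.R240.KKer

/-!
Row 240, Lemma A, team K, part K2 (helper610): integrability facts on `E4`.
-/

set_option autoImplicit false
set_option maxSynthPendingDepth 3

namespace Crest.Agent.R240.KLoc

open Crest.Agent.R240 MeasureTheory Set Filter Topology
open scoped ContDiff

noncomputable section

theorem integrableOn_norm_inv_cube (R : ℝ) :
    IntegrableOn (fun z : E4 => ‖z‖⁻¹ ^ 3) (Metric.ball 0 R) := by
  have h := integrableOn_fun_norm_addHaar (E := E4) (F := ℝ) volume (f := fun r : ℝ => r⁻¹ ^ 3)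
    (r := R)
  rw [h]
  have hd : Module.finrank ℝ E4 = 4 := finrank_euclideanSpace_fin
  rw [hd]
  have h1 : IntegrableOn (fun _ : ℝ => (1 : ℝ)) (Ioo 0 R) := by
    rw [integrableOn_const_iff]
    right
    simp
  refine h1.congr_fun (fun y hy => ?_) measurableSet_Ioo
  have hy0 : y ≠ 0 := hy.1.ne'
  simp only [smul_eq_mul]
  field_simp

/-- the majorant. -/
def maj (R : ℝ) (z : E4) : ℝ := (Metric.ball (0 : E4) R).indicator (fun z => ‖z‖⁻¹ ^ 3) z

theorem integrable_maj (R : ℝ) : Integrable (maj R) := by
  unfold maj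
  exact (integrable_indicator_iff Metric.isOpen_ball.measurableSet).2 (integrableOn_norm_inv_cube R)

theorem maj_nonneg (R : ℝ) (z : E4) : 0 ≤ maj R z := by
  unfold maj
  exact indicator_nonneg (fun z _ => by positivity) z

theorem maj_eq {R : ℝ} {z : E4} (hz : ‖z‖ < R) : maj R z = ‖z‖⁻¹ ^ 3 := by
  unfold maj
  rw [indicator_of_mem]
  simpa using hz

theorem ae_ne_zero : ∀ᵐ z : E4, z ≠ 0 := by
  have : (volume : Measure E4) {0} = 0 := measure_singleton 0
  rw [ae_iff]
  simpa using this

/-- continuity off the origin is enough for measurability. -/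
theorem aesm_of_contOn {V : Type*} [NormedAddCommGroup V] [NormedSpace ℝ V]
    {f : E4 → V} (hf : ContinuousOn f {z | z ≠ 0}) : AEStronglyMeasurable f volume := by
  have hopen : IsOpen {z : E4 | z ≠ 0} := isOpen_ne
  have h1 : AEStronglyMeasurable f (volume.restrict {z : E4 | z ≠ 0}) :=
    hf.aestronglyMeasurable hopen.measurableSet
  have h2 : (volume : Measure E4).restrict {z : E4 | z ≠ 0} = volume :=
    Measure.restrict_eq_self_of_ae_mem ae_ne_zero
  rwa [h2] at h1

/-- differentiation under the integral sign: compactly supported in `y`. -/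
theorem hasFDerivAt_integral_compact {V : Type*} [NormedAddCommGroup V] [NormedSpace ℝ V]
    (B : E4 → E4 → V) (B' : E4 → E4 → (E4 →L[ℝ] V)) (K : Set E4) (hK : IsCompact K)
    (hB : Continuous fun p : E4 × E4 => B p.1 p.2)
    (hB' : Continuous fun p : E4 × E4 => B' p.1 p.2)
    (hd : ∀ x y, HasFDerivAt (fun x => B x y) (B' x y) x)
    (h0 : ∀ x y, y ∉ K → B x y = 0) (h0' : ∀ x y, y ∉ K → B' x y = 0) (x0 : E4) :
    HasFDerivAt (fun x => ∫ y, B x y) (∫ y, B' x0 y) x0 := by
  obtain ⟨C, hC⟩ := ((isCompact_closedBall x0 1).prod hK).exists_bound_of_continuousOn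
    hB'.continuousOn
  have hint : Integrable (K.indicator fun _ => C) (volume : Measure E4) := by
    rw [integrable_indicator_iff hK.measurableSet, integrableOn_const_iff]
    right
    exact hK.measure_lt_top
  refine hasFDerivAt_integral_of_dominated_of_fderiv_le (F' := B')
    (bound := K.indicator fun _ => C) (Metric.ball_mem_nhds x0 one_pos) ?_ ?_ ?_ ?_ hint ?_
  · refine Eventually.of_forall fun x => ?_
    exact (hB.comp (by fun_prop : Continuous fun y : E4 => ((x, y) : E4 × E4))).aestronglyMeasurable
  · have hc : Continuous (fun y => B x0 y) :=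
      hB.comp (by fun_prop : Continuous fun y : E4 => ((x0, y) : E4 × E4))
    refine hc.integrable_of_hasCompactSupport ?_
    exact HasCompactSupport.intro hK (fun y hy => h0 x0 y hy)
  · exact (hB'.comp (by fun_prop : Continuous fun y : E4 => ((x0, y) : E4 × E4))).aestronglyMeasurable
  · refine Eventually.of_forall fun y x hx => ?_
    by_cases hy : y ∈ K
    · rw [indicator_of_mem hy]
      exact hC (x, y) ⟨Metric.ball_subset_closedBall hx, hy⟩
    · rw [indicator_of_notMem hy, h0' x y hy, norm_zero]
  · exact Eventually.of_forall fun y x _ => hd x y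

end

end Crest.Agent.R240.KLoc
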