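import Mathlib
import Crest.Agent.R240.KAux

/-!
Row 240, Lemma A, team K, part K2 (helper610): derivative of the regularised operator, first
representation (uniform in `δ`).
-/

set_option autoImplicit false
set_option maxSynthPendingDepth 3

namespace Crest.Agent.R240.KLoc

open Crest.Agent.R240 MeasureTheory Set Filter Topology
open scoped ContDiff

noncomputable section

/-- evaluation `b ↦ b z z`. -/
def ev2 (z : E4) : Bil →L[ℝ] ℝ := (ContinuousLinearMap.apply ℝ ℝ z).comp (evL z)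

@[simp] theorem ev2_apply (z : E4) (b : Bil) : ev2 z b = b z z := rfl

theorem norm_evL_le (z : E4) : ‖evL z‖ ≤ ‖z‖ := by
  refine ContinuousLinearMap.opNorm_le_bound _ (norm_nonneg z) fun b => ?_
  rw [evL_apply, mul_comm]
  exact b.le_opNorm z

theorem norm_ev2_le (z : E4) : ‖ev2 z‖ ≤ ‖z‖ ^ 2 := by
  refine ContinuousLinearMap.opNorm_le_bound _ (by positivity) fun b => ?_
  rw [ev2_apply]
  calc ‖b z z‖ ≤ ‖b z‖ * ‖z‖ := (b z).le_opNorm z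
    _ ≤ (‖b‖ * ‖z‖) * ‖z‖ := by gcongr; exact b.le_opNorm z
    _ = ‖z‖ ^ 2 * ‖b‖ := by ring

/-- `HH δ y z = (g y z z + δ)⁻² • P y`. -/
def HH (g P : E4 → Bil) (δ : ℝ) (y z : E4) : Bil := ((g y z z + δ)⁻¹ ^ 2) • P y

/-- its `y`-derivative. -/
def HD (g P : E4 → Bil) (δ : ℝ) (y z : E4) : E4 →L[ℝ] Bil :=
  ((g y z z + δ)⁻¹ ^ 2) • fderiv ℝ P y -
    ((2 * (g y z z + δ)⁻¹ ^ 3) • (ev2 z).comp (fderiv ℝ g y)).smulRight (P y)

theorem hasFDerivAt_HH {g P : E4 → Bil} (hg : ContDiff ℝ ∞ g) (hP : ContDiff ℝ ∞ P) {δ : ℝ}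
    {y z : E4} (hpos : 0 < g y z z + δ) :
    HasFDerivAt (fun y => HH g P δ y z) (HD g P δ y z) y := by
  have hgd : HasFDerivAt g (fderiv ℝ g y) y := (hg.differentiable (by simp) y).hasFDerivAt
  have hPd : HasFDerivAt P (fderiv ℝ P y) y := (hP.differentiable (by simp) y).hasFDerivAt
  have h1 : HasFDerivAt (fun y => g y z z + δ) ((ev2 z).comp (fderiv ℝ g y)) y :=
    (((ev2 z).hasFDerivAt (x := g y)).comp y hgd).add_const δ
  have h2 : HasFDerivAt (fun y => (g y z z + δ)⁻¹)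
      (-((g y z z + δ) ^ 2)⁻¹ • ((ev2 z).comp (fderiv ℝ g y))) y :=
    (hasDerivAt_inv hpos.ne').comp_hasFDerivAt y h1
  have h3 := (h2.pow 2).smul hPd
  refine h3.congr_fderiv ?_
  unfold HD
  ext a u v
  simp
  field_simp
  ring

/-- lower bound for the metric. -/
def Low (g : E4 → Bil) : Prop := ∀ y z, ‖z‖ ^ 2 ≤ g y z z

theorem Low.pos {g : E4 → Bil} (h : Low g) {δ : ℝ} (hδ : 0 ≤ δ) {y z : E4} (hz : z ≠ 0) :
    0 < g y z z + δ := by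
  have h1 := h y z
  have h2 : 0 < ‖z‖ := norm_pos_iff.2 hz
  nlinarith [sq_nonneg ‖z‖, pow_pos h2 2]

theorem Low.inv_le {g : E4 → Bil} (h : Low g) {δ : ℝ} (hδ : 0 ≤ δ) {y z : E4} (hz : z ≠ 0) :
    (g y z z + δ)⁻¹ ≤ ‖z‖⁻¹ ^ 2 := by
  have h1 := h y z
  have h2 : 0 < ‖z‖ := norm_pos_iff.2 hz
  rw [inv_pow]
  exact inv_anti₀ (by positivity) (by linarith)

theorem Low.inv_nonneg {g : E4 → Bil} (h : Low g) {δ : ℝ} (hδ : 0 ≤ δ) (y z : E4) :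
    0 ≤ (g y z z + δ)⁻¹ := by
  have h1 := h y z
  have h2 : 0 ≤ ‖z‖ ^ 2 := by positivity
  exact _root_.inv_nonneg.2 (by linarith)

theorem norm_HH_le {g P : E4 → Bil} (h : Low g) {δ : ℝ} (hδ : 0 ≤ δ) {y z : E4} (hz : z ≠ 0) :
    ‖HH g P δ y z‖ ≤ ‖z‖⁻¹ ^ 4 * ‖P y‖ := by
  unfold HH
  have h1 := h.inv_le hδ (y := y) hz
  have h0 := h.inv_nonneg hδ y z
  rw [norm_smul, Real.norm_of_nonneg (by positivity)]
  have : (g y z z + δ)⁻¹ ^ 2 ≤ (‖z‖⁻¹ ^ 2) ^ 2 := by gcongr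
  calc (g y z z + δ)⁻¹ ^ 2 * ‖P y‖ ≤ (‖z‖⁻¹ ^ 2) ^ 2 * ‖P y‖ := by gcongr
    _ = ‖z‖⁻¹ ^ 4 * ‖P y‖ := by ring

theorem norm_HD_le {g P : E4 → Bil} (h : Low g) {δ : ℝ} (hδ : 0 ≤ δ) {y z : E4} (hz : z ≠ 0) :
    ‖HD g P δ y z‖ ≤ ‖z‖⁻¹ ^ 4 * (‖fderiv ℝ P y‖ + 2 * ‖fderiv ℝ g y‖ * ‖P y‖) := by
  unfold HD
  have h1 := h.inv_le hδ (y := y) hz
  have h0 := h.inv_nonneg hδ y z
  have hz0 : 0 < ‖z‖ := norm_pos_iff.2 hz
  have e2 : (g y z z + δ)⁻¹ ^ 2 ≤ (‖z‖⁻¹ ^ 2) ^ 2 := by gcongr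
  have e3 : (g y z z + δ)⁻¹ ^ 3 ≤ (‖z‖⁻¹ ^ 2) ^ 3 := by gcongr
  have a1 : ‖((g y z z + δ)⁻¹ ^ 2) • fderiv ℝ P y‖ ≤ (‖z‖⁻¹ ^ 2) ^ 2 * ‖fderiv ℝ P y‖ := by
    rw [norm_smul, Real.norm_of_nonneg (by positivity)]
    gcongr
  have a2 : ‖((2 * (g y z z + δ)⁻¹ ^ 3) • (ev2 z).comp (fderiv ℝ g y)).smulRight (P y)‖ ≤
      (2 * (‖z‖⁻¹ ^ 2) ^ 3) * (‖z‖ ^ 2 * ‖fderiv ℝ g y‖) * ‖P y‖ := by
    rw [ContinuousLinearMap.norm_smulRight_apply, norm_smul, Real.norm_of_nonneg (by positivity)]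
    have : ‖(ev2 z).comp (fderiv ℝ g y)‖ ≤ ‖z‖ ^ 2 * ‖fderiv ℝ g y‖ :=
      (ContinuousLinearMap.opNorm_comp_le _ _).trans (by gcongr; exact norm_ev2_le z)
    gcongr
  refine (norm_sub_le _ _).trans ((add_le_add a1 a2).trans_eq ?_)
  have hz1 : ‖z‖⁻¹ ^ 2 * ‖z‖ ^ 2 = 1 := by
    rw [← mul_pow, inv_mul_cancel₀ hz0.ne', one_pow]
  calc (‖z‖⁻¹ ^ 2) ^ 2 * ‖fderiv ℝ P y‖
        + (2 * (‖z‖⁻¹ ^ 2) ^ 3) * (‖z‖ ^ 2 * ‖fderiv ℝ g y‖) * ‖P y‖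
      = (‖z‖⁻¹ ^ 2) ^ 2 * ‖fderiv ℝ P y‖
        + 2 * (‖z‖⁻¹ ^ 2) ^ 2 * (‖z‖⁻¹ ^ 2 * ‖z‖ ^ 2) * ‖fderiv ℝ g y‖ * ‖P y‖ := by ring
    _ = ‖z‖⁻¹ ^ 4 * (‖fderiv ℝ P y‖ + 2 * ‖fderiv ℝ g y‖ * ‖P y‖) := by rw [hz1]; ring

/-- standing hypotheses on `g, P, θ`. -/
structure Hyp (g P : E4 → Bil) (θ : E4 → ℝ) (R Cθ : ℝ) : Prop where
  g_smooth : ContDiff ℝ ∞ g
  P_smooth : ContDiff ℝ ∞ P
  P_cpt : HasCompactSupport P
  θ_smooth : ContDiff ℝ ∞ θ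
  low : Low g
  θ_supp : ∀ z, R ≤ ‖z‖ → θ z = 0
  θ_bd : ∀ z, |θ z| ≤ Cθ

variable {g P : E4 → Bil} {θ : E4 → ℝ} {R Cθ : ℝ}

theorem Hyp.Cθ_nonneg (h : Hyp g P θ R Cθ) : 0 ≤ Cθ := (abs_nonneg _).trans (h.θ_bd 0)

theorem Hyp.exists_CP (h : Hyp g P θ R Cθ) :
    ∃ C, 0 ≤ C ∧ ∀ y, ‖P y‖ ≤ C ∧ ‖fderiv ℝ P y‖ + 2 * ‖fderiv ℝ g y‖ * ‖P y‖ ≤ C := by
  have hPd : Continuous (fderiv ℝ P) := h.P_smooth.continuous_fderiv (by simp)
  have hgd : Continuous (fderiv ℝ g) := h.g_smooth.continuous_fderiv (by simp)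
  have hP := h.P_smooth.continuous
  have hc : Continuous fun y => ‖P y‖ + (‖fderiv ℝ P y‖ + 2 * ‖fderiv ℝ g y‖ * ‖P y‖) := by fun_prop
  have hs : HasCompactSupport fun y => ‖P y‖ + (‖fderiv ℝ P y‖ + 2 * ‖fderiv ℝ g y‖ * ‖P y‖) := by
    refine HasCompactSupport.intro h.P_cpt (fun y hy => ?_)
    have h1 : P y = 0 := image_eq_zero_of_notMem_tsupport hy
    have h2 : fderiv ℝ P y = 0 := image_eq_zero_of_notMem_tsupport
      (fun hy' => hy (tsupport_fderiv_subset ℝ hy'))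
    rw [h1, h2]
    simp
  obtain ⟨C, hC⟩ := hc.bounded_above_of_compact_support hs
  refine ⟨C, (norm_nonneg _).trans (hC 0), fun y => ?_⟩
  have := (le_abs_self _).trans (hC y)
  have h1 := norm_nonneg (P y)
  have h2 := norm_nonneg (fderiv ℝ P y)
  have h3 : 0 ≤ 2 * ‖fderiv ℝ g y‖ * ‖P y‖ := by positivity
  constructor <;> linarith

/-- the integrand. -/
def FF (g P : E4 → Bil) (θ : E4 → ℝ) (δ : ℝ) (x z : E4) : Dual4 := θ z • (HH g P δ (x - z) z) z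

/-- its `x`-derivative. -/
def FD (g P : E4 → Bil) (θ : E4 → ℝ) (δ : ℝ) (x z : E4) : Bil :=
  θ z • (evL z).comp (HD g P δ (x - z) z)

theorem Hyp.hasFDerivAt_FF (h : Hyp g P θ R Cθ) {δ : ℝ} (hδ : 0 ≤ δ) (x : E4) {z : E4}
    (hz : z ≠ 0) : HasFDerivAt (fun x => FF g P θ δ x z) (FD g P θ δ x z) x := by
  unfold FF FD
  have h1 : HasFDerivAt (fun x => HH g P δ (x - z) z) (HD g P δ (x - z) z) x := by
    have h2 := hasFDerivAt_HH h.g_smooth h.P_smooth (h.low.pos hδ hz (y := x - z))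
    have h3 : HasFDerivAt (fun x : E4 => x - z) (ContinuousLinearMap.id ℝ E4) x :=
      (hasFDerivAt_id x).sub_const z
    exact HasFDerivAt.comp x h2 h3
  exact (((evL z).hasFDerivAt).comp x h1).const_smul (θ z)

theorem Hyp.norm_FD_le (h : Hyp g P θ R Cθ) {C : ℝ} (hC0 : 0 ≤ C)
    (hC : ∀ y, ‖P y‖ ≤ C ∧ ‖fderiv ℝ P y‖ + 2 * ‖fderiv ℝ g y‖ * ‖P y‖ ≤ C)
    {δ : ℝ} (hδ : 0 ≤ δ) (x : E4) {z : E4} (hz : z ≠ 0) :
    ‖FD g P θ δ x z‖ ≤ Cθ * C * maj R z := by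
  rcases lt_or_ge ‖z‖ R with hzR | hzR
  · rw [maj_eq hzR]
    unfold FD
    have hz0 : 0 < ‖z‖ := norm_pos_iff.2 hz
    have h1 := norm_HD_le (P := P) h.low hδ (y := x - z) hz
    have h2 : ‖(evL z).comp (HD g P δ (x - z) z)‖ ≤ ‖z‖ * (‖z‖⁻¹ ^ 4 * C) := by
      refine (ContinuousLinearMap.opNorm_comp_le _ _).trans ?_
      gcongr
      · exact norm_evL_le z
      · exact h1.trans (by gcongr; exact (hC _).2)
    rw [norm_smul, Real.norm_eq_abs]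
    calc |θ z| * ‖(evL z).comp (HD g P δ (x - z) z)‖ ≤ Cθ * (‖z‖ * (‖z‖⁻¹ ^ 4 * C)) := by
          have := h.Cθ_nonneg
          gcongr
          exact h.θ_bd z
      _ = Cθ * C * ‖z‖⁻¹ ^ 3 := by
          field_simp
  · unfold FD
    rw [h.θ_supp z hzR, zero_smul, norm_zero]
    have := h.Cθ_nonneg
    have := maj_nonneg R z
    positivity

theorem Hyp.norm_FF_le (h : Hyp g P θ R Cθ) {C : ℝ} (hC0 : 0 ≤ C)
    (hC : ∀ y, ‖P y‖ ≤ C ∧ ‖fderiv ℝ P y‖ + 2 * ‖fderiv ℝ g y‖ * ‖P y‖ ≤ C)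
    {δ : ℝ} (hδ : 0 ≤ δ) (x : E4) {z : E4} (hz : z ≠ 0) :
    ‖FF g P θ δ x z‖ ≤ Cθ * C * maj R z := by
  rcases lt_or_ge ‖z‖ R with hzR | hzR
  · rw [maj_eq hzR]
    unfold FF
    have hz0 : 0 < ‖z‖ := norm_pos_iff.2 hz
    have h1 := norm_HH_le (P := P) h.low hδ (y := x - z) hz
    have h2 : ‖HH g P δ (x - z) z z‖ ≤ (‖z‖⁻¹ ^ 4 * C) * ‖z‖ := by
      refine (ContinuousLinearMap.le_opNorm _ _).trans ?_
      gcongr
      exact h1.trans (by gcongr; exact (hC _).1)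
    rw [norm_smul, Real.norm_eq_abs]
    calc |θ z| * ‖HH g P δ (x - z) z z‖ ≤ Cθ * ((‖z‖⁻¹ ^ 4 * C) * ‖z‖) := by
          have := h.Cθ_nonneg
          gcongr
          exact h.θ_bd z
      _ = Cθ * C * ‖z‖⁻¹ ^ 3 := by
          field_simp
  · unfold FF
    rw [h.θ_supp z hzR, zero_smul, norm_zero]
    have := h.Cθ_nonneg
    have := maj_nonneg R z
    positivity

theorem Hyp.contOn_FF (h : Hyp g P θ R Cθ) {δ : ℝ} (hδ : 0 ≤ δ) (x : E4) :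
    ContinuousOn (fun z => FF g P θ δ x z) {z | z ≠ 0} := by
  unfold FF HH
  have hg := h.g_smooth.continuous
  have hP := h.P_smooth.continuous
  have hθ := h.θ_smooth.continuous
  have h1 : ContinuousOn (fun z => (g (x - z) z z + δ)⁻¹) {z : E4 | z ≠ 0} := by
    refine ContinuousOn.inv₀ (by fun_prop) (fun z hz => (h.low.pos hδ hz).ne')
  fun_prop

theorem Hyp.contOn_FD (h : Hyp g P θ R Cθ) {δ : ℝ} (hδ : 0 ≤ δ) (x : E4) :
    ContinuousOn (fun z => FD g P θ δ x z) {z | z ≠ 0} := by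
  unfold FD HD
  have hg := h.g_smooth.continuous
  have hP := h.P_smooth.continuous
  have hθ := h.θ_smooth.continuous
  have hPd : Continuous (fderiv ℝ P) := h.P_smooth.continuous_fderiv (by simp)
  have hgd : Continuous (fderiv ℝ g) := h.g_smooth.continuous_fderiv (by simp)
  have h1 : ContinuousOn (fun z => (g (x - z) z z + δ)⁻¹) {z : E4 | z ≠ 0} := by
    refine ContinuousOn.inv₀ (by fun_prop) (fun z hz => (h.low.pos hδ hz).ne')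
  have h2 : Continuous evL := evL_contDiff.continuous
  have h3 : Continuous ev2 := by
    unfold ev2
    have : Continuous fun z : E4 => (ContinuousLinearMap.apply ℝ ℝ z : (E4 →L[ℝ] ℝ) →L[ℝ] ℝ) :=
      (ContinuousLinearMap.apply ℝ ℝ : E4 →L[ℝ] (E4 →L[ℝ] ℝ) →L[ℝ] ℝ).continuous
    fun_prop
  have h4 : Continuous fun z => (ev2 z).comp (fderiv ℝ g (x - z)) := by fun_prop
  have h5 : ContinuousOn (fun z => ((2 * (g (x - z) z z + δ)⁻¹ ^ 3) •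
      (ev2 z).comp (fderiv ℝ g (x - z))).smulRight (P (x - z))) {z : E4 | z ≠ 0} := by
    have h6 : ContinuousOn (fun z => ((2 * (g (x - z) z z + δ)⁻¹ ^ 3) •
      (ev2 z).comp (fderiv ℝ g (x - z)))) {z : E4 | z ≠ 0} := by fun_prop
    have h7 : ContinuousOn (fun z => P (x - z)) {z : E4 | z ≠ 0} := by fun_prop
    exact (ContinuousLinearMap.smulRightL ℝ E4 Bil).continuous₂.comp_continuousOn (h6.prodMk h7)
  fun_prop

/-- first representation of the derivative. -/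
theorem Hyp.hasFDerivAt_int (h : Hyp g P θ R Cθ) {δ : ℝ} (hδ : 0 ≤ δ) (x : E4) :
    HasFDerivAt (fun x => ∫ z, FF g P θ δ x z) (∫ z, FD g P θ δ x z) x := by
  obtain ⟨C, hC0, hC⟩ := h.exists_CP
  refine hasFDerivAt_integral_of_dominated_of_fderiv_le (F' := fun x z => FD g P θ δ x z)
    (bound := fun z => Cθ * C * maj R z) (Metric.ball_mem_nhds x one_pos)
    (Eventually.of_forall fun x => aesm_of_contOn (h.contOn_FF hδ x)) ?_
    (aesm_of_contOn (h.contOn_FD hδ x)) ?_ ((integrable_maj R).const_mul _) ?_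
  · refine ((integrable_maj R).const_mul (Cθ * C)).mono' (aesm_of_contOn (h.contOn_FF hδ x)) ?_
    filter_upwards [ae_ne_zero] with z hz
    exact h.norm_FF_le hC0 hC hδ x hz
  · filter_upwards [ae_ne_zero] with z hz x' _
    exact h.norm_FD_le hC0 hC hδ x' hz
  · filter_upwards [ae_ne_zero] with z hz x' _
    exact h.hasFDerivAt_FF hδ x' hz

/-- the limit `δ = r² → 0`. -/
theorem Hyp.tendsto_int (h : Hyp g P θ R Cθ) (x : E4) :
    Tendsto (fun r : ℝ => ∫ z, FD g P θ (r ^ 2) x z) (𝓝[>] 0) (𝓝 (∫ z, FD g P θ 0 x z)) := by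
  obtain ⟨C, hC0, hC⟩ := h.exists_CP
  refine tendsto_integral_filter_of_dominated_convergence (fun z => Cθ * C * maj R z)
    (Eventually.of_forall fun r => aesm_of_contOn (h.contOn_FD (by positivity) x)) ?_
    ((integrable_maj R).const_mul _) ?_
  · refine Eventually.of_forall fun r => ?_
    filter_upwards [ae_ne_zero] with z hz
    exact h.norm_FD_le hC0 hC (by positivity) x hz
  · filter_upwards [ae_ne_zero] with z hz
    have hpos := h.low.pos le_rfl hz (y := x - z)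
    have h1 : Tendsto (fun r : ℝ => (g (x - z) z z + r ^ 2)⁻¹) (𝓝[>] 0)
        (𝓝 (g (x - z) z z + 0)⁻¹) := by
      refine Tendsto.inv₀ ?_ hpos.ne'
      have : Tendsto (fun r : ℝ => g (x - z) z z + r ^ 2) (𝓝 0) (𝓝 (g (x - z) z z + 0 ^ 2)) := by
        apply Continuous.tendsto
        fun_prop
      rw [zero_pow two_ne_zero] at this
      exact this.mono_left nhdsWithin_le_nhds
    unfold FD HD
    have h2 : Tendsto (fun r : ℝ => ((2 * (g (x - z) z z + r ^ 2)⁻¹ ^ 3) •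
      (ev2 z).comp (fderiv ℝ g (x - z))).smulRight (P (x - z))) (𝓝[>] 0)
      (𝓝 (((2 * (g (x - z) z z + 0)⁻¹ ^ 3) •
      (ev2 z).comp (fderiv ℝ g (x - z))).smulRight (P (x - z)))) := by
      have h3 : Tendsto (fun r : ℝ => ((2 * (g (x - z) z z + r ^ 2)⁻¹ ^ 3) •
        (ev2 z).comp (fderiv ℝ g (x - z)))) (𝓝[>] 0) (𝓝 ((2 * (g (x - z) z z + 0)⁻¹ ^ 3) •
        (ev2 z).comp (fderiv ℝ g (x - z)))) := ((h1.pow 3).const_mul 2).smul_const _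
      exact ((ContinuousLinearMap.smulRightL ℝ E4 Bil).flip (P (x - z))).continuous.tendsto _ |>.comp h3
    have h4 : Tendsto (fun r : ℝ => ((g (x - z) z z + r ^ 2)⁻¹ ^ 2) • fderiv ℝ P (x - z) -
        ((2 * (g (x - z) z z + r ^ 2)⁻¹ ^ 3) •
        (ev2 z).comp (fderiv ℝ g (x - z))).smulRight (P (x - z))) (𝓝[>] 0)
        (𝓝 (((g (x - z) z z + 0)⁻¹ ^ 2) • fderiv ℝ P (x - z) -
        ((2 * (g (x - z) z z + 0)⁻¹ ^ 3) •
        (ev2 z).comp (fderiv ℝ g (x - z))).smulRight (P (x - z)))) :=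
      ((h1.pow 2).smul_const _).sub h2
    have h5 := ((ContinuousLinearMap.compL ℝ E4 Bil Dual4 (evL z)).continuous.tendsto _).comp h4
    exact h5.const_smul (θ z)

end

end Crest.Agent.R240.KLoc
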