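import Mathlib
import Crest.Agent.R240.KId1

/-!
Row 240, Lemma A, team K, part K2 (helper610): second representation of the derivative of the
regularised operator (`δ > 0`).
-/

set_option autoImplicit false
set_option maxSynthPendingDepth 3


namespace Crest.Agent.R240.KLoc

open Crest.Agent.R240 MeasureTheory Set Filter Topology
open scoped ContDiff

noncomputable section

section aux
variable {X V : Type*} [TopologicalSpace X] [NormedAddCommGroup V] [NormedSpace ℝ V]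

theorem cont_smulRight {a : X → Dual4} {b : X → V} (ha : Continuous a) (hb : Continuous b) :
    Continuous fun x => (a x).smulRight (b x) :=
  (ContinuousLinearMap.smulRightL ℝ E4 V).continuous₂.comp (ha.prodMk hb)

theorem contOn_smulRight {a : X → Dual4} {b : X → V} {s : Set X} (ha : ContinuousOn a s)
    (hb : ContinuousOn b s) : ContinuousOn (fun x => (a x).smulRight (b x)) s :=
  (ContinuousLinearMap.smulRightL ℝ E4 V).continuous₂.comp_continuousOn (ha.prodMk hb)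

end aux

/-- all hypotheses for the identity. -/
structure HypJ (J : E4 → E4 →L[ℝ] E4) (P : E4 → Bil) (θ : E4 → ℝ) (R Cθ : ℝ) : Prop where
  J_smooth : ContDiff ℝ ∞ J
  P_smooth : ContDiff ℝ ∞ P
  P_cpt : HasCompactSupport P
  P_alt : ∀ y, Alt (P y)
  P_anti : ∀ y u v, P y (J y u) (J y v) = - P y u v
  J_sq : ∀ y, P y ≠ 0 → ∀ v, J y (J y v) = -v
  θ_smooth : ContDiff ℝ ∞ θ
  θ_supp : ∀ z, R ≤ ‖z‖ → θ z = 0
  θ_bd : ∀ z, |θ z| ≤ Cθ
  dθ_supp : ∀ z, R ≤ ‖z‖ → fderiv ℝ θ z = 0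
  dθ_bd : ∀ z, ‖fderiv ℝ θ z‖ ≤ Cθ

variable {J : E4 → E4 →L[ℝ] E4} {P : E4 → Bil} {θ : E4 → ℝ} {R Cθ : ℝ}

/-- the metric associated with `J`. -/
def gJ (J : E4 → E4 →L[ℝ] E4) (y : E4) : Bil := GG (J y)

theorem gJ_smooth (hJ : ContDiff ℝ ∞ J) : ContDiff ℝ ∞ (gJ J) := GG_contDiff.comp hJ

theorem HypJ.hyp (h : HypJ J P θ R Cθ) : Hyp (gJ J) P θ R Cθ where
  g_smooth := gJ_smooth h.J_smooth
  P_smooth := h.P_smooth
  P_cpt := h.P_cpt
  θ_smooth := h.θ_smooth
  low := fun y z => GG_ge (J y) z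
  θ_supp := h.θ_supp
  θ_bd := h.θ_bd

theorem gJ_pos {δ : ℝ} (hδ : 0 < δ) (y v : E4) : 0 < gJ J y v v + δ := by
  have := GG_nonneg (J y) v
  unfold gJ
  linarith

/-- integrand in the `y` variable. -/
def BB (J : E4 → E4 →L[ℝ] E4) (P : E4 → Bil) (θ : E4 → ℝ) (δ : ℝ) (x y : E4) : Dual4 :=
  θ (x - y) • (((gJ J y (x - y) (x - y) + δ)⁻¹ ^ 2) • P y (x - y))

/-- its `x`-derivative. -/
def BD (J : E4 → E4 →L[ℝ] E4) (P : E4 → Bil) (θ : E4 → ℝ) (δ : ℝ) (x y : E4) : Bil :=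
  θ (x - y) • frozD (gJ J y) (P y) δ (x - y) +
    (fderiv ℝ θ (x - y)).smulRight (((gJ J y (x - y) (x - y) + δ)⁻¹ ^ 2) • P y (x - y))

theorem HypJ.hasFDerivAt_froz' (h : HypJ J P θ R Cθ) {δ : ℝ} (hδ : 0 < δ) (x y : E4) :
    HasFDerivAt (fun x => ((gJ J y (x - y) (x - y) + δ)⁻¹ ^ 2) • P y (x - y))
      (frozD (gJ J y) (P y) δ (x - y)) x := by
  have hs : HasFDerivAt (fun x : E4 => x - y) (ContinuousLinearMap.id ℝ E4) x :=
    (hasFDerivAt_id x).sub_const y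
  have h0 : HasFDerivAt (fun v => ((gJ J y v v + δ)⁻¹ ^ 2) • P y v)
      (frozD (gJ J y) (P y) δ (x - y)) (x - y) :=
    hasFDerivAt_froz (G := gJ J y) (R := P y) (GG_symm (J y)) (gJ_pos hδ y (x - y))
  have h2 := HasFDerivAt.comp x h0 hs
  rw [ContinuousLinearMap.comp_id] at h2
  exact h2

theorem HypJ.hasFDerivAt_BB (h : HypJ J P θ R Cθ) {δ : ℝ} (hδ : 0 < δ) (x y : E4) :
    HasFDerivAt (fun x => BB J P θ δ x y) (BD J P θ δ x y) x := by
  have hs : HasFDerivAt (fun x : E4 => x - y) (ContinuousLinearMap.id ℝ E4) x :=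
    (hasFDerivAt_id x).sub_const y
  have h1 : HasFDerivAt (fun x => θ (x - y)) (fderiv ℝ θ (x - y)) x := by
    have := HasFDerivAt.comp x ((h.θ_smooth.differentiable (by simp) (x - y)).hasFDerivAt) hs
    rw [ContinuousLinearMap.comp_id] at this
    exact this
  exact h1.smul (h.hasFDerivAt_froz' hδ x y)

theorem HypJ.cont_froz (h : HypJ J P θ R Cθ) {δ : ℝ} (hδ : 0 < δ) :
    Continuous fun p : E4 × E4 =>
      (((gJ J p.2 (p.1 - p.2) (p.1 - p.2) + δ)⁻¹ ^ 2) • P p.2 (p.1 - p.2)) := by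
  have hg := (gJ_smooth h.J_smooth).continuous
  have hP := h.P_smooth.continuous
  have h1 : Continuous fun p : E4 × E4 => (gJ J p.2 (p.1 - p.2) (p.1 - p.2) + δ)⁻¹ :=
    Continuous.inv₀ (by fun_prop) (fun p => (gJ_pos hδ _ _).ne')
  have h2 : Continuous fun p : E4 × E4 => P p.2 (p.1 - p.2) := by fun_prop
  exact (h1.pow 2).smul h2

theorem HypJ.cont_BB (h : HypJ J P θ R Cθ) {δ : ℝ} (hδ : 0 < δ) :
    Continuous fun p : E4 × E4 => BB J P θ δ p.1 p.2 := by
  unfold BB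
  have := h.cont_froz hδ
  have hθ := h.θ_smooth.continuous
  have h1 : Continuous fun p : E4 × E4 => θ (p.1 - p.2) := by fun_prop
  exact h1.smul this

theorem HypJ.cont_BD (h : HypJ J P θ R Cθ) {δ : ℝ} (hδ : 0 < δ) :
    Continuous fun p : E4 × E4 => BD J P θ δ p.1 p.2 := by
  unfold BD frozD
  have hg := (gJ_smooth h.J_smooth).continuous
  have hP := h.P_smooth.continuous
  have h1 : Continuous fun p : E4 × E4 => (gJ J p.2 (p.1 - p.2) (p.1 - p.2) + δ)⁻¹ :=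
    Continuous.inv₀ (by fun_prop) (fun p => (gJ_pos hδ _ _).ne')
  have h2 := h.cont_froz hδ
  have hθ := h.θ_smooth.continuous
  have hθd : Continuous (fderiv ℝ θ) := h.θ_smooth.continuous_fderiv (by simp)
  have h3 : Continuous fun p : E4 × E4 => (gJ J p.2 (p.1 - p.2)) := by fun_prop
  have h4 : Continuous fun p : E4 × E4 => (P p.2 (p.1 - p.2)) := by fun_prop
  have h5 : Continuous fun p : E4 × E4 => P p.2 := by fun_prop
  have h6 : Continuous fun p : E4 × E4 => θ (p.1 - p.2) := by fun_prop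
  have h7 : Continuous fun p : E4 × E4 => fderiv ℝ θ (p.1 - p.2) := by fun_prop
  refine Continuous.add (h6.smul (((h1.pow 2).smul h5).sub
    ((continuous_const.mul (h1.pow 3)).smul (cont_smulRight h3 h4)))) (cont_smulRight h7 h2)

theorem HypJ.BB_zero {δ : ℝ} (x y : E4) (hy : y ∉ tsupport P) : BB J P θ δ x y = 0 := by
  have h0 : P y = 0 := image_eq_zero_of_notMem_tsupport hy
  unfold BB
  rw [h0]
  simp

theorem HypJ.BD_zero {δ : ℝ} (x y : E4) (hy : y ∉ tsupport P) : BD J P θ δ x y = 0 := by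
  have h0 : P y = 0 := image_eq_zero_of_notMem_tsupport hy
  unfold BD frozD
  rw [h0]
  ext u v
  simp

theorem HypJ.hasFDerivAt_intB (h : HypJ J P θ R Cθ) {δ : ℝ} (hδ : 0 < δ) (x : E4) :
    HasFDerivAt (fun x => ∫ y, BB J P θ δ x y) (∫ y, BD J P θ δ x y) x :=
  hasFDerivAt_integral_compact (BB J P θ δ) (BD J P θ δ) (tsupport P) h.P_cpt (h.cont_BB hδ)
    (h.cont_BD hδ) (h.hasFDerivAt_BB hδ) (fun x y hy => HypJ.BB_zero x y hy)
    (fun x y hy => HypJ.BD_zero x y hy) x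

theorem BB_eq_FF (δ : ℝ) (x y : E4) : BB J P θ δ x y = FF (gJ J) P θ δ x (x - y) := by
  unfold BB FF HH
  rw [sub_sub_cancel]
  rfl

theorem int_BB_eq (δ : ℝ) (x : E4) : ∫ y, BB J P θ δ x y = ∫ z, FF (gJ J) P θ δ x z := by
  have h := integral_sub_left_eq_self (fun z => FF (gJ J) P θ δ x z) (volume : Measure E4) x
  rw [← h]
  congr 1
  funext y
  exact BB_eq_FF δ x y

/-- the two representations of the derivative agree. -/
theorem HypJ.int_FD_eq (h : HypJ J P θ R Cθ) {δ : ℝ} (hδ : 0 < δ) (x : E4) :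
    ∫ z, FD (gJ J) P θ δ x z = ∫ z, BD J P θ δ x (x - z) := by
  have h1 := h.hyp.hasFDerivAt_int hδ.le x
  have h2 := h.hasFDerivAt_intB hδ x
  have h3 : (fun x => ∫ y, BB J P θ δ x y) = fun x => ∫ z, FF (gJ J) P θ δ x z := by
    funext x
    exact int_BB_eq δ x
  rw [h3] at h2
  rw [h1.unique h2]
  exact (integral_sub_left_eq_self (fun y => BD J P θ δ x y) (volume : Measure E4) x).symm

/-- the main term. -/
def MM (J : E4 → E4 →L[ℝ] E4) (P : E4 → Bil) (θ : E4 → ℝ) (δ : ℝ) (x z : E4) : Bil :=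
  (θ z * (2 * δ * (gJ J (x - z) z z + δ)⁻¹ ^ 3)) • P (x - z)

/-- the remainder. -/
def RR (J : E4 → E4 →L[ℝ] E4) (P : E4 → Bil) (θ : E4 → ℝ) (δ : ℝ) (x z : E4) : Bil :=
  θ z • (antiL (J x) - antiL (J (x - z))) (altL (frozD (gJ J (x - z)) (P (x - z)) δ z)) +
    antiL (J x) (wed (fderiv ℝ θ z) (((gJ J (x - z) z z + δ)⁻¹ ^ 2) • P (x - z) z))

theorem HypJ.pointwise (h : HypJ J P θ R Cθ) {δ : ℝ} (hδ : 0 < δ) (x z : E4) :
    antiL (J x) (altL (BD J P θ δ x (x - z))) = MM J P θ δ x z + RR J P θ δ x z := by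
  unfold BD MM RR
  rw [sub_sub_cancel, map_add, map_add, altL_smulRight, map_smul, map_smul, ← add_assoc]
  congr 1
  by_cases h0 : P (x - z) = 0
  · have : frozD (gJ J (x - z)) (P (x - z)) δ z = 0 := by
      unfold frozD
      rw [h0]
      ext u v
      simp
    rw [this, h0]
    simp only [map_zero, smul_zero, zero_add]
  · have hid := antip_frozD (h.J_sq _ h0) (G := gJ J (x - z)) (GG_symm (J (x - z)))
      (GG_inv (h.J_sq _ h0)) (h.P_alt (x - z)) (h.P_anti (x - z)) (gJ_pos hδ (x - z) z)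
    rw [mul_smul, ← hid, ← smul_add]
    congr 1
    have e1 : (antiL (J x) - antiL (J (x - z))) (altL (frozD (gJ J (x - z)) (P (x - z)) δ z)) =
      antiL (J x) (altL (frozD (gJ J (x - z)) (P (x - z)) δ z)) -
      antiL (J (x - z)) (altL (frozD (gJ J (x - z)) (P (x - z)) δ z)) := rfl
    rw [e1, add_sub_cancel]

end

end Crest.Agent.R240.KLoc
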