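import Mathlib
import Crest.Agent.R240.KId2

/-!
Row 240, Lemma A, team K, part K2 (helper610): limit of the main term.
-/

set_option autoImplicit false
set_option maxSynthPendingDepth 3


namespace Crest.Agent.R240.KLoc

open Crest.Agent.R240 MeasureTheory Set Filter Topology
open scoped ContDiff

noncomputable section

/-- the constant `c(A) = ∫ 2 (G_A w w + 1)⁻³ dw`. -/
def cc (A : E4 →L[ℝ] E4) : ℝ := ∫ w : E4, 2 * (GG A w w + 1)⁻¹ ^ 3

theorem integrable_jap : Integrable (fun w : E4 => (1 + ‖w‖ ^ 2)⁻¹ ^ 3) := by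
  have h := integrable_rpow_neg_one_add_norm_sq (E := E4) (μ := volume) (r := 6) (by
    rw [finrank_euclideanSpace_fin]; norm_num)
  refine h.congr (Eventually.of_forall fun w => ?_)
  have hpos : (0 : ℝ) < 1 + ‖w‖ ^ 2 := by positivity
  simp only
  rw [show (-6 : ℝ) / 2 = -(3 : ℕ) by norm_num, Real.rpow_neg hpos.le, Real.rpow_natCast, inv_pow]

theorem inv_jap_le (A : E4 →L[ℝ] E4) (w : E4) : (GG A w w + 1)⁻¹ ≤ (1 + ‖w‖ ^ 2)⁻¹ := by
  have := GG_ge A w
  exact inv_anti₀ (by positivity) (by linarith)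

theorem inv_jap_nonneg (A : E4 →L[ℝ] E4) (w : E4) : 0 ≤ (GG A w w + 1)⁻¹ := by
  have := GG_nonneg A w
  exact inv_nonneg.2 (by linarith)

theorem inv_jap_cube (A : E4 →L[ℝ] E4) (w : E4) :
    2 * (GG A w w + 1)⁻¹ ^ 3 ≤ 2 * (1 + ‖w‖ ^ 2)⁻¹ ^ 3 := by
  have h1 := inv_jap_le A w
  have h2 := inv_jap_nonneg A w
  gcongr

theorem cc_cont (A : E4 →L[ℝ] E4) : Continuous fun w : E4 => 2 * (GG A w w + 1)⁻¹ ^ 3 := by
  have h1 : Continuous fun w : E4 => (GG A w w + 1)⁻¹ :=
    Continuous.inv₀ (by fun_prop) (fun w => by have := GG_nonneg A w; linarith)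
  fun_prop

theorem cc_integrable (A : E4 →L[ℝ] E4) : Integrable fun w : E4 => 2 * (GG A w w + 1)⁻¹ ^ 3 := by
  refine (integrable_jap.const_mul 2).mono' (cc_cont A).aestronglyMeasurable ?_
  refine Eventually.of_forall fun w => ?_
  have h2 := inv_jap_nonneg A w
  rw [Real.norm_of_nonneg (by positivity)]
  exact inv_jap_cube A w

theorem cc_pos (A : E4 →L[ℝ] E4) : 0 < cc A := by
  unfold cc
  rw [integral_pos_iff_support_of_nonneg _ (cc_integrable A)]
  · have : Function.support (fun w : E4 => 2 * (GG A w w + 1)⁻¹ ^ 3) = univ := by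
      ext w
      have h2 := GG_nonneg A w
      have h3 : 0 < GG A w w + 1 := by linarith
      simp only [Function.mem_support, mem_univ, iff_true]
      positivity
    rw [this]
    simp
  · intro w
    have h2 := inv_jap_nonneg A w
    show (0 : ℝ) ≤ 2 * (GG A w w + 1)⁻¹ ^ 3
    positivity

variable {J : E4 → E4 →L[ℝ] E4} {P : E4 → Bil} {θ : E4 → ℝ} {R Cθ : ℝ}

theorem HypJ.cont_MM (h : HypJ J P θ R Cθ) {δ : ℝ} (hδ : 0 < δ) (x : E4) :
    Continuous fun z => MM J P θ δ x z := by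
  unfold MM
  have hg := (gJ_smooth h.J_smooth).continuous
  have hP := h.P_smooth.continuous
  have hθ := h.θ_smooth.continuous
  have h1 : Continuous fun z : E4 => (gJ J (x - z) z z + δ)⁻¹ :=
    Continuous.inv₀ (by fun_prop) (fun p => (gJ_pos hδ _ _).ne')
  have h2 : Continuous fun z : E4 => P (x - z) := by fun_prop
  exact (hθ.mul (continuous_const.mul (h1.pow 3))).smul h2

theorem HypJ.integrable_MM (h : HypJ J P θ R Cθ) {δ : ℝ} (hδ : 0 < δ) (x : E4) :
    Integrable fun z => MM J P θ δ x z := by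
  refine (h.cont_MM hδ x).integrable_of_hasCompactSupport ?_
  refine HasCompactSupport.intro (isCompact_closedBall (0 : E4) R) (fun z hz => ?_)
  have : R < ‖z‖ := by simpa using hz
  unfold MM
  rw [h.θ_supp z this.le, zero_mul, zero_smul]

/-- the rescaled main term. -/
def MS (J : E4 → E4 →L[ℝ] E4) (P : E4 → Bil) (θ : E4 → ℝ) (x : E4) (r : ℝ) (w : E4) : Bil :=
  (θ (r • w) * (2 * (gJ J (x - r • w) w w + 1)⁻¹ ^ 3)) • P (x - r • w)

theorem MM_scale (x w : E4) {r : ℝ} (hr : 0 < r) :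
    r ^ 4 • MM J P θ (r ^ 2) x (r • w) = MS J P θ x r w := by
  unfold MM MS
  rw [smul_smul]
  congr 1
  have h1 : gJ J (x - r • w) (r • w) (r • w) = r ^ 2 * gJ J (x - r • w) w w := by
    have e : gJ J (x - r • w) (r • w) (r • w) = r * (r * gJ J (x - r • w) w w) := by
      have a : gJ J (x - r • w) (r • w) = r • gJ J (x - r • w) w := map_smul _ _ _
      rw [a]
      show r * gJ J (x - r • w) w (r • w) = _
      rw [map_smul]
      rfl
    rw [e]
    ring
  have h2 : gJ J (x - r • w) w w + 1 ≠ 0 := by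
    have := GG_nonneg (J (x - r • w)) w
    unfold gJ
    linarith
  have h3 : gJ J (x - r • w) (r • w) (r • w) + r ^ 2 = r ^ 2 * (gJ J (x - r • w) w w + 1) := by
    rw [h1]; ring
  rw [h3, mul_inv]
  field_simp

theorem int_MM_eq (x : E4) {r : ℝ} (hr : 0 < r) :
    ∫ z, MM J P θ (r ^ 2) x z = ∫ w, MS J P θ x r w := by
  have h := Measure.integral_comp_smul_of_nonneg (volume : Measure E4)
    (fun z => MM J P θ (r ^ 2) x z) r (hR := hr.le)
  rw [finrank_euclideanSpace_fin] at h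
  have h2 : ∫ w, MS J P θ x r w = ∫ w, r ^ 4 • MM J P θ (r ^ 2) x (r • w) := by
    congr 1
    funext w
    exact (MM_scale x w hr).symm
  rw [h2, integral_smul, h, smul_smul, mul_inv_cancel₀ (by positivity), one_smul]

theorem HypJ.tendsto_MM (h : HypJ J P θ R Cθ) (h1 : θ 0 = 1) (x : E4) :
    Tendsto (fun r : ℝ => ∫ z, MM J P θ (r ^ 2) x z) (𝓝[>] 0) (𝓝 (cc (J x) • P x)) := by
  have e1 : (fun r : ℝ => ∫ z, MM J P θ (r ^ 2) x z) =ᶠ[𝓝[>] 0]
      fun r : ℝ => ∫ w, MS J P θ x r w := by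
    filter_upwards [self_mem_nhdsWithin] with r hr
    exact int_MM_eq x hr
  have e2 : cc (J x) • P x = ∫ w, MS J P θ x 0 w := by
    unfold cc MS
    rw [← integral_smul_const]
    congr 1
    funext w
    simp only [zero_smul, h1, sub_zero, one_mul]
    rfl
  rw [tendsto_congr' e1, e2]
  obtain ⟨C, hC0, hC⟩ := h.hyp.exists_CP
  have hg := (gJ_smooth h.J_smooth).continuous
  have hP := h.P_smooth.continuous
  have hθ := h.θ_smooth.continuous
  have hpos : ∀ y w : E4, 0 < gJ J y w w + 1 := fun y w => gJ_pos one_pos y w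
  refine tendsto_integral_filter_of_dominated_convergence
    (fun w => (Cθ * C) * (2 * (1 + ‖w‖ ^ 2)⁻¹ ^ 3)) ?_ ?_
    ((integrable_jap.const_mul 2).const_mul (Cθ * C)) ?_
  · refine Eventually.of_forall fun r => ?_
    have h2 : Continuous fun w : E4 => (gJ J (x - r • w) w w + 1)⁻¹ :=
      Continuous.inv₀ (by fun_prop) (fun w => (hpos _ _).ne')
    have h3 : Continuous fun w : E4 => P (x - r • w) := by fun_prop
    have h4 : Continuous fun w : E4 => θ (r • w) := by fun_prop
    exact ((h4.mul (continuous_const.mul (h2.pow 3))).smul h3).aestronglyMeasurable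
  · refine Eventually.of_forall fun r => Eventually.of_forall fun w => ?_
    unfold MS
    have a1 := inv_jap_nonneg (J (x - r • w)) w
    have a2 := inv_jap_cube (J (x - r • w)) w
    have a3 := h.θ_bd (r • w)
    have a4 := (hC (x - r • w)).1
    have a5 := h.hyp.Cθ_nonneg
    have a6 : |2 * (gJ J (x - r • w) w w + 1)⁻¹ ^ 3| ≤ 2 * (1 + ‖w‖ ^ 2)⁻¹ ^ 3 := by
      rw [abs_of_nonneg]
      · exact a2
      · unfold gJ
        positivity
    rw [norm_smul, Real.norm_eq_abs, abs_mul]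
    calc |θ (r • w)| * |2 * (gJ J (x - r • w) w w + 1)⁻¹ ^ 3| * ‖P (x - r • w)‖
        ≤ Cθ * (2 * (1 + ‖w‖ ^ 2)⁻¹ ^ 3) * C := by gcongr
      _ = (Cθ * C) * (2 * (1 + ‖w‖ ^ 2)⁻¹ ^ 3) := by ring
  · refine Eventually.of_forall fun w => ?_
    have h2 : Continuous fun r : ℝ => (gJ J (x - r • w) w w + 1)⁻¹ :=
      Continuous.inv₀ (by fun_prop) (fun r => (hpos _ _).ne')
    have h3 : Continuous fun r : ℝ => P (x - r • w) := by fun_prop
    have h4 : Continuous fun r : ℝ => θ (r • w) := by fun_prop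
    have h5 : Continuous fun r : ℝ => MS J P θ x r w :=
      (h4.mul (continuous_const.mul (h2.pow 3))).smul h3
    exact (h5.tendsto 0).mono_left nhdsWithin_le_nhds

end

end Crest.Agent.R240.KLoc
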