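import Mathlib
import Crest.Agent.R240.KId3

/-!
Row 240, Lemma A, team K, part K2 (helper610): the remainder and the identity.
-/

set_option autoImplicit false
set_option maxSynthPendingDepth 3


namespace Crest.Agent.R240.KLoc

open Crest.Agent.R240 MeasureTheory Set Filter Topology
open scoped ContDiff

noncomputable section

variable {J : E4 → E4 →L[ℝ] E4} {P : E4 → Bil} {θ : E4 → ℝ} {R Cθ : ℝ}

theorem norm_frozD_le {G Q : Bil} {δ : ℝ} {v : E4} (h0 : 0 ≤ (G v v + δ)⁻¹)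
    (h1 : (G v v + δ)⁻¹ ≤ ‖v‖⁻¹ ^ 2) (hv : v ≠ 0) :
    ‖frozD G Q δ v‖ ≤ ‖v‖⁻¹ ^ 4 * (‖Q‖ + 4 * ‖G‖ * ‖Q‖) := by
  unfold frozD
  have hz0 : 0 < ‖v‖ := norm_pos_iff.2 hv
  have e2 : (G v v + δ)⁻¹ ^ 2 ≤ (‖v‖⁻¹ ^ 2) ^ 2 := by gcongr
  have e3 : (G v v + δ)⁻¹ ^ 3 ≤ (‖v‖⁻¹ ^ 2) ^ 3 := by gcongr
  have a1 : ‖((G v v + δ)⁻¹ ^ 2) • Q‖ ≤ (‖v‖⁻¹ ^ 2) ^ 2 * ‖Q‖ := by
    rw [norm_smul, Real.norm_of_nonneg (by positivity)]
    gcongr
  have a2 : ‖(4 * (G v v + δ)⁻¹ ^ 3) • (G v).smulRight (Q v)‖ ≤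
      (4 * (‖v‖⁻¹ ^ 2) ^ 3) * ((‖G‖ * ‖v‖) * (‖Q‖ * ‖v‖)) := by
    rw [norm_smul, Real.norm_of_nonneg (by positivity),
      ContinuousLinearMap.norm_smulRight_apply]
    have b1 := G.le_opNorm v
    have b2 := Q.le_opNorm v
    gcongr
  refine (norm_sub_le _ _).trans ((add_le_add a1 a2).trans_eq ?_)
  have hz1 : ‖v‖⁻¹ * ‖v‖ = 1 := inv_mul_cancel₀ hz0.ne'
  calc (‖v‖⁻¹ ^ 2) ^ 2 * ‖Q‖ + (4 * (‖v‖⁻¹ ^ 2) ^ 3) * ((‖G‖ * ‖v‖) * (‖Q‖ * ‖v‖))
      = ‖v‖⁻¹ ^ 4 * ‖Q‖ + 4 * ‖v‖⁻¹ ^ 4 * (‖v‖⁻¹ * ‖v‖) ^ 2 * ‖G‖ * ‖Q‖ := by ring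
    _ = ‖v‖⁻¹ ^ 4 * (‖Q‖ + 4 * ‖G‖ * ‖Q‖) := by rw [hz1]; ring

theorem norm_wed_le (ξ η : Dual4) : ‖wed ξ η‖ ≤ ‖altL‖ * (‖ξ‖ * ‖η‖) := by
  rw [← altL_smulRight]
  refine (altL.le_opNorm _).trans ?_
  rw [ContinuousLinearMap.norm_smulRight_apply]

theorem HypJ.exists_CQ (h : HypJ J P θ R Cθ) :
    ∃ C, 0 ≤ C ∧ ∀ y, ‖P y‖ ≤ C ∧ ‖P y‖ + 4 * ‖gJ J y‖ * ‖P y‖ ≤ C := by
  have hg := (gJ_smooth h.J_smooth).continuous
  have hP := h.P_smooth.continuous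
  have hc : Continuous fun y => ‖P y‖ + 4 * ‖gJ J y‖ * ‖P y‖ := by fun_prop
  have hs : HasCompactSupport fun y => ‖P y‖ + 4 * ‖gJ J y‖ * ‖P y‖ := by
    refine HasCompactSupport.intro h.P_cpt (fun y hy => ?_)
    have h1 : P y = 0 := image_eq_zero_of_notMem_tsupport hy
    rw [h1]
    simp
  obtain ⟨C, hC⟩ := hc.bounded_above_of_compact_support hs
  refine ⟨C, (norm_nonneg _).trans (hC 0), fun y => ?_⟩
  have := (le_abs_self _).trans (hC y)
  have h1 := norm_nonneg (P y)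
  have h3 : 0 ≤ 4 * ‖gJ J y‖ * ‖P y‖ := by positivity
  constructor <;> linarith

theorem HypJ.exists_Lip (h : HypJ J P θ R Cθ) (x : E4) :
    ∃ L, 0 ≤ L ∧ ∀ z, ‖z‖ ≤ R → ‖antiL (J x) - antiL (J (x - z))‖ ≤ L * ‖z‖ := by
  have h1 : ContDiff ℝ ∞ fun y => antiL (J y) := antiL_contDiff.comp h.J_smooth
  have h2 : Continuous (fderiv ℝ fun y => antiL (J y)) := h1.continuous_fderiv (by simp)
  have h2n : Continuous (fun y => ‖fderiv ℝ (fun y => antiL (J y)) y‖) :=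
    Continuous.norm (E := E4 →L[ℝ] Bil →L[ℝ] Bil) h2
  obtain ⟨C, hC⟩ := (isCompact_closedBall x R).exists_bound_of_continuousOn h2n.continuousOn
  replace hC : ∀ q ∈ Metric.closedBall x R, ‖fderiv ℝ (fun y => antiL (J y)) q‖ ≤ C :=
    fun q hq => (le_abs_self _).trans (hC q hq)
  refine ⟨|C|, abs_nonneg _, fun z hz => ?_⟩
  have hR : 0 ≤ R := (norm_nonneg _).trans hz
  have h3 := Convex.norm_image_sub_le_of_norm_fderiv_le (𝕜 := ℝ) (f := fun y => antiL (J y))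
    (C := |C|) (s := Metric.closedBall x R) (x := x - z) (y := x)
    (fun p _ => h1.differentiable (by simp) p)
    (fun p hp => (hC p hp).trans (le_abs_self _)) (convex_closedBall _ _)
    (by simpa using hz) (by simpa using hR)
  simpa using h3

theorem HypJ.norm_RR_le (h : HypJ J P θ R Cθ) (x : E4) :
    ∃ C, ∀ δ, 0 ≤ δ → ∀ z, z ≠ 0 → ‖RR J P θ δ x z‖ ≤ C * maj R z := by
  obtain ⟨C, hC0, hC⟩ := h.exists_CQ
  obtain ⟨L, hL0, hL⟩ := h.exists_Lip x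
  have hCθ := h.hyp.Cθ_nonneg
  refine ⟨Cθ * (L * (‖altL‖ * C)) + ‖antiL (J x)‖ * (‖altL‖ * (Cθ * C)), fun δ hδ z hz => ?_⟩
  have hz0 : 0 < ‖z‖ := norm_pos_iff.2 hz
  have hi1 := h.hyp.low.inv_le hδ (y := x - z) hz
  have hi0 := h.hyp.low.inv_nonneg hδ (x - z) z
  rcases lt_or_ge ‖z‖ R with hzR | hzR
  · rw [maj_eq hzR]
    unfold RR
    have b1 : ‖θ z • (antiL (J x) - antiL (J (x - z)))
        (altL (frozD (gJ J (x - z)) (P (x - z)) δ z))‖ ≤
        Cθ * ((L * ‖z‖) * (‖altL‖ * (‖z‖⁻¹ ^ 4 * C))) := by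
      rw [norm_smul, Real.norm_eq_abs]
      have c1 : ‖altL (frozD (gJ J (x - z)) (P (x - z)) δ z)‖ ≤ ‖altL‖ * (‖z‖⁻¹ ^ 4 * C) := by
        refine (altL.le_opNorm _).trans ?_
        have := norm_frozD_le (Q := P (x - z)) hi0 hi1 hz
        have h2 := (hC (x - z)).2
        gcongr
        exact this.trans (by gcongr)
      have c2 : ‖(antiL (J x) - antiL (J (x - z)))
          (altL (frozD (gJ J (x - z)) (P (x - z)) δ z))‖ ≤
          (L * ‖z‖) * (‖altL‖ * (‖z‖⁻¹ ^ 4 * C)) := by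
        refine (ContinuousLinearMap.le_opNorm _ _).trans ?_
        have := hL z hzR.le
        gcongr
      have := h.θ_bd z
      gcongr
    have b2 : ‖antiL (J x) (wed (fderiv ℝ θ z) (((gJ J (x - z) z z + δ)⁻¹ ^ 2) • P (x - z) z))‖ ≤
        ‖antiL (J x)‖ * (‖altL‖ * (Cθ * ((‖z‖⁻¹ ^ 2) ^ 2 * (C * ‖z‖)))) := by
      refine (ContinuousLinearMap.le_opNorm _ _).trans ?_
      have d1 := norm_wed_le (fderiv ℝ θ z) (((gJ J (x - z) z z + δ)⁻¹ ^ 2) • P (x - z) z)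
      have d2 : ‖((gJ J (x - z) z z + δ)⁻¹ ^ 2) • P (x - z) z‖ ≤ (‖z‖⁻¹ ^ 2) ^ 2 * (C * ‖z‖) := by
        rw [norm_smul, Real.norm_of_nonneg (by positivity)]
        have e1 := (P (x - z)).le_opNorm z
        have e2 := (hC (x - z)).1
        gcongr
        exact e1.trans (by gcongr)
      have d3 := h.dθ_bd z
      gcongr
      exact d1.trans (by gcongr)
    refine (norm_add_le _ _).trans ((add_le_add b1 b2).trans_eq ?_)
    have hz1 : ‖z‖⁻¹ * ‖z‖ = 1 := inv_mul_cancel₀ hz0.ne'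
    have e1 : ‖z‖ * ‖z‖⁻¹ ^ 4 = ‖z‖⁻¹ ^ 3 := by
      calc ‖z‖ * ‖z‖⁻¹ ^ 4 = (‖z‖⁻¹ * ‖z‖) * ‖z‖⁻¹ ^ 3 := by ring
        _ = _ := by rw [hz1, one_mul]
    calc Cθ * ((L * ‖z‖) * (‖altL‖ * (‖z‖⁻¹ ^ 4 * C))) +
          ‖antiL (J x)‖ * (‖altL‖ * (Cθ * ((‖z‖⁻¹ ^ 2) ^ 2 * (C * ‖z‖))))
        = (Cθ * (L * (‖altL‖ * C)) + ‖antiL (J x)‖ * (‖altL‖ * (Cθ * C))) *
          (‖z‖ * ‖z‖⁻¹ ^ 4) := by ring
      _ = _ := by rw [e1]
  · unfold RR
    rw [h.θ_supp z hzR, h.dθ_supp z hzR]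
    have e1 : wed (0 : Dual4) (((gJ J (x - z) z z + δ)⁻¹ ^ 2) • P (x - z) z) = 0 := by
      ext a b
      simp
    rw [e1]
    simp only [zero_smul, map_zero, add_zero, norm_zero]
    have := maj_nonneg R z
    positivity

theorem HypJ.contOn_inv (h : HypJ J P θ R Cθ) {δ : ℝ} (hδ : 0 ≤ δ) (x : E4) :
    ContinuousOn (fun z : E4 => (gJ J (x - z) z z + δ)⁻¹) {z : E4 | z ≠ 0} := by
  have hg := (gJ_smooth h.J_smooth).continuous
  exact ContinuousOn.inv₀ (by fun_prop) (fun z hz => (h.hyp.low.pos hδ hz).ne')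

theorem HypJ.contOn_RR (h : HypJ J P θ R Cθ) {δ : ℝ} (hδ : 0 ≤ δ) (x : E4) :
    ContinuousOn (fun z => RR J P θ δ x z) {z | z ≠ 0} := by
  have hg := (gJ_smooth h.J_smooth).continuous
  have hP := h.P_smooth.continuous
  have hθ := h.θ_smooth.continuous
  have hJ := h.J_smooth.continuous
  have ha := antiL_contDiff.continuous
  have hθd : Continuous (fderiv ℝ θ) := h.θ_smooth.continuous_fderiv (by simp)
  have h1 := h.contOn_inv hδ x
  have h3 : ContinuousOn (fun z => gJ J (x - z) z) {z : E4 | z ≠ 0} := by fun_prop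
  have h4 : ContinuousOn (fun z => P (x - z) z) {z : E4 | z ≠ 0} := by fun_prop
  have h5 : ContinuousOn (fun z => P (x - z)) {z : E4 | z ≠ 0} := by fun_prop
  have h6 : ContinuousOn (fun z => antiL (J x) - antiL (J (x - z))) {z : E4 | z ≠ 0} := by fun_prop
  have h7 : ContinuousOn (fun z => frozD (gJ J (x - z)) (P (x - z)) δ z) {z : E4 | z ≠ 0} := by
    unfold frozD
    exact ((h1.pow 2).smul h5).sub
      ((continuousOn_const.mul (h1.pow 3)).smul (contOn_smulRight h3 h4))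
  have h8 : ContinuousOn (fun z => altL (frozD (gJ J (x - z)) (P (x - z)) δ z))
      {z : E4 | z ≠ 0} := altL.continuous.comp_continuousOn h7
  have h9 : ContinuousOn (fun z => wed (fderiv ℝ θ z)
      (((gJ J (x - z) z z + δ)⁻¹ ^ 2) • P (x - z) z)) {z : E4 | z ≠ 0} := by
    have : ContinuousOn (fun z => altL ((fderiv ℝ θ z).smulRight
      (((gJ J (x - z) z z + δ)⁻¹ ^ 2) • P (x - z) z))) {z : E4 | z ≠ 0} :=
      altL.continuous.comp_continuousOn (contOn_smulRight hθd.continuousOn ((h1.pow 2).smul h4))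
    refine this.congr (fun z _ => ?_)
    simp only [altL_smulRight]
  unfold RR
  exact (hθ.continuousOn.smul (h6.clm_apply h8)).add
    ((antiL (J x)).continuous.comp_continuousOn h9)

theorem HypJ.integrable_RR (h : HypJ J P θ R Cθ) {δ : ℝ} (hδ : 0 ≤ δ) (x : E4) :
    Integrable fun z => RR J P θ δ x z := by
  obtain ⟨C, hC⟩ := h.norm_RR_le x
  refine ((integrable_maj R).const_mul C).mono' (aesm_of_contOn (h.contOn_RR hδ x)) ?_
  filter_upwards [ae_ne_zero] with z hz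
  exact hC δ hδ z hz

theorem HypJ.tendsto_RR (h : HypJ J P θ R Cθ) (x : E4) :
    Tendsto (fun r : ℝ => ∫ z, RR J P θ (r ^ 2) x z) (𝓝[>] 0) (𝓝 (∫ z, RR J P θ 0 x z)) := by
  obtain ⟨C, hC⟩ := h.norm_RR_le x
  refine tendsto_integral_filter_of_dominated_convergence (fun z => C * maj R z)
    (Eventually.of_forall fun r => aesm_of_contOn (h.contOn_RR (by positivity) x)) ?_
    ((integrable_maj R).const_mul _) ?_
  · refine Eventually.of_forall fun r => ?_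
    filter_upwards [ae_ne_zero] with z hz
    exact hC (r ^ 2) (by positivity) z hz
  · filter_upwards [ae_ne_zero] with z hz
    have hpos := h.hyp.low.pos le_rfl hz (y := x - z)
    have h1 : Tendsto (fun r : ℝ => (gJ J (x - z) z z + r ^ 2)⁻¹) (𝓝[>] 0)
        (𝓝 (gJ J (x - z) z z + 0)⁻¹) := by
      refine Tendsto.inv₀ ?_ hpos.ne'
      have : Tendsto (fun r : ℝ => gJ J (x - z) z z + r ^ 2) (𝓝 0)
          (𝓝 (gJ J (x - z) z z + 0 ^ 2)) := by
        apply Continuous.tendsto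
        fun_prop
      rw [zero_pow two_ne_zero] at this
      exact this.mono_left nhdsWithin_le_nhds
    have h2 : Tendsto (fun r : ℝ => frozD (gJ J (x - z)) (P (x - z)) (r ^ 2) z) (𝓝[>] 0)
        (𝓝 (frozD (gJ J (x - z)) (P (x - z)) 0 z)) :=
      ((h1.pow 2).smul_const _).sub (((h1.pow 3).const_mul 4).smul_const _)
    have h3 := (((antiL (J x) - antiL (J (x - z))).comp altL).continuous.tendsto _).comp h2
    have h4 : Tendsto (fun r : ℝ => ((gJ J (x - z) z z + r ^ 2)⁻¹ ^ 2) • P (x - z) z) (𝓝[>] 0)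
        (𝓝 (((gJ J (x - z) z z + 0)⁻¹ ^ 2) • P (x - z) z)) := (h1.pow 2).smul_const _
    have h5 := (((antiL (J x)).comp (wedL (fderiv ℝ θ z))).continuous.tendsto _).comp h4
    have h6 := (h3.const_smul (θ z)).add h5
    unfold RR
    simp only [← wedL_apply]
    exact h6

/-- THE IDENTITY. -/
theorem HypJ.main (h : HypJ J P θ R Cθ) (h1 : θ 0 = 1) (x : E4) :
    antiL (J x) (altL (fderiv ℝ (fun x => ∫ z, FF (gJ J) P θ 0 x z) x)) =
      cc (J x) • P x + ∫ z, RR J P θ 0 x z := by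
  have hfd := (h.hyp.hasFDerivAt_int le_rfl x).fderiv
  rw [hfd]
  set L : Bil →L[ℝ] Bil := (antiL (J x)).comp altL with hL
  have hlim := (L.continuous.tendsto _).comp (h.hyp.tendsto_int x)
  have hlim2 := (h.tendsto_MM h1 x).add (h.tendsto_RR x)
  have heq : (⇑L ∘ fun r : ℝ => ∫ z, FD (gJ J) P θ (r ^ 2) x z) =ᶠ[𝓝[>] 0]
      fun r : ℝ => (∫ z, MM J P θ (r ^ 2) x z) + ∫ z, RR J P θ (r ^ 2) x z := by
    filter_upwards [self_mem_nhdsWithin] with r hr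
    have hr2 : 0 < r ^ 2 := by
      have : 0 < r := hr
      positivity
    show L (∫ z, FD (gJ J) P θ (r ^ 2) x z) = _
    rw [h.int_FD_eq hr2 x]
    have hint : Integrable fun z => BD J P θ (r ^ 2) x (x - z) := by
      have hc : Continuous fun z => BD J P θ (r ^ 2) x (x - z) :=
        (h.cont_BD hr2).comp (by fun_prop : Continuous fun z : E4 => ((x, x - z) : E4 × E4))
      refine hc.integrable_of_hasCompactSupport ?_
      refine HasCompactSupport.intro (isCompact_closedBall (0 : E4) R) (fun z hz => ?_)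
      have hz' : R < ‖z‖ := by simpa using hz
      unfold BD
      rw [sub_sub_cancel, h.θ_supp z hz'.le, h.dθ_supp z hz'.le, zero_smul, zero_add]
      ext a b
      simp
    rw [← ContinuousLinearMap.integral_comp_comm L hint, ← integral_add (h.integrable_MM hr2 x)
      (h.integrable_RR hr2.le x)]
    congr 1
    funext z
    exact h.pointwise hr2 x z
  rw [tendsto_congr' heq] at hlim
  exact tendsto_nhds_unique hlim hlim2

end

end Crest.Agent.R240.KLoc
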