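import Mathlib

/-!
Row 240, Lemma A, team K, part K2 (helper610): smoothness of parametric integrals with
dominated derivatives of all orders.
-/

set_option autoImplicit false

namespace Crest.Agent.R240.KLoc

open MeasureTheory Set
open scoped ContDiff

set_option linter.unusedSectionVars false

variable {E Z V : Type} [NormedAddCommGroup E] [NormedSpace ℝ E]
  [NormedAddCommGroup Z] [NormedSpace ℝ Z] [MeasurableSpace Z] [BorelSpace Z]
  [SecondCountableTopology Z]
  [NormedAddCommGroup V] [NormedSpace ℝ V]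

/-- jointly smooth families `F y z`, `z ∈ U`, all of whose `y`-derivatives are dominated by
integrable functions of `z`. -/
structure PInt (ν : Measure Z) (U : Set Z) (F : E → Z → V) : Prop where
  smooth : ContDiffOn ℝ ∞ (fun p : E × Z => F p.1 p.2) (univ ×ˢ U)
  bound : ∀ j : ℕ, ∃ b : Z → ℝ, Integrable b ν ∧
    ∀ y, ∀ z ∈ U, ‖iteratedFDeriv ℝ j (fun y => F y z) y‖ ≤ b z

theorem PInt.smooth_left {ν : Measure Z} {U : Set Z} {F : E → Z → V} (h : PInt ν U F)
    {z : Z} (hz : z ∈ U) : ContDiff ℝ ∞ (fun y => F y z) := by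
  rw [← contDiffOn_univ]
  have h1 : ContDiffOn ℝ ∞ (fun y : E => ((y, z) : E × Z)) univ :=
    (contDiff_id.prodMk contDiff_const).contDiffOn
  exact h.smooth.comp h1 (fun y _ => ⟨mem_univ _, hz⟩)

theorem PInt.contOn_right {ν : Measure Z} {U : Set Z} {F : E → Z → V} (h : PInt ν U F)
    (y : E) : ContinuousOn (fun z => F y z) U := by
  have h1 : ContinuousOn (fun z : Z => ((y, z) : E × Z)) U := by fun_prop
  exact h.smooth.continuousOn.comp h1 (fun z hz => ⟨mem_univ _, hz⟩)

theorem PInt.aesm {ν : Measure Z} {U : Set Z} (hU : IsOpen U) (hν : ν Uᶜ = 0)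
    [SecondCountableTopologyEither Z V] {F : E → Z → V} (h : PInt ν U F) (y : E) :
    AEStronglyMeasurable (fun z => F y z) ν := by
  have h1 : AEStronglyMeasurable (fun z => F y z) (ν.restrict U) :=
    (h.contOn_right y).aestronglyMeasurable hU.measurableSet
  have h2 : ν.restrict U = ν := by
    rw [Measure.restrict_eq_self_of_ae_mem]
    rw [ae_iff]
    exact hν
  rwa [h2] at h1

theorem PInt.ae_mem {ν : Measure Z} {U : Set Z} (hν : ν Uᶜ = 0) : ∀ᵐ z ∂ν, z ∈ U := by
  rw [ae_iff]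
  exact hν

theorem PInt.fderiv_eq {ν : Measure Z} {U : Set Z} (hU : IsOpen U) {F : E → Z → V}
    (h : PInt ν U F) (y : E) {z : Z} (hz : z ∈ U) :
    fderiv ℝ (fun y => F y z) y =
      (fderiv ℝ (fun p : E × Z => F p.1 p.2) (y, z)).comp (ContinuousLinearMap.inl ℝ E Z) := by
  have hopen : IsOpen ((univ : Set E) ×ˢ U) := isOpen_univ.prod hU
  have hd : DifferentiableAt ℝ (fun p : E × Z => F p.1 p.2) (y, z) :=
    ((h.smooth.differentiableOn (by simp)).differentiableAt
      (hopen.mem_nhds ⟨mem_univ _, hz⟩))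
  have h1 : HasFDerivAt (fun y : E => ((y, z) : E × Z)) (ContinuousLinearMap.inl ℝ E Z) y := by
    have := (hasFDerivAt_id (𝕜 := ℝ) y).prodMk (hasFDerivAt_const (𝕜 := ℝ) z y)
    exact this
  exact (HasFDerivAt.comp y hd.hasFDerivAt h1).fderiv

theorem PInt.fd {ν : Measure Z} {U : Set Z} (hU : IsOpen U) {F : E → Z → V}
    (h : PInt ν U F) : PInt ν U (fun y z => fderiv ℝ (fun y => F y z) y) where
  smooth := by
    have hopen : IsOpen ((univ : Set E) ×ˢ U) := isOpen_univ.prod hU
    have h1 : ContDiffOn ℝ ∞ (fun p : E × Z => (fderiv ℝ (fun p : E × Z => F p.1 p.2) p).comp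
        (ContinuousLinearMap.inl ℝ E Z)) (univ ×ˢ U) := by
      have h2 : ContDiffOn ℝ ∞ (fderiv ℝ (fun p : E × Z => F p.1 p.2)) (univ ×ˢ U) :=
        h.smooth.fderiv_of_isOpen hopen (by simp)
      exact h2.clm_comp contDiffOn_const
    exact h1.congr (fun p hp => h.fderiv_eq hU p.1 hp.2)
  bound := by
    intro j
    obtain ⟨b, hb, hbd⟩ := h.bound (j + 1)
    refine ⟨b, hb, fun y z hz => ?_⟩
    have := hbd y z hz
    rwa [← norm_iteratedFDeriv_fderiv] at this

theorem PInt.integrable {ν : Measure Z} {U : Set Z} (hU : IsOpen U) (hν : ν Uᶜ = 0)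
    [SecondCountableTopologyEither Z V] {F : E → Z → V} (h : PInt ν U F) (y : E) :
    Integrable (fun z => F y z) ν := by
  obtain ⟨b, hb, hbd⟩ := h.bound 0
  refine hb.mono' (h.aesm hU hν y) ?_
  filter_upwards [PInt.ae_mem hν] with z hz
  have := hbd y z hz
  rwa [norm_iteratedFDeriv_zero] at this

theorem PInt.hasFDerivAt {ν : Measure Z} {U : Set Z} (hU : IsOpen U) (hν : ν Uᶜ = 0)
    {F : E → Z → V} (h : PInt ν U F) (y : E) :
    HasFDerivAt (fun y => ∫ z, F y z ∂ν) (∫ z, fderiv ℝ (fun y => F y z) y ∂ν) y := by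
  obtain ⟨b, hb, hbd⟩ := h.bound 1
  refine hasFDerivAt_integral_of_dominated_of_fderiv_le
    (F' := fun y z => fderiv ℝ (fun y => F y z) y) (bound := b) (Metric.ball_mem_nhds y one_pos)
    (Filter.Eventually.of_forall fun y => h.aesm hU hν y) (h.integrable hU hν y)
    ((h.fd hU).aesm hU hν y) ?_ hb ?_
  · filter_upwards [PInt.ae_mem hν] with z hz y' _
    have := hbd y' z hz
    rwa [norm_iteratedFDeriv_one] at this
  · filter_upwards [PInt.ae_mem hν] with z hz y' _
    exact ((h.smooth_left hz).differentiable (by simp) y').hasFDerivAt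

theorem PInt.contDiff_nat {ν : Measure Z} {U : Set Z} (hU : IsOpen U) (hν : ν Uᶜ = 0) (n : ℕ) :
    ∀ {V : Type} [NormedAddCommGroup V] [NormedSpace ℝ V] {F : E → Z → V}, PInt ν U F →
      ContDiff ℝ n (fun y => ∫ z, F y z ∂ν) := by
  induction n with
  | zero =>
    intro V _ _ F h
    rw [Nat.cast_zero, contDiff_zero, continuous_iff_continuousAt]
    exact fun y => (h.hasFDerivAt hU hν y).continuousAt
  | succ n ih =>
    intro V _ _ F h
    push_cast
    rw [contDiff_succ_iff_fderiv]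
    refine ⟨fun y => (h.hasFDerivAt hU hν y).differentiableAt, by simp, ?_⟩
    have h1 : _root_.fderiv ℝ (fun y => ∫ z, F y z ∂ν) =
        fun y => ∫ z, _root_.fderiv ℝ (fun y => F y z) y ∂ν := by
      funext y
      exact (h.hasFDerivAt hU hν y).fderiv
    rw [h1]
    exact ih (h.fd hU)

theorem PInt.contDiff {ν : Measure Z} {U : Set Z} (hU : IsOpen U) (hν : ν Uᶜ = 0)
    {F : E → Z → V} (h : PInt ν U F) : ContDiff ℝ ∞ (fun y => ∫ z, F y z ∂ν) := by
  rw [contDiff_infty]
  exact fun n => PInt.contDiff_nat hU hν n h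

theorem PInt.norm_iteratedFDeriv_le {ν : Measure Z} {U : Set Z} (hU : IsOpen U) (hν : ν Uᶜ = 0)
    (j : ℕ) : ∀ {V : Type} [NormedAddCommGroup V] [NormedSpace ℝ V] {F : E → Z → V},
      PInt ν U F → ∀ {b : Z → ℝ}, Integrable b ν →
      (∀ y, ∀ z ∈ U, ‖iteratedFDeriv ℝ j (fun y => F y z) y‖ ≤ b z) →
      ∀ y, ‖iteratedFDeriv ℝ j (fun y => ∫ z, F y z ∂ν) y‖ ≤ ∫ z, b z ∂ν := by
  induction j with
  | zero =>
    intro V _ _ F h b hb hbd y
    rw [norm_iteratedFDeriv_zero]
    refine norm_integral_le_of_norm_le hb ?_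
    filter_upwards [PInt.ae_mem hν] with z hz
    have := hbd y z hz
    rwa [norm_iteratedFDeriv_zero] at this
  | succ j ih =>
    intro V _ _ F h b hb hbd y
    rw [← norm_iteratedFDeriv_fderiv]
    have h1 : _root_.fderiv ℝ (fun y => ∫ z, F y z ∂ν) =
        fun y => ∫ z, _root_.fderiv ℝ (fun y => F y z) y ∂ν := by
      funext y
      exact (h.hasFDerivAt hU hν y).fderiv
    rw [h1]
    refine ih (h.fd hU) hb ?_ y
    intro y z hz
    rw [norm_iteratedFDeriv_fderiv]
    exact hbd y z hz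

end Crest.Agent.R240.KLoc
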