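import Crest.Agent.R240.Lin1

/-!
Row 240, PART L (helper798): unitary frames for `(J, F)`.
-/

set_option autoImplicit false

namespace Crest.Agent.R240

noncomputable section

/-- The standard complex structure on `E4`. -/
def J0 : E4 →L[ℝ] E4 :=
  LinearMap.toContinuousLinearMap
    { toFun := fun v => (- v 1) • ee 0 + v 0 • ee 1 + (- v 3) • ee 2 + v 2 • ee 3
      map_add' := by
        intro u v
        ext j
        fin_cases j <;> simp <;> ring
      map_smul' := by
        intro r v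
        ext j
        fin_cases j <;> simp }

theorem J0_apply (v : E4) : J0 v = (- v 1) • ee 0 + v 0 • ee 1 + (- v 3) • ee 2 + v 2 • ee 3 := rfl

@[simp] theorem J0_0 (v : E4) : (J0 v) 0 = - v 1 := by rw [J0_apply]; simp
@[simp] theorem J0_1 (v : E4) : (J0 v) 1 = v 0 := by rw [J0_apply]; simp
@[simp] theorem J0_2 (v : E4) : (J0 v) 2 = - v 3 := by rw [J0_apply]; simp
@[simp] theorem J0_3 (v : E4) : (J0 v) 3 = v 2 := by rw [J0_apply]; simp

theorem J0_J0 (v : E4) : J0 (J0 v) = - v := by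
  ext j
  fin_cases j <;> simp

/-- coordinate covectors. -/
def pr (i : Fin 4) : E4 →L[ℝ] ℝ := EuclideanSpace.proj i

@[simp] theorem pr_apply (i : Fin 4) (v : E4) : pr i v = v i := rfl

/-- The standard symplectic form on `E4`. -/
def om0 : Bil := wed (pr 0) (pr 1) + wed (pr 2) (pr 3)

theorem om0_apply (u v : E4) : om0 u v = u 0 * v 1 - u 1 * v 0 + (u 2 * v 3 - u 3 * v 2) := by
  have h : om0 u v = wed (pr 0) (pr 1) u v + wed (pr 2) (pr 3) u v := rfl
  rw [h, wed_apply, wed_apply]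
  simp only [pr_apply]

theorem norm_sq_E4 (v : E4) : ‖v‖ ^ 2 = v 0 ^ 2 + v 1 ^ 2 + v 2 ^ 2 + v 3 ^ 2 := by
  rw [EuclideanSpace.norm_sq_eq, Fin.sum_univ_four]
  simp

theorem om0_J0 (v : E4) : om0 v (J0 v) = ‖v‖ ^ 2 := by
  rw [om0_apply, norm_sq_E4]; simp; ring

theorem om0_alt : Alt om0 := by intro v; rw [om0_apply]; ring

theorem om0_inv (u v : E4) : om0 (J0 u) (J0 v) = om0 u v := by
  rw [om0_apply, om0_apply]; simp; ring

/-- `A` is a unitary frame for `(J, F)`. -/
structure IsFrame (J : E4 →L[ℝ] E4) (F : Bil) (A : E4 ≃L[ℝ] E4) : Prop where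
  form : ∀ u v, F (A u) (A v) = om0 u v
  cplx : ∀ v, J (A v) = A (J0 v)

theorem SPos.symm {J : E4 →L[ℝ] E4} (hJ : ∀ v, J (J v) = -v) {F : Bil} (hF : Alt F)
    (hi : ∀ u v, F (J u) (J v) = F u v) (u v : E4) : F u (J v) = F v (J u) := by
  have h := hi u (J v)
  rw [hJ v] at h
  rw [← h, map_neg, hF.swap (J u) v]
  ring

theorem exists_frame {J : E4 →L[ℝ] E4} (hJ : ∀ v, J (J v) = -v) {F : Bil} (hF : SPos J F) :
    ∃ A : E4 ≃L[ℝ] E4, IsFrame J F A := by
  -- first unit vector
  obtain ⟨a, ha⟩ : ∃ a : E4, F a (J a) = 1 := by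
    have h0 : ee 0 ≠ 0 := by
      intro h
      have := congrArg (fun v : E4 => v 0) h
      simp at this
    have hp := hF.pos _ h0
    refine ⟨(Real.sqrt (F (ee 0) (J (ee 0))))⁻¹ • ee 0, ?_⟩
    rw [map_smul, map_smul, map_smul, smul_apply, smul_eq_mul, smul_eq_mul, ← mul_assoc,
      ← mul_inv, Real.mul_self_sqrt hp.le]
    exact inv_mul_cancel₀ hp.ne'
  obtain ⟨c, hc, hc1, hc2⟩ : ∃ c : E4, F c (J c) = 1 ∧ F a (J c) = 0 ∧ F a c = 0 := by
    let L : E4 →ₗ[ℝ] (Fin 2 → ℝ) := LinearMap.pi ![((F a).comp J).toLinearMap, (F a).toLinearMap]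
    have hk : LinearMap.ker L ≠ ⊥ := by
      apply LinearMap.ker_ne_bot_of_finrank_lt
      simp
    obtain ⟨c, hc, hc0⟩ := Submodule.exists_mem_ne_zero_of_ne_bot hk
    have h1 : F a (J c) = 0 := by
      have := congrFun (LinearMap.mem_ker.1 hc) 0
      simpa [L] using this
    have h2 : F a c = 0 := by
      have := congrFun (LinearMap.mem_ker.1 hc) 1
      simpa [L] using this
    have hp := hF.pos _ hc0
    refine ⟨(Real.sqrt (F c (J c)))⁻¹ • c, ?_, ?_, ?_⟩
    · rw [map_smul, map_smul, map_smul, smul_apply, smul_eq_mul, smul_eq_mul, ← mul_assoc,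
        ← mul_inv, Real.mul_self_sqrt hp.le]
      exact inv_mul_cancel₀ hp.ne'
    · rw [map_smul, map_smul, h1, smul_zero]
    · rw [map_smul, h2, smul_zero]
  have hJac : F (J a) (J c) = 0 := by rw [hF.inv, hc2]
  have hJa_c : F (J a) c = 0 := by
    have := hF.inv (J a) c
    rw [hJ] at this
    rw [← this, map_neg, neg_apply, hc1, neg_zero]
  have hca : F c a = 0 := by rw [hF.alt.swap, hc2, neg_zero]
  have hJca : F (J c) a = 0 := by rw [hF.alt.swap, hc1, neg_zero]
  have hJcJa : F (J c) (J a) = 0 := by rw [hF.alt.swap, hJac, neg_zero]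
  have hcJa : F c (J a) = 0 := by rw [hF.alt.swap, hJa_c, neg_zero]
  have hJaa : F (J a) a = -1 := by rw [hF.alt.swap, ha]
  have hJcc : F (J c) c = -1 := by rw [hF.alt.swap, hc]
  let A0 : E4 →ₗ[ℝ] E4 :=
    { toFun := fun v => v 0 • a + v 1 • J a + v 2 • c + v 3 • J c
      map_add' := by
        intro u v
        simp only [PiLp.add_apply, add_smul]
        abel
      map_smul' := by
        intro r v
        simp only [PiLp.smul_apply, smul_eq_mul, mul_smul, smul_add, RingHom.id_apply] }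
  have hA0 : ∀ v, A0 v = v 0 • a + v 1 • J a + v 2 • c + v 3 • J c := fun v => rfl
  have hform : ∀ u v, F (A0 u) (A0 v) = om0 u v := by
    intro u v
    rw [hA0, hA0, om0_apply]
    simp only [map_add, map_smul, add_apply, smul_apply, smul_eq_mul, ha, hc, hc1, hc2, hJac,
      hJa_c, hca, hJca, hJcJa, hcJa, hJaa, hJcc, hF.alt a, hF.alt c, hF.alt (J a), hF.alt (J c)]
    ring
  have hcplx : ∀ v, J (A0 v) = A0 (J0 v) := by
    intro v
    rw [hA0, hA0]
    simp only [map_add, map_smul, hJ, J0_0, J0_1, J0_2, J0_3, smul_neg, neg_smul]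
    abel
  have hinj : Function.Injective A0 := by
    rw [← LinearMap.ker_eq_bot, LinearMap.ker_eq_bot']
    intro v hv
    have h1 : om0 v (J0 v) = 0 := by
      rw [← hform, hv, map_zero, zero_apply]
    rw [om0_J0] at h1
    have : ‖v‖ = 0 := by
      rcases pow_eq_zero_iff (n := 2) (by norm_num) |>.1 h1 with h
      exact h
    exact norm_eq_zero.1 this
  refine ⟨(LinearEquiv.ofInjectiveEndo A0 hinj).toContinuousLinearEquiv, ?_, ?_⟩
  · intro u v; exact hform u v
  · intro v; exact hcplx v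

end

end Crest.Agent.R240
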