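import Mathlib

/-!
# Row 240, block R (helper245): smooth dependence on parameters, jets, functionals of finite order

* `restr K g x` : the continuous map `y ↦ g (x, y)` on the compact set `K`;
* `contDiffOn_restr` : if `g` is jointly smooth on `U ×ˢ W` (`K ⊆ W`), then `x ↦ restr K g x` is
  smooth on `U` as a map into `C(K, V)`;
* `jet K m b` : the jet of order `≤ m` of `b` on `K`; `contDiffOn_jet`.
-/

set_option autoImplicit false
set_option linter.unusedSectionVars false
open Set Filter Topology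
open scoped ContDiff

namespace Crest.Agent.R240.SmJ

section
variable {E E' : Type} [NormedAddCommGroup E] [NormedSpace ℝ E]
  [NormedAddCommGroup E'] [NormedSpace ℝ E']
  {V : Type} [NormedAddCommGroup V] [NormedSpace ℝ V]

open Classical in
/-- a function as a continuous map on `K` (zero if it is not continuous there) -/
noncomputable def toC (K : Set E') (b : E' → V) : C(K, V) :=
  if h : Continuous (fun y : K => b (y : E')) then ⟨fun y => b y, h⟩ else 0

theorem toC_apply {K : Set E'} {b : E' → V} (h : ContinuousOn b K) (y : K) : toC K b y = b y := by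
  have h' : Continuous (fun y : K => b (y : E')) := continuousOn_iff_continuous_domRestrict.1 h
  unfold toC
  rw [dif_pos h']
  rfl

theorem toC_congr {K : Set E'} {b c : E' → V} (h : ∀ y ∈ K, b y = c y) : toC K b = toC K c := by
  have e : (fun y : K => b (y : E')) = fun y : K => c (y : E') := funext fun y => h y y.2
  unfold toC
  by_cases hb : Continuous (fun y : K => b (y : E'))
  · have hc : Continuous (fun y : K => c (y : E')) := e ▸ hb
    rw [dif_pos hb, dif_pos hc]
    ext y
    exact h y y.2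
  · have hc : ¬ Continuous (fun y : K => c (y : E')) := fun h => hb (e ▸ h)
    rw [dif_neg hb, dif_neg hc]

/-- `y ↦ g (x, y)` on `K` -/
noncomputable def restr (K : Set E') (g : E × E' → V) (x : E) : C(K, V) := toC K fun y => g (x, y)

theorem cont_slice {U : Set E} {W K : Set E'} (hKW : K ⊆ W) {g : E × E' → V}
    (hg : ContinuousOn g (U ×ˢ W)) {x : E} (hx : x ∈ U) : ContinuousOn (fun y => g (x, y)) K :=
  hg.comp (by fun_prop) fun y hy => ⟨hx, hKW hy⟩

theorem restr_apply {U : Set E} {W K : Set E'} (hKW : K ⊆ W) {g : E × E' → V}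
    (hg : ContinuousOn g (U ×ˢ W)) {x : E} (hx : x ∈ U) (y : K) : restr K g x y = g (x, y) :=
  toC_apply (cont_slice hKW hg hx) y

theorem continuousOn_restr {U : Set E} {W K : Set E'} (hKW : K ⊆ W) {g : E × E' → V}
    (hg : ContinuousOn g (U ×ˢ W)) : ContinuousOn (restr K g) U := by
  rw [continuousOn_iff_continuous_domRestrict]
  apply ContinuousMap.continuous_of_continuous_uncurry
  have e : (Function.uncurry fun (x : U) (y : K) => (U.domRestrict (restr K g) x) y)
      = fun p : U × K => g ((p.1 : E), (p.2 : E')) := by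
    funext p
    exact restr_apply hKW hg p.1.2 p.2
  rw [e]
  refine hg.comp_continuous (by fun_prop) fun p => ⟨p.1.2, hKW p.2.2⟩

variable (K : Set E') [CompactSpace K]

/-- `C(K, E →L V) → (E →L C(K, V))` -/
noncomputable def swapL0 (E : Type) [NormedAddCommGroup E] [NormedSpace ℝ E] (V : Type)
    [NormedAddCommGroup V] [NormedSpace ℝ V] (g : C(K, E →L[ℝ] V)) : E →ₗ[ℝ] C(K, V) where
  toFun := fun h => ⟨fun y => g y h, (g.continuous.clm_apply continuous_const)⟩
  map_add' := fun a b => by ext y; simp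
  map_smul' := fun c a => by ext y; simp

/-- `C(K, E →L V) → (E →L C(K, V))`, at a given map -/
noncomputable def swapL1 (E : Type) [NormedAddCommGroup E] [NormedSpace ℝ E] (V : Type)
    [NormedAddCommGroup V] [NormedSpace ℝ V] (g : C(K, E →L[ℝ] V)) : E →L[ℝ] C(K, V) :=
  LinearMap.mkContinuous (swapL0 K E V g) ‖g‖ (fun h => by
    rw [ContinuousMap.norm_le _ (by positivity)]
    intro y
    refine ((g y).le_opNorm h).trans ?_
    exact mul_le_mul_of_nonneg_right (g.norm_coe_le_norm y) (norm_nonneg _))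

theorem swapL1_norm_le (E : Type) [NormedAddCommGroup E] [NormedSpace ℝ E] (V : Type)
    [NormedAddCommGroup V] [NormedSpace ℝ V] (g : C(K, E →L[ℝ] V)) : ‖swapL1 K E V g‖ ≤ ‖g‖ :=
  ContinuousLinearMap.opNorm_le_bound _ (norm_nonneg g) fun h => by
    rw [ContinuousMap.norm_le _ (by positivity)]
    intro y
    refine ((g y).le_opNorm h).trans ?_
    exact mul_le_mul_of_nonneg_right (g.norm_coe_le_norm y) (norm_nonneg _)

/-- `C(K, E →L V) → (E →L C(K, V))` -/
noncomputable def swapL (E : Type) [NormedAddCommGroup E] [NormedSpace ℝ E] (V : Type)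
    [NormedAddCommGroup V] [NormedSpace ℝ V] : C(K, E →L[ℝ] V) →L[ℝ] (E →L[ℝ] C(K, V)) :=
  LinearMap.mkContinuous
    { toFun := fun g => swapL1 K E V g
      map_add' := fun a b => by ext h y; simp [swapL1, swapL0]
      map_smul' := fun c a => by ext h y; simp [swapL1, swapL0] }
    1 (fun g => by
      rw [one_mul]
      exact swapL1_norm_le K E V g)

theorem swapL_apply (g : C(K, E →L[ℝ] V)) (h : E) (y : K) : swapL K E V g h y = g y h := rfl

/-- partial derivative in the first variable -/
noncomputable def dx (g : E × E' → V) (p : E × E') : E →L[ℝ] V :=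
  (fderiv ℝ g p).comp (ContinuousLinearMap.inl ℝ E E')

/-- partial derivative in the second variable -/
noncomputable def dy (g : E × E' → V) (p : E × E') : E' →L[ℝ] V :=
  (fderiv ℝ g p).comp (ContinuousLinearMap.inr ℝ E E')

omit [CompactSpace K] in
theorem hasFDerivAt_dx {g : E × E' → V} {p : E × E'} (hg : DifferentiableAt ℝ g p) :
    HasFDerivAt (fun x => g (x, p.2)) (dx g p) p.1 := by
  have h1 : HasFDerivAt (fun x : E => (x, p.2)) (ContinuousLinearMap.inl ℝ E E') p.1 :=
    hasFDerivAt_prodMk_left p.1 p.2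
  exact hg.hasFDerivAt.comp p.1 h1

omit [CompactSpace K] in
theorem hasFDerivAt_dy {g : E × E' → V} {p : E × E'} (hg : DifferentiableAt ℝ g p) :
    HasFDerivAt (fun y => g (p.1, y)) (dy g p) p.2 := by
  have h1 : HasFDerivAt (fun y : E' => (p.1, y)) (ContinuousLinearMap.inr ℝ E E') p.2 :=
    hasFDerivAt_prodMk_right p.1 p.2
  exact hg.hasFDerivAt.comp p.2 h1

theorem contDiffOn_dx {s : Set (E × E')} (hs : IsOpen s) {g : E × E' → V}
    (hg : ContDiffOn ℝ ∞ g s) : ContDiffOn ℝ ∞ (dx g) s := by
  have h1 : ContDiffOn ℝ ∞ (fderiv ℝ g) s := hg.fderiv_of_isOpen hs (by simp)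
  exact (ContinuousLinearMap.contDiff ((ContinuousLinearMap.compL ℝ E (E × E') V).flip
    (ContinuousLinearMap.inl ℝ E E'))).comp_contDiffOn h1

theorem contDiffOn_dy {s : Set (E × E')} (hs : IsOpen s) {g : E × E' → V}
    (hg : ContDiffOn ℝ ∞ g s) : ContDiffOn ℝ ∞ (dy g) s := by
  have h1 : ContDiffOn ℝ ∞ (fderiv ℝ g) s := hg.fderiv_of_isOpen hs (by simp)
  exact (ContinuousLinearMap.contDiff ((ContinuousLinearMap.compL ℝ E' (E × E') V).flip
    (ContinuousLinearMap.inr ℝ E E'))).comp_contDiffOn h1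

/-- derivative of `restr` -/
theorem hasFDerivAt_restr {U : Set E} (hU : IsOpen U) {W : Set E'} (hW : IsOpen W) (hKW : K ⊆ W)
    {g : E × E' → V} (hg : ContDiffOn ℝ ∞ g (U ×ˢ W)) {x : E} (hx : x ∈ U) :
    HasFDerivAt (restr K g) (swapL K E V (restr K (dx g) x)) x := by
  have hgc := hg.continuousOn
  have hdc := (contDiffOn_dx (hU.prod hW) hg).continuousOn
  have hdiff : ∀ p ∈ U ×ˢ W, DifferentiableAt ℝ g p := fun p hp =>
    (hg.contDiffAt ((hU.prod hW).mem_nhds hp)).differentiableAt (by simp)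
  rw [hasFDerivAt_iff_isLittleO_nhds_zero, Asymptotics.isLittleO_iff]
  intro c hc
  have hcont : ContinuousAt (restr K (dx g)) x :=
    (continuousOn_restr hKW hdc).continuousAt (hU.mem_nhds hx)
  obtain ⟨δ1, hδ1, h1⟩ := Metric.continuousAt_iff.1 hcont c hc
  obtain ⟨δ2, hδ2, h2⟩ := Metric.isOpen_iff.1 hU x hx
  filter_upwards [Metric.ball_mem_nhds (0:E) (lt_min hδ1 hδ2)] with h hh
  rw [mem_ball_zero_iff, lt_min_iff] at hh
  have hball : ∀ z ∈ Metric.ball x (min δ1 δ2), z ∈ U ∧ dist z x < δ1 := by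
    intro z hz
    rw [Metric.mem_ball, lt_min_iff] at hz
    exact ⟨h2 (Metric.mem_ball.2 hz.2), hz.1⟩
  have hxh : x + h ∈ Metric.ball x (min δ1 δ2) := by
    rw [Metric.mem_ball, dist_eq_norm, add_sub_cancel_left, lt_min_iff]
    exact hh
  rw [ContinuousMap.norm_le _ (by positivity)]
  intro y
  have hyW : (y : E') ∈ W := hKW y.2
  rw [ContinuousMap.sub_apply, ContinuousMap.sub_apply, swapL_apply,
    restr_apply hKW hgc (hball _ hxh).1, restr_apply hKW hgc hx, restr_apply hKW hdc hx]
  have key := (convex_ball x (min δ1 δ2)).norm_image_sub_le_of_norm_hasFDerivWithin_le'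
    (f := fun z => g (z, (y:E'))) (f' := fun z => dx g (z, (y:E'))) (φ := dx g (x, (y:E')))
    (C := c) (x := x) (y := x + h)
    (fun z hz => (hasFDerivAt_dx (hdiff (z, (y:E')) ⟨(hball z hz).1, hyW⟩)).hasFDerivWithinAt)
    (fun z hz => by
      have h3 := h1 (hball z hz).2
      have h4 := ((restr K (dx g) z) - (restr K (dx g) x)).norm_coe_le_norm y
      rw [ContinuousMap.sub_apply, restr_apply hKW hdc (hball z hz).1,
        restr_apply hKW hdc hx] at h4
      rw [dist_eq_norm] at h3
      exact h4.trans h3.le)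
    (Metric.mem_ball_self (lt_min hδ1 hδ2)) hxh
  rw [add_sub_cancel_left] at key
  exact key

theorem contDiffOn_restr_nat (n : ℕ) : ∀ {V : Type} [NormedAddCommGroup V] [NormedSpace ℝ V]
    {U : Set E} (_ : IsOpen U) {W : Set E'} (_ : IsOpen W) (_ : K ⊆ W)
    {g : E × E' → V} (_ : ContDiffOn ℝ ∞ g (U ×ˢ W)), ContDiffOn ℝ n (restr K g) U := by
  induction n with
  | zero =>
    intro V _ _ U hU W hW hKW g hg
    have := continuousOn_restr hKW hg.continuousOn
    exact_mod_cast contDiffOn_zero.2 this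
  | succ n ih =>
    intro V _ _ U hU W hW hKW g hg
    have e : ((n + 1 : ℕ) : WithTop ℕ∞) = (n : WithTop ℕ∞) + 1 := by push_cast; rfl
    rw [e, contDiffOn_succ_iff_fderiv_of_isOpen hU]
    refine ⟨fun x hx => (hasFDerivAt_restr K hU hW hKW hg hx).differentiableAt.differentiableWithinAt,
      ?_, ?_⟩
    · intro h; exact absurd h (by simp)
    · have h1 : ContDiffOn ℝ n (restr K (dx g)) U := ih hU hW hKW (contDiffOn_dx (hU.prod hW) hg)
      have h0 : ContDiff ℝ n (swapL K E V) := ContinuousLinearMap.contDiff _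
      have h2 : ContDiffOn ℝ n (fun x => swapL K E V (restr K (dx g) x)) U :=
        h0.comp_contDiffOn h1
      exact h2.congr fun x hx => (hasFDerivAt_restr K hU hW hKW hg hx).fderiv

/-- **parameter smoothness** -/
theorem contDiffOn_restr {U : Set E} (hU : IsOpen U) {W : Set E'} (hW : IsOpen W) (hKW : K ⊆ W)
    {g : E × E' → V} (hg : ContDiffOn ℝ ∞ g (U ×ˢ W)) : ContDiffOn ℝ ∞ (restr K g) U :=
  contDiffOn_infty.2 fun n => contDiffOn_restr_nat K n hU hW hKW hg

end

end Crest.Agent.R240.SmJ
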