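import Mathlib
import Crest.Agent.R240.SmJet

/-!
# Row 240, LEAK (helper895), part 1: Fourier series with parameters on `d → ℝ`

Real trigonometric system `cos (2π n·w)`, `sin (2π n·w)`, `n : d → ℤ`, and the expansion of
jointly smooth functions `H (y, w)`, supported (in `w`) in a cube inside the open unit cube.
-/

set_option autoImplicit false
open Set Filter Topology MeasureTheory
open scoped ContDiff

namespace Crest.Agent.R240.Lk

noncomputable section

variable {d : Type} [Fintype d]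

/-- the weight `∏ (1 + n_i²)` -/
def wt (n : d → ℤ) : ℝ := ∏ i, (1 + (n i : ℝ) ^ 2)

lemma one_le_wt (n : d → ℤ) : 1 ≤ wt n := by
  unfold wt
  have h : ∀ s : Finset d, 1 ≤ ∏ i ∈ s, (1 + (n i : ℝ) ^ 2) := by
    intro s
    refine Finset.prod_induction _ (fun r : ℝ => 1 ≤ r) (fun a b ha hb => ?_) le_rfl ?_
    · nlinarith
    · intro i _
      nlinarith [sq_nonneg (n i : ℝ)]
  exact h _

lemma wt_pos (n : d → ℤ) : 0 < wt n := lt_of_lt_of_le one_pos (one_le_wt n)

lemma summable_one : Summable (fun k : ℤ => (1 + (k : ℝ) ^ 2)⁻¹) := by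
  have h1 : Summable (fun k : ℤ => ((k : ℝ) ^ 2)⁻¹) := by
    have := Real.summable_one_div_int_pow (p := 2)
    simpa using this.2 (by norm_num)
  refine Summable.of_norm_bounded_eventually (g := fun k : ℤ => ((k : ℝ) ^ 2)⁻¹) h1 ?_
  refine (Filter.eventually_cofinite_ne (0 : ℤ)).mono ?_
  intro k hk
  have hk' : (0 : ℝ) < (k : ℝ) ^ 2 := by positivity
  rw [Real.norm_of_nonneg (by positivity)]
  exact inv_anti₀ hk' (by linarith)

lemma summable_wt : Summable (fun n : d → ℤ => (wt n)⁻¹) := by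
  classical
  refine summable_of_sum_le (c := ∏ _i : d, ∑' k : ℤ, (1 + (k : ℝ) ^ 2)⁻¹)
    (fun n => inv_nonneg.2 (wt_pos n).le) ?_
  intro u
  set t : d → Finset ℤ := fun i => u.image (fun n => n i)
  have hsub : u ⊆ Fintype.piFinset t := by
    intro n hn
    rw [Fintype.mem_piFinset]
    intro i
    exact Finset.mem_image_of_mem _ hn
  calc ∑ n ∈ u, (wt n)⁻¹ ≤ ∑ n ∈ Fintype.piFinset t, (wt n)⁻¹ :=
        Finset.sum_le_sum_of_subset_of_nonneg hsub fun n _ _ => inv_nonneg.2 (wt_pos n).le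
    _ = ∑ n ∈ Fintype.piFinset t, ∏ i, (1 + (n i : ℝ) ^ 2)⁻¹ := by
        refine Finset.sum_congr rfl fun n _ => ?_
        rw [wt, Finset.prod_inv_distrib]
    _ = ∏ i, ∑ k ∈ t i, (1 + (k : ℝ) ^ 2)⁻¹ := by
        rw [Finset.prod_univ_sum]
    _ ≤ ∏ _i : d, ∑' k : ℤ, (1 + (k : ℝ) ^ 2)⁻¹ := by
        refine Finset.prod_le_prod (fun i _ => Finset.sum_nonneg fun k _ => by positivity) ?_
        intro i _
        exact summable_one.sum_le_tsum _ (fun k _ => by positivity)

lemma summable_wt_pow {r : ℕ} (hr : 1 ≤ r) : Summable (fun n : d → ℤ => (wt n ^ r)⁻¹) := by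
  refine Summable.of_nonneg_of_le (fun n => by have := wt_pos n; positivity) (fun n => ?_)
    summable_wt
  have h1 := one_le_wt n
  exact inv_anti₀ (wt_pos n) (le_self_pow₀ h1 (by omega))

/-- the phase -/
def ph (n : d → ℤ) (w : d → ℝ) : ℝ := 2 * Real.pi * ∑ i, (n i : ℝ) * w i

/-- the trigonometric functions; `false`: cosine, `true`: sine. -/
def tg (s : Bool) (t : ℝ) : ℝ := if s then Real.sin t else Real.cos t

lemma abs_tg_le (s : Bool) (t : ℝ) : |tg s t| ≤ 1 := by
  unfold tg
  split_ifs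
  · exact Real.abs_sin_le_one t
  · exact Real.abs_cos_le_one t

lemma contDiff_tg (s : Bool) : ContDiff ℝ ∞ (tg s) := by
  unfold tg
  cases s
  · simpa using Real.contDiff_cos
  · simpa using Real.contDiff_sin

/-- the phase as a continuous linear map -/
def phL (n : d → ℤ) : (d → ℝ) →L[ℝ] ℝ :=
  (2 * Real.pi) • ∑ i, (n i : ℝ) • ContinuousLinearMap.proj (R := ℝ) (φ := fun _ : d => ℝ) i

lemma phL_apply (n : d → ℤ) (w : d → ℝ) : phL n w = ph n w := by
  simp [phL, ph]

lemma ph_eq (n : d → ℤ) : ph n = phL n := by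
  ext w; rw [phL_apply]

lemma contDiff_ph (n : d → ℤ) : ContDiff ℝ ∞ (ph n) := by
  rw [ph_eq]; exact (phL n).contDiff

lemma contDiff_tgph (s : Bool) (n : d → ℤ) : ContDiff ℝ ∞ (fun w => tg s (ph n w)) :=
  (contDiff_tg s).comp (contDiff_ph n)

variable [DecidableEq d]

lemma phL_single (n : d → ℤ) (a : d) : phL n (Pi.single a 1) = 2 * Real.pi * n a := by
  rw [phL_apply, ph]
  congr 1
  rw [Finset.sum_eq_single a]
  · simp
  · intro b _ hb
    simp [Pi.single_eq_of_ne hb]
  · simp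

/-- sign of the derivative: `tg s' = sg s * tg (!s)` -/
def sg (s : Bool) : ℝ := if s then 1 else -1

lemma hasDerivAt_tg (s : Bool) (t : ℝ) : HasDerivAt (tg s) (sg s * tg (!s) t) t := by
  cases s
  · have h : tg false = Real.cos := by funext t; simp [tg]
    rw [h]
    simpa [tg, sg] using Real.hasDerivAt_cos t
  · have h : tg true = Real.sin := by funext t; simp [tg]
    rw [h]
    simpa [tg, sg] using Real.hasDerivAt_sin t

lemma sg_mul (s : Bool) : sg s * sg (!s) = -1 := by cases s <;> simp [sg]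

lemma fderiv_tgph (s : Bool) (n : d → ℤ) (w : d → ℝ) (a : d) :
    fderiv ℝ (fun w => tg s (ph n w)) w (Pi.single a 1)
      = 2 * Real.pi * n a * sg s * tg (!s) (ph n w) := by
  have h1 : HasFDerivAt (ph n) (phL n) w := by
    rw [ph_eq]; exact (phL n).hasFDerivAt
  have h2 : HasFDerivAt (fun w => tg s (ph n w)) ((sg s * tg (!s) (ph n w)) • phL n) w :=
    (hasDerivAt_tg s (ph n w)).comp_hasFDerivAt w h1
  rw [h2.fderiv, smul_apply, phL_single, smul_eq_mul]
  ring

end

end Crest.Agent.R240.Lk
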