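import Mathlib
import Crest.Agent.R240.Lk1

/-!
# Row 240, LEAK (helper895), part 2: coefficients of jointly smooth functions
-/

set_option autoImplicit false
set_option maxSynthPendingDepth 3
set_option linter.unusedSectionVars false
open Set Filter Topology MeasureTheory
open scoped ContDiff

namespace Crest.Agent.R240.Lk

noncomputable section

variable {d : Type} [Fintype d]

variable (d) in
/-- the compact cube inside the open unit cube -/
def Kc : Set (d → ℝ) := Icc (fun _ => 1 / 16) (fun _ => 15 / 16)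

lemma isCompact_Kc : IsCompact (Kc d) := isCompact_Icc

lemma isClosed_Kc : IsClosed (Kc d) := isClosed_Icc

instance : CompactSpace (Kc d) := isCompact_iff_compactSpace.1 isCompact_Kc

lemma vol_Kc_le : (volume : Measure (d → ℝ)).real (Kc d) ≤ 1 := by
  have h : volume (Kc d) ≤ 1 := by
    rw [Kc, Real.volume_Icc_pi]
    refine Finset.prod_le_one' (fun i _ => ?_)
    rw [ENNReal.ofReal_le_one]
    norm_num
  have := ENNReal.toReal_mono ENNReal.one_ne_top h
  simpa [Measure.real] using this

/-- Lebesgue measure on the cube -/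
def muK : Measure (Kc d) := Measure.comap Subtype.val (volume : Measure (d → ℝ))

lemma muK_univ : (muK (d := d)) univ = volume (Kc d) := by
  rw [muK, comap_subtype_coe_apply isClosed_Kc.measurableSet, image_univ, Subtype.range_coe]

instance : IsFiniteMeasure (muK (d := d)) := ⟨by
  rw [muK_univ]; exact isCompact_Kc.measure_lt_top⟩

section
variable {Y : Type} [NormedAddCommGroup Y] [NormedSpace ℝ Y]
  {V : Type} [NormedAddCommGroup V] [NormedSpace ℝ V]

/-- admissible: jointly smooth, supported in the cube -/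
structure Adm (Y0 : Set Y) (H : Y × (d → ℝ) → V) : Prop where
  smooth : ContDiffOn ℝ ∞ H (Y0 ×ˢ univ)
  supp : ∀ y ∈ Y0, ∀ w ∉ Kc d, H (y, w) = 0

/-- the Fourier coefficients -/
def coef (s : Bool) (n : d → ℤ) (H : Y × (d → ℝ) → V) (y : Y) : V :=
  ∫ w, tg s (ph n w) • H (y, w)

/-- the coefficient as a continuous linear map on `C(Kc, V)` -/
def Phi (V : Type) [NormedAddCommGroup V] [NormedSpace ℝ V] (s : Bool) (n : d → ℤ) :
    C(Kc d, V) →L[ℝ] V :=
  LinearMap.mkContinuous
    { toFun := fun f => ∫ w : Kc d, tg s (ph n (w : d → ℝ)) • f w ∂muK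
      map_add' := fun f g => by
        have hI : ∀ f : C(Kc d, V), Integrable (fun w : Kc d => tg s (ph n (w : d → ℝ)) • f w) muK := by
          intro f
          have hc : Continuous (fun w : Kc d => tg s (ph n (w : d → ℝ)) • f w) := by
            exact ((contDiff_tgph s n).continuous.comp continuous_subtype_val).smul f.continuous
          exact hc.integrable_of_hasCompactSupport (HasCompactSupport.of_compactSpace _)
        rw [← integral_add (hI f) (hI g)]
        simp
      map_smul' := fun c f => by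
        simp only [ContinuousMap.smul_apply, RingHom.id_apply]
        rw [← integral_smul]
        congr 1
        funext w
        rw [smul_comm] }
    1 (fun f => by
      have h1 : ‖∫ w : Kc d, tg s (ph n (w : d → ℝ)) • f w ∂muK‖
          ≤ ‖f‖ * (muK : Measure (Kc d)).real univ := by
        refine norm_integral_le_of_norm_le_const (Eventually.of_forall fun w => ?_)
        rw [norm_smul, Real.norm_eq_abs]
        calc |tg s (ph n (w : d → ℝ))| * ‖f w‖ ≤ 1 * ‖f‖ :=
              mul_le_mul (abs_tg_le _ _) (f.norm_coe_le_norm w) (norm_nonneg _) zero_le_one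
          _ = ‖f‖ := one_mul _
      have h2 : (muK : Measure (Kc d)).real univ ≤ 1 := by
        have : (muK : Measure (Kc d)).real univ = (volume : Measure (d → ℝ)).real (Kc d) := by
          simp only [Measure.real]
          rw [muK_univ]
        rw [this]
        exact vol_Kc_le
      calc _ ≤ ‖f‖ * (muK : Measure (Kc d)).real univ := h1
        _ ≤ ‖f‖ * 1 := mul_le_mul_of_nonneg_left h2 (norm_nonneg _)
        _ = 1 * ‖f‖ := by ring)

lemma Phi_norm_le (s : Bool) (n : d → ℤ) : ‖Phi V s n‖ ≤ 1 :=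
  LinearMap.mkContinuous_norm_le _ zero_le_one _

lemma coef_eq_Phi {Y0 : Set Y} {H : Y × (d → ℝ) → V} (hH : Adm Y0 H) (s : Bool) (n : d → ℤ)
    {y : Y} (hy : y ∈ Y0) : coef s n H y = Phi V s n (SmJ.restr (Kc d) H y) := by
  have h1 : coef s n H y = ∫ w in Kc d, tg s (ph n w) • H (y, w) := by
    rw [coef, setIntegral_eq_integral_of_forall_compl_eq_zero]
    intro w hw
    rw [hH.supp y hy w hw, smul_zero]
  rw [h1, ← integral_subtype_comap isClosed_Kc.measurableSet]
  change _ = ∫ w : Kc d, tg s (ph n (w : d → ℝ)) • (SmJ.restr (Kc d) H y) w ∂muK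
  refine integral_congr_ae (Eventually.of_forall fun w => ?_)
  change tg s (ph n (w : d → ℝ)) • H (y, (w : d → ℝ))
    = tg s (ph n (w : d → ℝ)) • (SmJ.restr (Kc d) H y) w
  rw [SmJ.restr_apply (U := Y0) (W := univ) (subset_univ _) hH.smooth.continuousOn hy]

lemma contDiffOn_restr {Y0 : Set Y} (hY : IsOpen Y0) {H : Y × (d → ℝ) → V} (hH : Adm Y0 H) :
    ContDiffOn ℝ ∞ (SmJ.restr (Kc d) H) Y0 :=
  SmJ.contDiffOn_restr (Kc d) hY isOpen_univ (subset_univ _) hH.smooth

/-- the coefficients are smooth -/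
lemma contDiffOn_coef {Y0 : Set Y} (hY : IsOpen Y0) {H : Y × (d → ℝ) → V} (hH : Adm Y0 H)
    (s : Bool) (n : d → ℤ) : ContDiffOn ℝ ∞ (coef s n H) Y0 := by
  have h1 : ContDiffOn ℝ ∞ (fun y => Phi V s n (SmJ.restr (Kc d) H y)) Y0 :=
    (Phi V s n).contDiff.comp_contDiffOn (contDiffOn_restr hY hH)
  exact h1.congr fun y hy => coef_eq_Phi hH s n hy

/-- the derivatives of the coefficients are bounded on compact sets, uniformly in `n` -/
lemma coef_bound {Y0 : Set Y} (hY : IsOpen Y0) {H : Y × (d → ℝ) → V} (hH : Adm Y0 H)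
    {K : Set Y} (hK : IsCompact K) (hKY : K ⊆ Y0) (j : ℕ) :
    ∃ C, 0 ≤ C ∧ ∀ s n, ∀ y ∈ K, ‖iteratedFDeriv ℝ j (coef s n H) y‖ ≤ C := by
  have hr := contDiffOn_restr hY hH
  have hc : ContinuousOn (fun y => ‖iteratedFDeriv ℝ j (SmJ.restr (Kc d) H) y‖) Y0 := by
    have h1 : ContinuousOn (iteratedFDerivWithin ℝ j (SmJ.restr (Kc d) H) Y0) Y0 :=
      hr.continuousOn_iteratedFDerivWithin (by exact_mod_cast le_top) hY.uniqueDiffOn
    refine h1.norm.congr fun y hy => ?_
    simp only
    rw [iteratedFDerivWithin_of_isOpen j hY hy]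
  obtain ⟨C, hC⟩ := hK.exists_bound_of_continuousOn (hc.mono hKY)
  refine ⟨max C 0, le_max_right _ _, fun s n y hy => ?_⟩
  have hy' := hKY hy
  have e1 : coef s n H =ᶠ[𝓝 y] fun y => Phi V s n (SmJ.restr (Kc d) H y) := by
    filter_upwards [hY.mem_nhds hy'] with z hz using coef_eq_Phi hH s n hz
  rw [(e1.iteratedFDeriv ℝ j).eq_of_nhds]
  have h2 := ContinuousLinearMap.norm_iteratedFDeriv_comp_left (Phi V s n)
    (hr.contDiffAt (hY.mem_nhds hy')) (n := j) (by exact_mod_cast le_top)
  refine h2.trans ?_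
  calc ‖Phi V s n‖ * ‖iteratedFDeriv ℝ j (SmJ.restr (Kc d) H) y‖
      ≤ 1 * ‖iteratedFDeriv ℝ j (SmJ.restr (Kc d) H) y‖ :=
        mul_le_mul_of_nonneg_right (Phi_norm_le s n) (norm_nonneg _)
    _ ≤ max C 0 := by
        rw [one_mul]
        have := hC y hy
        rw [Real.norm_of_nonneg (norm_nonneg _)] at this
        exact this.trans (le_max_left _ _)

end

end

end Crest.Agent.R240.Lk
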