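import Mathlib
import Crest.Agent.R240.Lk2

/-!
# Row 240, LEAK (helper895), part 3: decay of the coefficients (integration by parts)
-/

set_option autoImplicit false
set_option maxSynthPendingDepth 3
set_option linter.unusedSectionVars false
open Set Filter Topology MeasureTheory
open scoped ContDiff

namespace Crest.Agent.R240.Lk

noncomputable section

variable {d : Type} [Fintype d] [DecidableEq d]
variable {Y : Type} [NormedAddCommGroup Y] [NormedSpace ℝ Y]
  {V : Type} [NormedAddCommGroup V] [NormedSpace ℝ V]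

/-- derivative in the direction of the `a`-th inner variable -/
def Da (a : d) (H : Y × (d → ℝ) → V) (p : Y × (d → ℝ)) : V :=
  fderiv ℝ H p (0, Pi.single a 1)

lemma Adm.Da {Y0 : Set Y} (hY : IsOpen Y0) {H : Y × (d → ℝ) → V} (hH : Adm Y0 H) (a : d) :
    Adm Y0 (Da a H) := by
  have ho : IsOpen (Y0 ×ˢ (univ : Set (d → ℝ))) := hY.prod isOpen_univ
  refine ⟨?_, ?_⟩
  · have h1 : ContDiffOn ℝ ∞ (fderiv ℝ H) (Y0 ×ˢ univ) := hH.smooth.fderiv_of_isOpen ho (by simp)
    exact h1.clm_apply contDiffOn_const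
  · intro y hy w hw
    have e : H =ᶠ[𝓝 (y, w)] fun _ => 0 := by
      have hn : Y0 ×ˢ (Kc d)ᶜ ∈ 𝓝 (y, w) :=
        (hY.prod isClosed_Kc.isOpen_compl).mem_nhds ⟨hy, hw⟩
      filter_upwards [hn] with q hq
      exact hH.supp q.1 hq.1 q.2 hq.2
    unfold Lk.Da
    rw [e.fderiv_eq]
    simp

lemma Adm.add {Y0 : Set Y} {H G : Y × (d → ℝ) → V} (hH : Adm Y0 H) (hG : Adm Y0 G) :
    Adm Y0 (fun p => H p + G p) :=
  ⟨hH.smooth.add hG.smooth, fun y hy w hw => by
    simp [hH.supp y hy w hw, hG.supp y hy w hw]⟩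

lemma Adm.smul {Y0 : Set Y} {H : Y × (d → ℝ) → V} (hH : Adm Y0 H) (c : ℝ) :
    Adm Y0 (fun p => c • H p) :=
  ⟨hH.smooth.const_smul c, fun y hy w hw => by simp [hH.supp y hy w hw]⟩

lemma Adm.cont {Y0 : Set Y} {H : Y × (d → ℝ) → V} (hH : Adm Y0 H) {y : Y} (hy : y ∈ Y0) :
    Continuous (fun w => H (y, w)) :=
  hH.smooth.continuousOn.comp_continuous (by fun_prop) fun w => ⟨hy, mem_univ _⟩

lemma Adm.csupp {Y0 : Set Y} {H : Y × (d → ℝ) → V} (hH : Adm Y0 H) {y : Y} (hy : y ∈ Y0) :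
    HasCompactSupport (fun w => H (y, w)) :=
  HasCompactSupport.intro isCompact_Kc fun w hw => hH.supp y hy w hw

lemma Adm.integrable {Y0 : Set Y} {H : Y × (d → ℝ) → V} (hH : Adm Y0 H) {y : Y} (hy : y ∈ Y0)
    {f : (d → ℝ) → ℝ} (hf : Continuous f) : Integrable (fun w => f w • H (y, w)) := by
  refine (hf.smul (hH.cont hy)).integrable_of_hasCompactSupport ?_
  exact (hH.csupp hy).smul_left

lemma Adm.diff {Y0 : Set Y} (hY : IsOpen Y0) {H : Y × (d → ℝ) → V} (hH : Adm Y0 H) {y : Y}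
    (hy : y ∈ Y0) (w : d → ℝ) : HasFDerivAt (fun w => H (y, w))
      ((fderiv ℝ H (y, w)).comp (ContinuousLinearMap.inr ℝ Y (d → ℝ))) w := by
  have hd : DifferentiableAt ℝ H (y, w) :=
    (hH.smooth.contDiffAt ((hY.prod isOpen_univ).mem_nhds ⟨hy, mem_univ _⟩)).differentiableAt
      (by simp)
  exact SmJ.hasFDerivAt_dy hd

lemma coef_add {Y0 : Set Y} {H G : Y × (d → ℝ) → V} (hH : Adm Y0 H) (hG : Adm Y0 G) (s : Bool)
    (n : d → ℤ) {y : Y} (hy : y ∈ Y0) :
    coef s n (fun p => H p + G p) y = coef s n H y + coef s n G y := by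
  unfold coef
  rw [← integral_add (hH.integrable hy (contDiff_tgph s n).continuous)
    (hG.integrable hy (contDiff_tgph s n).continuous)]
  simp [smul_add]

lemma coef_smul (H : Y × (d → ℝ) → V) (c : ℝ) (s : Bool) (n : d → ℤ) (y : Y) :
    coef s n (fun p => c • H p) y = c • coef s n H y := by
  unfold coef
  rw [← integral_smul]
  refine integral_congr_ae (Eventually.of_forall fun w => ?_)
  simp only
  rw [smul_comm]

/-- one integration by parts -/
lemma coef_Da {Y0 : Set Y} (hY : IsOpen Y0) {H : Y × (d → ℝ) → V} (hH : Adm Y0 H) (s : Bool)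
    (n : d → ℤ) (a : d) {y : Y} (hy : y ∈ Y0) :
    coef s n (Da a H) y = (-(2 * Real.pi * n a * sg s)) • coef (!s) n H y := by
  have hf : Differentiable ℝ (fun w => tg s (ph n w)) :=
    (contDiff_tgph s n).differentiable (by simp)
  have hg : Differentiable ℝ (fun w => H (y, w)) := fun w => (hH.diff hY hy w).differentiableAt
  have e1 : ∀ w, fderiv ℝ (fun w => H (y, w)) w (Pi.single a 1) = Da a H (y, w) := by
    intro w
    rw [(hH.diff hY hy w).fderiv]
    simp [Da]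
  have hD := hH.Da hY a
  have h1 : Integrable (fun w => fderiv ℝ (fun w => tg s (ph n w)) w (Pi.single a 1) • H (y, w)) := by
    refine hH.integrable hy ?_
    simp only [fderiv_tgph]
    exact continuous_const.mul (contDiff_tgph (!s) n).continuous
  have h2 : Integrable (fun w => tg s (ph n w) • fderiv ℝ (fun w => H (y, w)) w (Pi.single a 1)) := by
    simp only [e1]
    exact hD.integrable hy (contDiff_tgph s n).continuous
  have h3 : Integrable (fun w => tg s (ph n w) • H (y, w)) :=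
    hH.integrable hy (contDiff_tgph s n).continuous
  have key := integral_smul_fderiv_eq_neg_fderiv_smul_of_integrable (μ := volume)
    (v := (Pi.single a 1 : d → ℝ)) h1 h2 h3
    (fun x _ => hf x) (fun x _ => hg x)
  simp only [e1, fderiv_tgph] at key
  unfold coef
  rw [key, ← integral_neg, ← integral_smul]
  refine integral_congr_ae (Eventually.of_forall fun w => ?_)
  simp only
  rw [smul_smul, ← neg_smul]
  congr 1
  ring

/-- the operator `1 - (4π²)⁻¹ ∂_a²` -/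
def Ta (a : d) (H : Y × (d → ℝ) → V) (p : Y × (d → ℝ)) : V :=
  H p + (-(4 * Real.pi ^ 2)⁻¹) • Da a (Da a H) p

lemma Adm.Ta {Y0 : Set Y} (hY : IsOpen Y0) {H : Y × (d → ℝ) → V} (hH : Adm Y0 H) (a : d) :
    Adm Y0 (Ta a H) :=
  hH.add (((hH.Da hY a).Da hY a).smul _)

lemma coef_Ta {Y0 : Set Y} (hY : IsOpen Y0) {H : Y × (d → ℝ) → V} (hH : Adm Y0 H) (s : Bool)
    (n : d → ℤ) (a : d) {y : Y} (hy : y ∈ Y0) :
    coef s n (Ta a H) y = (1 + (n a : ℝ) ^ 2) • coef s n H y := by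
  unfold Ta
  rw [coef_add hH (((hH.Da hY a).Da hY a).smul _) s n hy, coef_smul,
    coef_Da hY (hH.Da hY a) s n a hy, coef_Da hY hH (!s) n a hy, Bool.not_not, smul_smul, smul_smul,
    add_smul, one_smul]
  congr 2
  have h := sg_mul s
  have hp : Real.pi ≠ 0 := Real.pi_ne_zero
  have : -(2 * Real.pi * ↑(n a) * sg s) * -(2 * Real.pi * ↑(n a) * sg (!s))
      = 4 * Real.pi ^ 2 * (n a : ℝ) ^ 2 * (sg s * sg (!s)) := by ring
  rw [mul_assoc, this, h]
  field_simp

/-- the full operator for a list of variables -/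
def TL (l : List d) (H : Y × (d → ℝ) → V) : Y × (d → ℝ) → V := l.foldr Ta H

lemma Adm.TL {Y0 : Set Y} (hY : IsOpen Y0) {H : Y × (d → ℝ) → V} (hH : Adm Y0 H) (l : List d) :
    Adm Y0 (TL l H) := by
  induction l with
  | nil => exact hH
  | cons a l ih => exact Adm.Ta hY ih a

lemma coef_TL {Y0 : Set Y} (hY : IsOpen Y0) {H : Y × (d → ℝ) → V} (hH : Adm Y0 H) (s : Bool)
    (n : d → ℤ) (l : List d) {y : Y} (hy : y ∈ Y0) :
    coef s n (TL l H) y = (l.map fun a => 1 + (n a : ℝ) ^ 2).prod • coef s n H y := by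
  induction l with
  | nil => simp [TL]
  | cons a l ih =>
    change coef s n (Ta a (TL l H)) y = _
    rw [coef_Ta hY (hH.TL hY l) s n a hy, ih, smul_smul, List.map_cons, List.prod_cons]

/-- `∏_a (1 - (4π²)⁻¹ ∂_a²)` -/
def TT (H : Y × (d → ℝ) → V) : Y × (d → ℝ) → V := TL (Finset.univ : Finset d).toList H

lemma coef_TT {Y0 : Set Y} (hY : IsOpen Y0) {H : Y × (d → ℝ) → V} (hH : Adm Y0 H) (s : Bool)
    (n : d → ℤ) {y : Y} (hy : y ∈ Y0) :
    coef s n (TT H) y = wt n • coef s n H y := by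
  rw [TT, coef_TL hY hH s n _ hy]
  congr 1
  rw [wt, Finset.prod_map_toList]

/-- iterated -/
def TTr (r : ℕ) (H : Y × (d → ℝ) → V) : Y × (d → ℝ) → V := TT^[r] H

lemma Adm.TTr {Y0 : Set Y} (hY : IsOpen Y0) {H : Y × (d → ℝ) → V} (hH : Adm Y0 H) (r : ℕ) :
    Adm Y0 (TTr r H) := by
  induction r with
  | zero => exact hH
  | succ r ih =>
    unfold Lk.TTr
    rw [Function.iterate_succ_apply']
    exact Adm.TL hY ih _

lemma coef_TTr {Y0 : Set Y} (hY : IsOpen Y0) {H : Y × (d → ℝ) → V} (hH : Adm Y0 H) (s : Bool)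
    (n : d → ℤ) (r : ℕ) {y : Y} (hy : y ∈ Y0) :
    coef s n (TTr r H) y = (wt n ^ r) • coef s n H y := by
  induction r with
  | zero => simp [TTr]
  | succ r ih =>
    have e : TTr (r + 1) H = TT (TTr r H) := Function.iterate_succ_apply' _ _ _
    rw [e, coef_TT hY (hH.TTr hY r) s n hy, ih, smul_smul, pow_succ']

/-- **decay of the coefficients** with all their derivatives, uniformly on compact sets -/
theorem coef_decay {Y0 : Set Y} (hY : IsOpen Y0) {H : Y × (d → ℝ) → V} (hH : Adm Y0 H)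
    {K : Set Y} (hK : IsCompact K) (hKY : K ⊆ Y0) (j r : ℕ) :
    ∃ C, 0 ≤ C ∧ ∀ s n, ∀ y ∈ K, ‖iteratedFDeriv ℝ j (coef s n H) y‖ ≤ C * (wt n ^ r)⁻¹ := by
  obtain ⟨C, hC0, hC⟩ := coef_bound hY (hH.TTr hY r) hK hKY j
  refine ⟨C, hC0, fun s n y hy => ?_⟩
  have hw : 0 < wt n ^ r := pow_pos (wt_pos n) r
  have e1 : coef s n H =ᶠ[𝓝 y] fun y => (wt n ^ r)⁻¹ • coef s n (TTr r H) y := by
    filter_upwards [hY.mem_nhds (hKY hy)] with z hz
    rw [coef_TTr hY hH s n r hz, smul_smul, inv_mul_cancel₀ hw.ne', one_smul]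
  rw [(e1.iteratedFDeriv ℝ j).eq_of_nhds]
  have hsm : ContDiffAt ℝ j (coef s n (TTr r H)) y :=
    ((contDiffOn_coef hY (hH.TTr hY r) s n).contDiffAt (hY.mem_nhds (hKY hy))).of_le
      (by exact_mod_cast le_top)
  have h2 : iteratedFDeriv ℝ j (fun y => (wt n ^ r)⁻¹ • coef s n (TTr r H) y) y
      = (wt n ^ r)⁻¹ • iteratedFDeriv ℝ j (coef s n (TTr r H)) y :=
    iteratedFDeriv_const_smul_apply hsm
  rw [h2, norm_smul, Real.norm_of_nonneg (inv_nonneg.2 hw.le), mul_comm]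
  exact mul_le_mul_of_nonneg_right (hC s n y hy) (inv_nonneg.2 hw.le)

end

end Crest.Agent.R240.Lk
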