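import Mathlib
import Crest.Agent.R240.Lk3

/-!
# Row 240, LEAK (helper895), part 4: pointwise convergence of the Fourier expansion
-/

set_option autoImplicit false
set_option maxSynthPendingDepth 3
set_option linter.unusedSectionVars false
open Set Filter Topology MeasureTheory
open scoped ContDiff

namespace Crest.Agent.R240.Lk

noncomputable section

variable {d : Type} [Fintype d]

/-- the periodisation of a function supported in `Kc` -/
def per (F : (d → ℝ) → ℝ) (w : d → ℝ) : ℝ := F fun i => Int.fract (w i)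

lemma continuous_per {F : (d → ℝ) → ℝ} (hF : Continuous F) (h0 : ∀ w ∉ Kc d, F w = 0) :
    Continuous (per F) := by
  rw [continuous_iff_continuousAt]
  intro w
  by_cases hw : ∀ i, Int.fract (w i) ≠ 0
  · have h1 : ContinuousAt (fun w : d → ℝ => fun i => Int.fract (w i)) w := by
      rw [continuousAt_pi]
      intro i
      have : ContinuousAt (fun x : ℝ => Int.fract x) (w i) := by
        apply continuousAt_fract
        intro h
        apply hw i
        rw [Int.fract, sub_eq_zero]
        exact h
      exact ContinuousAt.comp (f := fun w : d → ℝ => w i) (x := w) this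
        (continuous_apply i).continuousAt
    exact hF.continuousAt.comp h1
  · push Not at hw
    obtain ⟨i, hi⟩ := hw
    obtain ⟨k, hk⟩ : ∃ k : ℤ, w i = k := ⟨⌊w i⌋, by
      rw [Int.fract] at hi; linarith⟩
    have e : per F =ᶠ[𝓝 w] fun _ => 0 := by
      have hn : {w' : d → ℝ | |w' i - k| < 1 / 16} ∈ 𝓝 w := by
        have ho : IsOpen {w' : d → ℝ | |w' i - k| < 1 / 16} :=
          isOpen_lt (by fun_prop) continuous_const
        exact ho.mem_nhds (by simp [hk])
      filter_upwards [hn] with w' hw'
      replace hw' : |w' i - k| < 1 / 16 := hw'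
      apply h0
      intro hK
      have hK1 := hK.1 i
      have hK2 := hK.2 i
      simp only at hK1 hK2
      rw [abs_lt] at hw'
      have h1 := Int.fract_add_floor (w' i)
      have h2 : (⌊w' i⌋ : ℝ) = w' i - Int.fract (w' i) := by linarith
      have h3 : ((⌊w' i⌋ : ℤ) : ℝ) < k := by rw [h2]; linarith
      have h4 : ((k : ℤ) : ℝ) - 1 < ((⌊w' i⌋ : ℤ) : ℝ) := by rw [h2]; linarith
      have h5 : ⌊w' i⌋ < k := by exact_mod_cast h3
      have h6 : k - 1 < ⌊w' i⌋ := by exact_mod_cast h4
      omega
    exact continuousAt_const.congr_of_eventuallyEq e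

/-- the function on the torus -/
def tor (F : (d → ℝ) → ℝ) (x : UnitAddTorus d) : ℂ :=
  ((F fun i => ((AddCircle.equivIco (1 : ℝ) 0 (x i) : Ico (0:ℝ) (0 + 1)) : ℝ) : ℝ) : ℂ)

lemma tor_coe (F : (d → ℝ) → ℝ) (w : d → ℝ) :
    tor F (fun i => (w i : UnitAddCircle)) = (per F w : ℂ) := by
  unfold tor per
  congr 2
  funext i
  have := AddCircle.coe_equivIco_mk_apply (p := (1:ℝ)) (w i)
  rw [div_one, mul_one] at this
  exact this

lemma continuous_tor {F : (d → ℝ) → ℝ} (hF : Continuous F) (h0 : ∀ w ∉ Kc d, F w = 0) :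
    Continuous (tor F) := by
  have hq : IsOpenQuotientMap (Pi.map fun _ : d => (fun x : ℝ => (x : UnitAddCircle))) :=
    IsOpenQuotientMap.piMap fun _ => QuotientAddGroup.isOpenQuotientMap_mk
  rw [hq.isQuotientMap.continuous_iff]
  have : (tor F ∘ Pi.map fun _ : d => (fun x : ℝ => (x : UnitAddCircle)))
      = fun w => (per F w : ℂ) := by
    funext w
    exact tor_coe F w
  rw [this]
  exact Complex.continuous_ofReal.comp (continuous_per hF h0)

lemma per_eq {F : (d → ℝ) → ℝ} {w : d → ℝ} (hw : ∀ i, w i ∈ Ico (0:ℝ) 1) : per F w = F w := by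
  unfold per
  congr 1
  funext i
  exact Int.fract_eq_self.2 ⟨(hw i).1, (hw i).2⟩

lemma per_eq' {F : (d → ℝ) → ℝ} (h0 : ∀ w ∉ Kc d, F w = 0) {w : d → ℝ}
    (hw : ∀ i, w i ∈ Icc (0:ℝ) 1) : per F w = F w := by
  by_cases h : ∀ i, w i ≠ 1
  · exact per_eq fun i => ⟨(hw i).1, lt_of_le_of_ne (hw i).2 (h i)⟩
  · push Not at h
    obtain ⟨i, hi⟩ := h
    rw [h0 w, per, h0]
    · intro hK
      have := hK.1 i
      simp only [hi, Int.fract_one] at this
      norm_num at this
    · intro hK
      have := hK.2 i
      simp only [hi] at this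
      norm_num at this

lemma mFourier_coe (n : d → ℤ) (w : d → ℝ) :
    UnitAddTorus.mFourier n (fun i => (w i : UnitAddCircle))
      = (Real.cos (ph n w) : ℂ) + (Real.sin (ph n w) : ℂ) * Complex.I := by
  have h1 : UnitAddTorus.mFourier n (fun i => (w i : UnitAddCircle))
      = ∏ i, Complex.exp (2 * Real.pi * Complex.I * (n i) * (w i) / (1 : ℝ)) := by
    change ∏ i, fourier (n i) ((w i : ℝ) : AddCircle (1:ℝ)) = _
    refine Finset.prod_congr rfl fun i _ => ?_
    rw [fourier_coe_apply]
  rw [h1, ← Complex.exp_sum, Complex.ofReal_cos, Complex.ofReal_sin, ← Complex.exp_mul_I]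
  congr 1
  rw [ph]
  push_cast
  rw [Finset.mul_sum, Finset.sum_mul]
  refine Finset.sum_congr rfl fun i _ => ?_
  simp
  ring

lemma mFourierCoeff_tor {F : (d → ℝ) → ℝ} (hF : Continuous F) (h0 : ∀ w ∉ Kc d, F w = 0)
    (n : d → ℤ) : UnitAddTorus.mFourierCoeff (tor F) n
      = ((∫ w, tg false (ph n w) * F w : ℝ) : ℂ) - ((∫ w, tg true (ph n w) * F w : ℝ) : ℂ) * Complex.I := by
  rw [UnitAddTorus.mFourierCoeff_eq_integral _ _ 0]
  have hc : HasCompactSupport F := HasCompactSupport.intro isCompact_Kc fun w hw => h0 w hw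
  have hint : ∀ s, Integrable (fun w => tg s (ph n w) * F w) := fun s =>
    ((contDiff_tgph s n).continuous.mul hF).integrable_of_hasCompactSupport hc.mul_left
  have hset : MeasurableSet {x : d → ℝ | ∀ i, x i ∈ Ioc ((0 : d → ℝ) i) ((0 : d → ℝ) i + 1)} := by
    have := MeasurableSet.univ_pi (fun i : d => measurableSet_Ioc (a := (0 : d → ℝ) i)
      (b := (0 : d → ℝ) i + 1))
    convert this using 1
    ext x; simp [Set.mem_pi]
  have e1 : ∀ w ∈ {x : d → ℝ | ∀ i, x i ∈ Ioc ((0 : d → ℝ) i) ((0 : d → ℝ) i + 1)},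
      UnitAddTorus.mFourier (-n) (fun i => (w i : UnitAddCircle)) • tor F (fun i => (w i : UnitAddCircle))
      = ((tg false (ph n w) * F w : ℝ) : ℂ) - ((tg true (ph n w) * F w : ℝ) : ℂ) * Complex.I := by
    intro w hw
    rw [tor_coe, per_eq' h0 (fun i => by
      have := hw i
      simp only [Pi.zero_apply, zero_add] at this
      exact ⟨this.1.le, this.2⟩), UnitAddTorus.mFourier_neg, mFourier_coe, smul_eq_mul]
    simp only [map_add, map_mul, Complex.conj_ofReal, Complex.conj_I, tg, Bool.false_eq_true,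
      if_false, if_true, Complex.ofReal_mul]
    ring
  rw [setIntegral_congr_fun hset e1, setIntegral_eq_integral_of_forall_compl_eq_zero]
  · rw [integral_sub, integral_mul_const, integral_complex_ofReal, integral_complex_ofReal]
    · exact (hint false).ofReal
    · exact ((hint true).ofReal).mul_const _
  · intro w hw
    have : F w = 0 := by
      apply h0
      intro hK
      apply hw
      intro i
      have a1 := hK.1 i
      have a2 := hK.2 i
      simp only at a1 a2
      simp only [Pi.zero_apply, zero_add]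
      constructor <;> linarith
    simp [this]

/-- pointwise convergence, real scalar case -/
theorem hasSum_scalar {F : (d → ℝ) → ℝ} (hF : Continuous F) (h0 : ∀ w ∉ Kc d, F w = 0)
    (hs : ∀ s, Summable fun n : d → ℤ => ‖∫ w, tg s (ph n w) * F w‖)
    {w : d → ℝ} (hw : ∀ i, w i ∈ Icc (0:ℝ) 1) :
    HasSum (fun n : d → ℤ => tg false (ph n w) * (∫ w, tg false (ph n w) * F w)
      + tg true (ph n w) * ∫ w, tg true (ph n w) * F w) (F w) := by
  have hsum : Summable (UnitAddTorus.mFourierCoeff (tor F)) := by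
    refine Summable.of_norm_bounded ((hs false).add (hs true)) fun n => ?_
    rw [mFourierCoeff_tor hF h0]
    refine (norm_sub_le _ _).trans ?_
    rw [norm_mul, Complex.norm_I, mul_one, Complex.norm_real, Complex.norm_real]
  have h1 := UnitAddTorus.hasSum_mFourier_series_apply_of_summable
    (f := ⟨tor F, continuous_tor hF h0⟩) hsum (fun i => (w i : UnitAddCircle))
  have h2 := (Complex.reCLM.hasSum h1)
  change HasSum (fun n => Complex.re (UnitAddTorus.mFourierCoeff (tor F) n •
    UnitAddTorus.mFourier n (fun i => (w i : UnitAddCircle))))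
    (Complex.re (tor F (fun i => (w i : UnitAddCircle)))) at h2
  rw [tor_coe, Complex.ofReal_re, per_eq' h0 hw] at h2
  refine h2.congr_fun fun n => ?_
  rw [mFourierCoeff_tor hF h0, mFourier_coe, smul_eq_mul]
  simp only [tg, Bool.false_eq_true, if_false, if_true, Complex.mul_re, Complex.sub_re,
    Complex.sub_im, Complex.add_re, Complex.add_im, Complex.mul_im, Complex.ofReal_re,
    Complex.ofReal_im, Complex.I_re, Complex.I_im]
  ring

end

end Crest.Agent.R240.Lk
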