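import Mathlib
import Crest.Agent.R240.Lk4
import Crest.Agent.R240.Lin1

/-!
# Row 240, LEAK (helper895), part 5: vector valued Fourier series and the product form

* `hasSum_vec` : pointwise convergence for functions with values in a Banach space;
* `tg_sum` : `tg s (∑ θ_i)` as a finite combination of products `∏ tg (σ_i) θ_i`;
* `hasSum_prod` : the series with product kernels on `ι → E4`.
-/

set_option autoImplicit false
set_option linter.unusedSectionVars false
set_option maxSynthPendingDepth 3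

open Set Function Filter MeasureTheory
open scoped ContDiff Topology

namespace Crest.Agent.R240.Lk

noncomputable section

section vec
variable {d : Type} [Fintype d] [DecidableEq d]
variable {V : Type} [NormedAddCommGroup V] [NormedSpace ℝ V] [CompleteSpace V]

theorem hasSum_vec {F : (d → ℝ) → V} (hF : Continuous F) (h0 : ∀ w ∉ Kc d, F w = 0)
    (hs : ∀ s, Summable fun n : d → ℤ => ‖∫ w, tg s (ph n w) • F w‖)
    {w : d → ℝ} (hw : ∀ i, w i ∈ Icc (0:ℝ) 1) :
    HasSum (fun n : d → ℤ => tg false (ph n w) • (∫ w, tg false (ph n w) • F w)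
      + tg true (ph n w) • ∫ w, tg true (ph n w) • F w) (F w) := by
  have hc : HasCompactSupport F := HasCompactSupport.intro isCompact_Kc fun w hw => h0 w hw
  have hint : ∀ s n, Integrable (fun w => tg s (ph n w) • F w) := fun s n =>
    ((contDiff_tgph s n).continuous.smul hF).integrable_of_hasCompactSupport hc.smul_left
  have hb : ∀ s (n : d → ℤ) (v : V), ‖tg s (ph n w) • v‖ ≤ ‖v‖ := by
    intro s n v
    rw [norm_smul, Real.norm_eq_abs]
    exact mul_le_of_le_one_left (norm_nonneg _) (abs_tg_le _ _)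
  have hsum : Summable (fun n : d → ℤ => tg false (ph n w) • (∫ w, tg false (ph n w) • F w)
      + tg true (ph n w) • ∫ w, tg true (ph n w) • F w) := by
    refine Summable.of_norm_bounded ((hs false).add (hs true)) fun n => ?_
    exact (norm_add_le _ _).trans (add_le_add (hb _ _ _) (hb _ _ _))
  have key : (∑' n : d → ℤ, (tg false (ph n w) • (∫ w, tg false (ph n w) • F w)
      + tg true (ph n w) • ∫ w, tg true (ph n w) • F w)) = F w := by
    rw [SeparatingDual.eq_iff_forall_dual_eq (R := ℝ)]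
    intro g
    have e1 : ∀ s n, g (∫ w, tg s (ph n w) • F w) = ∫ w, tg s (ph n w) * g (F w) := by
      intro s n
      rw [← ContinuousLinearMap.integral_comp_comm _ (hint s n)]
      simp only [map_smul, smul_eq_mul]
    have h1 := hasSum_scalar (F := fun w => g (F w)) (g.continuous.comp hF)
      (fun w hw => by rw [h0 w hw, map_zero]) (fun s => by
        refine Summable.of_nonneg_of_le (fun n => norm_nonneg _) (fun n => ?_)
          ((hs s).mul_left ‖g‖)
        rw [← e1]
        exact g.le_opNorm _) hw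
    have h2 := g.hasSum hsum.hasSum
    refine h2.unique ?_
    refine h1.congr_fun fun n => ?_
    rw [map_add, map_smul, map_smul, smul_eq_mul, smul_eq_mul, e1, e1]
  rw [← key]
  exact hsum.hasSum

end vec

section trig
variable {ι : Type} [Fintype ι] [DecidableEq ι]

/-- the complex coefficients -/
def cc (σ : ι → Bool) : ℂ := ∏ i, (if σ i then Complex.I else 1)

lemma norm_cc (σ : ι → Bool) : ‖cc σ‖ = 1 := by
  unfold cc
  rw [norm_prod]
  refine Finset.prod_eq_one fun i _ => ?_
  split_ifs <;> simp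

/-- the real coefficients -/
def cs (s : Bool) (σ : ι → Bool) : ℝ := if s then (cc σ).im else (cc σ).re

lemma abs_cs_le (s : Bool) (σ : ι → Bool) : |cs s σ| ≤ 1 := by
  unfold cs
  split_ifs
  · exact (Complex.abs_im_le_norm _).trans (norm_cc σ).le
  · exact (Complex.abs_re_le_norm _).trans (norm_cc σ).le

lemma exp_sum (θ : ι → ℝ) : Complex.exp (((∑ i, θ i : ℝ) : ℂ) * Complex.I) =
    ∑ σ : ι → Bool, cc σ * ((∏ i, tg (σ i) (θ i) : ℝ) : ℂ) := by
  have h1 : Complex.exp (((∑ i, θ i : ℝ) : ℂ) * Complex.I) =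
      ∏ i, ∑ s : Bool, ((if s then Complex.I else 1) * (tg s (θ i) : ℂ)) := by
    push_cast
    rw [Finset.sum_mul, Complex.exp_sum]
    refine Finset.prod_congr rfl fun i _ => ?_
    rw [Complex.exp_mul_I, Fintype.sum_bool]
    simp only [tg, if_true, Bool.false_eq_true, if_false, one_mul]
    push_cast
    ring
  rw [h1, Finset.prod_univ_sum]
  rw [Fintype.piFinset_univ]
  refine Finset.sum_congr rfl fun σ _ => ?_
  rw [Finset.prod_mul_distrib, cc]
  push_cast
  rfl

theorem tg_sum (s : Bool) (θ : ι → ℝ) : tg s (∑ i, θ i) =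
    ∑ σ : ι → Bool, cs s σ * ∏ i, tg (σ i) (θ i) := by
  have h := exp_sum θ
  rw [Complex.exp_mul_I, ← Complex.ofReal_cos, ← Complex.ofReal_sin] at h
  cases s
  · have h2 := congrArg Complex.re h
    simp only [Complex.add_re, Complex.ofReal_re, Complex.mul_re, Complex.I_re, mul_zero,
      Complex.ofReal_im, Complex.I_im, mul_one, sub_self, add_zero, Complex.re_sum] at h2
    simp only [tg, cs, Bool.false_eq_true, if_false]
    rw [h2]
    refine Finset.sum_congr rfl fun σ _ => ?_
    simp [tg]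
  · have h2 := congrArg Complex.im h
    simp only [Complex.add_im, Complex.ofReal_im, Complex.mul_im, Complex.I_re, mul_zero,
      Complex.ofReal_re, Complex.I_im, mul_one, add_zero, zero_add, Complex.im_sum] at h2
    simp only [tg, cs, if_true]
    rw [h2]
    refine Finset.sum_congr rfl fun σ _ => ?_
    simp [tg]

end trig

section prod
variable {ι : Type} [Fintype ι] [DecidableEq ι]
variable {V : Type} [NormedAddCommGroup V] [NormedSpace ℝ V] [CompleteSpace V]

/-- the cube coordinates -/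
def wz (z : ι → E4) : ι × Fin 4 → ℝ := fun q => z q.1 q.2 / 8 + 1 / 2

/-- the one-factor phase -/
def th (n : Fin 4 → ℤ) (z : E4) : ℝ := 2 * Real.pi * ∑ a, (n a : ℝ) * (z a / 8 + 1 / 2)

/-- the index set of the expansion -/
abbrev Ix (ι : Type) : Type := ((ι × Fin 4 → ℤ) × Bool) × (ι → Bool)

/-- the slice of a multi-index -/
def sl (n : ι × Fin 4 → ℤ) (i : ι) : Fin 4 → ℤ := fun a => n (i, a)

/-- the one-factor multiplier -/
def tf (ν : Ix ι) (i : ι) (z : E4) : ℝ := tg (ν.2 i) (th (sl ν.1.1 i) z)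

lemma ph_wz (n : ι × Fin 4 → ℤ) (z : ι → E4) : ph n (wz z) = ∑ i, th (sl n i) (z i) := by
  unfold ph wz th sl
  rw [← Finset.mul_sum, Fintype.sum_prod_type]

lemma wz_mem {z : ι → E4} (hz : ∀ i, ‖z i‖ ≤ 4) : ∀ q, wz z q ∈ Icc (0:ℝ) 1 := by
  intro q
  have h1 : |z q.1 q.2| ≤ ‖z q.1‖ := by
    have := EuclideanSpace.norm_eq (z q.1)
    rw [this]
    apply Real.abs_le_sqrt
    have : ‖z q.1 q.2‖ ^ 2 ≤ ∑ a, ‖z q.1 a‖ ^ 2 :=
      Finset.single_le_sum (f := fun a => ‖z q.1 a‖ ^ 2) (fun a _ => by positivity)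
        (Finset.mem_univ q.2)
    simpa using this
  have h2 := (h1.trans (hz q.1))
  rw [abs_le] at h2
  unfold wz
  constructor <;> linarith [h2.1, h2.2]

/-- regrouping of a Fourier series into products -/
theorem hasSum_expand {c : (ι × Fin 4 → ℤ) × Bool → V} (hc : ∀ s, Summable fun n => ‖c (n, s)‖)
    (z : ι → E4) {v : V}
    (h1 : HasSum (fun n : ι × Fin 4 → ℤ => tg false (ph n (wz z)) • c (n, false) +
      tg true (ph n (wz z)) • c (n, true)) v) :
    HasSum (fun ν : Ix ι => (∏ i, tf ν i (z i)) • (cs ν.1.2 ν.2 • c ν.1)) v := by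
  have hA : Summable (fun p : (ι × Fin 4 → ℤ) × Bool => ‖c p‖) := by
    rw [← (Equiv.prodComm Bool (ι × Fin 4 → ℤ)).summable_iff]
    refine (summable_prod_of_nonneg fun _ => norm_nonneg _).2 ⟨fun s => hc s, ?_⟩
    exact (hasSum_fintype _).summable
  have hsum : Summable (fun ν : Ix ι => (∏ i, tf ν i (z i)) • (cs ν.1.2 ν.2 • c ν.1)) := by
    have hb : ∀ ν : Ix ι, ‖(∏ i, tf ν i (z i)) • (cs ν.1.2 ν.2 • c ν.1)‖ ≤
        (fun p : (ι × Fin 4 → ℤ) × Bool => ‖c p‖) ν.1 * (fun _ : ι → Bool => (1:ℝ)) ν.2 := by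
      intro ν
      rw [norm_smul, norm_smul, Real.norm_eq_abs, Real.norm_eq_abs, Finset.abs_prod, mul_one]
      have h2 : (∏ i, |tf ν i (z i)|) ≤ 1 :=
        Finset.prod_le_one (fun i _ => abs_nonneg _) (fun i _ => abs_tg_le _ _)
      have h3 : 0 ≤ ∏ i, |tf ν i (z i)| := Finset.prod_nonneg fun i _ => abs_nonneg _
      calc (∏ i, |tf ν i (z i)|) * (|cs ν.1.2 ν.2| * ‖c ν.1‖) ≤ 1 * (1 * ‖c ν.1‖) :=
            mul_le_mul h2 (mul_le_mul_of_nonneg_right (abs_cs_le _ _) (norm_nonneg _))
              (by positivity) zero_le_one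
        _ = ‖c ν.1‖ := by rw [one_mul, one_mul]
    refine Summable.of_norm_bounded ?_ hb
    have hB : Summable (fun _ : ι → Bool => (1:ℝ)) := (hasSum_fintype _).summable
    exact Summable.mul_of_nonneg (f := fun p : (ι × Fin 4 → ℤ) × Bool => ‖c p‖)
      (g := fun _ : ι → Bool => (1:ℝ)) hA hB (fun _ => norm_nonneg _) (fun _ => zero_le_one)
  have hS := hsum.hasSum
  have h3 : HasSum (fun p : (ι × Fin 4 → ℤ) × Bool => tg p.2 (ph p.1 (wz z)) • c p)
      (∑' ν : Ix ι, (∏ i, tf ν i (z i)) • (cs ν.1.2 ν.2 • c ν.1)) := by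
    refine hS.prod_fiberwise fun p => ?_
    have e : tg p.2 (ph p.1 (wz z)) • c p =
        ∑ σ : ι → Bool, (∏ i, tf (p, σ) i (z i)) • (cs p.2 σ • c p) := by
      rw [ph_wz, tg_sum, Finset.sum_smul]
      refine Finset.sum_congr rfl fun σ _ => ?_
      rw [smul_smul, mul_comm (cs p.2 σ)]
      rfl
    rw [e]
    exact hasSum_fintype _
  have h4 : HasSum (fun n : ι × Fin 4 → ℤ => tg false (ph n (wz z)) • c (n, false) +
      tg true (ph n (wz z)) • c (n, true))
      (∑' ν : Ix ι, (∏ i, tf ν i (z i)) • (cs ν.1.2 ν.2 • c ν.1)) := by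
    refine h3.prod_fiberwise fun n => ?_
    have := hasSum_fintype (fun s : Bool => tg s (ph n (wz z)) • c (n, s))
    rw [Fintype.sum_bool, add_comm] at this
    exact this
  rw [h1.unique h4]
  exact hS

/-- **the expansion with product kernels** -/
theorem hasSum_prod {F : (ι × Fin 4 → ℝ) → V} (hF : Continuous F) (h0 : ∀ w ∉ Kc _, F w = 0)
    (hs : ∀ s, Summable fun n : ι × Fin 4 → ℤ => ‖∫ w, tg s (ph n w) • F w‖)
    {z : ι → E4} (hz : ∀ i, ‖z i‖ ≤ 4) :
    HasSum (fun ν : Ix ι => (∏ i, tf ν i (z i)) •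
      (cs ν.1.2 ν.2 • ∫ w, tg ν.1.2 (ph ν.1.1 w) • F w)) (F (wz z)) :=
  hasSum_expand (c := fun p => ∫ w, tg p.2 (ph p.1 w) • F w) hs z (hasSum_vec hF h0 hs (wz_mem hz))

end prod

end

end Crest.Agent.R240.Lk
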