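import Crest.Agent.R240.SmInt

/-!
# Row 240, block R (helper245): Hadamard words (Taylor expansion with smooth remainder)

`Z` finite dimensional with basis `e`; `U ⊆ Z` open, star shaped at `0`.

* `had1 e a g z = ∫ s in 0..1, fderiv ℝ g (s • z) (e a)` and `hw1 e w g` (iterated);
* `zw e w z` : the monomial; `words ι n` : the words of length `n`;
* `hw1_expand` : `g z = ∑_{n ≤ k} ∑_{w ∈ words n} zw w z • hw1 e w g 0 + ∑_{w ∈ words (k+1)} zw w z • hw1 e w g z`;
* `contDiffOn_hw1` : joint smoothness in parameters;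
* `hw1_clm`, `hw1_add`, `hw1_smul` : linearity.
-/

set_option autoImplicit false
set_option linter.unusedSectionVars false
open Set Filter Topology MeasureTheory
open scoped ContDiff

namespace Crest.Agent.R240.SmJ

section
variable {Z : Type} [NormedAddCommGroup Z] [NormedSpace ℝ Z]
  {E' : Type} [NormedAddCommGroup E'] [NormedSpace ℝ E']
  {V : Type} [NormedAddCommGroup V] [NormedSpace ℝ V]
  {V' : Type} [NormedAddCommGroup V'] [NormedSpace ℝ V']
  {ι : Type} [Fintype ι]

/-- the Hadamard coefficient in direction `e a` -/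
noncomputable def had1 (e : Module.Basis ι ℝ Z) (a : ι) (g : Z → V) (z : Z) : V :=
  ∫ s in (0 : ℝ)..1, fderiv ℝ g (s • z) (e a)

/-- iterated Hadamard coefficients -/
noncomputable def hw1 (e : Module.Basis ι ℝ Z) : List ι → (Z → V) → Z → V
  | [], g => g
  | a :: w, g => had1 e a (hw1 e w g)

/-- monomials -/
noncomputable def zw (e : Module.Basis ι ℝ Z) : List ι → Z → ℝ
  | [], _ => 1
  | a :: w, z => e.repr z a * zw e w z

open Classical in
/-- the words of length `n` -/
noncomputable def words (ι : Type) [Fintype ι] : ℕ → Finset (List ι)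
  | 0 => {[]}
  | n + 1 => (Finset.univ ×ˢ words ι n).image fun p => p.1 :: p.2

theorem hw1_nil (e : Module.Basis ι ℝ Z) (g : Z → V) : hw1 e [] g = g := rfl

theorem hw1_cons (e : Module.Basis ι ℝ Z) (a : ι) (w : List ι) (g : Z → V) :
    hw1 e (a :: w) g = had1 e a (hw1 e w g) := rfl

theorem zw_nil (e : Module.Basis ι ℝ Z) (z : Z) : zw e [] z = 1 := rfl

theorem zw_cons (e : Module.Basis ι ℝ Z) (a : ι) (w : List ι) (z : Z) :
    zw e (a :: w) z = e.repr z a * zw e w z := rfl

theorem zw_smul (e : Module.Basis ι ℝ Z) (w : List ι) (t : ℝ) (z : Z) :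
    zw e w (t • z) = t ^ w.length * zw e w z := by
  induction w with
  | nil => simp [zw_nil]
  | cons a w ih =>
    rw [zw_cons, zw_cons, ih, map_smul, Finsupp.smul_apply, smul_eq_mul, List.length_cons]
    ring

theorem mem_words (n : ℕ) : ∀ w : List ι, w ∈ words ι n ↔ w.length = n := by
  classical
  induction n with
  | zero => intro w; rw [words, Finset.mem_singleton, List.length_eq_zero_iff]
  | succ n ih =>
    intro w
    rw [words, Finset.mem_image]
    constructor
    · rintro ⟨p, hp, rfl⟩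
      rw [List.length_cons, (ih p.2).1 (Finset.mem_product.1 hp).2]
    · intro h
      match w, h with
      | a :: w, h =>
        refine ⟨(a, w), Finset.mem_product.2 ⟨Finset.mem_univ _, (ih w).2 ?_⟩, rfl⟩
        simpa using h

theorem sum_words_zero {A : Type} [AddCommMonoid A] (f : List ι → A) :
    ∑ w ∈ words ι 0, f w = f [] := by rw [words, Finset.sum_singleton]

theorem sum_words_succ {A : Type} [AddCommMonoid A] (f : List ι → A) (n : ℕ) :
    ∑ w ∈ words ι (n + 1), f w = ∑ w ∈ words ι n, ∑ a, f (a :: w) := by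
  classical
  rw [words, Finset.sum_image, Finset.sum_product_right]
  rintro ⟨a, w⟩ - ⟨b, v⟩ - h
  have h' : a :: w = b :: v := h
  rw [List.cons.injEq] at h'
  exact Prod.ext h'.1 h'.2

section star
variable {U : Set Z} (hU : IsOpen U) (hs : ∀ z ∈ U, ∀ t ∈ Icc (0 : ℝ) 1, t • z ∈ U)
include hU hs

theorem contDiffOn_had1 {W : Set E'} (hW : IsOpen W) {G : Z × E' → V}
    (hG : ContDiffOn ℝ ∞ G (U ×ˢ W)) (e : Module.Basis ι ℝ Z) (a : ι) :
    ContDiffOn ℝ ∞ (fun p : Z × E' => had1 e a (fun z => G (z, p.2)) p.1) (U ×ˢ W) := by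
  have hdx : ContDiffOn ℝ ∞ (dx G) (U ×ˢ W) := contDiffOn_dx (hU.prod hW) hG
  -- the integrand
  let s : Set ((Z × E') × ℝ) := {q | (q.2 • q.1.1, q.1.2) ∈ U ×ˢ W}
  have hcont : Continuous (fun q : (Z × E') × ℝ => ((q.2 • q.1.1, q.1.2) : Z × E')) := by
    fun_prop
  have hsm : ContDiff ℝ ∞ (fun q : (Z × E') × ℝ => ((q.2 • q.1.1, q.1.2) : Z × E')) := by
    fun_prop
  have hso : IsOpen s := (hU.prod hW).preimage hcont
  have hsub : (U ×ˢ W) ×ˢ (Icc (0:ℝ) 1) ⊆ s := by
    rintro ⟨⟨z, x⟩, t⟩ ⟨⟨hz, hx⟩, ht⟩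
    exact ⟨hs z hz t ht, hx⟩
  have hg : ContDiffOn ℝ ∞ (fun q : (Z × E') × ℝ => dx G (q.2 • q.1.1, q.1.2) (e a)) s := by
    have h1 : ContDiffOn ℝ ∞ (fun q : (Z × E') × ℝ => dx G (q.2 • q.1.1, q.1.2)) s :=
      hdx.comp hsm.contDiffOn fun q hq => hq
    exact h1.clm_apply contDiffOn_const
  have h1 := contDiffOn_integral hso (hU.prod hW) (isCompact_Icc (a := (0:ℝ)) (b := 1)) hsub
    volume hg
  refine h1.congr fun p hp => ?_
  unfold had1
  rw [intervalIntegral.integral_of_le zero_le_one, integral_Icc_eq_integral_Ioc]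
  refine setIntegral_congr_fun measurableSet_Ioc fun t ht => ?_
  have hmem : (t • p.1, p.2) ∈ U ×ˢ W := ⟨hs _ hp.1 t ⟨ht.1.le, ht.2⟩, hp.2⟩
  have hd : DifferentiableAt ℝ G (t • p.1, p.2) :=
    (hG.contDiffAt ((hU.prod hW).mem_nhds hmem)).differentiableAt (by simp)
  change (fderiv ℝ (fun z => G (z, p.2)) (t • p.1)) (e a) = _
  rw [(hasFDerivAt_dx hd).fderiv]

theorem contDiffOn_hw1 {W : Set E'} (hW : IsOpen W) {G : Z × E' → V}
    (hG : ContDiffOn ℝ ∞ G (U ×ˢ W)) (e : Module.Basis ι ℝ Z) (w : List ι) :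
    ContDiffOn ℝ ∞ (fun p : Z × E' => hw1 e w (fun z => G (z, p.2)) p.1) (U ×ˢ W) := by
  induction w with
  | nil => exact hG
  | cons a w ih => exact contDiffOn_had1 hU hs hW ih e a

/-- no parameter -/
theorem contDiffOn_had1' {g : Z → V} (hg : ContDiffOn ℝ ∞ g U) (e : Module.Basis ι ℝ Z) (a : ι) :
    ContDiffOn ℝ ∞ (had1 e a g) U := by
  have hG : ContDiffOn ℝ ∞ (fun p : Z × ℝ => g p.1) (U ×ˢ (univ : Set ℝ)) :=
    hg.comp contDiff_fst.contDiffOn fun p hp => hp.1
  have h1 := contDiffOn_had1 hU hs isOpen_univ hG e a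
  have h2 : ContDiffOn ℝ ∞ (fun z : Z => ((z, 0) : Z × ℝ)) U :=
    (contDiff_id.prodMk contDiff_const).contDiffOn
  exact h1.comp h2 fun z hz => ⟨hz, mem_univ _⟩

theorem contDiffOn_hw1' {g : Z → V} (hg : ContDiffOn ℝ ∞ g U) (e : Module.Basis ι ℝ Z)
    (w : List ι) : ContDiffOn ℝ ∞ (hw1 e w g) U := by
  induction w with
  | nil => exact hg
  | cons a w ih => exact contDiffOn_had1' hU hs ih e a

theorem continuousOn_had_integrand {g : Z → V} (hg : ContDiffOn ℝ ∞ g U) {z : Z} (hz : z ∈ U)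
    (v : Z) : ContinuousOn (fun t : ℝ => fderiv ℝ g (t • z) v) (Icc (0:ℝ) 1) := by
  have h1 : ContinuousOn (fderiv ℝ g) U := hg.continuousOn_fderiv_of_isOpen hU (by simp)
  have h2 : ContinuousOn (fun t : ℝ => fderiv ℝ g (t • z)) (Icc (0:ℝ) 1) :=
    h1.comp (by fun_prop) fun t ht => hs z hz t ht
  exact h2.clm_apply continuousOn_const

theorem intervalIntegrable_had {g : Z → V} (hg : ContDiffOn ℝ ∞ g U) {z : Z} (hz : z ∈ U)
    (v : Z) : IntervalIntegrable (fun t : ℝ => fderiv ℝ g (t • z) v) volume 0 1 := by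
  apply ContinuousOn.intervalIntegrable
  rw [uIcc_of_le zero_le_one]
  exact continuousOn_had_integrand hU hs hg hz v

/-- **Hadamard's formula** -/
theorem had1_eq [CompleteSpace V] {g : Z → V} (hg : ContDiffOn ℝ ∞ g U)
    (e : Module.Basis ι ℝ Z) {z : Z} (hz : z ∈ U) :
    g z = g 0 + ∑ a, e.repr z a • had1 e a g z := by
  have h1 : ∀ t ∈ uIcc (0:ℝ) 1, HasDerivAt (fun t : ℝ => g (t • z)) (fderiv ℝ g (t • z) z) t := by
    intro t ht
    rw [uIcc_of_le zero_le_one] at ht
    have hd : DifferentiableAt ℝ g (t • z) :=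
      (hg.contDiffAt (hU.mem_nhds (hs z hz t ht))).differentiableAt (by simp)
    have h2 : HasDerivAt (fun t : ℝ => t • z) z t := by
      simpa using (hasDerivAt_id t).smul_const z
    exact hd.hasFDerivAt.comp_hasDerivAt t h2
  have h2 := intervalIntegral.integral_eq_sub_of_hasDerivAt h1
    (intervalIntegrable_had hU hs hg hz z)
  rw [one_smul, zero_smul] at h2
  have h3 : ∫ t in (0:ℝ)..1, fderiv ℝ g (t • z) z = ∑ a, e.repr z a • had1 e a g z := by
    have e1 : ∀ t : ℝ, fderiv ℝ g (t • z) z = ∑ a, e.repr z a • fderiv ℝ g (t • z) (e a) := by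
      intro t
      conv_lhs => rw [← e.sum_repr z]
      rw [map_sum]
      refine Finset.sum_congr rfl fun a _ => ?_
      rw [e.sum_repr, map_smul]
    simp_rw [e1]
    rw [intervalIntegral.integral_finsetSum]
    · refine Finset.sum_congr rfl fun a _ => ?_
      rw [intervalIntegral.integral_smul]
      rfl
    · intro a _
      exact (intervalIntegrable_had hU hs hg hz (e a)).smul _
  rw [h3] at h2
  rw [h2]
  abel

/-- **Taylor expansion with smooth remainder.** -/
theorem hw1_expand [CompleteSpace V] {g : Z → V} (hg : ContDiffOn ℝ ∞ g U)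
    (e : Module.Basis ι ℝ Z) (k : ℕ) {z : Z} (hz : z ∈ U) :
    g z = ∑ n ∈ Finset.range (k + 1), ∑ w ∈ words ι n, zw e w z • hw1 e w g 0
      + ∑ w ∈ words ι (k + 1), zw e w z • hw1 e w g z := by
  induction k with
  | zero =>
    rw [Finset.sum_range_one, sum_words_zero, sum_words_succ, sum_words_zero, zw_nil, one_smul,
      hw1_nil]
    conv_lhs => rw [had1_eq hU hs hg e hz]
    congr 1
    refine Finset.sum_congr rfl fun a _ => ?_
    rw [zw_cons, zw_nil, mul_one, hw1_cons, hw1_nil]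
  | succ k ih =>
    rw [Finset.sum_range_succ]
    conv_lhs => rw [ih]
    rw [add_assoc]
    congr 1
    rw [sum_words_succ _ (k + 1), ← Finset.sum_add_distrib]
    refine Finset.sum_congr rfl fun w _ => ?_
    conv_lhs => rw [had1_eq hU hs (contDiffOn_hw1' hU hs hg e w) e hz]
    rw [smul_add, Finset.smul_sum]
    congr 1
    refine Finset.sum_congr rfl fun a _ => ?_
    rw [zw_cons, hw1_cons, smul_smul, mul_comm]

theorem had1_congr {g g' : Z → V} (h : ∀ z ∈ U, g z = g' z) (e : Module.Basis ι ℝ Z) (a : ι)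
    {z : Z} (hz : z ∈ U) : had1 e a g z = had1 e a g' z := by
  unfold had1
  refine intervalIntegral.integral_congr fun t ht => ?_
  rw [uIcc_of_le zero_le_one] at ht
  have : g =ᶠ[𝓝 (t • z)] g' := Filter.eventually_of_mem (hU.mem_nhds (hs z hz t ht)) h
  change fderiv ℝ g (t • z) (e a) = fderiv ℝ g' (t • z) (e a)
  rw [this.fderiv_eq]

theorem hw1_congr {g g' : Z → V} (h : ∀ z ∈ U, g z = g' z) (e : Module.Basis ι ℝ Z) (w : List ι) :
    ∀ z ∈ U, hw1 e w g z = hw1 e w g' z := by
  induction w with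
  | nil => exact h
  | cons a w ih => exact fun z hz => had1_congr hU hs ih e a hz

theorem had1_clm [CompleteSpace V] [CompleteSpace V'] (A : V →L[ℝ] V') {g : Z → V}
    (hg : ContDiffOn ℝ ∞ g U) (e : Module.Basis ι ℝ Z) (a : ι) {z : Z} (hz : z ∈ U) :
    had1 e a (fun z => A (g z)) z = A (had1 e a g z) := by
  unfold had1
  rw [← A.intervalIntegral_comp_comm (intervalIntegrable_had hU hs hg hz (e a))]
  refine intervalIntegral.integral_congr fun t ht => ?_
  rw [uIcc_of_le zero_le_one] at ht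
  have hd : DifferentiableAt ℝ g (t • z) :=
    (hg.contDiffAt (hU.mem_nhds (hs z hz t ht))).differentiableAt (by simp)
  change fderiv ℝ (fun z => A (g z)) (t • z) (e a) = A (fderiv ℝ g (t • z) (e a))
  have h1 : HasFDerivAt (fun z => A (g z)) (A.comp (fderiv ℝ g (t • z))) (t • z) :=
    A.hasFDerivAt.comp _ hd.hasFDerivAt
  rw [h1.fderiv]
  rfl

theorem hw1_clm [CompleteSpace V] [CompleteSpace V'] (A : V →L[ℝ] V') {g : Z → V}
    (hg : ContDiffOn ℝ ∞ g U) (e : Module.Basis ι ℝ Z) (w : List ι) :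
    ∀ z ∈ U, hw1 e w (fun z => A (g z)) z = A (hw1 e w g z) := by
  induction w with
  | nil => exact fun z _ => rfl
  | cons a w ih =>
    intro z hz
    rw [hw1_cons, hw1_cons, had1_congr hU hs ih e a hz,
      had1_clm hU hs A (contDiffOn_hw1' hU hs hg e w) e a hz]

theorem had1_add {g g' : Z → V} (hg : ContDiffOn ℝ ∞ g U)
    (hg' : ContDiffOn ℝ ∞ g' U) (e : Module.Basis ι ℝ Z) (a : ι) {z : Z} (hz : z ∈ U) :
    had1 e a (fun z => g z + g' z) z = had1 e a g z + had1 e a g' z := by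
  unfold had1
  rw [← intervalIntegral.integral_add (intervalIntegrable_had hU hs hg hz (e a))
    (intervalIntegrable_had hU hs hg' hz (e a))]
  refine intervalIntegral.integral_congr fun t ht => ?_
  rw [uIcc_of_le zero_le_one] at ht
  have hd : DifferentiableAt ℝ g (t • z) :=
    (hg.contDiffAt (hU.mem_nhds (hs z hz t ht))).differentiableAt (by simp)
  have hd' : DifferentiableAt ℝ g' (t • z) :=
    (hg'.contDiffAt (hU.mem_nhds (hs z hz t ht))).differentiableAt (by simp)
  change fderiv ℝ (fun z => g z + g' z) (t • z) (e a) = _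
  rw [fderiv_fun_add hd hd']
  rfl

theorem hw1_add {g g' : Z → V} (hg : ContDiffOn ℝ ∞ g U)
    (hg' : ContDiffOn ℝ ∞ g' U) (e : Module.Basis ι ℝ Z) (w : List ι) :
    ∀ z ∈ U, hw1 e w (fun z => g z + g' z) z = hw1 e w g z + hw1 e w g' z := by
  induction w with
  | nil => exact fun z _ => rfl
  | cons a w ih =>
    intro z hz
    rw [hw1_cons, hw1_cons, hw1_cons, had1_congr hU hs ih e a hz,
      had1_add hU hs (contDiffOn_hw1' hU hs hg e w) (contDiffOn_hw1' hU hs hg' e w) e a hz]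

theorem had1_smul {g : Z → V} (hg : ContDiffOn ℝ ∞ g U) (c : ℝ)
    (e : Module.Basis ι ℝ Z) (a : ι) {z : Z} (hz : z ∈ U) :
    had1 e a (fun z => c • g z) z = c • had1 e a g z := by
  unfold had1
  rw [← intervalIntegral.integral_smul]
  refine intervalIntegral.integral_congr fun t ht => ?_
  rw [uIcc_of_le zero_le_one] at ht
  have hd : DifferentiableAt ℝ g (t • z) :=
    (hg.contDiffAt (hU.mem_nhds (hs z hz t ht))).differentiableAt (by simp)
  change fderiv ℝ (fun z => c • g z) (t • z) (e a) = _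
  rw [fderiv_fun_const_smul hd]
  rfl

theorem hw1_smul {g : Z → V} (hg : ContDiffOn ℝ ∞ g U) (c : ℝ)
    (e : Module.Basis ι ℝ Z) (w : List ι) :
    ∀ z ∈ U, hw1 e w (fun z => c • g z) z = c • hw1 e w g z := by
  induction w with
  | nil => exact fun z _ => rfl
  | cons a w ih =>
    intro z hz
    rw [hw1_cons, hw1_cons, had1_congr hU hs ih e a hz,
      had1_smul hU hs (contDiffOn_hw1' hU hs hg e w) c e a hz]

end star

end

end Crest.Agent.R240.SmJ
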