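import Mathlib
import Crest.Agent.R240.FormDefs
import Crest.Agent.R240.SmJet

/-!
Row 240, block SM (helper375): jointly smooth families of two-forms on `M` and their averages.
-/

set_option autoImplicit false
set_option maxSynthPendingDepth 3
set_option linter.unusedSectionVars false
set_option linter.style.haveILetI false

open Set Function Filter Bundle MeasureTheory
open scoped Manifold ContDiff Topology
open Crest.Agent.R240.Ch

namespace Crest.Agent.R240.Sm

noncomputable section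

/-! ### smoothness of pull-backs by linear maps -/

section pullsmooth

variable {X : Type*} [NormedAddCommGroup X] [NormedSpace ℝ X]

/-- the linear map `A ↦ (ℓ ↦ ℓ ∘ A)`. -/
def preL : (E4 →L[ℝ] E4) →L[ℝ] ((E4 →L[ℝ] ℝ) →L[ℝ] (E4 →L[ℝ] ℝ)) :=
  (ContinuousLinearMap.compL ℝ E4 E4 ℝ).flip

lemma pull_eq (A : E4 →L[ℝ] E4) (b : Bil) : pull A b = (preL A).comp (b.comp A) := rfl

lemma contDiffAt_pull {n : WithTop ℕ∞} {A : X → E4 →L[ℝ] E4} {b : X → Bil} {x : X}
    (hA : ContDiffAt ℝ n A x) (hb : ContDiffAt ℝ n b x) :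
    ContDiffAt ℝ n (fun x => pull (A x) (b x)) x := by
  have h1 : ContDiffAt ℝ n (fun x => preL (A x)) x := preL.contDiff.contDiffAt.comp x hA
  have h2 : ContDiffAt ℝ n (fun x => (b x).comp (A x)) x := hb.clm_comp hA
  exact h1.clm_comp h2

/-- pull-back by a fixed linear map, as a continuous linear map. -/
def pullL (A : E4 →L[ℝ] E4) : Bil →L[ℝ] Bil :=
  ((ContinuousLinearMap.compL ℝ E4 (E4 →L[ℝ] ℝ) (E4 →L[ℝ] ℝ)) (preL A)).comp
    ((ContinuousLinearMap.compL ℝ E4 E4 (E4 →L[ℝ] ℝ)).flip A)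

@[simp] lemma pullL_apply (A : E4 →L[ℝ] E4) (b : Bil) : pullL A b = pull A b := rfl

lemma pull_comp (A B : E4 →L[ℝ] E4) (b : Bil) : pull A (pull B b) = pull (B.comp A) b := by
  ext u v; simp

lemma pull_id (b : Bil) : pull (ContinuousLinearMap.id ℝ E4) b = b := by
  ext u v; simp

end pullsmooth

variable {M : Type*} [TopologicalSpace M] [ChartedSpace E4 M] [IsManifold 𝓘(ℝ, E4) ∞ M]

/-- the representation in a chart is the pull-back of the value by the coordinate change. -/
lemma rep_eq_pull (p : M) (a : F2 E4 M) (y : E4) :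
    rep p a y = pull (tcc p ((chartAt E4 p).symm y) ((chartAt E4 p).symm y))
      (at2 a ((chartAt E4 p).symm y)) := by
  ext u v
  rw [rep_apply, pull_apply]

lemma rep_eq_pull_trans {p q : M} {y : E4} (hy : y ∈ (chartAt E4 p).target)
    (hq : (chartAt E4 p).symm y ∈ (chartAt E4 q).source) (a : F2 E4 M) :
    rep p a y = pull (fderiv ℝ (trans (E := E4) p q) y) (rep q a (trans (E := E4) p q y)) := by
  ext u v
  rw [pull_apply]
  exact rep_pullback hy hq a u v

lemma at2_eq_pull {p x : M} (hx : x ∈ (chartAt E4 p).source) (a : F2 E4 M) :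
    at2 a x = pull (tcc x p x) (rep p a (chartAt E4 p x)) := by
  ext u v
  rw [pull_apply]
  exact apply_eq_rep hx a u v

/-- two forms with the same representation at a point are equal there. -/
lemma at2_ext_rep {p x : M} (hx : x ∈ (chartAt E4 p).source) {a b : F2 E4 M}
    (h : rep p a (chartAt E4 p x) = rep p b (chartAt E4 p x)) : at2 a x = at2 b x := by
  rw [at2_eq_pull hx, at2_eq_pull hx, h]

lemma rep_congr {p x : M} (hx : x ∈ (chartAt E4 p).source) {a b : F2 E4 M}
    (h : at2 a x = at2 b x) : rep p a (chartAt E4 p x) = rep p b (chartAt E4 p x) := by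
  rw [rep_eq_pull, rep_eq_pull, (chartAt E4 p).left_inv hx, h]

lemma rep_congr' {p : M} {y : E4} {a b : F2 E4 M}
    (h : at2 a ((chartAt E4 p).symm y) = at2 b ((chartAt E4 p).symm y)) :
    rep p a y = rep p b y := by
  rw [rep_eq_pull, rep_eq_pull, h]

lemma alt_rep {p : M} {a : F2 E4 M} (ha : ∀ x v, at2 a x v v = 0) (y : E4) : Alt (rep p a y) := by
  intro v
  rw [rep_apply]
  exact ha _ _

lemma Smooth2.alt {a : F2 E4 M} (ha : Smooth2 a) (x : M) : Alt (at2 a x) := ha.1 x

/-! ### jointly smooth families -/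

section family

variable {Z : Type*} [NormedAddCommGroup Z] [NormedSpace ℝ Z]

/-- a jointly smooth family of two-forms, over the open parameter set `U`. -/
def JSm (U : Set Z) (β : Z → F2 E4 M) : Prop :=
  (∀ z ∈ U, ∀ x v, at2 (β z) x v v = 0) ∧
  ∀ q : M, ContDiffOn ℝ ∞ (fun w : Z × E4 => rep q (β w.1) w.2) (U ×ˢ (chartAt E4 q).target)

/-- joint smoothness at a point, in the chart at `q`. -/
def JSmAt (β : Z → F2 E4 M) (z : Z) (x : M) (q : M) : Prop :=
  ContDiffAt ℝ ∞ (fun w : Z × E4 => rep q (β w.1) w.2) (z, chartAt E4 q x)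

lemma contDiffAt_pull_comp {G : Z × E4 → Bil} {τ : E4 → E4} {z : Z} {y : E4}
    (ht : ContDiffAt ℝ ∞ τ y) (hG : ContDiffAt ℝ ∞ G (z, τ y)) :
    ContDiffAt ℝ ∞ (fun w : Z × E4 => pull (fderiv ℝ τ w.2) (G (w.1, τ w.2))) (z, y) := by
  have hft : ContDiffAt ℝ ∞ (fderiv ℝ τ) y := ht.fderiv_right (m := ∞) (by simp)
  have h4' : ContDiffAt ℝ ∞ (fun w : Z × E4 => τ w.2) (z, y) :=
    ContDiffAt.comp (g := τ) (z, y) ht contDiffAt_snd
  have h4 : ContDiffAt ℝ ∞ (fun w : Z × E4 => (w.1, τ w.2)) (z, y) :=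
    contDiffAt_fst.prodMk h4'
  have h2 : ContDiffAt ℝ ∞ (fun w : Z × E4 => G (w.1, τ w.2)) (z, y) :=
    ContDiffAt.comp (g := G) (z, y) hG h4
  have h5 : ContDiffAt ℝ ∞ (fun w : Z × E4 => fderiv ℝ τ w.2) (z, y) :=
    ContDiffAt.comp (g := fderiv ℝ τ) (z, y) hft contDiffAt_snd
  exact contDiffAt_pull h5 h2

lemma JSmAt.change {β : Z → F2 E4 M} {z : Z} {x p q : M} (hp : x ∈ (chartAt E4 p).source)
    (hq : x ∈ (chartAt E4 q).source) (h : JSmAt β z x q) : JSmAt β z x p := by
  unfold JSmAt at *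
  have hy : chartAt E4 p x ∈ (chartAt E4 p).target := (chartAt E4 p).map_source hp
  have hq' : (chartAt E4 p).symm (chartAt E4 p x) ∈ (chartAt E4 q).source := by
    rw [(chartAt E4 p).left_inv hp]; exact hq
  have ht : ContDiffAt ℝ ∞ (trans (E := E4) p q) (chartAt E4 p x) := trans_contDiffAt hy hq'
  have hev : (fun w : Z × E4 => rep p (β w.1) w.2) =ᶠ[𝓝 (z, chartAt E4 p x)] fun w =>
      pull (fderiv ℝ (trans (E := E4) p q) w.2) (rep q (β w.1) (trans (E := E4) p q w.2)) := by
    have ho : IsOpen ((chartAt E4 p).target ∩ (chartAt E4 p).symm ⁻¹' (chartAt E4 q).source) :=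
      (chartAt E4 p).isOpen_inter_preimage_symm (chartAt E4 q).open_source
    have ho2 : IsOpen ((univ : Set Z) ×ˢ
        ((chartAt E4 p).target ∩ (chartAt E4 p).symm ⁻¹' (chartAt E4 q).source)) :=
      isOpen_univ.prod ho
    filter_upwards [ho2.mem_nhds ⟨mem_univ _, hy, hq'⟩] with w hw
    exact rep_eq_pull_trans hw.2.1 hw.2.2 (β w.1)
  refine ContDiffAt.congr_of_eventuallyEq ?_ hev
  refine contDiffAt_pull_comp (G := fun w : Z × E4 => rep q (β w.1) w.2) ht ?_
  rw [trans_apply hp]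
  exact h

theorem JSm.of_local {U : Set Z} {β : Z → F2 E4 M}
    (h0 : ∀ z ∈ U, ∀ x v, at2 (β z) x v v = 0)
    (h : ∀ z ∈ U, ∀ x : M, ∃ q : M, x ∈ (chartAt E4 q).source ∧ JSmAt β z x q) :
    JSm U β := by
  refine ⟨h0, fun q w hw => ?_⟩
  obtain ⟨q', hq', hs⟩ := h w.1 hw.1 ((chartAt E4 q).symm w.2)
  have := hs.change (p := q) (symm_mem hw.2) hq'
  unfold JSmAt at this
  rw [(chartAt E4 q).right_inv hw.2] at this
  exact this.contDiffWithinAt

theorem JSm.contDiffAt {U : Set Z} (hU : IsOpen U) {β : Z → F2 E4 M} (h : JSm U β)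
    {z : Z} (hz : z ∈ U) {q : M} {y : E4} (hy : y ∈ (chartAt E4 q).target) :
    ContDiffAt ℝ ∞ (fun w : Z × E4 => rep q (β w.1) w.2) (z, y) :=
  (h.2 q).contDiffAt ((hU.prod (chartAt E4 q).open_target).mem_nhds ⟨hz, hy⟩)

theorem JSm.jsmAt {U : Set Z} (hU : IsOpen U) {β : Z → F2 E4 M} (h : JSm U β)
    {z : Z} (hz : z ∈ U) {q x : M} (hx : x ∈ (chartAt E4 q).source) : JSmAt β z x q :=
  h.contDiffAt hU hz ((chartAt E4 q).map_source hx)

theorem JSm.mono {U V : Set Z} {β : Z → F2 E4 M} (h : JSm U β) (hV : V ⊆ U) : JSm V β :=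
  ⟨fun z hz => h.1 z (hV hz), fun q => (h.2 q).mono (prod_mono hV (Subset.refl _))⟩

/-- every member of a jointly smooth family is smooth. -/
theorem JSm.smooth2 {U : Set Z} (hU : IsOpen U) {β : Z → F2 E4 M} (h : JSm U β)
    {z : Z} (hz : z ∈ U) : Smooth2 (β z) := by
  refine ⟨h.1 z hz, fun q => contDiffOn_chart_iff.2 fun y hy => ?_⟩
  have h1 := h.contDiffAt hU hz (q := q) hy
  have h2 : ContDiffAt ℝ ∞ (fun y : E4 => ((z, y) : Z × E4)) y :=
    contDiffAt_const.prodMk contDiffAt_id
  exact h1.comp y h2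

/-- constant families. -/
theorem JSm.const {a : F2 E4 M} (ha : Smooth2 a) (U : Set Z) : JSm U (fun _ => a) := by
  refine ⟨fun z _ => ha.1, fun q w hw => ?_⟩
  have h1 : ContDiffAt ℝ ∞ (rep q a) w.2 := contDiffOn_chart_iff.1 (ha.2 q) w.2 hw.2
  exact (h1.comp w contDiffAt_snd).contDiffWithinAt

lemma at2_zero' (x : M) : at2 (0 : F2 E4 M) x = 0 := rfl

lemma at2_add' (a b : F2 E4 M) (x : M) : at2 (a + b) x = at2 a x + at2 b x := rfl

lemma at2_smul' (c : ℝ) (a : F2 E4 M) (x : M) : at2 (c • a) x = c • at2 a x := rfl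

lemma at2_fmul' (f : M → ℝ) (a : F2 E4 M) (x : M) : at2 (fmul f a) x = f x • at2 a x := rfl

lemma rep_zero' (q : M) (y : E4) : rep q (0 : F2 E4 M) y = 0 := by
  rw [rep_eq_pull, at2_zero', ← pullL_apply, map_zero]

lemma rep_add' (q : M) (a b : F2 E4 M) (y : E4) : rep q (a + b) y = rep q a y + rep q b y := by
  rw [rep_eq_pull, rep_eq_pull, rep_eq_pull, at2_add', ← pullL_apply, map_add]; rfl

lemma rep_smul' (q : M) (c : ℝ) (a : F2 E4 M) (y : E4) : rep q (c • a) y = c • rep q a y := by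
  rw [rep_eq_pull, rep_eq_pull, at2_smul', ← pullL_apply, map_smul]; rfl

lemma rep_fmul' (q : M) (f : M → ℝ) (a : F2 E4 M) (y : E4) :
    rep q (fmul f a) y = f ((chartAt E4 q).symm y) • rep q a y := by
  rw [rep_eq_pull, rep_eq_pull, at2_fmul', ← pullL_apply, map_smul]; rfl

/-- zero family. -/
theorem JSm.zero (U : Set Z) : JSm U (fun _ => (0 : F2 E4 M)) := by
  refine ⟨fun z _ x v => ?_, fun q => ?_⟩
  · rw [at2_zero']; rfl
  · simp only [rep_zero']
    exact contDiffOn_const

theorem JSm.add {U : Set Z} {β γ : Z → F2 E4 M} (hβ : JSm U β) (hγ : JSm U γ) :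
    JSm U (fun z => β z + γ z) := by
  refine ⟨fun z hz x v => ?_, fun q => ?_⟩
  · have h1 := hβ.1 z hz x v
    have h2 := hγ.1 z hz x v
    rw [at2_add']
    change at2 (β z) x v v + at2 (γ z) x v v = 0
    rw [h1, h2, add_zero]
  · simp only [rep_add']
    exact (hβ.2 q).add (hγ.2 q)

/-- multiplication with a jointly smooth family of functions (given in charts). -/
theorem JSm.fmul {U : Set Z} {β : Z → F2 E4 M} {f : Z → M → ℝ} (hβ : JSm U β)
    (hf : ∀ q : M, ContDiffOn ℝ ∞ (fun w : Z × E4 => f w.1 ((chartAt E4 q).symm w.2))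
      (U ×ˢ (chartAt E4 q).target)) :
    JSm U (fun z => Ch.fmul (f z) (β z)) := by
  refine ⟨fun z hz x v => ?_, fun q => ?_⟩
  · have h1 := hβ.1 z hz x v
    rw [at2_fmul']
    change f z x * at2 (β z) x v v = 0
    rw [h1, mul_zero]
  · simp only [rep_fmul']
    exact (hf q).smul (hβ.2 q)

theorem JSm.fmul_const {U : Set Z} {β : Z → F2 E4 M} {f : M → ℝ} (hβ : JSm U β)
    (hf : SmoothF E4 f) : JSm U (fun z => Ch.fmul f (β z)) := by
  refine hβ.fmul fun q => ?_
  exact ContDiffOn.comp (g := repF (E := E4) q f) (hf q) contDiff_snd.contDiffOn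
    fun w hw => hw.2

theorem JSm.smul {U : Set Z} {β : Z → F2 E4 M} {f : Z → ℝ} (hβ : JSm U β)
    (hf : ContDiffOn ℝ ∞ f U) : JSm U (fun z => f z • β z) := by
  refine ⟨fun z hz x v => ?_, fun q => ?_⟩
  · have h1 := hβ.1 z hz x v
    rw [at2_smul']
    change f z * at2 (β z) x v v = 0
    rw [h1, mul_zero]
  · simp only [rep_smul']
    have h1 : ContDiffOn ℝ ∞ (fun w : Z × E4 => f w.1) (U ×ˢ (chartAt E4 q).target) :=
      ContDiffOn.comp (g := f) hf contDiff_fst.contDiffOn fun w hw => hw.1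
    exact h1.smul (hβ.2 q)

theorem JSm.sum {ι : Type*} {U : Set Z} {β : ι → Z → F2 E4 M} (s : Finset ι)
    (h : ∀ i ∈ s, JSm U (β i)) : JSm U (fun z => ∑ i ∈ s, β i z) := by
  classical
  induction s using Finset.induction_on with
  | empty => simpa using JSm.zero (M := M) U
  | insert a s ha ih =>
    simp only [Finset.sum_insert ha]
    exact (h a (Finset.mem_insert_self a s)).add
      (ih fun i hi => h i (Finset.mem_insert_of_mem hi))

lemma contDiffOn_param {A A' B V : Type*} [NormedAddCommGroup A] [NormedSpace ℝ A]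
    [NormedAddCommGroup A'] [NormedSpace ℝ A']
    [NormedAddCommGroup B] [NormedSpace ℝ B] [NormedAddCommGroup V] [NormedSpace ℝ V]
    {n : WithTop ℕ∞} {G : A × B → V} {S : Set A} {S' : Set A'} {T : Set B} {f : A' → A}
    (h : ContDiffOn ℝ n G (S ×ˢ T)) (hf : ContDiffOn ℝ n f S') (hm : MapsTo f S' S) :
    ContDiffOn ℝ n (fun w : A' × B => G (f w.1, w.2)) (S' ×ˢ T) := by
  have h1 : ContDiffOn ℝ n (fun w : A' × B => (f w.1, w.2)) (S' ×ˢ T) :=
    (ContDiffOn.comp (g := f) hf contDiff_fst.contDiffOn fun w hw => hw.1).prodMk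
      contDiff_snd.contDiffOn
  exact h.comp h1 fun w hw => ⟨hm hw.1, hw.2⟩

/-- change of the parameter. -/
theorem JSm.comp {Z' : Type*} [NormedAddCommGroup Z'] [NormedSpace ℝ Z'] {U : Set Z}
    {U' : Set Z'} {β : Z → F2 E4 M} (h : JSm U β) {f : Z' → Z} (hf : ContDiffOn ℝ ∞ f U')
    (hm : MapsTo f U' U) : JSm U' (fun z => β (f z)) :=
  ⟨fun z hz => h.1 _ (hm hz), fun q => contDiffOn_param (h.2 q) hf hm⟩

theorem JSm.congr {U : Set Z} {β γ : Z → F2 E4 M} (h : JSm U β)
    (he : ∀ z ∈ U, ∀ x, at2 (γ z) x = at2 (β z) x) : JSm U γ := by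
  refine ⟨fun z hz x v => ?_, fun q => (h.2 q).congr fun w hw => ?_⟩
  · rw [he z hz x]; exact h.1 z hz x v
  · exact rep_congr' (he _ hw.1 _)

end family

/-! ### averages -/

section average

variable {Z : Type} [NormedAddCommGroup Z] [NormedSpace ℝ Z] [MeasureSpace Z] [BorelSpace Z]
  [IsFiniteMeasureOnCompacts (volume : Measure Z)]

/-- the average `∫ κ(z) β_z dz`. -/
def avg (κ : Z → ℝ) (β : Z → F2 E4 M) : F2 E4 M := fun x => (∫ z, κ z • at2 (β z) x : Bil)

omit [IsManifold 𝓘(ℝ, E4) ∞ M] [NormedSpace ℝ Z] [BorelSpace Z]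
  [IsFiniteMeasureOnCompacts (volume : Measure Z)] in
lemma at2_avg (κ : Z → ℝ) (β : Z → F2 E4 M) (x : M) :
    at2 (avg κ β) x = ∫ z, κ z • at2 (β z) x := rfl

omit [MeasureSpace Z] [BorelSpace Z] [IsFiniteMeasureOnCompacts (volume : Measure Z)] in
/-- continuity in `z` of the value of a jointly smooth family. -/
lemma JSm.continuousOn_at2 {U : Set Z} {β : Z → F2 E4 M} (h : JSm U β) (x : M) :
    ContinuousOn (fun z => at2 (β z) x) U := by
  have h1 : ContinuousOn (fun z => rep x (β z) (chartAt E4 x x)) U :=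
    (h.2 x).continuousOn.comp (f := fun z : Z => ((z, chartAt E4 x x) : Z × E4))
      (by fun_prop) fun z hz => ⟨hz, mem_chart_target E4 x⟩
  have h2 : ∀ z, at2 (β z) x = rep x (β z) (chartAt E4 x x) := by
    intro z
    ext u v
    exact (rep_self x (β z) u v).symm
  simpa only [h2] using h1

omit [MeasureSpace Z] [BorelSpace Z] [IsFiniteMeasureOnCompacts (volume : Measure Z)] in
lemma JSm.continuousOn_rep {U : Set Z} {β : Z → F2 E4 M} (h : JSm U β) (q : M) {y : E4}
    (hy : y ∈ (chartAt E4 q).target) : ContinuousOn (fun z => rep q (β z) y) U :=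
  (h.2 q).continuousOn.comp (f := fun z : Z => ((z, y) : Z × E4))
      (by fun_prop) fun z hz => ⟨hz, hy⟩

/-- `κ` continuous with compact support inside `U`, `f` continuous on `U`: continuous. -/
lemma continuous_smul_of {Z : Type*} [TopologicalSpace Z] {V : Type*} [NormedAddCommGroup V]
    [NormedSpace ℝ V]
    {U : Set Z} (hU : IsOpen U) {κ : Z → ℝ} (hκ : Continuous κ)
    (hs : tsupport κ ⊆ U) {f : Z → V} (hf : ContinuousOn f U) :
    Continuous (fun z => κ z • f z) := by
  rw [continuous_iff_continuousAt]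
  intro z
  by_cases hz : z ∈ U
  · exact hκ.continuousAt.smul (hf.continuousAt (hU.mem_nhds hz))
  · have hz' : z ∉ tsupport κ := fun h => hz (hs h)
    have hev : (fun z => κ z • f z) =ᶠ[𝓝 z] fun _ => 0 := by
      filter_upwards [(isClosed_tsupport κ).isOpen_compl.mem_nhds hz'] with w hw
      rw [image_eq_zero_of_notMem_tsupport hw, zero_smul]
    exact continuousAt_const.congr hev.symm

/-- `κ` continuous with compact support inside `U`, `f` continuous on `U`: integrable. -/
lemma integrable_smul_of {V : Type*} [NormedAddCommGroup V] [NormedSpace ℝ V]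
    {U : Set Z} (hU : IsOpen U) {κ : Z → ℝ} (hκ : Continuous κ)
    (hc : HasCompactSupport κ) (hs : tsupport κ ⊆ U) {f : Z → V} (hf : ContinuousOn f U) :
    Integrable (fun z => κ z • f z) :=
  (continuous_smul_of hU hκ hs hf).integrable_of_hasCompactSupport (hc.smul_right)

lemma rep_avg {U : Set Z} (hU : IsOpen U) {κ : Z → ℝ} (hκ : Continuous κ)
    (hc : HasCompactSupport κ) (hs : tsupport κ ⊆ U) {β : Z → F2 E4 M} (h : JSm U β)
    (q : M) (y : E4) :
    rep q (avg κ β) y = ∫ z, κ z • rep q (β z) y := by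
  rw [rep_eq_pull, at2_avg, ← pullL_apply, ← ContinuousLinearMap.integral_comp_comm _
    (integrable_smul_of hU hκ hc hs (h.continuousOn_at2 _))]
  refine integral_congr_ae (Eventually.of_forall fun z => ?_)
  simp only
  rw [map_smul, pullL_apply, rep_eq_pull]

/-- integration against `κ` over a compact set, as a continuous linear map on `C(K, V)`. -/
lemma exists_intL {V : Type*} [NormedAddCommGroup V] [NormedSpace ℝ V] [CompleteSpace V]
    {K : Set Z} (hKc : IsCompact K) {κ : Z → ℝ} (hκ : Continuous κ) :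
    haveI : CompactSpace K := isCompact_iff_compactSpace.1 hKc
    ∃ Λ : C(K, V) →L[ℝ] V, ∀ (f : C(K, V)) (g : Z → V), (∀ z : K, f z = g z) →
      Λ f = ∫ z in K, κ z • g z := by
  haveI : CompactSpace K := isCompact_iff_compactSpace.1 hKc
  let μK : Measure K := Measure.comap (Subtype.val) (volume : Measure Z)
  haveI : IsFiniteMeasure μK := by
    refine ⟨?_⟩
    have hm : MeasurableSet K := hKc.measurableSet
    rw [Measure.comap_apply _ Subtype.val_injective
      (fun s hs' => MeasurableSet.subtype_image hm hs') _ MeasurableSet.univ]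
    rw [image_univ, Subtype.range_coe]
    exact hKc.measure_lt_top
  have hkc : Continuous fun z : K => κ z := hκ.comp continuous_subtype_val
  have hint1 : Integrable (fun z : K => |κ z|) μK :=
    hkc.abs.integrable_of_hasCompactSupport (HasCompactSupport.of_compactSpace _)
  have hintf : ∀ f : C(K, V), Integrable (fun z : K => κ z • f z) μK := by
    intro f
    have : Continuous fun z : K => κ z • f z := hkc.smul f.continuous
    exact this.integrable_of_hasCompactSupport (HasCompactSupport.of_compactSpace _)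
  have hbound : ∀ f : C(K, V), ‖∫ z : K, κ z • f z ∂μK‖ ≤
      (∫ z : K, |κ z| ∂μK) * ‖f‖ := by
    intro f
    rw [← integral_mul_const]
    refine norm_integral_le_of_norm_le (hint1.mul_const _) ?_
    filter_upwards with z
    rw [norm_smul, Real.norm_eq_abs]
    exact mul_le_mul_of_nonneg_left (f.norm_coe_le_norm z) (abs_nonneg _)
  let Λ0 : C(K, V) →ₗ[ℝ] V :=
    { toFun := fun f => ∫ z : K, κ z • f z ∂μK
      map_add' := by
        intro f g
        rw [← integral_add (hintf f) (hintf g)]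
        congr 1; funext z; simp
      map_smul' := by
        intro c f
        rw [RingHom.id_apply, ← integral_smul]
        congr 1; funext z
        rw [ContinuousMap.smul_apply, smul_comm] }
  refine ⟨Λ0.mkContinuous (∫ z : K, |κ z| ∂μK) hbound, fun f g hfg => ?_⟩
  rw [LinearMap.mkContinuous_apply]
  change ∫ z : K, κ z • f z ∂μK = _
  have e3 : (fun z : K => κ z • f z) = fun z : K => κ z • g z := by
    funext z; rw [hfg z]
  rw [e3]
  exact integral_subtype_comap hKc.measurableSet (fun z => κ z • g z)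

/-- **parameter integrals are smooth.** -/
theorem contDiffOn_integral {V : Type} [NormedAddCommGroup V] [NormedSpace ℝ V]
    [CompleteSpace V] {E' : Type} [NormedAddCommGroup E'] [NormedSpace ℝ E']
    {U : Set Z} (hU : IsOpen U) {W : Set E'} (hW : IsOpen W) {κ : Z → ℝ} (hκ : Continuous κ)
    (hc : HasCompactSupport κ) (hs : tsupport κ ⊆ U) {g : E' × Z → V}
    (hg : ContDiffOn ℝ ∞ g (W ×ˢ U)) :
    ContDiffOn ℝ ∞ (fun y => ∫ z, κ z • g (y, z)) W := by
  have hKc : IsCompact (tsupport κ) := hc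
  haveI : CompactSpace (tsupport κ) := isCompact_iff_compactSpace.1 hKc
  have hr : ContDiffOn ℝ ∞ (SmJ.restr (tsupport κ) g) W :=
    SmJ.contDiffOn_restr (tsupport κ) hW hU hs hg
  obtain ⟨Λ, hΛ⟩ := exists_intL (V := V) hKc hκ
  have hfin : ContDiffOn ℝ ∞ (fun y => Λ (SmJ.restr (tsupport κ) g y)) W :=
    Λ.contDiff.comp_contDiffOn hr
  refine hfin.congr fun y hy => ?_
  rw [hΛ _ (fun z => g (y, z))]
  · rw [setIntegral_eq_integral_of_forall_compl_eq_zero]
    intro z hz
    rw [image_eq_zero_of_notMem_tsupport hz, zero_smul]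
  · intro z
    exact SmJ.restr_apply (U := W) (W := U) hs hg.continuousOn hy z

lemma contDiffOn_swap {A B V : Type*} [NormedAddCommGroup A] [NormedSpace ℝ A]
    [NormedAddCommGroup B] [NormedSpace ℝ B] [NormedAddCommGroup V] [NormedSpace ℝ V]
    {n : WithTop ℕ∞} {G : A × B → V} {S : Set A} {T : Set B} (h : ContDiffOn ℝ n G (S ×ˢ T)) :
    ContDiffOn ℝ n (fun w : B × A => G (w.2, w.1)) (T ×ˢ S) := by
  have h2 : ContDiffOn ℝ n (fun w : B × A => (w.2, w.1)) (T ×ˢ S) :=
    (contDiff_snd.prodMk contDiff_fst).contDiffOn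
  exact h.comp h2 fun w hw => ⟨hw.2, hw.1⟩

/-- **averages of jointly smooth families are smooth.** -/
theorem smooth2_avg {U : Set Z} (hU : IsOpen U) {κ : Z → ℝ} (hκ : Continuous κ)
    (hc : HasCompactSupport κ) (hs : tsupport κ ⊆ U) {β : Z → F2 E4 M} (h : JSm U β) :
    Smooth2 (avg κ β) := by
  constructor
  · intro x v
    rw [at2_avg]
    have hint := integrable_smul_of hU hκ hc hs (h.continuousOn_at2 x)
    have hl : ∀ b : Bil, (ContinuousLinearMap.apply ℝ ℝ v) ((ContinuousLinearMap.apply ℝ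
      (E4 →L[ℝ] ℝ) v) b) = b v v := fun b => rfl
    rw [← hl, ← ContinuousLinearMap.integral_comp_comm _ hint,
      ← ContinuousLinearMap.integral_comp_comm]
    · apply integral_eq_zero_of_ae
      filter_upwards with z
      rw [hl]
      by_cases hz : z ∈ U
      · simp [h.1 z hz x v]
      · have : κ z = 0 := image_eq_zero_of_notMem_tsupport fun h' => hz (hs h')
        simp [this]
    · exact (ContinuousLinearMap.apply ℝ (E4 →L[ℝ] ℝ) v).integrable_comp hint
  · intro q
    have h3 := contDiffOn_swap (h.2 q)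
    refine (contDiffOn_integral hU (chartAt E4 q).open_target hκ hc hs h3).congr fun y _ => ?_
    exact rep_avg hU hκ hc hs h q y

end average

end

end Crest.Agent.R240.Sm
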