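import Crest.Agent.R240.SmInt

/-!
# Row 240, block R (helper245): slices of jets, averages with a continuous weight

* `norm_jy_le`, `norm_dx_jy_le`, `norm_jy_sub_le` : the jets of slices against joint jets;
* `iteratedFDeriv_avg` : `D_y^j ∫ κ(z) G(z,y) dz = ∫ κ(z) D_y^j G(z,y) dz`.
-/

set_option autoImplicit false
set_option linter.unusedSectionVars false
open Set Filter Topology MeasureTheory
open scoped ContDiff

namespace Crest.Agent.R240.SmJ

section slices
variable {E E' : Type} [NormedAddCommGroup E] [NormedSpace ℝ E]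
  [NormedAddCommGroup E'] [NormedSpace ℝ E']
  {V : Type} [NormedAddCommGroup V] [NormedSpace ℝ V]

/-- composition with `inr` in all slots -/
noncomputable def inrL (E E' V : Type) [NormedAddCommGroup E] [NormedSpace ℝ E]
    [NormedAddCommGroup E'] [NormedSpace ℝ E'] [NormedAddCommGroup V] [NormedSpace ℝ V] (j : ℕ) :
    ((E × E') [×j]→L[ℝ] V) →L[ℝ] (E' [×j]→L[ℝ] V) :=
  ContinuousMultilinearMap.compContinuousLinearMapL fun _ => ContinuousLinearMap.inr ℝ E E'

theorem inrL_apply (j : ℕ) (a : (E × E') [×j]→L[ℝ] V) (m : Fin j → E') :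
    inrL E E' V j a m = a fun i => ((0 : E), m i) := rfl

theorem norm_inrL_le (j : ℕ) (a : (E × E') [×j]→L[ℝ] V) : ‖inrL E E' V j a‖ ≤ ‖a‖ := by
  refine ContinuousMultilinearMap.opNorm_le_bound (norm_nonneg a) fun m => ?_
  rw [inrL_apply]
  refine (a.le_opNorm _).trans ?_
  refine mul_le_mul_of_nonneg_left (le_of_eq ?_) (norm_nonneg a)
  refine Finset.prod_congr rfl fun i _ => ?_
  rw [Prod.norm_def]
  simp

/-- the jet of the slice is the restriction of the joint jet -/
theorem jy_eq {s : Set (E × E')} (hs : IsOpen s) {g : E × E' → V}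
    (hg : ContDiffOn ℝ ∞ g s) (j : ℕ) : ∀ p ∈ s,
    jy j g p = inrL E E' V j (iteratedFDeriv ℝ j g p) := by
  induction j with
  | zero => intro p _; rfl
  | succ j ih =>
    intro p hp
    have hd : DifferentiableAt ℝ (iteratedFDeriv ℝ j g) p :=
      (hg.contDiffAt (hs.mem_nhds hp)).differentiableAt_iteratedFDeriv (by
        exact_mod_cast WithTop.coe_lt_top _)
    rw [jy_succ hs (contDiffOn_jy hs hg j) hp]
    have e1 : dy (jy j g) p = dy (fun q => inrL E E' V j (iteratedFDeriv ℝ j g q)) p :=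
      dy_eventuallyEq (Filter.eventually_of_mem (hs.mem_nhds hp) ih)
    have h1 : HasFDerivAt (fun q => inrL E E' V j (iteratedFDeriv ℝ j g q))
        ((inrL E E' V j).comp (fderiv ℝ (iteratedFDeriv ℝ j g) p)) p :=
      (inrL E E' V j).hasFDerivAt.comp p hd.hasFDerivAt
    rw [e1]
    unfold dy
    rw [h1.fderiv]
    rfl

theorem norm_jy_le {s : Set (E × E')} (hs : IsOpen s) {g : E × E' → V}
    (hg : ContDiffOn ℝ ∞ g s) (j : ℕ) {p : E × E'} (hp : p ∈ s) :
    ‖jy j g p‖ ≤ ‖iteratedFDeriv ℝ j g p‖ := by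
  rw [jy_eq hs hg j p hp]
  exact norm_inrL_le j _

theorem norm_dx_jy_le {s : Set (E × E')} (hs : IsOpen s) {g : E × E' → V}
    (hg : ContDiffOn ℝ ∞ g s) (j : ℕ) {p : E × E'} (hp : p ∈ s) :
    ‖dx (jy j g) p‖ ≤ ‖iteratedFDeriv ℝ (j + 1) g p‖ := by
  have hd : DifferentiableAt ℝ (iteratedFDeriv ℝ j g) p :=
    (hg.contDiffAt (hs.mem_nhds hp)).differentiableAt_iteratedFDeriv (by
      exact_mod_cast WithTop.coe_lt_top _)
  have e1 : dx (jy j g) p = dx (fun q => inrL E E' V j (iteratedFDeriv ℝ j g q)) p :=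
    dx_eventuallyEq (Filter.eventually_of_mem (hs.mem_nhds hp) (jy_eq hs hg j))
  have h1 : HasFDerivAt (fun q => inrL E E' V j (iteratedFDeriv ℝ j g q))
      ((inrL E E' V j).comp (fderiv ℝ (iteratedFDeriv ℝ j g) p)) p :=
    (inrL E E' V j).hasFDerivAt.comp p hd.hasFDerivAt
  rw [← norm_fderiv_iteratedFDeriv, e1]
  unfold dx
  rw [h1.fderiv]
  refine ContinuousLinearMap.opNorm_le_bound _
    (norm_nonneg (fderiv ℝ (iteratedFDeriv ℝ j g) p)) fun h => ?_
  change ‖inrL E E' V j (fderiv ℝ (iteratedFDeriv ℝ j g) p (h, 0))‖ ≤ _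
  refine (norm_inrL_le j _).trans ?_
  refine (ContinuousLinearMap.le_opNorm _ _).trans ?_
  refine mul_le_mul_of_nonneg_left (le_of_eq ?_) (norm_nonneg _)
  rw [Prod.norm_def]
  simp

/-- Lipschitz bound in the parameter -/
theorem norm_jy_sub_le {U : Set E} (hU : IsOpen U) {T : Set E'} (hT : IsOpen T) {g : E × E' → V}
    (hg : ContDiffOn ℝ ∞ g (U ×ˢ T)) (j : ℕ) {y : E'} (hy : y ∈ T) {S : Set E} (hS : Convex ℝ S)
    (hSU : S ⊆ U) {B : ℝ} (hB : ∀ z ∈ S, ‖iteratedFDeriv ℝ (j + 1) g (z, y)‖ ≤ B) {z z' : E}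
    (hz : z ∈ S) (hz' : z' ∈ S) : ‖jy j g (z', y) - jy j g (z, y)‖ ≤ B * ‖z' - z‖ := by
  have hj := contDiffOn_jy (hU.prod hT) hg j
  refine hS.norm_image_sub_le_of_norm_hasFDerivWithin_le
    (f := fun z => jy j g (z, y)) (f' := fun z => dx (jy j g) (z, y))
    (fun w hw => ?_) (fun w hw => ?_) hz hz'
  · exact (hasFDerivAt_dx (p := (w, y)) ((hj.contDiffAt ((hU.prod hT).mem_nhds
      ⟨hSU hw, hy⟩)).differentiableAt (by simp))).hasFDerivWithinAt
  · exact (norm_dx_jy_le (hU.prod hT) hg j ⟨hSU hw, hy⟩).trans (hB w hw)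

end slices

section weight
variable {Z : Type} [NormedAddCommGroup Z] [NormedSpace ℝ Z] [MeasurableSpace Z] [BorelSpace Z]
  {μ : Measure Z} [IsFiniteMeasureOnCompacts μ]
  {E' : Type} [NormedAddCommGroup E'] [NormedSpace ℝ E']
  {V : Type} [NormedAddCommGroup V] [NormedSpace ℝ V]
  {V' : Type} [NormedAddCommGroup V'] [NormedSpace ℝ V']

/-- integrability of `κ • f`, `f` continuous on `U ⊇ tsupport κ` -/
theorem integrable_wt {U : Set Z} (hU : IsOpen U) {κ : Z → ℝ} (hκ : Continuous κ)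
    (hc : HasCompactSupport κ) (hs : tsupport κ ⊆ U) {f : Z → V} (hf : ContinuousOn f U) :
    Integrable (fun z => κ z • f z) μ := by
  have h1 : Continuous (fun z => κ z • f z) := by
    rw [continuous_iff_continuousAt]
    intro z
    by_cases hz : z ∈ U
    · exact hκ.continuousAt.smul (hf.continuousAt (hU.mem_nhds hz))
    · have hz' : z ∉ tsupport κ := fun h => hz (hs h)
      have hev : (fun z => κ z • f z) =ᶠ[𝓝 z] fun _ => 0 := by
        filter_upwards [(isClosed_tsupport κ).isOpen_compl.mem_nhds hz'] with w hw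
        rw [image_eq_zero_of_notMem_tsupport hw, zero_smul]
      exact continuousAt_const.congr hev.symm
  exact h1.integrable_of_hasCompactSupport (hc.smul_right)

theorem norm_wt_le {κ : Z → ℝ} (hκ : Continuous κ) (hc : HasCompactSupport κ) {f : Z → V} {B : ℝ}
    (hB : ∀ z ∈ tsupport κ, ‖f z‖ ≤ B) : ‖∫ z, κ z • f z ∂μ‖ ≤ (∫ z, |κ z| ∂μ) * B := by
  rw [← integral_mul_const]
  refine norm_integral_le_of_norm_le ((hκ.abs.integrable_of_hasCompactSupport
    hc.abs).mul_const B) ?_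
  filter_upwards with z
  rw [norm_smul, Real.norm_eq_abs]
  by_cases hz : z ∈ tsupport κ
  · exact mul_le_mul_of_nonneg_left (hB z hz) (abs_nonneg _)
  · rw [image_eq_zero_of_notMem_tsupport hz]
    simp

/-- derivative of the weighted average -/
theorem hasFDerivAt_avg {U : Set Z} (hU : IsOpen U) {T : Set E'} (hT : IsOpen T) {κ : Z → ℝ}
    (hκ : Continuous κ) (hc : HasCompactSupport κ) (hs : tsupport κ ⊆ U) {G : Z × E' → V}
    (hG : ContDiffOn ℝ ∞ G (U ×ˢ T)) {y : E'} (hy : y ∈ T) :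
    HasFDerivAt (fun y => ∫ z, κ z • G (z, y) ∂μ) (∫ z, κ z • dy G (z, y) ∂μ) y := by
  have hK : IsCompact (tsupport κ) := hc
  have hdG : ContDiffOn ℝ ∞ (dy G) (U ×ˢ T) := contDiffOn_dy (hU.prod hT) hG
  have hdiff : ∀ z ∈ U, ∀ y ∈ T, HasFDerivAt (fun y => G (z, y)) (dy G (z, y)) y :=
    fun z hz y hy => hasFDerivAt_dy (p := (z, y))
      ((hG.contDiffAt ((hU.prod hT).mem_nhds ⟨hz, hy⟩)).differentiableAt (by simp))
  -- a ball around `y` on which `dy G` is bounded, uniformly in `z ∈ tsupport κ`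
  have hex : ∃ (δ B : ℝ), 0 < δ ∧ Metric.ball y δ ⊆ T ∧
      ∀ z ∈ tsupport κ, ∀ y' ∈ Metric.ball y δ, ‖dy G (z, y')‖ ≤ B := by
    have : CompactSpace (tsupport κ) := isCompact_iff_compactSpace.1 hK
    have hswap : ContinuousOn (fun q : E' × Z => dy G (q.2, q.1)) (T ×ˢ U) :=
      hdG.continuousOn.comp (by fun_prop) fun q hq => ⟨hq.2, hq.1⟩
    have h1 := continuousOn_restr (K := tsupport κ) (W := U) (U := T) hs hswap
    have h2 : ContinuousAt (fun y' => ‖restr (tsupport κ) (fun q : E' × Z => dy G (q.2, q.1)) y'‖)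
      y := (h1.continuousAt (hT.mem_nhds hy)).norm
    have h3 : ∀ᶠ y' in 𝓝 y, ‖restr (tsupport κ) (fun q : E' × Z => dy G (q.2, q.1)) y'‖ <
        ‖restr (tsupport κ) (fun q : E' × Z => dy G (q.2, q.1)) y‖ + 1 :=
      h2.eventually (gt_mem_nhds (by linarith))
    obtain ⟨δ, hδ, h4⟩ := Metric.eventually_nhds_iff_ball.1 (h3.and (hT.mem_nhds hy))
    refine ⟨δ, ‖restr (tsupport κ) (fun q : E' × Z => dy G (q.2, q.1)) y‖ + 1, hδ,
      fun y' hy' => (h4 y' hy').2, fun z hz y' hy' => ?_⟩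
    have h5 := (restr (tsupport κ) (fun q : E' × Z => dy G (q.2, q.1)) y').norm_coe_le_norm ⟨z, hz⟩
    rw [restr_apply hs hswap (h4 y' hy').2] at h5
    exact h5.trans (h4 y' hy').1.le
  obtain ⟨δ, B, hδ, hδT, hB⟩ := hex
  have hsl : ∀ y ∈ T, ContinuousOn (fun z => G (z, y)) U := fun y hy =>
    hG.continuousOn.comp (by fun_prop) fun z hz => ⟨hz, hy⟩
  have hsl' : ContinuousOn (fun z => dy G (z, y)) U :=
    hdG.continuousOn.comp (by fun_prop) fun z hz => ⟨hz, hy⟩
  have key := hasFDerivAt_integral_of_dominated_of_fderiv_le (μ := μ)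
    (F := fun y z => κ z • G (z, y)) (F' := fun y z => κ z • dy G (z, y))
    (bound := fun z => |κ z| * B) (x₀ := y) (s := Metric.ball y δ) (Metric.ball_mem_nhds y hδ)
    ?_ ?_ ?_ ?_ ?_ ?_
  · exact key
  · filter_upwards [hT.mem_nhds hy] with y' hy'
    exact (integrable_wt hU hκ hc hs (hsl y' hy')).aestronglyMeasurable
  · exact integrable_wt hU hκ hc hs (hsl y hy)
  · exact (integrable_wt hU hκ hc hs hsl').aestronglyMeasurable
  · filter_upwards with z y' hy'
    rw [norm_smul, Real.norm_eq_abs]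
    by_cases hz : z ∈ tsupport κ
    · exact mul_le_mul_of_nonneg_left (hB z hz y' hy') (abs_nonneg _)
    · rw [image_eq_zero_of_notMem_tsupport hz]
      simp
  · exact (hκ.abs.integrable_of_hasCompactSupport hc.abs).mul_const B
  · filter_upwards with z y' hy'
    by_cases hz : z ∈ tsupport κ
    · exact (hdiff z (hs hz) y' (hδT hy')).const_smul (κ z)
    · have h0 : κ z = 0 := image_eq_zero_of_notMem_tsupport hz
      simp only [h0, zero_smul]
      exact hasFDerivAt_const _ _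

/-- **jets of the weighted average** -/
theorem iteratedFDeriv_avg {U : Set Z} (hU : IsOpen U) {T : Set E'} (hT : IsOpen T) {κ : Z → ℝ}
    (hκ : Continuous κ) (hc : HasCompactSupport κ) (hs : tsupport κ ⊆ U) {G : Z × E' → V}
    (hG : ContDiffOn ℝ ∞ G (U ×ˢ T)) [CompleteSpace V] (j : ℕ) : ∀ y ∈ T,
    iteratedFDeriv ℝ j (fun y => ∫ z, κ z • G (z, y) ∂μ) y = ∫ z, κ z • jy j G (z, y) ∂μ := by
  induction j with
  | zero =>
    intro y hy
    have hint : Integrable (fun z => κ z • G (z, y)) μ :=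
      integrable_wt hU hκ hc hs (hG.continuousOn.comp (by fun_prop) fun z hz => ⟨hz, hy⟩)
    rw [iteratedFDeriv_zero_eq_comp]
    change cur0 E' V (∫ z, κ z • G (z, y) ∂μ) = _
    rw [← ContinuousLinearMap.integral_comp_comm _ hint]
    refine integral_congr_ae (Filter.Eventually.of_forall fun z => ?_)
    change cur0 E' V (κ z • G (z, y)) = κ z • jy 0 G (z, y)
    rw [map_smul]
    rfl
  | succ j ih =>
    intro y hy
    have hjy := contDiffOn_jy (hU.prod hT) hG j
    have hev : iteratedFDeriv ℝ j (fun y => ∫ z, κ z • G (z, y) ∂μ) =ᶠ[𝓝 y]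
        fun y => ∫ z, κ z • jy j G (z, y) ∂μ := by
      filter_upwards [hT.mem_nhds hy] with y' hy' using ih y' hy'
    have h1 : fderiv ℝ (iteratedFDeriv ℝ j (fun y => ∫ z, κ z • G (z, y) ∂μ)) y =
        ∫ z, κ z • dy (jy j G) (z, y) ∂μ := by
      rw [hev.fderiv_eq]
      exact (hasFDerivAt_avg hU hT hκ hc hs hjy hy).fderiv
    have hint : Integrable (fun z => κ z • dy (jy j G) (z, y)) μ :=
      integrable_wt hU hκ hc hs ((contDiffOn_dy (hU.prod hT) hjy).continuousOn.comp (by fun_prop)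
        fun z hz => ⟨hz, hy⟩)
    rw [iteratedFDeriv_succ_eq_comp_left]
    change curL E' V j (fderiv ℝ (iteratedFDeriv ℝ j (fun y => ∫ z, κ z • G (z, y) ∂μ)) y) = _
    rw [h1, ← ContinuousLinearMap.integral_comp_comm _ hint]
    refine integral_congr_ae (Filter.Eventually.of_forall fun z => ?_)
    change curL E' V j (κ z • dy (jy j G) (z, y)) = κ z • jy (j + 1) G (z, y)
    rw [map_smul]
    by_cases hz : z ∈ tsupport κ
    · rw [jy_succ (hU.prod hT) hjy ⟨hs hz, hy⟩]
    · rw [image_eq_zero_of_notMem_tsupport hz, zero_smul, zero_smul]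

end weight

end Crest.Agent.R240.SmJ
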