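import Mathlib
import Crest.Agent.R240.Lk5
import Crest.Agent.R240.SmHad
import Crest.Agent.R240.SmJoint
import Crest.Agent.R240.SmSlice

/-!
# Row 240, LEAK (helper895), part 6: division by the scale, cut-off of jointly smooth families
-/

set_option autoImplicit false
set_option linter.unusedSectionVars false
set_option linter.style.haveILetI false
set_option maxSynthPendingDepth 3

open Set Function Filter MeasureTheory
open scoped Manifold ContDiff Topology

namespace Crest.Agent.R240.Lk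

open Crest.Agent.R240.Ch Crest.Agent.R240.Sm Crest.Agent.R240.SmJ

noncomputable section

variable {M : Type*} [TopologicalSpace M] [ChartedSpace E4 M] [IsManifold 𝓘(ℝ, E4) ∞ M]

section div
variable {Z : Type} [NormedAddCommGroup Z] [NormedSpace ℝ Z]

lemma at2_eq_rep (a : F2 E4 M) (x : M) : at2 a x = rep x a (chartAt E4 x x) := by
  ext u v
  exact (rep_self x a u v).symm

lemma jsm_at2 {U : Set Z} {β : Z → F2 E4 M} (h : JSm U β) (x : M) :
    ContDiffOn ℝ ∞ (fun z => at2 (β z) x) U := by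
  have h1 : ContDiffOn ℝ ∞ (fun z => rep x (β z) (chartAt E4 x x)) U :=
    (h.2 x).comp (f := fun z : Z => ((z, chartAt E4 x x) : Z × E4))
      (contDiff_id.prodMk contDiff_const).contDiffOn fun z hz => ⟨hz, mem_chart_target E4 x⟩
  exact h1.congr fun z _ => at2_eq_rep _ _

/-- **division by the scale.** -/
theorem exists_div [FiniteDimensional ℝ Z] {U : Set Z} (hU : IsOpen U)
    (hs : ∀ z ∈ U, ∀ t ∈ Icc (0 : ℝ) 1, t • z ∈ U) {β : Z → F2 E4 M} (hβ : JSm U β)
    (h0 : ∀ x, at2 (β 0) x = 0) :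
    ∃ δ : ℝ × Z → F2 E4 M, JSm {p : ℝ × Z | p.1 • p.2 ∈ U} δ ∧
      ∀ (e : ℝ) (z : Z), e • z ∈ U → ∀ x, at2 (β (e • z)) x = e • at2 (δ (e, z)) x := by
  classical
  set b := Module.finBasis ℝ Z with hb
  set δ : ℝ × Z → F2 E4 M := fun p x =>
    (∑ a, (b.repr p.2 a) • had1 b a (fun z => at2 (β z) x) (p.1 • p.2) : Bil) with hδ
  have hat : ∀ p x, at2 (δ p) x =
    ∑ a, (b.repr p.2 a) • had1 b a (fun z => at2 (β z) x) (p.1 • p.2) := fun _ _ => rfl
  have hrep : ∀ q y, ∀ p : ℝ × Z, p.1 • p.2 ∈ U → rep q (δ p) y =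
      ∑ a, (b.repr p.2 a) • had1 b a (fun z => rep q (β z) y) (p.1 • p.2) := by
    intro q y p hp
    rw [rep_eq_pull, ← pullL_apply, hat, map_sum]
    refine Finset.sum_congr rfl fun a _ => ?_
    rw [map_smul]
    congr 1
    have h1 := had1_clm hU hs (pullL (tcc q ((chartAt E4 q).symm y) ((chartAt E4 q).symm y)))
      (jsm_at2 hβ ((chartAt E4 q).symm y)) b a hp
    rw [← h1]
    rfl
  refine ⟨δ, ⟨?_, ?_⟩, ?_⟩
  · intro p hp x v
    have hp' : p.1 • p.2 ∈ U := hp
    let ev : Bil →L[ℝ] ℝ := (ContinuousLinearMap.apply ℝ ℝ v).comp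
      (ContinuousLinearMap.apply ℝ (E4 →L[ℝ] ℝ) v)
    have hev : ∀ c : Bil, ev c = c v v := fun c => rfl
    rw [← hev, hat, map_sum]
    refine Finset.sum_eq_zero fun a _ => ?_
    rw [map_smul, ← had1_clm hU hs ev (jsm_at2 hβ x) b a hp']
    have h2 : had1 b a (fun z => ev (at2 (β z) x)) (p.1 • p.2) = had1 b a (fun _ => (0:ℝ))
        (p.1 • p.2) := had1_congr hU hs (fun z hz => by rw [hev]; exact hβ.1 z hz x v) b a hp'
    rw [h2]
    have h3 : had1 b a (fun _ => (0:ℝ)) (p.1 • p.2) = 0 := by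
      unfold had1
      simp
    rw [h3, smul_zero]
  · intro q
    have h1 : ∀ a, ContDiffOn ℝ ∞ (fun w : (ℝ × Z) × E4 =>
        had1 b a (fun z => rep q (β z) w.2) (w.1.1 • w.1.2))
        ({p : ℝ × Z | p.1 • p.2 ∈ U} ×ˢ (chartAt E4 q).target) := by
      intro a
      have h2 := contDiffOn_had1 hU hs (chartAt E4 q).open_target (hβ.2 q) b a
      refine ContDiffOn.comp (g := fun p : Z × E4 => had1 b a (fun z => rep q (β z) p.2) p.1)
        (f := fun w : (ℝ × Z) × E4 => (w.1.1 • w.1.2, w.2)) h2 ?_ ?_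
      · have : ContDiff ℝ ∞ (fun w : (ℝ × Z) × E4 => (w.1.1 • w.1.2, w.2)) := by fun_prop
        exact this.contDiffOn
      · intro w hw
        exact ⟨hw.1, hw.2⟩
    have h2 : ContDiffOn ℝ ∞ (fun w : (ℝ × Z) × E4 =>
        ∑ a, (b.repr w.1.2 a) • had1 b a (fun z => rep q (β z) w.2) (w.1.1 • w.1.2))
        ({p : ℝ × Z | p.1 • p.2 ∈ U} ×ˢ (chartAt E4 q).target) := by
      refine ContDiffOn.sum fun a _ => ?_
      have h3 : ContDiff ℝ ∞ (fun w : (ℝ × Z) × E4 => (b.repr w.1.2 a)) := by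
        have h4 : ContDiff ℝ ∞ (fun z : Z => b.repr z a) := by
          have : (fun z : Z => b.repr z a) = fun z => (b.coord a).toContinuousLinearMap z := rfl
          rw [this]
          exact ContinuousLinearMap.contDiff _
        exact h4.comp (contDiff_snd.comp contDiff_fst)
      have h5 := h3.contDiffOn.smul (h1 a)
      exact h5
    exact h2.congr fun w hw => hrep q w.2 w.1 hw.1
  · intro e z hz x
    have h1 := had1_eq hU hs (jsm_at2 hβ x) b hz
    rw [h1, h0 x, zero_add, hat, Finset.smul_sum]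
    refine Finset.sum_congr rfl fun a _ => ?_
    rw [map_smul, Finsupp.smul_apply, smul_eq_mul, smul_smul]

/-- cut-off of a jointly smooth family. -/
theorem jsm_cut {W0 W : Set Z} (hW0 : IsOpen W0) {f : Z → ℝ} (hf : ContDiff ℝ ∞ f)
    (hcov : ∀ z ∈ W, z ∈ W0 ∨ z ∉ tsupport f) {β : Z → F2 E4 M} (hβ : JSm W0 β) :
    JSm W (fun z => f z • β z) := by
  refine ⟨fun z hz x v => ?_, fun q w hw => ?_⟩
  · rw [at2_smul']
    change f z * at2 (β z) x v v = 0
    rcases hcov z hz with h | h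
    · rw [hβ.1 z h x v, mul_zero]
    · rw [image_eq_zero_of_notMem_tsupport h, zero_mul]
  · rcases hcov w.1 hw.1 with h | h
    · have h1 := hβ.contDiffAt hW0 h (q := q) hw.2
      have h2 : ContDiffAt ℝ ∞ (fun w : Z × E4 => f w.1 • rep q (β w.1) w.2) w :=
        (hf.contDiffAt.comp w contDiffAt_fst).smul h1
      refine ContDiffAt.contDiffWithinAt ?_
      refine h2.congr_of_eventuallyEq (Eventually.of_forall fun w => ?_)
      exact rep_smul' q _ _ _
    · refine ContDiffAt.contDiffWithinAt ?_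
      have h2 : (fun w : Z × E4 => rep q (f w.1 • β w.1) w.2) =ᶠ[𝓝 w] fun _ => 0 := by
        have h3 : ∀ᶠ w' : Z × E4 in 𝓝 w, w'.1 ∉ tsupport f :=
          (continuous_fst.tendsto w).eventually
            ((isClosed_tsupport f).isOpen_compl.mem_nhds h)
        filter_upwards [h3] with w' hw'
        rw [image_eq_zero_of_notMem_tsupport hw', rep_smul', zero_smul]
      exact contDiffAt_const.congr_of_eventuallyEq h2

end div

end

end Crest.Agent.R240.Lk
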