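import Mathlib
import Crest.Agent.R240.Lk6
import Crest.Agent.R240.Cmp
import Crest.Agent.R240.XInst

/-!
# Row 240, LEAK (helper895), part 7: Fourier expansion of jointly smooth families of forms

`exists_fou` : for a jointly smooth family `β` on `U ⊆ (ι → E4)` with `β 0 = 0`, the family
`β (e • z)` is `∑_ν (∏ i, tf ν i (z i)) e c_ν(e)` for `‖z i‖ ≤ 1`, with smooth forms `c_ν(e)` that
decrease rapidly in `ν`, uniformly in `e`.
-/

set_option autoImplicit false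
set_option linter.unusedSectionVars false
set_option linter.style.haveILetI false
set_option maxSynthPendingDepth 3

open Set Function Filter MeasureTheory Metric
open scoped Manifold ContDiff Topology

namespace Crest.Agent.R240.Lk

open Crest.Agent.R240.Ch Crest.Agent.R240.Sm Crest.Agent.R240.SmJ

noncomputable section

variable {M : Type*} [TopologicalSpace M] [ChartedSpace E4 M] [IsManifold 𝓘(ℝ, E4) ∞ M]
variable {ι : Type} [Fintype ι] [DecidableEq ι]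

/-- the parameters from the cube coordinates -/
def zc (w : ι × Fin 4 → ℝ) : ι → E4 := fun i => WithLp.toLp 2 (fun a => 8 * (w (i, a) - 1 / 2))

lemma zc_wz (z : ι → E4) : zc (wz z) = z := by
  funext i
  ext a
  simp only [zc, wz]
  ring

lemma contDiff_zc : ContDiff ℝ ∞ (zc (ι := ι)) := by
  rw [contDiff_pi]
  intro i
  rw [contDiff_euclidean]
  intro a
  simp only [zc]
  fun_prop

lemma abs_apply_le (v : E4) (a : Fin 4) : |v a| ≤ ‖v‖ := by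
  rw [EuclideanSpace.norm_eq]
  apply Real.abs_le_sqrt
  have : ‖v a‖ ^ 2 ≤ ∑ a, ‖v a‖ ^ 2 :=
    Finset.single_le_sum (f := fun a => ‖v a‖ ^ 2) (fun a _ => by positivity) (Finset.mem_univ a)
  simpa using this

lemma mem_Kc_of {w : ι × Fin 4 → ℝ} (h : ∀ i, ‖zc w i‖ ≤ 7 / 2) : w ∈ Kc (ι × Fin 4) := by
  have h1 : ∀ q : ι × Fin 4, |8 * (w q - 1 / 2)| ≤ 7 / 2 := fun q =>
    (abs_apply_le (zc w q.1) q.2).trans (h q.1)
  constructor
  · intro q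
    have := (abs_le.1 (h1 q)).1
    simp only
    linarith
  · intro q
    have := (abs_le.1 (h1 q)).2
    simp only
    linarith

/-- the cut-off on the parameters -/
def cutZ (ρ : ℝ) (hρ : 1 < ρ) (z : ι → E4) : ℝ :=
  ∏ i, (⟨1, ρ, one_pos, hρ⟩ : ContDiffBump (0 : E4)) (z i)

lemma contDiff_cutZ {ρ : ℝ} (hρ : 1 < ρ) : ContDiff ℝ ∞ (cutZ (ι := ι) ρ hρ) := by
  unfold cutZ
  refine contDiff_prod fun i _ => ?_
  exact (ContDiffBump.contDiff _).comp (contDiff_apply ℝ E4 i)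

lemma cutZ_one {ρ : ℝ} (hρ : 1 < ρ) {z : ι → E4} (hz : ∀ i, ‖z i‖ ≤ 1) : cutZ ρ hρ z = 1 := by
  unfold cutZ
  refine Finset.prod_eq_one fun i _ => ?_
  exact ContDiffBump.one_of_mem_closedBall _ (by simpa using hz i)

lemma tsupport_cutZ {ρ : ℝ} (hρ : 1 < ρ) :
    tsupport (cutZ (ι := ι) ρ hρ) ⊆ {z | ∀ i, ‖z i‖ ≤ ρ} := by
  refine closure_minimal ?_ ?_
  · intro z hz i
    by_contra h
    push Not at h
    apply hz
    unfold cutZ
    refine Finset.prod_eq_zero (Finset.mem_univ i) ?_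
    refine ContDiffBump.zero_of_le_dist _ ?_
    simpa using h.le
  · rw [Set.ofPred_forall]
    refine isClosed_iInter fun i => ?_
    exact isClosed_le (by fun_prop) continuous_const

/-- the cut-off family in cube coordinates -/
def eta (ρ : ℝ) (hρ : 1 < ρ) (δ : ℝ × (ι → E4) → F2 E4 M) (p : ℝ × (ι × Fin 4 → ℝ)) : F2 E4 M :=
  cutZ ρ hρ (zc p.2) • δ (p.1, zc p.2)

lemma jsm_eta {U : Set (ι → E4)} (hU : IsOpen U) {e1 ρ : ℝ} (hρ : 1 < ρ)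
    (hin : ∀ e : ℝ, |e| < e1 → ∀ z : ι → E4, (∀ i, ‖z i‖ ≤ ρ) → e • z ∈ U)
    {δ : ℝ × (ι → E4) → F2 E4 M} (hδ : JSm {p : ℝ × (ι → E4) | p.1 • p.2 ∈ U} δ) :
    JSm (Ioo (-e1) e1 ×ˢ (univ : Set (ι × Fin 4 → ℝ))) (eta ρ hρ δ) := by
  have ho : IsOpen {p : ℝ × (ι → E4) | p.1 • p.2 ∈ U} :=
    hU.preimage (by fun_prop : Continuous fun p : ℝ × (ι → E4) => p.1 • p.2)
  set g : ℝ × (ι × Fin 4 → ℝ) → ℝ × (ι → E4) := fun p => (p.1, zc p.2) with hg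
  have hgs : ContDiff ℝ ∞ g := contDiff_fst.prodMk (contDiff_zc.comp contDiff_snd)
  have h1 : JSm (g ⁻¹' {p : ℝ × (ι → E4) | p.1 • p.2 ∈ U}) (fun p => δ (g p)) :=
    hδ.comp hgs.contDiffOn (mapsTo_preimage _ _)
  refine jsm_cut (ho.preimage hgs.continuous) (f := fun p : ℝ × (ι × Fin 4 → ℝ) =>
    cutZ ρ hρ (zc p.2)) ((contDiff_cutZ hρ).comp (contDiff_zc.comp contDiff_snd)) ?_ h1
  intro p hp
  by_cases h : ∀ i, ‖zc p.2 i‖ ≤ ρ
  · left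
    exact hin p.1 (abs_lt.2 hp.1) _ h
  · right
    intro h2
    apply h
    have h3 : tsupport (fun p : ℝ × (ι × Fin 4 → ℝ) => cutZ ρ hρ (zc p.2)) ⊆
        (fun p : ℝ × (ι × Fin 4 → ℝ) => zc p.2) ⁻¹' {z : ι → E4 | ∀ i, ‖z i‖ ≤ ρ} := by
      refine closure_minimal ?_ ?_
      · intro p hp
        exact tsupport_cutZ hρ (subset_tsupport _ hp)
      · refine IsClosed.preimage (contDiff_zc.continuous.comp continuous_snd) ?_
        rw [Set.ofPred_forall]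
        refine isClosed_iInter fun i => ?_
        exact isClosed_le (by fun_prop) continuous_const
    exact h3 h2

lemma eta_zero {ρ : ℝ} (hρ : 1 < ρ) (hρ2 : ρ ≤ 7 / 2) (δ : ℝ × (ι → E4) → F2 E4 M) (e : ℝ)
    {w : ι × Fin 4 → ℝ} (hw : w ∉ Kc (ι × Fin 4)) (x : M) : at2 (eta ρ hρ δ (e, w)) x = 0 := by
  have h : cutZ ρ hρ (zc w) = 0 := by
    by_contra hne
    apply hw
    have := tsupport_cutZ hρ (subset_tsupport _ hne)
    exact mem_Kc_of fun i => (this i).trans hρ2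
  rw [eta, at2_smul', h, zero_smul]

/-- the family in a chart -/
def HH (q : M) (ρ : ℝ) (hρ : 1 < ρ) (δ : ℝ × (ι → E4) → F2 E4 M)
    (p : (ℝ × E4) × (ι × Fin 4 → ℝ)) : Bil := rep q (eta ρ hρ δ (p.1.1, p.2)) p.1.2

lemma adm_HH {U : Set (ι → E4)} (hU : IsOpen U) {e1 ρ : ℝ} (hρ : 1 < ρ) (hρ2 : ρ ≤ 7 / 2)
    (hin : ∀ e : ℝ, |e| < e1 → ∀ z : ι → E4, (∀ i, ‖z i‖ ≤ ρ) → e • z ∈ U)
    {δ : ℝ × (ι → E4) → F2 E4 M} (hδ : JSm {p : ℝ × (ι → E4) | p.1 • p.2 ∈ U} δ) (q : M) :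
    Adm (Ioo (-e1) e1 ×ˢ (chartAt E4 q).target) (HH q ρ hρ δ) := by
  refine ⟨?_, fun y hy w hw => ?_⟩
  · have h1 := (jsm_eta hU hρ hin hδ).2 q
    refine h1.comp (f := fun p : (ℝ × E4) × (ι × Fin 4 → ℝ) => ((p.1.1, p.2), p.1.2)) ?_ ?_
    · have : ContDiff ℝ ∞ (fun p : (ℝ × E4) × (ι × Fin 4 → ℝ) => ((p.1.1, p.2), p.1.2)) := by
        fun_prop
      exact this.contDiffOn
    · intro p hp
      exact ⟨⟨hp.1.1, mem_univ _⟩, hp.1.2⟩
  · change rep q (eta ρ hρ δ (y.1, w)) y.2 = 0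
    rw [rep_eq_pull, eta_zero hρ hρ2 δ y.1 hw, ← pullL_apply, map_zero]

/-- the coefficient forms -/
def cf (s : Bool) (n : ι × Fin 4 → ℤ) (ρ : ℝ) (hρ : 1 < ρ) (δ : ℝ × (ι → E4) → F2 E4 M) (e : ℝ) :
    F2 E4 M := fun x => (∫ w, tg s (ph n w) • at2 (eta ρ hρ δ (e, w)) x : Bil)

lemma at2_cf (s : Bool) (n : ι × Fin 4 → ℤ) (ρ : ℝ) (hρ : 1 < ρ) (δ : ℝ × (ι → E4) → F2 E4 M)
    (e : ℝ) (x : M) : at2 (cf s n ρ hρ δ e) x =
      ∫ w, tg s (ph n w) • at2 (eta ρ hρ δ (e, w)) x := rfl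

section
variable {U : Set (ι → E4)} (hU : IsOpen U) {e1 ρ : ℝ} (hρ : 1 < ρ) (hρ2 : ρ ≤ 7 / 2)
    (hin : ∀ e : ℝ, |e| < e1 → ∀ z : ι → E4, (∀ i, ‖z i‖ ≤ ρ) → e • z ∈ U)
    {δ : ℝ × (ι → E4) → F2 E4 M} (hδ : JSm {p : ℝ × (ι → E4) | p.1 • p.2 ∈ U} δ)
include hU hρ2 hin hδ

lemma cont_eta {e : ℝ} (he : |e| < e1) (x : M) :
    Continuous (fun w => at2 (eta ρ hρ δ (e, w)) x) := by
  have h1 := (adm_HH hU hρ hρ2 hin hδ x).cont (y := (e, chartAt E4 x x))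
    ⟨abs_lt.1 he, mem_chart_target E4 x⟩
  have h2 : (fun w => at2 (eta ρ hρ δ (e, w)) x) =
      fun w => HH x ρ hρ δ ((e, chartAt E4 x x), w) := by
    funext w
    exact at2_eq_rep _ _
  rw [h2]
  exact h1

lemma int_eta {e : ℝ} (he : |e| < e1) (x : M) (s : Bool) (n : ι × Fin 4 → ℤ) :
    Integrable (fun w => tg s (ph n w) • at2 (eta ρ hρ δ (e, w)) x) := by
  have hc : HasCompactSupport (fun w => at2 (eta ρ hρ δ (e, w)) x) :=
    HasCompactSupport.intro isCompact_Kc fun w hw => eta_zero hρ hρ2 δ e hw x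
  exact ((contDiff_tgph s n).continuous.smul
    (cont_eta hU hρ hρ2 hin hδ he x)).integrable_of_hasCompactSupport hc.smul_left

lemma rep_cf {e : ℝ} (he : |e| < e1) (s : Bool) (n : ι × Fin 4 → ℤ) (q : M) (y : E4) :
    rep q (cf s n ρ hρ δ e) y = coef s n (HH q ρ hρ δ) (e, y) := by
  rw [rep_eq_pull, at2_cf, ← pullL_apply, ← ContinuousLinearMap.integral_comp_comm _
    (int_eta hU hρ hρ2 hin hδ he _ s n)]
  refine integral_congr_ae (Eventually.of_forall fun w => ?_)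
  simp only
  rw [map_smul, pullL_apply, HH, rep_eq_pull]

lemma smooth2_cf {e : ℝ} (he : |e| < e1) (s : Bool) (n : ι × Fin 4 → ℤ) :
    Smooth2 (cf s n ρ hρ δ e) := by
  refine ⟨fun x v => ?_, fun q => ?_⟩
  · let ev : Bil →L[ℝ] ℝ := (ContinuousLinearMap.apply ℝ ℝ v).comp
      (ContinuousLinearMap.apply ℝ (E4 →L[ℝ] ℝ) v)
    have hev : ∀ c : Bil, ev c = c v v := fun c => rfl
    rw [at2_cf, ← hev, ← ContinuousLinearMap.integral_comp_comm _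
      (int_eta hU hρ hρ2 hin hδ he x s n)]
    refine integral_eq_zero_of_ae (Eventually.of_forall fun w => ?_)
    simp only [Pi.zero_apply]
    rw [map_smul, hev, (jsm_eta hU hρ hin hδ).1 (e, w) ⟨abs_lt.1 he, mem_univ _⟩ x v, smul_zero]
  · have h1 := contDiffOn_coef (isOpen_Ioo.prod (chartAt E4 q).open_target)
      (adm_HH hU hρ hρ2 hin hδ q) s n
    have h2 : ContDiffOn ℝ ∞ (fun y => coef s n (HH q ρ hρ δ) (e, y)) (chartAt E4 q).target := by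
      refine h1.comp (f := fun y : E4 => ((e, y) : ℝ × E4)) ?_ ?_
      · exact (contDiff_const.prodMk contDiff_id).contDiffOn
      · intro y hy
        exact ⟨abs_lt.1 he, hy⟩
    exact h2.congr fun y _ => rep_cf hU hρ hρ2 hin hδ he s n q y

lemma cm_cf (𝒰 : Cover M) {e0 : ℝ} (h01 : e0 < e1) (h00 : 0 ≤ e0) (m r : ℕ) :
    ∃ C, 0 ≤ C ∧ ∀ s n, ∀ e ∈ Icc 0 e0, 𝒰.cm m (cf s n ρ hρ δ e) ≤ C * (wt n ^ r)⁻¹ := by
  have hK : ∀ i : Fin 𝒰.N, IsCompact (Icc (0:ℝ) e0 ×ˢ 𝒰.K i) := fun i =>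
    isCompact_Icc.prod (𝒰.cpt i)
  have hKY : ∀ i : Fin 𝒰.N, Icc (0:ℝ) e0 ×ˢ 𝒰.K i ⊆
      Ioo (-e1) e1 ×ˢ (chartAt E4 (𝒰.p i)).target := fun i p hp =>
    ⟨⟨by linarith [hp.1.1, hp.1.2], by linarith [hp.1.2]⟩, 𝒰.sub i hp.2⟩
  choose C hC0 hC using fun (i : Fin 𝒰.N) (j : ℕ) =>
    coef_decay (isOpen_Ioo.prod (chartAt E4 (𝒰.p i)).open_target)
      (adm_HH hU hρ hρ2 hin hδ (𝒰.p i)) (hK i) (hKY i) j r
  refine ⟨∑ i, ∑ j ∈ Finset.range (m + 1), C i j,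
    Finset.sum_nonneg fun i _ => Finset.sum_nonneg fun j _ => hC0 i j, fun s n e he => ?_⟩
  have hw : 0 ≤ (wt n ^ r)⁻¹ := inv_nonneg.2 (pow_nonneg (wt_pos n).le r)
  have he' : |e| < e1 := by
    rw [abs_of_nonneg he.1]; linarith [he.2]
  refine cm_le 𝒰 (mul_nonneg (Finset.sum_nonneg fun i _ => Finset.sum_nonneg fun j _ => hC0 i j) hw)
    fun i j hj y hy => ?_
  have h1 : rep (𝒰.p i) (cf s n ρ hρ δ e) = fun y => coef s n (HH (𝒰.p i) ρ hρ δ) (e, y) :=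
    funext fun y => rep_cf hU hρ hρ2 hin hδ he' s n (𝒰.p i) y
  have h2 : ‖iteratedFDeriv ℝ j (rep (𝒰.p i) (cf s n ρ hρ δ e)) y‖ ≤
      ‖iteratedFDeriv ℝ j (coef s n (HH (𝒰.p i) ρ hρ δ)) (e, y)‖ := by
    rw [h1]
    exact norm_jy_le (isOpen_Ioo.prod (chartAt E4 (𝒰.p i)).open_target)
      (contDiffOn_coef (isOpen_Ioo.prod (chartAt E4 (𝒰.p i)).open_target)
        (adm_HH hU hρ hρ2 hin hδ (𝒰.p i)) s n) j (p := (e, y)) ⟨abs_lt.1 he', 𝒰.sub i hy⟩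
  refine (h2.trans (hC i j s n (e, y) ⟨he, hy⟩)).trans (mul_le_mul_of_nonneg_right ?_ hw)
  calc C i j ≤ ∑ j ∈ Finset.range (m + 1), C i j :=
        Finset.single_le_sum (f := fun j => C i j) (fun j _ => hC0 i j)
          (Finset.mem_range.2 (Nat.lt_succ_of_le hj))
    _ ≤ _ := Finset.single_le_sum (f := fun i => ∑ j ∈ Finset.range (m + 1), C i j)
          (fun i _ => Finset.sum_nonneg fun j _ => hC0 i j) (Finset.mem_univ i)

lemma summable_cf {e : ℝ} (he : |e| < e1) (x : M) (s : Bool) :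
    Summable (fun n : ι × Fin 4 → ℤ => ‖∫ w, tg s (ph n w) • at2 (eta ρ hρ δ (e, w)) x‖) := by
  obtain ⟨C, hC0, hC⟩ := coef_decay (isOpen_Ioo.prod (chartAt E4 x).open_target)
      (adm_HH hU hρ hρ2 hin hδ x) (K := {(e, chartAt E4 x x)}) isCompact_singleton
      (singleton_subset_iff.2 ⟨abs_lt.1 he, mem_chart_target E4 x⟩) 0 1
  refine Summable.of_nonneg_of_le (fun n => norm_nonneg _) (fun n => ?_)
    ((summable_wt_pow (d := ι × Fin 4) le_rfl).mul_left C)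
  have h1 := hC s n (e, chartAt E4 x x) rfl
  rw [norm_iteratedFDeriv_zero] at h1
  have h2 : (∫ w, tg s (ph n w) • at2 (eta ρ hρ δ (e, w)) x) =
      coef s n (HH x ρ hρ δ) (e, chartAt E4 x x) := by
    rw [← rep_cf hU hρ hρ2 hin hδ he s n x (chartAt E4 x x), ← at2_eq_rep]
    rfl
  rw [h2]
  exact h1

end

/-- **FOURIER EXPANSION of a jointly smooth family, divided by the scale.** -/
theorem exists_fou (𝒰 : Cover M) {U : Set (ι → E4)} (hU : IsOpen U)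
    (hs : ∀ z ∈ U, ∀ t ∈ Icc (0:ℝ) 1, t • z ∈ U) {e0 e1 ρ : ℝ} (h00 : 0 ≤ e0) (h01 : e0 < e1)
    (hρ : 1 < ρ) (hρ2 : ρ ≤ 7 / 2)
    (hin : ∀ e : ℝ, |e| < e1 → ∀ z : ι → E4, (∀ i, ‖z i‖ ≤ ρ) → e • z ∈ U)
    {β : (ι → E4) → F2 E4 M} (hβ : JSm U β) (h0 : ∀ x, at2 (β 0) x = 0) :
    ∃ c : Ix ι → ℝ → F2 E4 M, (∀ ν, ∀ e ∈ Icc 0 e0, Smooth2 (c ν e)) ∧
      (∀ m r : ℕ, ∃ C, 0 ≤ C ∧ ∀ ν : Ix ι, ∀ e ∈ Icc 0 e0,
        𝒰.cm m (c ν e) ≤ C * (wt ν.1.1 ^ r)⁻¹) ∧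
      (∀ e ∈ Icc 0 e0, ∀ z : ι → E4, (∀ i, ‖z i‖ ≤ 1) → ∀ x,
        HasSum (fun ν : Ix ι => (∏ i, tf ν i (z i)) • (e • at2 (c ν e) x))
          (at2 (β (e • z)) x)) := by
  obtain ⟨δ, hδ, hdiv⟩ := exists_div hU hs hβ h0
  have habs : ∀ e ∈ Icc (0:ℝ) e0, |e| < e1 := fun e he => by
    rw [abs_of_nonneg he.1]; linarith [he.2]
  refine ⟨fun ν e => cs ν.1.2 ν.2 • cf ν.1.2 ν.1.1 ρ hρ δ e, ?_, ?_, ?_⟩
  · intro ν e he
    exact Smooth2.smul _ (smooth2_cf hU hρ hρ2 hin hδ (habs e he) ν.1.2 ν.1.1)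
  · intro m r
    obtain ⟨C, hC0, hC⟩ := cm_cf hU hρ hρ2 hin hδ 𝒰 h01 h00 m r
    refine ⟨C, hC0, fun ν e he => ?_⟩
    rw [cm_smul 𝒰 m (smooth2_cf hU hρ hρ2 hin hδ (habs e he) ν.1.2 ν.1.1)]
    refine (mul_le_of_le_one_left (cm_nonneg 𝒰 m _) (abs_cs_le _ _)).trans ?_
    exact hC ν.1.2 ν.1.1 e he
  · intro e he z hz x
    have hz4 : ∀ i, ‖z i‖ ≤ 4 := fun i => (hz i).trans (by norm_num)
    have h1 := hasSum_prod (F := fun w => at2 (eta ρ hρ δ (e, w)) x)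
      (cont_eta hU hρ hρ2 hin hδ (habs e he) x) (fun w hw => eta_zero hρ hρ2 δ e hw x)
      (summable_cf hU hρ hρ2 hin hδ (habs e he) x) hz4
    have h2 := h1.const_smul e
    have hez : e • z ∈ U := hin e (habs e he) z fun i => (hz i).trans hρ.le
    have h3 : e • at2 (eta ρ hρ δ (e, wz z)) x = at2 (β (e • z)) x := by
      rw [hdiv e z hez x]
      congr 1
      simp only [eta]
      rw [zc_wz, cutZ_one hρ hz, one_smul]
    rw [h3] at h2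
    refine h2.congr_fun fun ν => ?_
    rw [at2_smul', at2_cf]
    simp only [smul_smul]
    congr 1
    ring

end

end Crest.Agent.R240.Lk
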