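import Mathlib
import Crest.Agent.R240.Sm2

/-!
# Row 240, block R (smoothing), part Sm2b (helper950)

Naturality of the exterior derivative and closedness of the pull-back.
-/

set_option autoImplicit false
set_option linter.unusedSectionVars false
set_option maxSynthPendingDepth 3

open Set Function Filter Metric Bundle
open scoped Manifold ContDiff Topology

namespace Crest.Agent.R240.Sm

open Crest.Agent.R240.Ch

noncomputable section

section Nat

variable {E : Type*} [NormedAddCommGroup E] [NormedSpace ℝ E]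

lemma dd_congr {a b : E → E →L[ℝ] E →L[ℝ] ℝ} {y : E} (h : a =ᶠ[𝓝 y] b) (u v w : E) :
    dd a y u v w = dd b y u v w := by
  simp only [dd, h.fderiv_eq]

lemma fderiv_apply2 {c : E → E →L[ℝ] E →L[ℝ] ℝ} {y : E} (hc : DifferentiableAt ℝ c y)
    (u v w : E) : fderiv ℝ (fun x => c x v w) y u = fderiv ℝ c y u v w := by
  have h1 : HasFDerivAt (fun x => c x v) ((fderiv ℝ c y).flip v) y := by
    have := hc.hasFDerivAt.clm_apply (hasFDerivAt_const v y)
    simpa using this
  have h2 : HasFDerivAt (fun x => c x v w) (((fderiv ℝ c y).flip v).flip w) y := by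
    have := h1.clm_apply (hasFDerivAt_const w y)
    simpa using this
  rw [h2.fderiv]
  rfl

lemma differentiable_pb :
    Differentiable ℝ (fun w : (E →L[ℝ] E →L[ℝ] ℝ) × (E →L[ℝ] E) => pb w.1 w.2) :=
  (contDiff_pb (E := E) (n := 1)).differentiable (by simp)

/-- **naturality of the exterior derivative.** -/
theorem dd_pb {b : E → E →L[ℝ] E →L[ℝ] ℝ} {g : E → E} {y : E}
    (halt : ∀ u v, b (g y) u v = - b (g y) v u)
    (hb : DifferentiableAt ℝ b (g y)) (hg : ContDiffAt ℝ 2 g y) (u v w : E) :
    dd (fun x => pb (b (g x)) (fderiv ℝ g x)) y u v w =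
      dd b (g y) (fderiv ℝ g y u) (fderiv ℝ g y v) (fderiv ℝ g y w) := by
  have hgd : DifferentiableAt ℝ g y := hg.differentiableAt (by simp)
  have hD : DifferentiableAt ℝ (fderiv ℝ g) y :=
    (hg.fderiv_right (m := 1) (by norm_num)).differentiableAt (by simp)
  have hbg : DifferentiableAt ℝ (fun x => b (g x)) y := hb.comp y hgd
  have hbg' : ∀ s, fderiv ℝ (fun x => b (g x)) y s = fderiv ℝ b (g y) (fderiv ℝ g y s) := by
    intro s
    have := fderiv_comp y hb hgd
    change fderiv ℝ (b ∘ g) y s = _
    rw [this]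
    rfl
  have hpb : DifferentiableAt ℝ (fun x => pb (b (g x)) (fderiv ℝ g x)) y :=
    DifferentiableAt.comp y (g := fun w : (E →L[ℝ] E →L[ℝ] ℝ) × (E →L[ℝ] E) => pb w.1 w.2)
      (f := fun x => (b (g x), fderiv ℝ g x)) (differentiable_pb _) (hbg.prodMk hD)
  have hDs : ∀ s t : E, DifferentiableAt ℝ (fun x => fderiv ℝ g x s) y := fun s _ =>
    hD.clm_apply (differentiableAt_const s)
  have hDs' : ∀ s t : E, fderiv ℝ (fun x => fderiv ℝ g x s) y t = fderiv ℝ (fderiv ℝ g) y t s := by
    intro s t
    have := (hD.hasFDerivAt.clm_apply (hasFDerivAt_const s y)).fderiv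
    rw [this]
    simp
  have hsym : ∀ s t : E, fderiv ℝ (fderiv ℝ g) y s t = fderiv ℝ (fderiv ℝ g) y t s := by
    have := hg.isSymmSndFDerivAt (by simp)
    exact fun s t => this s t
  have key : ∀ s t r : E, fderiv ℝ (fun x => pb (b (g x)) (fderiv ℝ g x)) y s t r =
      fderiv ℝ b (g y) (fderiv ℝ g y s) (fderiv ℝ g y t) (fderiv ℝ g y r)
      + b (g y) (fderiv ℝ (fderiv ℝ g) y s t) (fderiv ℝ g y r)
      + b (g y) (fderiv ℝ g y t) (fderiv ℝ (fderiv ℝ g) y s r) := by
    intro s t r
    rw [← fderiv_apply2 hpb]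
    have := fderiv_pair (b := fun x => b (g x)) (Y := fun x => fderiv ℝ g x t)
      (Z := fun x => fderiv ℝ g x r) hbg (hDs t t) (hDs r r) s
    rw [hbg', hDs', hDs'] at this
    exact this
  simp only [dd, key]
  rw [hsym v u, hsym w u, hsym w v,
    halt (fderiv ℝ (fderiv ℝ g) y u w) (fderiv ℝ g y v)]
  ring

end Nat

section Man

variable {E : Type*} [NormedAddCommGroup E] [NormedSpace ℝ E]
variable {M : Type*} [TopologicalSpace M] [ChartedSpace E M] [IsManifold 𝓘(ℝ, E) ∞ M]
variable {G : Fam E} {p : M}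

/-- closedness at a point can be checked in any chart. -/
lemma dd_change {a : F2 E M} (ha : Smooth2 a) {q p x : M} (hq : x ∈ (chartAt E q).source)
    (hp : x ∈ (chartAt E p).source) (u v w : E) :
    dd (rep q a) (chartAt E q x) u v w =
      dd (rep p a) (chartAt E p x) (tcc q p x u) (tcc q p x v) (tcc q p x w) := by
  have hy : chartAt E q x ∈ (chartAt E q).target := (chartAt E q).map_source hq
  have hpx : (chartAt E q).symm (chartAt E q x) ∈ (chartAt E p).source := by
    rw [(chartAt E q).left_inv hq]; exact hp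
  have ht := trans_contDiffAt hy hpx
  have htx : Ch.trans (E := E) q p (chartAt E q x) = chartAt E p x := trans_apply hq
  have h6 := (chartAt E q).open_target.mem_nhds hy
  have h7 : (chartAt E q).symm ⁻¹' (chartAt E p).source ∈ 𝓝 (chartAt E q x) :=
    ((chartAt E q).continuousAt_symm hy).preimage_mem_nhds
      ((chartAt E p).open_source.mem_nhds hpx)
  have hev : rep q a =ᶠ[𝓝 (chartAt E q x)] fun y =>
      pb (rep p a (Ch.trans (E := E) q p y)) (fderiv ℝ (Ch.trans (E := E) q p) y) := by
    filter_upwards [h6, h7] with y h6 h7 using rep_change h6 h7 a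
  rw [dd_congr hev, dd_pb]
  · rw [htx, tcc_eq_fderiv_trans]
  · intro u v
    exact ha.antisymm_rep p _ u v
  · rw [htx]
    exact ha.diff ((chartAt E p).map_source hp)
  · exact ht.of_le (by norm_cast)

/-- closedness can be checked in one chart around each point. -/
lemma closed2_of_local {a : F2 E M} (ha : Smooth2 a)
    (h : ∀ x : M, ∃ p : M, x ∈ (chartAt E p).source ∧
      ∀ u v w, dd (rep p a) (chartAt E p x) u v w = 0) : Closed2 a := by
  intro q y hy u v w
  obtain ⟨p, hp, hd⟩ := h ((chartAt E q).symm y)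
  have := dd_change ha (symm_mem hy) hp u v w
  rw [(chartAt E q).right_inv hy] at this
  rw [this, hd]

/-- **the pull-back of a closed form is closed.** -/
theorem closed2_pullG [T2Space M] (hG : G.K ⊆ (chartAt E p).target) {b : F2 E M}
    (hb : Smooth2 b) (hc : Closed2 b) {z : E} (hz : z ∈ ball (0 : E) G.r) :
    Closed2 (pullG G p z b) := by
  have hs := smooth2_pullG hG hb hz
  refine closed2_of_local hs fun x => ?_
  by_cases hx : x ∈ (chartAt E p).source
  · refine ⟨p, hx, fun u v w => ?_⟩
    have hy : chartAt E p x ∈ (chartAt E p).target := (chartAt E p).map_source hx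
    have hgy : G.g z (chartAt E p x) ∈ (chartAt E p).target := G.mem_of_mem hz hG hy
    have hev : rep p (pullG G p z b) =ᶠ[𝓝 (chartAt E p x)] fun y =>
        pb (rep p b (G.g z y)) (fderiv ℝ (G.g z) y) := by
      filter_upwards [(chartAt E p).open_target.mem_nhds hy] with y hy using rep_pullG hy z b
    rw [dd_congr hev, dd_pb]
    · exact hc p _ hgy _ _ _
    · intro u v
      exact hb.antisymm_rep p _ u v
    · exact hb.diff hgy
    · exact ((G.contDiff_g hz).contDiffAt).of_le (by norm_cast)
  · refine ⟨x, mem_chart_source E x, fun u v w => ?_⟩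
    have hx' : x ∉ KM G p := fun h => hx (KM_subset hG h)
    have hy : chartAt E x x ∈ (chartAt E x).target := mem_chart_target E x
    have hx'' : (chartAt E x).symm (chartAt E x x) ∉ KM G p := by
      rwa [(chartAt E x).left_inv (mem_chart_source E x)]
    have hev : rep x (pullG G p z b) =ᶠ[𝓝 (chartAt E x x)] rep x b := by
      have h2 : ∀ᶠ y' in 𝓝 (chartAt E x x), (chartAt E x).symm y' ∉ KM G p :=
        ((chartAt E x).continuousAt_symm hy).preimage_mem_nhds
          ((isClosed_KM hG).isOpen_compl.mem_nhds hx'')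
      filter_upwards [h2] with y hy
      rw [rep_eq_pb, rep_eq_pb, pullG_off hz hy]
    rw [dd_congr hev]
    exact hc x _ hy _ _ _

end Man

end

end Crest.Agent.R240.Sm
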