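import Mathlib
import Crest.Agent.R240.TopDefs
import Crest.Agent.R240.Sm2b
import Crest.Agent.R240.SmJoint
import Crest.Agent.R240.SmSlice
import Crest.Agent.R240.Ch6
import Crest.Agent.R240.XDefs

/-!
# Row 240, block R, Sm7 part b (helper245): `C^m` bounds of averages

* `cm_avg_le` : `cm m (avg κ β) ≤ (∫ |κ|) B` if `cm`-type bounds `B` hold for all `β z`,
  `z ∈ tsupport κ`;
* `cm_avg_sub_le` : the same for `avg κ β - (∫ κ) b`;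
* `A1`, `AL` : the one-chart average and the composition over a list;
* `cm_AL` : `cm m (AL b) ≤ C cm m b`, `cm m (AL b - b) ≤ C e cm (m+1) b`.
-/

set_option autoImplicit false
set_option maxSynthPendingDepth 3
set_option linter.unusedSectionVars false
set_option linter.style.haveILetI false

open Set Function Filter MeasureTheory Metric
open scoped Manifold ContDiff Topology

namespace Crest.Agent.R240.Sm7

open Crest.Agent.R240.Ch Crest.Agent.R240.Sm Crest.Agent.R240.SmJ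

noncomputable section

variable {M : Type*} [TopologicalSpace M] [ChartedSpace E4 M] [IsManifold 𝓘(ℝ, E4) ∞ M]

/-! ### the norms `cm` -/

theorem cm_le (𝒰 : Cover M) {m : ℕ} {b : F2 E4 M} {B : ℝ} (hB : 0 ≤ B)
    (h : ∀ i, ∀ y ∈ 𝒰.K i, ∀ j ≤ m, ‖iteratedFDeriv ℝ j (rep (𝒰.p i) b) y‖ ≤ B) :
    𝒰.cm m b ≤ B := by
  refine Real.sSup_le ?_ hB
  rintro r ⟨i, j, hj, y, hy, rfl⟩
  exact h i y hy j hj

theorem bddAbove_cm (𝒰 : Cover M) (m : ℕ) {b : F2 E4 M} (hb : Smooth2 b) :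
    BddAbove {r : ℝ | ∃ i, ∃ j ≤ m, ∃ y ∈ 𝒰.K i, r = ‖iteratedFDeriv ℝ j (rep (𝒰.p i) b) y‖} := by
  choose C hC hb' using fun i => bdd_rep hb (𝒰.p i) (𝒰.cpt i) (𝒰.sub i) m
  refine ⟨∑ i, C i, ?_⟩
  rintro r ⟨i, j, hj, y, hy, rfl⟩
  exact (hb' i j hj y hy).trans
    (Finset.single_le_sum (f := C) (fun i _ => hC i) (Finset.mem_univ i))

theorem le_cm (𝒰 : Cover M) {m : ℕ} {b : F2 E4 M} (hb : Smooth2 b) {i : Fin 𝒰.N} {y : E4}
    (hy : y ∈ 𝒰.K i) {j : ℕ} (hj : j ≤ m) :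
    ‖iteratedFDeriv ℝ j (rep (𝒰.p i) b) y‖ ≤ 𝒰.cm m b :=
  le_csSup (bddAbove_cm 𝒰 m hb) ⟨i, j, hj, y, hy, rfl⟩

theorem cm_nonneg (𝒰 : Cover M) (m : ℕ) (b : F2 E4 M) : 0 ≤ 𝒰.cm m b := by
  refine Real.sSup_nonneg ?_
  rintro r ⟨i, j, hj, y, hy, rfl⟩
  exact norm_nonneg _

theorem cm_mono (𝒰 : Cover M) {m n : ℕ} (h : m ≤ n) {b : F2 E4 M} (hb : Smooth2 b) :
    𝒰.cm m b ≤ 𝒰.cm n b :=
  cm_le 𝒰 (cm_nonneg 𝒰 n b) fun _ _ hy _ hj => le_cm 𝒰 hb hy (hj.trans h)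

theorem cm_add_le (𝒰 : Cover M) (m : ℕ) {a b : F2 E4 M} (ha : Smooth2 a) (hb : Smooth2 b) :
    𝒰.cm m (a + b) ≤ 𝒰.cm m a + 𝒰.cm m b := by
  refine cm_le 𝒰 (add_nonneg (cm_nonneg 𝒰 m a) (cm_nonneg 𝒰 m b)) fun i y hy j hj => ?_
  have hyt : y ∈ (chartAt E4 (𝒰.p i)).target := 𝒰.sub i hy
  have h1 : ContDiffAt ℝ j (rep (𝒰.p i) a) y :=
    ((ha.2 (𝒰.p i)).contDiffAt ((chartAt E4 (𝒰.p i)).open_target.mem_nhds hyt)).of_le
      (by exact_mod_cast (le_top : (j : ℕ∞) ≤ ⊤))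
  have h2 : ContDiffAt ℝ j (rep (𝒰.p i) b) y :=
    ((hb.2 (𝒰.p i)).contDiffAt ((chartAt E4 (𝒰.p i)).open_target.mem_nhds hyt)).of_le
      (by exact_mod_cast (le_top : (j : ℕ∞) ≤ ⊤))
  have e : rep (𝒰.p i) (a + b) = rep (𝒰.p i) a + rep (𝒰.p i) b := by
    funext y; exact rep_add' _ _ _ _
  rw [e, iteratedFDeriv_add_apply h1 h2]
  exact (norm_add_le _ _).trans (add_le_add (le_cm 𝒰 ha hy hj) (le_cm 𝒰 hb hy hj))

/-! ### averages -/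

section average
variable {Z : Type} [NormedAddCommGroup Z] [NormedSpace ℝ Z] [MeasureSpace Z] [BorelSpace Z]
  [IsFiniteMeasureOnCompacts (volume : Measure Z)]

theorem jets_avg {U : Set Z} (hU : IsOpen U) {κ : Z → ℝ} (hκ : Continuous κ)
    (hc : HasCompactSupport κ) (hs : tsupport κ ⊆ U) {β : Z → F2 E4 M} (h : JSm U β)
    (p : M) (j : ℕ) {y : E4} (hy : y ∈ (chartAt E4 p).target) :
    iteratedFDeriv ℝ j (rep p (avg κ β)) y =
      ∫ z, κ z • iteratedFDeriv ℝ j (rep p (β z)) y := by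
  have e : rep p (avg κ β) = fun y => ∫ z, κ z • (fun w : Z × E4 => rep p (β w.1) w.2) (z, y) := by
    funext y
    exact rep_avg hU hκ hc hs h p y
  rw [e, iteratedFDeriv_avg hU (chartAt E4 p).open_target hκ hc hs (h.2 p) j y hy]
  rfl

/-- (i) -/
theorem cm_avg_le (𝒰 : Cover M) {U : Set Z} (hU : IsOpen U) {κ : Z → ℝ} (hκ : Continuous κ)
    (hc : HasCompactSupport κ) (hs : tsupport κ ⊆ U) {β : Z → F2 E4 M} (h : JSm U β) {m : ℕ}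
    {B : ℝ} (hB0 : 0 ≤ B) (hB : ∀ z ∈ tsupport κ, ∀ i, ∀ y ∈ 𝒰.K i, ∀ j ≤ m,
      ‖iteratedFDeriv ℝ j (rep (𝒰.p i) (β z)) y‖ ≤ B) :
    𝒰.cm m (avg κ β) ≤ (∫ z, |κ z|) * B := by
  refine cm_le 𝒰 (mul_nonneg (integral_nonneg fun z => abs_nonneg _) hB0) fun i y hy j hj => ?_
  rw [jets_avg hU hκ hc hs h (𝒰.p i) j (𝒰.sub i hy)]
  exact norm_wt_le hκ hc fun z hz => hB z hz i y hy j hj

theorem jsm_sub_const {U : Set Z} {β : Z → F2 E4 M} (h : JSm U β) {b : F2 E4 M}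
    (hb : Smooth2 b) : JSm U (fun z => β z + (-1 : ℝ) • b) :=
  h.add ((JSm.const hb U).smul (f := fun _ => (-1 : ℝ)) contDiffOn_const)

theorem avg_sub_const {U : Set Z} (hU : IsOpen U) {κ : Z → ℝ} (hκ : Continuous κ)
    (hc : HasCompactSupport κ) (hs : tsupport κ ⊆ U) {β : Z → F2 E4 M} (h : JSm U β)
    (b : F2 E4 M) :
    avg κ (fun z => β z + (-1 : ℝ) • b) = avg κ β + (-(∫ z, κ z)) • b := by
  funext x
  change at2 (avg κ (fun z => β z + (-1 : ℝ) • b)) x = at2 (avg κ β + (-(∫ z, κ z)) • b) x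
  rw [at2_add', at2_smul', at2_avg, at2_avg]
  have h1 : ∀ z, κ z • at2 (β z + (-1 : ℝ) • b) x = κ z • at2 (β z) x + κ z • (-(at2 b x)) := by
    intro z
    rw [at2_add', at2_smul', smul_add, neg_one_smul]
  simp_rw [h1]
  rw [integral_add (integrable_smul_of hU hκ hc hs (h.continuousOn_at2 x))
    ((hκ.integrable_of_hasCompactSupport hc).smul_const _), integral_smul_const, smul_neg,
    neg_smul]

/-- (ii) -/
theorem cm_avg_sub_le (𝒰 : Cover M) {U : Set Z} (hU : IsOpen U) {κ : Z → ℝ} (hκ : Continuous κ)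
    (hc : HasCompactSupport κ) (hs : tsupport κ ⊆ U) {β : Z → F2 E4 M} (h : JSm U β)
    {b : F2 E4 M} (hb : Smooth2 b) {m : ℕ} {B : ℝ} (hB0 : 0 ≤ B)
    (hB : ∀ z ∈ tsupport κ, ∀ i, ∀ y ∈ 𝒰.K i, ∀ j ≤ m,
      ‖iteratedFDeriv ℝ j (rep (𝒰.p i) (β z)) y - iteratedFDeriv ℝ j (rep (𝒰.p i) b) y‖ ≤ B) :
    𝒰.cm m (avg κ β + (-(∫ z, κ z)) • b) ≤ (∫ z, |κ z|) * B := by
  rw [← avg_sub_const hU hκ hc hs h b]
  refine cm_avg_le 𝒰 hU hκ hc hs (jsm_sub_const h hb) hB0 fun z hz i y hy j hj => ?_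
  have hyt : y ∈ (chartAt E4 (𝒰.p i)).target := 𝒰.sub i hy
  have hle : ((j : ℕ) : WithTop ℕ∞) ≤ ∞ := by exact_mod_cast (le_top : (j : ℕ∞) ≤ ⊤)
  have h1 : ContDiffAt ℝ j (rep (𝒰.p i) (β z)) y :=
    (((h.smooth2 hU (hs hz)).2 (𝒰.p i)).contDiffAt
      ((chartAt E4 (𝒰.p i)).open_target.mem_nhds hyt)).of_le hle
  have h2 : ContDiffAt ℝ j (rep (𝒰.p i) b) y :=
    ((hb.2 (𝒰.p i)).contDiffAt ((chartAt E4 (𝒰.p i)).open_target.mem_nhds hyt)).of_le hle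
  have e : rep (𝒰.p i) (β z + (-1 : ℝ) • b) = rep (𝒰.p i) (β z) - rep (𝒰.p i) b := by
    funext y
    rw [rep_add', rep_smul', Pi.sub_apply, neg_one_smul, sub_eq_add_neg]
  rw [e, iteratedFDeriv_sub_apply h1 h2]
  exact hB z hz i y hy j hj

end average

/-! ### the one-chart averages -/

/-- the one-chart average `∫ κ(z) (ψ_{ez})^* b dz` -/
def A1 (G : Fam E4) (p : M) (κ : E4 → ℝ) (e : ℝ) (b : F2 E4 M) : F2 E4 M :=
  avg κ (fun z => pullG G p (e • z) b)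

/-- the composition of the one-chart averages over a list -/
def AL {ι : Type*} (G : ι → Fam E4) (p : ι → M) (κ : ι → E4 → ℝ) (l : List ι) (e : ℝ)
    (b : F2 E4 M) : F2 E4 M :=
  l.foldr (fun i b => A1 (G i) (p i) (κ i) e b) b

@[simp] lemma AL_nil {ι : Type*} (G : ι → Fam E4) (p : ι → M) (κ : ι → E4 → ℝ) (e : ℝ)
    (b : F2 E4 M) : AL G p κ [] e b = b := rfl

lemma AL_cons {ι : Type*} (G : ι → Fam E4) (p : ι → M) (κ : ι → E4 → ℝ) (i : ι) (l : List ι)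
    (e : ℝ) (b : F2 E4 M) :
    AL G p κ (i :: l) e b = A1 (G i) (p i) (κ i) e (AL G p κ l e b) := rfl

/-- kernels: continuous, supported in the unit ball -/
structure Ker (κ : E4 → ℝ) : Prop where
  cont : Continuous κ
  supp : tsupport κ ⊆ closedBall 0 1

lemma Ker.cpt {κ : E4 → ℝ} (h : Ker κ) : HasCompactSupport κ :=
  (isCompact_closedBall (0 : E4) 1).of_isClosed_subset (isClosed_tsupport κ) h.supp

section one
variable [T2Space M] {G : Fam E4} {p : M} (hG : G.K ⊆ (chartAt E4 p).target)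
include hG

theorem jsm_pull {b : F2 E4 M} (hb : Smooth2 b) :
    JSm (ball (0 : E4) G.r) (fun z => pullG G p z b) :=
  ⟨fun z _ x v => pullG_alt hb.1 z x v, fun q => contDiffOn_rep_pullG hG hb q⟩

theorem jsm_pull_smul {b : F2 E4 M} (hb : Smooth2 b) (e : ℝ) :
    JSm ((fun z : E4 => e • z) ⁻¹' ball (0 : E4) G.r) (fun z => pullG G p (e • z) b) :=
  (jsm_pull hG hb).comp (f := fun z : E4 => e • z) (contDiff_const_smul e).contDiffOn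
    fun _ hz => hz

omit hG in
theorem isOpen_pre (e : ℝ) : IsOpen ((fun z : E4 => e • z) ⁻¹' ball (0 : E4) G.r) :=
  isOpen_ball.preimage (continuous_const_smul e)

omit [T2Space M] hG in
theorem smul_mem {e ρ : ℝ} (he : 0 < e) (heρ : e ≤ ρ) {z : E4} (hz : z ∈ closedBall (0 : E4) 1) :
    e • z ∈ closedBall (0 : E4) ρ := by
  rw [mem_closedBall_zero_iff] at hz ⊢
  rw [norm_smul, Real.norm_eq_abs, abs_of_pos he]
  nlinarith [norm_nonneg z]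

omit [T2Space M] hG in
theorem supp_sub {κ : E4 → ℝ} (hk : Ker κ) {e ρ : ℝ} (he : 0 < e) (heρ : e ≤ ρ)
    (hρ : ρ < G.r) : tsupport κ ⊆ (fun z : E4 => e • z) ⁻¹' ball (0 : E4) G.r := by
  intro z hz
  have := smul_mem he heρ (hk.supp hz)
  rw [mem_closedBall_zero_iff] at this
  exact mem_ball_zero_iff.2 (this.trans_lt hρ)

theorem smooth2_A1 {κ : E4 → ℝ} (hk : Ker κ) {e ρ : ℝ} (he : 0 < e) (heρ : e ≤ ρ)
    (hρ : ρ < G.r) {b : F2 E4 M} (hb : Smooth2 b) : Smooth2 (A1 G p κ e b) :=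
  smooth2_avg (isOpen_pre e) hk.cont hk.cpt (supp_sub hk he heρ hρ) (jsm_pull_smul hG hb e)

end one

/-- bounds of the joint jets of the pull-backs (950: `JB_pullG`, constant family) -/
def PB (𝒰 : Cover M) (G : Fam E4) (p : M) (ρ : ℝ) : Prop :=
  ∀ m : ℕ, ∃ A : ℝ, 0 ≤ A ∧ ∀ b : F2 E4 M, Smooth2 b → ∀ k, ∀ z ∈ closedBall (0 : E4) ρ,
    ∀ y ∈ 𝒰.K k, ∀ j ≤ m,
      ‖iteratedFDeriv ℝ j (fun w : E4 × E4 => rep (𝒰.p k) (pullG G p w.1 b) w.2) (z, y)‖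
        ≤ A * 𝒰.cm m b

section two
variable [T2Space M] (𝒰 : Cover M) {G : Fam E4} {p : M} (hG : G.K ⊆ (chartAt E4 p).target)
include hG

theorem norm_jets_pull {ρ : ℝ} (hρ : ρ < G.r) {m : ℕ} {A : ℝ}
    (hA : ∀ b : F2 E4 M, Smooth2 b → ∀ k, ∀ z ∈ closedBall (0 : E4) ρ, ∀ y ∈ 𝒰.K k, ∀ j ≤ m,
      ‖iteratedFDeriv ℝ j (fun w : E4 × E4 => rep (𝒰.p k) (pullG G p w.1 b) w.2) (z, y)‖
        ≤ A * 𝒰.cm m b) {b : F2 E4 M} (hb : Smooth2 b) {k : Fin 𝒰.N} {z : E4}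
    (hz : z ∈ closedBall (0 : E4) ρ) {y : E4} (hy : y ∈ 𝒰.K k) {j : ℕ} (hj : j ≤ m) :
    ‖iteratedFDeriv ℝ j (rep (𝒰.p k) (pullG G p z b)) y‖ ≤ A * 𝒰.cm m b := by
  have hzr : z ∈ ball (0 : E4) G.r := closedBall_subset_ball hρ hz
  have h1 := norm_jy_le (isOpen_ball.prod (chartAt E4 (𝒰.p k)).open_target)
    (contDiffOn_rep_pullG hG hb (𝒰.p k)) j (p := (z, y)) ⟨hzr, 𝒰.sub k hy⟩
  exact h1.trans (hA b hb k z hz y hy j hj)

theorem norm_jets_pull_sub {ρ : ℝ} (hρ0 : 0 ≤ ρ) (hρ : ρ < G.r) {m : ℕ} {A : ℝ}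
    (hA : ∀ b : F2 E4 M, Smooth2 b → ∀ k, ∀ z ∈ closedBall (0 : E4) ρ, ∀ y ∈ 𝒰.K k,
      ∀ j ≤ m + 1,
      ‖iteratedFDeriv ℝ j (fun w : E4 × E4 => rep (𝒰.p k) (pullG G p w.1 b) w.2) (z, y)‖
        ≤ A * 𝒰.cm (m + 1) b) {b : F2 E4 M} (hb : Smooth2 b) {k : Fin 𝒰.N} {z : E4}
    (hz : z ∈ closedBall (0 : E4) ρ) {y : E4} (hy : y ∈ 𝒰.K k) {j : ℕ} (hj : j ≤ m) :
    ‖iteratedFDeriv ℝ j (rep (𝒰.p k) (pullG G p z b)) y - iteratedFDeriv ℝ j (rep (𝒰.p k) b) y‖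
      ≤ A * 𝒰.cm (m + 1) b * ‖z‖ := by
  have h1 := norm_jy_sub_le isOpen_ball (chartAt E4 (𝒰.p k)).open_target
    (contDiffOn_rep_pullG hG hb (𝒰.p k)) j (𝒰.sub k hy) (convex_closedBall (0 : E4) ρ)
    (closedBall_subset_ball hρ) (B := A * 𝒰.cm (m + 1) b)
    (fun w hw => hA b hb k w hw y hy (j + 1) (by omega))
    (mem_closedBall_self hρ0) hz
  rw [sub_zero] at h1
  have e0 : jy j (fun w : E4 × E4 => rep (𝒰.p k) (pullG G p w.1 b) w.2) (0, y) =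
      iteratedFDeriv ℝ j (rep (𝒰.p k) b) y := by
    change iteratedFDeriv ℝ j (rep (𝒰.p k) (pullG G p 0 b)) y = _
    rw [pullG_zero]
  rw [e0] at h1
  exact h1

theorem cm_A1 {ρ : ℝ} (hρ : ρ < G.r) (hPB : PB 𝒰 G p ρ) {κ : E4 → ℝ} (hk : Ker κ) (m : ℕ) :
    ∃ C : ℝ, 0 ≤ C ∧ ∀ e, 0 < e → e ≤ ρ → ∀ b : F2 E4 M, Smooth2 b →
      𝒰.cm m (A1 G p κ e b) ≤ C * 𝒰.cm m b ∧
      𝒰.cm m (A1 G p κ e b + (-(∫ z, κ z)) • b) ≤ C * e * 𝒰.cm (m + 1) b := by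
  obtain ⟨A, hA0, hA⟩ := hPB m
  obtain ⟨A', hA0', hA'⟩ := hPB (m + 1)
  have hI : 0 ≤ ∫ z, |κ z| := integral_nonneg fun z => abs_nonneg _
  refine ⟨(∫ z, |κ z|) * (A + A'), mul_nonneg hI (add_nonneg hA0 hA0'), fun e he heρ b hb => ?_⟩
  have hU := isOpen_pre (G := G) e
  have hsup := supp_sub (G := G) hk he heρ hρ
  have hJ := jsm_pull_smul hG hb e
  have hc0 := cm_nonneg 𝒰 m b
  have hc1 := cm_nonneg 𝒰 (m + 1) b
  constructor
  · refine (cm_avg_le 𝒰 hU hk.cont hk.cpt hsup hJ (mul_nonneg hA0 hc0)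
      fun z hz i y hy j hj => norm_jets_pull 𝒰 hG hρ hA hb (smul_mem he heρ (hk.supp hz)) hy
        hj).trans ?_
    rw [← mul_assoc]
    refine mul_le_mul_of_nonneg_right ?_ hc0
    exact mul_le_mul_of_nonneg_left (by linarith) hI
  · have hB : 0 ≤ A' * 𝒰.cm (m + 1) b * e := by positivity
    refine (cm_avg_sub_le 𝒰 hU hk.cont hk.cpt hsup hJ hb hB fun z hz i y hy j hj => ?_).trans ?_
    · refine (norm_jets_pull_sub 𝒰 hG (he.le.trans heρ) hρ hA' hb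
        (smul_mem he heρ (hk.supp hz)) hy hj).trans ?_
      refine mul_le_mul_of_nonneg_left ?_ (mul_nonneg hA0' hc1)
      have := hk.supp hz
      rw [mem_closedBall_zero_iff] at this
      rw [norm_smul, Real.norm_eq_abs, abs_of_pos he]
      nlinarith [norm_nonneg z]
    · have e1 : (∫ z, |κ z|) * (A' * 𝒰.cm (m + 1) b * e) =
          (∫ z, |κ z|) * A' * (e * 𝒰.cm (m + 1) b) := by ring
      have e2 : (∫ z, |κ z|) * (A + A') * e * 𝒰.cm (m + 1) b =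
          (∫ z, |κ z|) * (A + A') * (e * 𝒰.cm (m + 1) b) := by ring
      rw [e1, e2]
      exact mul_le_mul_of_nonneg_right (mul_le_mul_of_nonneg_left (by linarith) hI)
        (mul_nonneg he.le hc1)

end two

section list
variable [T2Space M] (𝒰 : Cover M) {ι : Type*} {G : ι → Fam E4} {p : ι → M}
  (hG : ∀ i, (G i).K ⊆ (chartAt E4 (p i)).target)
include hG

theorem smooth2_AL {κ : ι → E4 → ℝ} (hk : ∀ i, Ker (κ i)) {ρ : ι → ℝ} (hρ : ∀ i, ρ i < (G i).r)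
    (l : List ι) {e : ℝ} (he : 0 < e) (heρ : ∀ i ∈ l, e ≤ ρ i) {b : F2 E4 M} (hb : Smooth2 b) :
    Smooth2 (AL G p κ l e b) := by
  induction l with
  | nil => exact hb
  | cons i l ih =>
    rw [AL_cons]
    exact smooth2_A1 (hG i) (hk i) he (heρ i (by simp)) (hρ i)
      (ih fun k hk' => heρ k (List.mem_cons_of_mem _ hk'))

/-- (iii) -/
theorem cm_AL {κ : ι → E4 → ℝ} (hk : ∀ i, Ker (κ i)) {ρ : ι → ℝ} (hρ : ∀ i, ρ i < (G i).r)
    (hPB : ∀ i, PB 𝒰 (G i) (p i) (ρ i)) (l : List ι) (m : ℕ) :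
    ∃ C : ℝ, 0 ≤ C ∧ ∀ e, 0 < e → (∀ i ∈ l, e ≤ ρ i) → ∀ b : F2 E4 M, Smooth2 b →
      𝒰.cm m (AL G p κ l e b) ≤ C * 𝒰.cm m b := by
  induction l with
  | nil => exact ⟨1, zero_le_one, fun e _ _ b _ => by rw [AL_nil, one_mul]⟩
  | cons i l ih =>
    obtain ⟨C, hC, h⟩ := ih
    obtain ⟨C', hC', h'⟩ := cm_A1 𝒰 (hG i) (hρ i) (hPB i) (hk i) m
    refine ⟨C' * C, mul_nonneg hC' hC, fun e he heρ b hb => ?_⟩
    have hl : ∀ k ∈ l, e ≤ ρ k := fun k hk' => heρ k (List.mem_cons_of_mem _ hk')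
    rw [AL_cons, mul_assoc]
    refine ((h' e he (heρ i (by simp)) _ (smooth2_AL hG hk hρ l he hl hb)).1).trans ?_
    exact mul_le_mul_of_nonneg_left (h e he hl b hb) hC'

/-- (iii) -/
theorem cm_AL_sub {κ : ι → E4 → ℝ} (hk : ∀ i, Ker (κ i)) (hk1 : ∀ i, ∫ z, κ i z = 1)
    {ρ : ι → ℝ} (hρ : ∀ i, ρ i < (G i).r)
    (hPB : ∀ i, PB 𝒰 (G i) (p i) (ρ i)) (l : List ι) (m : ℕ) :
    ∃ C : ℝ, 0 ≤ C ∧ ∀ e, 0 < e → (∀ i ∈ l, e ≤ ρ i) → ∀ b : F2 E4 M, Smooth2 b →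
      𝒰.cm m (AL G p κ l e b - b) ≤ C * e * 𝒰.cm (m + 1) b := by
  induction l with
  | nil =>
    refine ⟨0, le_rfl, fun e _ _ b _ => ?_⟩
    rw [AL_nil, sub_self, zero_mul, zero_mul]
    refine cm_le 𝒰 le_rfl fun i y _ j _ => ?_
    have e0 : rep (𝒰.p i) (0 : F2 E4 M) = fun _ => (0 : Bil) := by
      funext y; exact rep_zero' _ _
    rw [e0, iteratedFDeriv_fun_zero]
    exact le_of_eq norm_zero
  | cons i l ih =>
    obtain ⟨C, hC, h⟩ := ih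
    obtain ⟨C1, hC1, h1⟩ := cm_A1 𝒰 (hG i) (hρ i) (hPB i) (hk i) m
    obtain ⟨C2, hC2, h2⟩ := cm_AL 𝒰 hG hk hρ hPB l (m + 1)
    refine ⟨C1 * C2 + C, add_nonneg (mul_nonneg hC1 hC2) hC, fun e he heρ b hb => ?_⟩
    have hl : ∀ k ∈ l, e ≤ ρ k := fun k hk' => heρ k (List.mem_cons_of_mem _ hk')
    have hc := smooth2_AL hG hk hρ l he hl hb
    have hcc := smooth2_A1 (hG i) (hk i) he (heρ i (by simp)) (hρ i) hc
    have hsub : ∀ {a b : F2 E4 M}, Smooth2 a → Smooth2 b → Smooth2 (a - b) := by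
      intro a b ha hb
      have : a - b = a + (-1 : ℝ) • b := by rw [neg_one_smul, sub_eq_add_neg]
      rw [this]
      exact ha.add (hb.smul (-1))
    have e1 : AL G p κ (i :: l) e b - b =
        (A1 (G i) (p i) (κ i) e (AL G p κ l e b) + (-(∫ z, κ i z)) • AL G p κ l e b) +
          (AL G p κ l e b - b) := by
      rw [AL_cons, hk1 i, neg_one_smul]
      abel
    have hsm : Smooth2 (A1 (G i) (p i) (κ i) e (AL G p κ l e b) +
        (-(∫ z, κ i z)) • AL G p κ l e b) := hcc.add (hc.smul _)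
    rw [e1]
    refine (cm_add_le 𝒰 m hsm (hsub hc hb)).trans ?_
    have h3 := (h1 e he (heρ i (by simp)) _ hc).2
    have h4 := h2 e he hl b hb
    have h5 := h e he hl b hb
    have h6 : C1 * e * 𝒰.cm (m + 1) (AL G p κ l e b) ≤ C1 * e * (C2 * 𝒰.cm (m + 1) b) :=
      mul_le_mul_of_nonneg_left h4 (mul_nonneg hC1 he.le)
    nlinarith [h3, h5, h6]

end list

end

end Crest.Agent.R240.Sm7
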