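import Mathlib
import Crest.Agent.R240.Sm2b

/-!
# Row 240, block R (smoothing), part Sm2c (helper950)

Families of operators on two-forms depending smoothly on parameters and lying over a family of
maps of `M`: the predicate `LF`.
-/

set_option autoImplicit false
set_option linter.unusedSectionVars false
set_option maxSynthPendingDepth 3

open Set Function Filter Metric Bundle
open scoped Manifold ContDiff Topology

namespace Crest.Agent.R240.Sm

open Crest.Agent.R240.Ch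

noncomputable section

section PbL

variable {E : Type*} [NormedAddCommGroup E] [NormedSpace ℝ E]

/-- the pull-back by `D` as a continuous linear map on bilinear forms. -/
def pbL (D : E →L[ℝ] E) : (E →L[ℝ] E →L[ℝ] ℝ) →L[ℝ] (E →L[ℝ] E →L[ℝ] ℝ) :=
  (ContinuousLinearMap.compL ℝ E (E →L[ℝ] ℝ) (E →L[ℝ] ℝ)
    ((ContinuousLinearMap.compL ℝ E E ℝ).flip D)).comp
      ((ContinuousLinearMap.compL ℝ E E (E →L[ℝ] ℝ)).flip D)

@[simp] lemma pbL_apply (D : E →L[ℝ] E) (b : E →L[ℝ] E →L[ℝ] ℝ) : pbL D b = pb b D := by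
  ext u v; rfl

lemma contDiff_pbL {n : WithTop ℕ∞} : ContDiff ℝ n (pbL (E := E)) := by
  have h1 : ContDiff ℝ n (fun D : E →L[ℝ] E => (ContinuousLinearMap.compL ℝ E E ℝ).flip D) :=
    ContinuousLinearMap.contDiff _
  have h2 : ContDiff ℝ n (fun A : (E →L[ℝ] ℝ) →L[ℝ] (E →L[ℝ] ℝ) =>
      ContinuousLinearMap.compL ℝ E (E →L[ℝ] ℝ) (E →L[ℝ] ℝ) A) := ContinuousLinearMap.contDiff _
  have h3 : ContDiff ℝ n (fun D : E →L[ℝ] E =>
      (ContinuousLinearMap.compL ℝ E E (E →L[ℝ] ℝ)).flip D) := ContinuousLinearMap.contDiff _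
  exact (h2.comp h1).clm_comp h3

end PbL

section LF

variable {E : Type*} [NormedAddCommGroup E] [NormedSpace ℝ E]
variable {M : Type*} [TopologicalSpace M] [ChartedSpace E M] [IsManifold 𝓘(ℝ, E) ∞ M]
variable {W : Type*} [NormedAddCommGroup W] [NormedSpace ℝ W]

/-- **families of operators on two-forms over a family of maps of `M`**, jointly smooth. -/
def LF (U : Set W) (T : W → F2 E M → F2 E M) (φ : W → M → M) : Prop :=
  ∀ w0 ∈ U, ∀ q : M, ∀ y0 ∈ (chartAt E q).target, ∀ k : M,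
    φ w0 ((chartAt E q).symm y0) ∈ (chartAt E k).source →
    ∃ N : Set (W × E), IsOpen N ∧ (w0, y0) ∈ N ∧ N ⊆ U ×ˢ (chartAt E q).target ∧
      (∀ v ∈ N, φ v.1 ((chartAt E q).symm v.2) ∈ (chartAt E k).source) ∧
      ContDiffOn ℝ ∞ (fun v : W × E => chartAt E k (φ v.1 ((chartAt E q).symm v.2))) N ∧
      ∃ Λ : W × E → ((E →L[ℝ] E →L[ℝ] ℝ) →L[ℝ] (E →L[ℝ] E →L[ℝ] ℝ)), ContDiffOn ℝ ∞ Λ N ∧
        ∀ v ∈ N, ∀ b : F2 E M, rep q (T v.1 b) v.2 =
          Λ v (rep k b (chartAt E k (φ v.1 ((chartAt E q).symm v.2))))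

/-- composition -/
theorem LF.comp {U : Set W} {T T' : W → F2 E M → F2 E M} {φ φ' : W → M → M}
    (h : LF U T φ) (h' : LF U T' φ') :
    LF U (fun w b => T w (T' w b)) (fun w x => φ' w (φ w x)) := by
  intro w0 hw0 q y0 hy0 k hk
  obtain ⟨N1, ho1, hm1, hs1, hc1, hV1, Λ1, hΛ1, hr1⟩ :=
    h w0 hw0 q y0 hy0 (φ w0 ((chartAt E q).symm y0)) (mem_chart_source E _)
  set l := φ w0 ((chartAt E q).symm y0) with hl
  have hy1 : chartAt E l l ∈ (chartAt E l).target := mem_chart_target E l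
  have hl2 : (chartAt E l).symm (chartAt E l l) = l := (chartAt E l).left_inv (mem_chart_source E l)
  obtain ⟨N2, ho2, hm2, hs2, hc2, hV2, Λ2, hΛ2, hr2⟩ :=
    h' w0 hw0 l (chartAt E l l) hy1 k (by rw [hl2]; exact hk)
  set V1 : W × E → E := fun v => chartAt E l (φ v.1 ((chartAt E q).symm v.2)) with hV1d
  set Φ : W × E → W × E := fun v => (v.1, V1 v) with hΦ
  have hΦs : ContDiffOn ℝ ∞ Φ N1 := contDiffOn_fst.prodMk hV1
  have hback : ∀ v ∈ N1, (chartAt E l).symm (V1 v) = φ v.1 ((chartAt E q).symm v.2) :=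
    fun v hv => (chartAt E l).left_inv (hc1 v hv)
  refine ⟨N1 ∩ Φ ⁻¹' N2, hΦs.continuousOn.isOpen_inter_preimage ho1 ho2, ⟨hm1, ?_⟩,
    fun v hv => hs1 hv.1, ?_, ?_, ?_⟩
  · exact hm2
  · intro v hv
    have := hc2 (Φ v) hv.2
    simp only [hΦ, hback v hv.1] at this
    exact this
  · have h3 : ContDiffOn ℝ ∞ (fun v : W × E =>
        chartAt E k (φ' (Φ v).1 ((chartAt E l).symm (Φ v).2))) (N1 ∩ Φ ⁻¹' N2) :=
      hV2.comp (hΦs.mono inter_subset_left) (fun v hv => hv.2)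
    refine h3.congr fun v hv => ?_
    simp only [hΦ, hback v hv.1]
  · refine ⟨fun v => (Λ1 v).comp (Λ2 (Φ v)), ?_, ?_⟩
    · exact (hΛ1.mono inter_subset_left).clm_comp
        (hΛ2.comp (hΦs.mono inter_subset_left) (fun v hv => hv.2))
    · intro v hv b
      rw [hr1 v hv.1, ContinuousLinearMap.comp_apply]
      congr 1
      have := hr2 (Φ v) hv.2 b
      simp only [hΦ, hback v hv.1] at this
      exact this

/-- smooth reparametrisation -/
theorem LF.reparam {W' : Type*} [NormedAddCommGroup W'] [NormedSpace ℝ W'] {U : Set W}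
    {U' : Set W'} {T : W → F2 E M → F2 E M} {φ : W → M → M} (h : LF U T φ) (hU' : IsOpen U')
    {f : W' → W} (hf : ContDiffOn ℝ ∞ f U') (hm : MapsTo f U' U) :
    LF U' (fun w => T (f w)) (fun w => φ (f w)) := by
  intro w0 hw0 q y0 hy0 k hk
  obtain ⟨N, ho, hmem, hs, hc, hV, Λ, hΛ, hr⟩ := h (f w0) (hm hw0) q y0 hy0 k hk
  set Φ : W' × E → W × E := fun v => (f v.1, v.2) with hΦ
  have hΦs : ContDiffOn ℝ ∞ Φ (U' ×ˢ univ) :=
    (hf.comp contDiffOn_fst (fun v hv => hv.1)).prodMk contDiffOn_snd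
  refine ⟨(U' ×ˢ univ) ∩ Φ ⁻¹' N,
    hΦs.continuousOn.isOpen_inter_preimage (hU'.prod isOpen_univ) ho, ⟨⟨hw0, mem_univ _⟩, hmem⟩,
    ?_, ?_, ?_, ?_⟩
  · intro v hv
    exact ⟨hv.1.1, (hs hv.2).2⟩
  · intro v hv
    exact hc (Φ v) hv.2
  · exact hV.comp (hΦs.mono inter_subset_left) (fun v hv => hv.2)
  · exact ⟨fun v => Λ (Φ v), hΛ.comp (hΦs.mono inter_subset_left) (fun v hv => hv.2),
      fun v hv b => hr (Φ v) hv.2 b⟩

/-- tensorial families -/
theorem LF.of_rep {U : Set W} (hU : IsOpen U) {T : W → F2 E M → F2 E M}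
    (h : ∀ q : M, ∃ Λ : W × E → ((E →L[ℝ] E →L[ℝ] ℝ) →L[ℝ] (E →L[ℝ] E →L[ℝ] ℝ)),
      ContDiffOn ℝ ∞ Λ (U ×ˢ (chartAt E q).target) ∧
      ∀ w ∈ U, ∀ y ∈ (chartAt E q).target, ∀ b : F2 E M, rep q (T w b) y = Λ (w, y) (rep q b y)) :
    LF U T (fun _ x => x) := by
  intro w0 hw0 q y0 hy0 k hk
  obtain ⟨Λ, hΛ, hr⟩ := h q
  set S : Set E := (chartAt E q).target ∩ (chartAt E q).symm ⁻¹' (chartAt E k).source with hS
  have hSo : IsOpen S := (chartAt E q).isOpen_inter_preimage_symm (chartAt E k).open_source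
  have ht : ContDiffOn ℝ ∞ (Ch.trans (E := E) q k) S := fun y hy =>
    (trans_contDiffAt hy.1 hy.2).contDiffWithinAt
  have ht' : ContDiffOn ℝ ∞ (fderiv ℝ (Ch.trans (E := E) q k)) S :=
    ht.fderiv_of_isOpen hSo (by simp)
  refine ⟨U ×ˢ S, hU.prod hSo, ⟨hw0, hy0, hk⟩, fun v hv => ⟨hv.1, hv.2.1⟩, fun v hv => hv.2.2,
    ?_, fun v => (Λ v).comp (pbL (fderiv ℝ (Ch.trans (E := E) q k) v.2)), ?_, ?_⟩
  · exact ht.comp contDiffOn_snd (fun v hv => hv.2)
  · refine (hΛ.mono fun v hv => ⟨hv.1, hv.2.1⟩).clm_comp ?_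
    exact (contDiff_pbL (E := E) (n := ∞)).comp_contDiffOn
      (ht'.comp contDiffOn_snd (fun v hv => hv.2))
  · intro v hv b
    rw [hr v.1 hv.1 v.2 hv.2.1, ContinuousLinearMap.comp_apply, pbL_apply]
    congr 1
    exact rep_change hv.2.1 hv.2.2 b

theorem LF.id {U : Set W} (hU : IsOpen U) : LF (E := E) (M := M) U (fun _ b => b) (fun _ x => x) :=
  LF.of_rep hU fun _ => ⟨fun _ => ContinuousLinearMap.id ℝ _, contDiffOn_const,
    fun _ _ _ _ _ => rfl⟩

/-- pull-backs by one-chart diffeomorphisms. -/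
theorem LF.pullG [T2Space M] {G : Fam E} {p : M} (hG : G.K ⊆ (chartAt E p).target) {U : Set W}
    (hU : IsOpen U) {ζ : W → E} (hζ : ContDiffOn ℝ ∞ ζ U) (hm : MapsTo ζ U (ball 0 G.r)) :
    LF U (fun w => pullG G p (ζ w)) (fun w => psi G p (ζ w)) := by
  intro w0 hw0 q y0 hy0 k hk
  by_cases hx : (chartAt E q).symm y0 ∈ (chartAt E p).source
  · set S : Set E := (chartAt E q).target ∩ (chartAt E q).symm ⁻¹' (chartAt E p).source with hS
    have hSo : IsOpen S := (chartAt E q).isOpen_inter_preimage_symm (chartAt E p).open_source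
    have ht : ContDiffOn ℝ ∞ (Ch.trans (E := E) q p) S := fun y hy =>
      (trans_contDiffAt hy.1 hy.2).contDiffWithinAt
    have ht' : ContDiffOn ℝ ∞ (fderiv ℝ (Ch.trans (E := E) q p)) S :=
      ht.fderiv_of_isOpen hSo (by simp)
    have htm : ∀ y ∈ S, Ch.trans (E := E) q p y ∈ (chartAt E p).target := fun y hy =>
      (chartAt E p).map_source hy.2
    set Q : Set E := (chartAt E p).target ∩ (chartAt E p).symm ⁻¹' (chartAt E k).source with hQ
    have hQo : IsOpen Q := (chartAt E p).isOpen_inter_preimage_symm (chartAt E k).open_source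
    have hu : ContDiffOn ℝ ∞ (Ch.trans (E := E) p k) Q := fun y hy =>
      (trans_contDiffAt hy.1 hy.2).contDiffWithinAt
    have hu' : ContDiffOn ℝ ∞ (fderiv ℝ (Ch.trans (E := E) p k)) Q :=
      hu.fderiv_of_isOpen hQo (by simp)
    set P : W × E → E × E := fun v => (ζ v.1, Ch.trans (E := E) q p v.2) with hP
    have hPs : ContDiffOn ℝ ∞ P (U ×ˢ S) :=
      (hζ.comp contDiffOn_fst (fun v hv => hv.1)).prodMk
        (ht.comp contDiffOn_snd (fun v hv => hv.2))
    have hPm : MapsTo P (U ×ˢ S) (ball 0 G.r ×ˢ univ) := fun v hv => ⟨hm hv.1, mem_univ _⟩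
    set Y : W × E → E := fun v => G.g (ζ v.1) (Ch.trans (E := E) q p v.2) with hY
    have hYs : ContDiffOn ℝ ∞ Y (U ×ˢ S) := G.smooth.comp hPs hPm
    have hDs : ContDiffOn ℝ ∞ (fun v : W × E => G.dg (ζ v.1) (Ch.trans (E := E) q p v.2))
      (U ×ˢ S) := G.contDiffOn_dg.comp hPs hPm
    have hUS : IsOpen (U ×ˢ S) := hU.prod hSo
    have hpsi : ∀ v ∈ U ×ˢ S, psi G p (ζ v.1) ((chartAt E q).symm v.2) =
        (chartAt E p).symm (Y v) := by
      intro v hv
      rw [psi_of_mem hv.2.2]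
      rfl
    have hYt : ∀ v ∈ U ×ˢ S, Y v ∈ (chartAt E p).target := fun v hv =>
      G.mem_of_mem (hm hv.1) hG (htm _ hv.2)
    have hmem0 : (w0, y0) ∈ U ×ˢ S := ⟨hw0, hy0, hx⟩
    refine ⟨(U ×ˢ S) ∩ Y ⁻¹' Q, hYs.continuousOn.isOpen_inter_preimage hUS hQo,
      ⟨hmem0, hYt _ hmem0, ?_⟩, fun v hv => ⟨hv.1.1, hv.1.2.1⟩, ?_, ?_, ?_⟩
    · have := hpsi _ hmem0
      simp only at this
      rw [mem_preimage, ← this]
      exact hk
    · intro v hv
      beta_reduce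
      rw [hpsi v hv.1]
      exact hv.2.2
    · have h3 : ContDiffOn ℝ ∞ (fun v : W × E => Ch.trans (E := E) p k (Y v))
          ((U ×ˢ S) ∩ Y ⁻¹' Q) := hu.comp (hYs.mono inter_subset_left) (fun v hv => hv.2)
      refine h3.congr fun v hv => ?_
      simp only
      rw [hpsi v hv.1]
      rfl
    · refine ⟨fun v => (pbL (fderiv ℝ (Ch.trans (E := E) q p) v.2)).comp
        ((pbL (G.dg (ζ v.1) (Ch.trans (E := E) q p v.2))).comp
          (pbL (fderiv ℝ (Ch.trans (E := E) p k) (Y v)))), ?_, ?_⟩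
      · have h1 : ContDiffOn ℝ ∞ (fun v : W × E => fderiv ℝ (Ch.trans (E := E) q p) v.2)
            ((U ×ˢ S) ∩ Y ⁻¹' Q) := ht'.comp contDiffOn_snd (fun v hv => hv.1.2)
        have h2 : ContDiffOn ℝ ∞ (fun v : W × E => fderiv ℝ (Ch.trans (E := E) p k) (Y v))
            ((U ×ˢ S) ∩ Y ⁻¹' Q) := hu'.comp (hYs.mono inter_subset_left) (fun v hv => hv.2)
        have hc := contDiff_pbL (E := E) (n := ∞)
        exact (hc.comp_contDiffOn h1).clm_comp
          ((hc.comp_contDiffOn (hDs.mono inter_subset_left)).clm_comp (hc.comp_contDiffOn h2))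
      · intro v hv b
        simp only [ContinuousLinearMap.comp_apply, pbL_apply]
        have e1 : rep q (Sm.pullG G p (ζ v.1) b) v.2 =
            pb (rep p (Sm.pullG G p (ζ v.1) b) (Ch.trans (E := E) q p v.2))
              (fderiv ℝ (Ch.trans (E := E) q p) v.2) := rep_change hv.1.2.1 hv.1.2.2 _
        rw [e1, rep_pullG (htm _ hv.1.2)]
        have e2 : rep p b (Y v) = pb (rep k b (Ch.trans (E := E) p k (Y v)))
            (fderiv ℝ (Ch.trans (E := E) p k) (Y v)) := rep_change hv.2.1 hv.2.2 b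
        have e3 : chartAt E k (psi G p (ζ v.1) ((chartAt E q).symm v.2)) =
            Ch.trans (E := E) p k (Y v) := by
          rw [hpsi v hv.1]
          rfl
        rw [e3, ← e2]
  · have hx' : (chartAt E q).symm y0 ∉ KM G p := fun h => hx (KM_subset hG h)
    have hk' : (chartAt E q).symm y0 ∈ (chartAt E k).source := by
      have := psi_off (G := G) (p := p) (hm hw0) hx'
      simp only [this] at hk
      exact hk
    set S : Set E := (chartAt E q).target ∩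
      (chartAt E q).symm ⁻¹' ((chartAt E k).source ∩ (KM G p)ᶜ) with hS
    have hSo : IsOpen S := (chartAt E q).isOpen_inter_preimage_symm
      ((chartAt E k).open_source.inter (isClosed_KM hG).isOpen_compl)
    have ht : ContDiffOn ℝ ∞ (Ch.trans (E := E) q k) S := fun y hy =>
      (trans_contDiffAt hy.1 hy.2.1).contDiffWithinAt
    have ht' : ContDiffOn ℝ ∞ (fderiv ℝ (Ch.trans (E := E) q k)) S :=
      ht.fderiv_of_isOpen hSo (by simp)
    have hpsi : ∀ v ∈ U ×ˢ S, psi G p (ζ v.1) ((chartAt E q).symm v.2) =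
        (chartAt E q).symm v.2 := fun v hv => psi_off (hm hv.1) hv.2.2.2
    refine ⟨U ×ˢ S, hU.prod hSo, ⟨hw0, hy0, hk', hx'⟩, fun v hv => ⟨hv.1, hv.2.1⟩, ?_, ?_,
      fun v => pbL (fderiv ℝ (Ch.trans (E := E) q k) v.2), ?_, ?_⟩
    · intro v hv
      beta_reduce
      rw [hpsi v hv]
      exact hv.2.2.1
    · have h3 : ContDiffOn ℝ ∞ (fun v : W × E => Ch.trans (E := E) q k v.2) (U ×ˢ S) :=
        ht.comp contDiffOn_snd (fun v hv => hv.2)
      refine h3.congr fun v hv => ?_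
      simp only
      rw [hpsi v hv]
      rfl
    · exact (contDiff_pbL (E := E) (n := ∞)).comp_contDiffOn
        (ht'.comp contDiffOn_snd (fun v hv => hv.2))
    · intro v hv b
      beta_reduce
      rw [hpsi v hv, pbL_apply]
      have e1 : rep q (Sm.pullG G p (ζ v.1) b) v.2 = rep q b v.2 := by
        rw [rep_eq_pb, rep_eq_pb, pullG_off (hm hv.1) hv.2.2.2]
      rw [e1]
      exact rep_change hv.2.1 hv.2.2.1 b

/-- joint smoothness of `w ↦ T w (β w)`. -/
theorem LF.js {U : Set W} {T : W → F2 E M → F2 E M} {φ : W → M → M} (h : LF U T φ)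
    {β : W → F2 E M}
    (hβ : ∀ q : M, ContDiffOn ℝ ∞ (fun v : W × E => rep q (β v.1) v.2)
      (U ×ˢ (chartAt E q).target)) (q : M) :
    ContDiffOn ℝ ∞ (fun v : W × E => rep q (T v.1 (β v.1)) v.2) (U ×ˢ (chartAt E q).target) := by
  rintro ⟨w0, y0⟩ ⟨hw0, hy0⟩
  obtain ⟨N, ho, hmem, hs, hc, hV, Λ, hΛ, hr⟩ := h w0 hw0 q y0 hy0
    (φ w0 ((chartAt E q).symm y0)) (mem_chart_source E _)
  set k := φ w0 ((chartAt E q).symm y0) with hk
  set V : W × E → E := fun v => chartAt E k (φ v.1 ((chartAt E q).symm v.2)) with hVd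
  have h0 : MapsTo (fun v : W × E => (v.1, V v)) N (U ×ˢ (chartAt E k).target) :=
    fun v hv => ⟨(hs hv).1, (chartAt E k).map_source (hc v hv)⟩
  have h1 : ContDiffOn ℝ ∞ (fun v : W × E => rep k (β v.1) (V v)) N :=
    ContDiffOn.comp (g := fun v : W × E => rep k (β v.1) v.2) (f := fun v : W × E => (v.1, V v))
      (hβ k) (contDiffOn_fst.prodMk hV) h0
  have h2 : ContDiffOn ℝ ∞ (fun v : W × E => Λ v (rep k (β v.1) (V v))) N := hΛ.clm_apply h1
  have h4 : ContDiffAt ℝ ∞ (fun v : W × E => Λ v (rep k (β v.1) (V v))) (w0, y0) :=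
    (h2 (w0, y0) hmem).contDiffAt (ho.mem_nhds hmem)
  have h5 : (fun v : W × E => rep q (T v.1 (β v.1)) v.2) =ᶠ[𝓝 (w0, y0)]
      (fun v : W × E => Λ v (rep k (β v.1) (V v))) := by
    filter_upwards [ho.mem_nhds hmem] with v hv
    exact hr v hv (β v.1)
  exact (h4.congr_of_eventuallyEq h5).contDiffWithinAt

end LF

end

end Crest.Agent.R240.Sm
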