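import Mathlib
import Crest.Agent.R240.Sm2c
import Crest.Agent.R240.SmJoint

/-!
# Row 240, block R (smoothing), part Sm2d (helper950)

`LF` families act on jointly smooth families (`JSm` of `SmJoint`).
-/

set_option autoImplicit false
set_option linter.unusedSectionVars false
set_option maxSynthPendingDepth 3

open Set Function Filter Metric Bundle
open scoped Manifold ContDiff Topology

namespace Crest.Agent.R240.Sm

open Crest.Agent.R240.Ch

noncomputable section

variable {M : Type*} [TopologicalSpace M] [ChartedSpace E4 M] [IsManifold 𝓘(ℝ, E4) ∞ M]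
variable {W : Type*} [NormedAddCommGroup W] [NormedSpace ℝ W]

lemma pb_eq_pull (b : Bil) (D : E4 →L[ℝ] E4) : pb b D = pull D b := rfl

/-- `LF` families preserve joint smoothness. -/
theorem LF.jsm {U : Set W} {T : W → F2 E4 M → F2 E4 M} {φ : W → M → M} (h : LF U T φ)
    (halt : ∀ w ∈ U, ∀ b : F2 E4 M, (∀ x v, at2 b x v v = 0) → ∀ x v, at2 (T w b) x v v = 0)
    {β : W → F2 E4 M} (hβ : JSm U β) : JSm U (fun w => T w (β w)) :=
  ⟨fun w hw => halt w hw _ (hβ.1 w hw), fun q => h.js hβ.2 q⟩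

/-- pull-backs of a jointly smooth family. -/
theorem JSm.pullG [T2Space M] {G : Fam E4} {p : M} (hG : G.K ⊆ (chartAt E4 p).target)
    {U : Set W} (hU : IsOpen U) {ζ : W → E4} (hζ : ContDiffOn ℝ ∞ ζ U)
    (hm : MapsTo ζ U (ball 0 G.r)) {β : W → F2 E4 M} (hβ : JSm U β) :
    JSm U (fun w => Sm.pullG G p (ζ w) (β w)) :=
  (LF.pullG hG hU hζ hm).jsm (fun w _ _ hb x v => pullG_alt hb (ζ w) x v) hβ

/-- the family `z ↦ pullG G p z b`. -/
theorem jsm_pullG [T2Space M] {G : Fam E4} {p : M} (hG : G.K ⊆ (chartAt E4 p).target)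
    {b : F2 E4 M} (hb : Smooth2 b) : JSm (ball (0 : E4) G.r) (fun z => Sm.pullG G p z b) :=
  JSm.pullG hG isOpen_ball contDiffOn_id (mapsTo_id _) (JSm.const hb _)

end

end Crest.Agent.R240.Sm
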