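import Mathlib
import Crest.Agent.R240.SmJoint

/-!
Row 240, block SM (helper375): averages of jointly smooth families, continued.
-/

set_option autoImplicit false
set_option maxSynthPendingDepth 3
set_option linter.unusedSectionVars false
set_option linter.style.haveILetI false

open Set Function Filter Bundle MeasureTheory
open scoped Manifold ContDiff Topology
open Crest.Agent.R240.Ch

namespace Crest.Agent.R240.Sm

noncomputable section

section general

variable {Z : Type} [NormedAddCommGroup Z] [NormedSpace ℝ Z] [MeasureSpace Z] [BorelSpace Z]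
  [IsFiniteMeasureOnCompacts (volume : Measure Z)]

/-- **derivative of a parameter integral.** -/
theorem hasFDerivAt_integral {V : Type} [NormedAddCommGroup V] [NormedSpace ℝ V]
    [CompleteSpace V] {E' : Type} [NormedAddCommGroup E'] [NormedSpace ℝ E']
    {U : Set Z} (hU : IsOpen U) {W : Set E'} (hW : IsOpen W) {κ : Z → ℝ} (hκ : Continuous κ)
    (hc : HasCompactSupport κ) (hs : tsupport κ ⊆ U) {g : E' × Z → V}
    (hg : ContDiffOn ℝ ∞ g (W ×ˢ U)) {y : E'} (hy : y ∈ W) :
    HasFDerivAt (fun y => ∫ z, κ z • g (y, z)) (∫ z, κ z • SmJ.dx g (y, z)) y := by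
  have hKc : IsCompact (tsupport κ) := hc
  haveI : CompactSpace (tsupport κ) := isCompact_iff_compactSpace.1 hKc
  have hdg : ContDiffOn ℝ ∞ (SmJ.dx g) (W ×ˢ U) := SmJ.contDiffOn_dx (hW.prod hU) hg
  obtain ⟨Λ, hΛ⟩ := exists_intL (V := V) hKc hκ
  have h0 : ∀ (f : Z → V), ∫ z in tsupport κ, κ z • f z = ∫ z, κ z • f z := by
    intro f
    rw [setIntegral_eq_integral_of_forall_compl_eq_zero]
    intro z hz
    rw [image_eq_zero_of_notMem_tsupport hz, zero_smul]
  have hr := SmJ.hasFDerivAt_restr (tsupport κ) hW hU hs hg hy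
  have h1 := Λ.hasFDerivAt.comp y hr
  have h2 : (fun y => ∫ z, κ z • g (y, z)) =ᶠ[𝓝 y] fun y => Λ (SmJ.restr (tsupport κ) g y) := by
    filter_upwards [hW.mem_nhds hy] with y' hy'
    rw [hΛ _ (fun z => g (y', z)), h0 (fun z => g (y', z))]
    intro z
    exact SmJ.restr_apply (U := W) (W := U) hs hg.continuousOn hy' z
  have h3 : (∫ z, κ z • SmJ.dx g (y, z)) =
      Λ.comp (SmJ.swapL (tsupport κ) E' V (SmJ.restr (tsupport κ) (SmJ.dx g) y)) := by
    ext v
    have hint : Integrable (fun z => κ z • SmJ.dx g (y, z)) := by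
      refine integrable_smul_of hU hκ hc hs ?_
      exact hdg.continuousOn.comp (f := fun z : Z => ((y, z) : E' × Z)) (by fun_prop)
        fun z hz => ⟨hy, hz⟩
    rw [ContinuousLinearMap.integral_apply hint, ContinuousLinearMap.comp_apply,
      hΛ _ (fun z => SmJ.dx g (y, z) v), h0 (fun z => SmJ.dx g (y, z) v)]
    · rfl
    · intro z
      rw [SmJ.swapL_apply, SmJ.restr_apply (U := W) (W := U) hs hdg.continuousOn hy z]
  rw [h3]
  exact h1.congr_of_eventuallyEq h2

end general

variable {M : Type*} [TopologicalSpace M] [ChartedSpace E4 M] [IsManifold 𝓘(ℝ, E4) ∞ M]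

section average

variable {Z : Type} [NormedAddCommGroup Z] [NormedSpace ℝ Z] [MeasureSpace Z] [BorelSpace Z]
  [IsFiniteMeasureOnCompacts (volume : Measure Z)]

lemma avg_alt {U : Set Z} (hU : IsOpen U) {κ : Z → ℝ} (hκ : Continuous κ)
    (hc : HasCompactSupport κ) (hs : tsupport κ ⊆ U) {β : Z → F2 E4 M} (x : M)
    (hcont : ContinuousOn (fun z => at2 (β z) x) U) (h : ∀ z ∈ U, ∀ v, at2 (β z) x v v = 0)
    (v : E4) : at2 (avg κ β) x v v = 0 := by
  rw [at2_avg]
  have hint := integrable_smul_of hU hκ hc hs hcont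
  have hl : ∀ b : Bil, (ContinuousLinearMap.apply ℝ ℝ v) ((ContinuousLinearMap.apply ℝ
    (E4 →L[ℝ] ℝ) v) b) = b v v := fun b => rfl
  rw [← hl, ← ContinuousLinearMap.integral_comp_comm _ hint,
    ← ContinuousLinearMap.integral_comp_comm]
  · apply integral_eq_zero_of_ae
    filter_upwards with z
    rw [hl]
    by_cases hz : z ∈ U
    · simp [h z hz v]
    · have : κ z = 0 := image_eq_zero_of_notMem_tsupport fun h' => hz (hs h')
      simp [this]
  · exact (ContinuousLinearMap.apply ℝ (E4 →L[ℝ] ℝ) v).integrable_comp hint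

/-- **averages in one parameter of jointly smooth families are jointly smooth.** -/
theorem JSm.avg {Y : Type} [NormedAddCommGroup Y] [NormedSpace ℝ Y]
    {U : Set Z} (hU : IsOpen U) {V : Set Y} (hV : IsOpen V) {κ : Z → ℝ} (hκ : Continuous κ)
    (hc : HasCompactSupport κ) (hs : tsupport κ ⊆ U) {β : Z → Y → F2 E4 M}
    (h : JSm (U ×ˢ V) (fun w : Z × Y => β w.1 w.2)) :
    JSm V (fun y => Sm.avg κ (fun z => β z y)) := by
  have hslice : ∀ y ∈ V, JSm U (fun z => β z y) := fun y hy =>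
    h.comp (f := fun z => (z, y)) (by fun_prop) fun z hz => ⟨hz, hy⟩
  refine ⟨fun y hy x v => ?_, fun q => ?_⟩
  · exact avg_alt hU hκ hc hs x ((hslice y hy).continuousOn_at2 x)
      (fun z hz v => (hslice y hy).1 z hz x v) v
  · have h1 : ContDiffOn ℝ ∞ (fun w : (Y × E4) × Z => rep q (β w.2 w.1.1) w.1.2)
        ((V ×ˢ (chartAt E4 q).target) ×ˢ U) := by
      have h2 : ContDiffOn ℝ ∞ (fun w : (Y × E4) × Z => (((w.2, w.1.1), w.1.2) : (Z × Y) × E4))
          ((V ×ˢ (chartAt E4 q).target) ×ˢ U) :=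
        ((contDiff_snd.prodMk (contDiff_fst.comp contDiff_fst)).prodMk
          (contDiff_snd.comp contDiff_fst)).contDiffOn
      have h3 := h.2 q
      have h4 : MapsTo (fun w : (Y × E4) × Z => (((w.2, w.1.1), w.1.2) : (Z × Y) × E4))
          ((V ×ˢ (chartAt E4 q).target) ×ˢ U) ((U ×ˢ V) ×ˢ (chartAt E4 q).target) :=
        fun w hw => ⟨⟨hw.2, hw.1.1⟩, hw.1.2⟩
      generalize hG : (fun w : (Z × Y) × E4 =>
        rep q ((fun w : Z × Y => β w.1 w.2) w.1) w.2) = G at h3
      have h5 := h3.comp h2 h4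
      subst hG
      exact h5
    refine (contDiffOn_integral hU (hV.prod (chartAt E4 q).open_target) hκ hc hs h1).congr
      fun w hw => ?_
    exact rep_avg hU hκ hc hs (hslice w.1 hw.1) q w.2

/-- the differential of the average in a chart. -/
lemma fderiv_rep_avg {U : Set Z} (hU : IsOpen U) {κ : Z → ℝ} (hκ : Continuous κ)
    (hc : HasCompactSupport κ) (hs : tsupport κ ⊆ U) {β : Z → F2 E4 M} (h : JSm U β) (q : M)
    {y : E4} (hy : y ∈ (chartAt E4 q).target) :
    fderiv ℝ (rep q (Sm.avg κ β)) y = ∫ z, κ z • fderiv ℝ (rep q (β z)) y := by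
  have h3 := contDiffOn_swap (h.2 q)
  have h4 := hasFDerivAt_integral hU (chartAt E4 q).open_target hκ hc hs h3 hy
  have h5 : rep q (Sm.avg κ β) = fun y => ∫ z, κ z • rep q (β z) y := by
    funext y; exact rep_avg hU hκ hc hs h q y
  rw [h5, h4.fderiv]
  refine integral_congr_ae (Eventually.of_forall fun z => ?_)
  simp only
  by_cases hz : z ∈ U
  · have hd : DifferentiableAt ℝ (fun w : E4 × Z => rep q (β w.2) w.1) (y, z) :=
      (h3.contDiffAt (((chartAt E4 q).open_target.prod hU).mem_nhds ⟨hy, hz⟩)).differentiableAt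
        (by simp)
    rw [← (SmJ.hasFDerivAt_dx hd).fderiv]
  · have : κ z = 0 := image_eq_zero_of_notMem_tsupport fun h' => hz (hs h')
    rw [this, zero_smul, zero_smul]

lemma continuousOn_fderiv_rep {U : Set Z} (hU : IsOpen U) {β : Z → F2 E4 M} (h : JSm U β) (q : M)
    {y : E4} (hy : y ∈ (chartAt E4 q).target) :
    ContinuousOn (fun z => fderiv ℝ (rep q (β z)) y) U := by
  have h3 := contDiffOn_swap (h.2 q)
  have hdg := SmJ.contDiffOn_dx ((chartAt E4 q).open_target.prod hU) h3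
  have h4 : ContinuousOn (fun z => SmJ.dx (fun w : E4 × Z => rep q (β w.2) w.1) (y, z)) U :=
    hdg.continuousOn.comp (f := fun z : Z => ((y, z) : E4 × Z)) (by fun_prop)
        fun z hz => ⟨hy, hz⟩
  refine h4.congr fun z hz => ?_
  have hd : DifferentiableAt ℝ (fun w : E4 × Z => rep q (β w.2) w.1) (y, z) :=
    (h3.contDiffAt (((chartAt E4 q).open_target.prod hU).mem_nhds ⟨hy, hz⟩)).differentiableAt
      (by simp)
  exact (SmJ.hasFDerivAt_dx hd).fderiv

/-- evaluation of the exterior derivative as a continuous linear functional of the differential. -/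
def ddL (u v w : E4) : (E4 →L[ℝ] Bil) →L[ℝ] ℝ :=
  ((ContinuousLinearMap.apply ℝ ℝ w).comp ((ContinuousLinearMap.apply ℝ (E4 →L[ℝ] ℝ) v).comp
      (ContinuousLinearMap.apply ℝ Bil u)))
  - ((ContinuousLinearMap.apply ℝ ℝ w).comp ((ContinuousLinearMap.apply ℝ (E4 →L[ℝ] ℝ) u).comp
      (ContinuousLinearMap.apply ℝ Bil v)))
  + ((ContinuousLinearMap.apply ℝ ℝ v).comp ((ContinuousLinearMap.apply ℝ (E4 →L[ℝ] ℝ) u).comp
      (ContinuousLinearMap.apply ℝ Bil w)))

lemma dd_eq_ddL (b : E4 → Bil) (y u v w : E4) : dd b y u v w = ddL u v w (fderiv ℝ b y) := rfl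

/-- **averages of closed forms are closed.** -/
theorem closed2_avg {U : Set Z} (hU : IsOpen U) {κ : Z → ℝ} (hκ : Continuous κ)
    (hc : HasCompactSupport κ) (hs : tsupport κ ⊆ U) {β : Z → F2 E4 M} (h : JSm U β)
    (hcl : ∀ z ∈ U, Closed2 (β z)) : Closed2 (Sm.avg κ β) := by
  intro p y hy u v w
  rw [dd_eq_ddL, fderiv_rep_avg hU hκ hc hs h p hy, ← ContinuousLinearMap.integral_comp_comm _
    (integrable_smul_of hU hκ hc hs (continuousOn_fderiv_rep hU h p hy))]
  apply integral_eq_zero_of_ae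
  filter_upwards with z
  rw [map_smul, ← dd_eq_ddL]
  by_cases hz : z ∈ U
  · rw [hcl z hz p y hy]; simp
  · have : κ z = 0 := image_eq_zero_of_notMem_tsupport fun h' => hz (hs h')
    simp [this]

/-! ### algebra of averages -/

lemma avg_add_right {U : Set Z} (hU : IsOpen U) {κ : Z → ℝ} (hκ : Continuous κ)
    (hc : HasCompactSupport κ) (hs : tsupport κ ⊆ U) {β γ : Z → F2 E4 M}
    (hβ : JSm U β) (hγ : JSm U γ) :
    Sm.avg κ (fun z => β z + γ z) = Sm.avg κ β + Sm.avg κ γ := by
  funext x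
  change at2 (Sm.avg κ (fun z => β z + γ z)) x = at2 (Sm.avg κ β) x + at2 (Sm.avg κ γ) x
  simp only [at2_avg, at2_add', smul_add]
  exact integral_add (integrable_smul_of hU hκ hc hs (hβ.continuousOn_at2 x))
    (integrable_smul_of hU hκ hc hs (hγ.continuousOn_at2 x))

lemma avg_add_left {U : Set Z} (hU : IsOpen U) {κ κ' : Z → ℝ} (hκ : Continuous κ)
    (hc : HasCompactSupport κ) (hs : tsupport κ ⊆ U) (hκ' : Continuous κ')
    (hc' : HasCompactSupport κ') (hs' : tsupport κ' ⊆ U) {β : Z → F2 E4 M}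
    (hβ : JSm U β) :
    Sm.avg (fun z => κ z + κ' z) β = Sm.avg κ β + Sm.avg κ' β := by
  funext x
  change at2 (Sm.avg (fun z => κ z + κ' z) β) x = at2 (Sm.avg κ β) x + at2 (Sm.avg κ' β) x
  simp only [at2_avg, add_smul]
  exact integral_add (integrable_smul_of hU hκ hc hs (hβ.continuousOn_at2 x))
    (integrable_smul_of hU hκ' hc' hs' (hβ.continuousOn_at2 x))

lemma avg_smul_left (c : ℝ) (κ : Z → ℝ) (β : Z → F2 E4 M) :
    Sm.avg (fun z => c * κ z) β = c • Sm.avg κ β := by
  funext x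
  change at2 (Sm.avg (fun z => c * κ z) β) x = c • at2 (Sm.avg κ β) x
  simp only [at2_avg, mul_smul]
  exact integral_smul c _

lemma avg_smul_right (c : ℝ) (κ : Z → ℝ) (β : Z → F2 E4 M) :
    Sm.avg κ (fun z => c • β z) = c • Sm.avg κ β := by
  funext x
  change at2 (Sm.avg κ (fun z => c • β z)) x = c • at2 (Sm.avg κ β) x
  simp only [at2_avg, at2_smul', smul_comm _ c]
  exact integral_smul c _

lemma avg_fmul (f : M → ℝ) (κ : Z → ℝ) (β : Z → F2 E4 M) :
    Sm.avg κ (fun z => fmul f (β z)) = fmul f (Sm.avg κ β) := by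
  funext x
  change at2 (Sm.avg κ (fun z => fmul f (β z))) x = f x • at2 (Sm.avg κ β) x
  simp only [at2_avg, at2_fmul', smul_comm _ (f x)]
  exact integral_smul (f x) _

/-- congruence on the support of the kernel. -/
lemma at2_avg_congr {κ : Z → ℝ} {β γ : Z → F2 E4 M} {x : M}
    (h : ∀ z, κ z ≠ 0 → at2 (β z) x = at2 (γ z) x) :
    at2 (Sm.avg κ β) x = at2 (Sm.avg κ γ) x := by
  rw [at2_avg, at2_avg]
  refine integral_congr_ae (Eventually.of_forall fun z => ?_)
  simp only
  by_cases hz : κ z = 0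
  · rw [hz, zero_smul, zero_smul]
  · rw [h z hz]

lemma at2_avg_eq_zero {κ : Z → ℝ} {β : Z → F2 E4 M} {x : M}
    (h : ∀ z, κ z ≠ 0 → at2 (β z) x = 0) : at2 (Sm.avg κ β) x = 0 := by
  rw [at2_avg_congr (γ := fun _ => 0) (by intro z hz; rw [h z hz]; rfl), at2_avg]
  simp [at2_zero']

end average

end

end Crest.Agent.R240.Sm
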