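import Mathlib
import Crest.Agent.R240.Lk7
import Crest.Agent.R240.Fre
import Crest.Agent.R240.SmSys

/-!
# Row 240, LEAK (helper895), part 8: functionals of finite order and series of forms
-/

set_option autoImplicit false
set_option linter.unusedSectionVars false
set_option maxSynthPendingDepth 3

open Set Function Filter MeasureTheory Metric
open scoped Manifold ContDiff Topology

namespace Crest.Agent.R240.Lk

open Crest.Agent.R240.Ch Crest.Agent.R240.Sm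

noncomputable section

section series
variable {M : Type*} [TopologicalSpace M] [ChartedSpace E4 M] [IsManifold 𝓘(ℝ, E4) ∞ M]

lemma F2_ext {a b : F2 E4 M} (h : ∀ x, at2 a x = at2 b x) : a = b := funext h

lemma coe_sum_range (c : ℕ → X2 M) (N : ℕ) :
    ((∑ n ∈ Finset.range N, c n : X2 M) : F2 E4 M) = ∑ n ∈ Finset.range N, (c n : F2 E4 M) := by
  induction N with
  | zero => simp
  | succ N ih => rw [Finset.sum_range_succ, Finset.sum_range_succ, ← ih, X2.coe_add]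

/-- functionals of finite order commute with series, sequences. -/
theorem hasSum_L_nat [T2Space M] (𝒰 : Cover M) (c : ℕ → X2 M)
    (hs : ∀ l, Summable fun n => 𝒰.cm l (c n : F2 E4 M)) (S : X2 M)
    (hS : ∀ x, HasSum (fun n => at2 (c n : F2 E4 M) x) (at2 (S : F2 E4 M) x))
    (L : X2 M →ₗ[ℝ] ℝ) {m : ℕ} {K : ℝ} (hL : ∀ b : X2 M, |L b| ≤ K * 𝒰.cm m (b : F2 E4 M)) :
    HasSum (fun n => L (c n)) (L S) := by
  obtain ⟨s, hsm, hsum, -, hlim⟩ := cm_complete 𝒰 (fun n => (c n : F2 E4 M)) (fun n => (c n).2) hs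
  have hsS : s = (S : F2 E4 M) := F2_ext fun x => (hsum x).unique (hS x)
  have hsumL : Summable fun n => L (c n) :=
    Summable.of_norm_bounded ((hs m).mul_left K) fun n => by
      rw [Real.norm_eq_abs]; exact hL (c n)
  have h1 : Tendsto (fun N => ∑ n ∈ Finset.range N, L (c n)) atTop (𝓝 (L S)) := by
    rw [tendsto_iff_norm_sub_tendsto_zero]
    have h2 := (hlim m).const_mul K
    rw [mul_zero] at h2
    refine squeeze_zero (fun N => norm_nonneg _) (fun N => ?_) h2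
    have e1 : (∑ n ∈ Finset.range N, L (c n)) - L S = -L (S - ∑ n ∈ Finset.range N, c n) := by
      rw [map_sub, map_sum]; ring
    rw [e1, norm_neg, Real.norm_eq_abs]
    refine (hL _).trans (le_of_eq ?_)
    rw [X2.coe_sub, coe_sum_range, hsS]
  have h3 := hsumL.hasSum
  rwa [tendsto_nhds_unique h3.tendsto_sum_nat h1] at h3

/-- functionals of finite order commute with series. -/
theorem hasSum_L [T2Space M] (𝒰 : Cover M) {I : Type} [Countable I] (c : I → X2 M)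
    (hs : ∀ l, Summable fun i => 𝒰.cm l (c i : F2 E4 M)) (S : X2 M)
    (hS : ∀ x, HasSum (fun i => at2 (c i : F2 E4 M) x) (at2 (S : F2 E4 M) x))
    (L : X2 M →ₗ[ℝ] ℝ) {m : ℕ} {K : ℝ} (hL : ∀ b : X2 M, |L b| ≤ K * 𝒰.cm m (b : F2 E4 M)) :
    HasSum (fun i => L (c i)) (L S) := by
  classical
  have : Encodable I := Encodable.ofCountable I
  have hinj : Injective (Encodable.encode : I → ℕ) := Encodable.encode_injective
  set c' : ℕ → X2 M := extend (Encodable.encode : I → ℕ) c 0 with hc'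
  have h1 : ∀ i, c' (Encodable.encode i) = c i := fun i => hinj.extend_apply c 0 i
  have h2 : ∀ n, n ∉ range (Encodable.encode : I → ℕ) → c' n = 0 := by
    intro n hn
    rw [hc', extend_apply']
    · rfl
    · rintro ⟨i, hi⟩
      exact hn ⟨i, hi⟩
  have hs' : ∀ l, Summable fun n => 𝒰.cm l (c' n : F2 E4 M) := by
    intro l
    rw [← hinj.summable_iff]
    · refine (hs l).congr fun i => ?_
      simp only [comp_apply, h1]
    · intro n hn
      rw [h2 n hn]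
      exact cm_zero 𝒰 l
  have hS' : ∀ x, HasSum (fun n => at2 (c' n : F2 E4 M) x) (at2 (S : F2 E4 M) x) := by
    intro x
    rw [← hinj.hasSum_iff]
    · refine (hS x).congr_fun fun i => ?_
      simp only [comp_apply, h1]
    · intro n hn
      rw [h2 n hn]
      rfl
  have h3 := hasSum_L_nat 𝒰 c' hs' S hS' L hL
  rw [← hinj.hasSum_iff] at h3
  · refine h3.congr_fun fun i => ?_
    simp only [comp_apply, h1]
  · intro n hn
    rw [h2 n hn, map_zero]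

end series

section final
variable {M : Type*} [MetricSpace M] [CompactSpace M] [ChartedSpace E4 M]
    [IsManifold 𝓘(ℝ, E4) ∞ M] [MeasurableSpace M] [BorelSpace M]

lemma summable_Ix (ι : Type) [Fintype ι] [DecidableEq ι] {r : ℕ} (hr : 1 ≤ r) :
    Summable (fun ν : Ix ι => (wt ν.1.1 ^ r)⁻¹) := by
  have h1 := summable_wt_pow (d := ι × Fin 4) hr
  have hw : ∀ n : ι × Fin 4 → ℤ, 0 ≤ (wt n ^ r)⁻¹ := fun n =>
    inv_nonneg.2 (pow_nonneg (wt_pos n).le r)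
  have hB : Summable (fun _ : Bool => (1:ℝ)) := (hasSum_fintype _).summable
  have h2 : Summable (fun p : (ι × Fin 4 → ℤ) × Bool => (wt p.1 ^ r)⁻¹ * (1:ℝ)) :=
    Summable.mul_of_nonneg (f := fun n : ι × Fin 4 → ℤ => (wt n ^ r)⁻¹)
      (g := fun _ : Bool => (1:ℝ)) h1 hB hw (fun _ => zero_le_one)
  have hC : Summable (fun _ : ι → Bool => (1:ℝ)) := (hasSum_fintype _).summable
  have h3 : Summable (fun ν : Ix ι => ((wt ν.1.1 ^ r)⁻¹ * (1:ℝ)) * (1:ℝ)) :=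
    Summable.mul_of_nonneg (f := fun p : (ι × Fin 4 → ℤ) × Bool => (wt p.1 ^ r)⁻¹ * (1:ℝ))
      (g := fun _ : ι → Bool => (1:ℝ)) h2 hC (fun p => by
        change 0 ≤ (wt p.1 ^ r)⁻¹ * (1:ℝ)
        rw [mul_one]; exact hw p.1)
      (fun _ => zero_le_one)
  simpa using h3

/-- **the leak from the series** (404's `hasSum_leak`) and the bound of multiplied kernels. -/
theorem fLeak_of (D : Dat M) (𝒰 : Cover M) (S : Sys M)
    (T : Ix (Fin S.n) → (Fin S.n → KF) → Fin S.n → KF)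
    (h1 : ∃ e1 : ℝ, 0 < e1 ∧ (∀ e, 0 < e → e ≤ e1 → S.Ok e) ∧
      ∃ E : ℝ → Ix (Fin S.n) → X2 M → X2 M,
      (∀ r : ℕ, ∃ C : ℝ, 0 ≤ C ∧ ∀ e, 0 < e → e ≤ e1 → ∀ ν (P : X2 M),
        D.n2 (E e ν P : F2 E4 M) ≤ C * (wt ν.1.1 ^ r)⁻¹ * D.n2 (P : F2 E4 M)) ∧
      (∀ e, 0 < e → e ≤ e1 → ∀ q ∈ ClK S.n 0, ∀ P : X2 M,
        (∀ l : ℕ, Summable fun ν => 𝒰.cm l (S.A e (T ν q) (E e ν P) : F2 E4 M)) ∧
        ∀ x, HasSum (fun ν => e • at2 (S.A e (T ν q) (E e ν P) : F2 E4 M) x)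
          (at2 (D.pi'' (S.A e q (D.pi' P)) : F2 E4 M) x)))
    (h2 : ∀ k : ℕ, ∃ C : ℝ, 1 ≤ C ∧ ∀ e, S.Ok e → ∀ (L : X2 M →ₗ[ℝ] ℝ) (F : X2 M → ℝ) (n : ℝ),
      0 ≤ n → (∀ b, 0 ≤ F b) → (∀ p ∈ ClK S.n k, ∀ b, |L (S.A e p b)| ≤ n * F b) →
      ∀ q ∈ ClK S.n k, ∀ ν b, |L (S.A e (T ν q) b)| ≤ (C * wt ν.1.1 ^ k) ^ S.n * n * F b) :
    FLeak D 𝒰 S := by
  obtain ⟨e1, he1, hok, E, hE, hser⟩ := h1
  refine ⟨e1, he1, fun k => ?_⟩
  obtain ⟨C1, hC1, hb⟩ := h2 k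
  obtain ⟨C2, hC2, hn⟩ := hE (k * S.n + 1)
  have hwsum := summable_Ix (Fin S.n) (r := 1) le_rfl
  set Sw : ℝ := ∑' ν : Ix (Fin S.n), (wt ν.1.1 ^ 1)⁻¹ with hSw
  refine ⟨C1 ^ S.n * C2 * Sw, fun e he he' L hL hL' N hN hbd p hp b => ?_⟩
  obtain ⟨m, K, hLK⟩ := hL
  have hp0 : p ∈ ClK S.n 0 := ClK_anti S.n 0 k (Nat.zero_le _) hp
  obtain ⟨hsm, hpt⟩ := hser e he he' p hp0 b
  have hn2 : 0 ≤ D.n2 (b : F2 E4 M) := Real.sqrt_nonneg _
  -- the series under `L`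
  have hS1 : HasSum (fun ν => L (e • S.A e (T ν p) (E e ν b)))
      (L (D.pi'' (S.A e p (D.pi' b)))) := by
    refine hasSum_L 𝒰 (fun ν => e • S.A e (T ν p) (E e ν b)) (fun l => ?_)
      (D.pi'' (S.A e p (D.pi' b))) (fun x => ?_) L hLK
    · refine ((hsm l).mul_left |e|).congr fun ν => ?_
      rw [X2.coe_smul, cm_smul 𝒰 l (S.A e (T ν p) (E e ν b)).2]
    · refine (hpt x).congr_fun fun ν => ?_
      rw [X2.coe_smul]
      rfl
  rw [← hL'] at hS1
  have hterm : ∀ ν : Ix (Fin S.n), ‖L (e • S.A e (T ν p) (E e ν b))‖ ≤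
      (C1 ^ S.n * C2 * e * N * D.n2 (b : F2 E4 M)) * (wt ν.1.1 ^ 1)⁻¹ := by
    intro ν
    have hw := wt_pos ν.1.1
    have hw0 : 0 ≤ wt ν.1.1 := hw.le
    rw [map_smul, norm_smul, Real.norm_eq_abs, Real.norm_eq_abs, abs_of_pos he]
    have a1 := hb e (hok e he he') L (fun b => D.n2 (b : F2 E4 M)) N hN
      (fun b => Real.sqrt_nonneg _) hbd p hp ν (E e ν b)
    have a2 := hn e he he' ν b
    have a3 : (C1 * wt ν.1.1 ^ k) ^ S.n * N * D.n2 (E e ν b : F2 E4 M) ≤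
        (C1 * wt ν.1.1 ^ k) ^ S.n * N *
          (C2 * (wt ν.1.1 ^ (k * S.n + 1))⁻¹ * D.n2 (b : F2 E4 M)) := by
      refine mul_le_mul_of_nonneg_left a2 (mul_nonneg (pow_nonneg ?_ _) hN)
      exact mul_nonneg (by linarith) (pow_nonneg hw0 _)
    have a4 : e * ((C1 * wt ν.1.1 ^ k) ^ S.n * N *
          (C2 * (wt ν.1.1 ^ (k * S.n + 1))⁻¹ * D.n2 (b : F2 E4 M))) =
        (C1 ^ S.n * C2 * e * N * D.n2 (b : F2 E4 M)) * (wt ν.1.1 ^ 1)⁻¹ := by
      rw [mul_pow, ← pow_mul, pow_add]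
      have hne : wt ν.1.1 ^ (k * S.n) ≠ 0 := (pow_pos hw _).ne'
      have hne' : wt ν.1.1 ≠ 0 := hw.ne'
      field_simp
    calc e * |L (S.A e (T ν p) (E e ν b))| ≤ _ :=
          mul_le_mul_of_nonneg_left (a1.trans a3) he.le
      _ = _ := a4
  have hfin := tsum_of_norm_bounded (hwsum.hasSum.mul_left
    (C1 ^ S.n * C2 * e * N * D.n2 (b : F2 E4 M))) hterm
  rw [hS1.tsum_eq, Real.norm_eq_abs] at hfin
  calc |L (S.A e p (D.pi' b))| ≤ C1 ^ S.n * C2 * e * N * D.n2 (b : F2 E4 M) * Sw := hfin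
    _ = C1 ^ S.n * C2 * Sw * e * N * D.n2 (b : F2 E4 M) := by ring

end final

end

end Crest.Agent.R240.Lk
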