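import Mathlib
import Crest.Agent.R240.SmSys
import Crest.Agent.R240.Lk5

/-!
# Row 240, LEAK: multiplied kernels (helper461)
-/

set_option autoImplicit false
set_option maxSynthPendingDepth 3
set_option linter.unusedSectionVars false

open Set Function Filter MeasureTheory Metric
open scoped Manifold ContDiff Topology

namespace Crest.Agent.R240.Lk

open Crest.Agent.R240.Ch Crest.Agent.R240.Sm

noncomputable section

variable {ι : Type} [Fintype ι]

lemma contDiff_th (n : Fin 4 → ℤ) : ContDiff ℝ ∞ (th n) := by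
  unfold th
  refine contDiff_const.mul (ContDiff.sum fun a _ => contDiff_const.mul ?_)
  have h : ContDiff ℝ ∞ (fun z : E4 => z a) := by
    exact (EuclideanSpace.proj a : E4 →L[ℝ] ℝ).contDiff
  exact (h.div_const 8).add contDiff_const

omit [Fintype ι] in
lemma contDiff_tf (ν : Ix ι) (i : ι) : ContDiff ℝ ∞ (tf ν i) :=
  (contDiff_tg (ν.2 i)).comp (contDiff_th (sl ν.1.1 i))

/-- all kernel factors multiplied by a constant. -/
def mulK {N : ℕ} (c : ℝ) (q : Fin N → KF) : Fin N → KF := fun i =>
  ⟨fun z => c * (q i).1 z, contDiff_const.mul (q i).2⟩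

/-- the kernel factors multiplied by the trigonometric factors. -/
def tfK {N : ℕ} (ν : Ix (Fin N)) (q : Fin N → KF) : Fin N → KF := fun i =>
  ⟨fun z => (q i).1 z * tf ν i z, (q i).2.mul (contDiff_tf ν i)⟩

@[simp] lemma mulK_coe {N : ℕ} (c : ℝ) (q : Fin N → KF) (i : Fin N) :
    (mulK c q i).1 = fun z => c * (q i).1 z := rfl

@[simp] lemma tfK_coe {N : ℕ} (ν : Ix (Fin N)) (q : Fin N → KF) (i : Fin N) :
    (tfK ν q i).1 = fun z => (q i).1 z * tf ν i z := rfl

end

end Crest.Agent.R240.Lk
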