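import Mathlib
import Crest.Agent.R240.LkH0

/-!
# Row 240, LEAK (helper895): bounds of the multiplied kernels
-/

set_option autoImplicit false
set_option maxSynthPendingDepth 3
set_option linter.unusedSectionVars false

open Set Function Filter MeasureTheory Metric
open scoped Manifold ContDiff Topology

namespace Crest.Agent.R240.Lk.MB

open Crest.Agent.R240.Ch Crest.Agent.R240.Sm Crest.Agent.R240.Lk

noncomputable section

lemma le_wt {d : Type} [Fintype d] (n : d → ℤ) (q : d) : |(n q : ℝ)| ≤ wt n := by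
  classical
  have h1 : (1 + (n q : ℝ) ^ 2) ≤ wt n := by
    unfold wt
    rw [← Finset.mul_prod_erase _ _ (Finset.mem_univ q)]
    have : 1 ≤ ∏ i ∈ Finset.univ.erase q, (1 + (n i : ℝ) ^ 2) := by
      refine Finset.one_le_prod fun i _ => ?_
      nlinarith [sq_nonneg (n i : ℝ)]
    nlinarith [sq_nonneg (n q : ℝ)]
  have h2 : |(n q : ℝ)| ≤ 1 + (n q : ℝ) ^ 2 := by
    rw [← sq_abs]
    nlinarith [abs_nonneg (n q : ℝ), sq_nonneg (|(n q : ℝ)| - 1)]
  exact h2.trans h1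

lemma iterDeriv_tg (s : Bool) (m : ℕ) : ∃ s' : Bool, ∃ c : ℝ, |c| = 1 ∧
    iteratedDeriv m (tg s) = fun t => c * tg s' t := by
  induction m with
  | zero => exact ⟨s, 1, by simp, by simp⟩
  | succ m ih =>
    obtain ⟨s', c, hc, h⟩ := ih
    refine ⟨!s', c * sg s', ?_, ?_⟩
    · rw [abs_mul, hc, one_mul]
      cases s' <;> simp [sg]
    · rw [iteratedDeriv_succ, h]
      funext t
      rw [deriv_const_mul _ (hasDerivAt_tg s' t).differentiableAt, (hasDerivAt_tg s' t).deriv]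
      ring

lemma norm_iter_tg (s : Bool) (m : ℕ) (t : ℝ) : ‖iteratedFDeriv ℝ m (tg s) t‖ ≤ 1 := by
  rw [norm_iteratedFDeriv_eq_norm_iteratedDeriv]
  obtain ⟨s', c, hc, h⟩ := iterDeriv_tg s m
  rw [h, Real.norm_eq_abs, abs_mul, hc, one_mul]
  exact abs_tg_le _ _

lemma proj_ap (a : Fin 4) (v : E4) : (EuclideanSpace.proj a : E4 →L[ℝ] ℝ) v = v a := rfl

/-- the linear part of the phase -/
def thL (n : Fin 4 → ℤ) : E4 →L[ℝ] ℝ :=
  (2 * Real.pi) • ∑ a, ((n a : ℝ) / 8) • (EuclideanSpace.proj a : E4 →L[ℝ] ℝ)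

lemma th_eq (n : Fin 4 → ℤ) : th n = fun z => thL n z + 2 * Real.pi * ∑ a, (n a : ℝ) / 2 := by
  funext z
  simp only [th, thL, smul_apply, sum_apply, smul_eq_mul, proj_ap]
  rw [← mul_add, ← Finset.sum_add_distrib]
  congr 1
  refine Finset.sum_congr rfl fun a _ => ?_
  ring

lemma norm_thL {B : ℝ} {n : Fin 4 → ℤ} (h : ∀ a, |(n a : ℝ)| ≤ B) : ‖thL n‖ ≤ 4 * B := by
  have hB : 0 ≤ B := (abs_nonneg _).trans (h 0)
  unfold thL
  rw [norm_smul, Real.norm_eq_abs, abs_of_pos (by positivity)]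
  have h1 : ‖∑ a, ((n a : ℝ) / 8) • (EuclideanSpace.proj a : E4 →L[ℝ] ℝ)‖ ≤ B / 2 := by
    refine (norm_sum_le _ _).trans ?_
    have h2 : ∀ a : Fin 4, ‖((n a : ℝ) / 8) • (EuclideanSpace.proj a : E4 →L[ℝ] ℝ)‖ ≤ B / 8 := by
      intro a
      rw [norm_smul, Real.norm_eq_abs, abs_div, abs_of_pos (by norm_num : (0:ℝ) < 8)]
      have h3 : ‖(EuclideanSpace.proj a : E4 →L[ℝ] ℝ)‖ ≤ 1 := by
        refine ContinuousLinearMap.opNorm_le_bound _ zero_le_one fun v => ?_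
        rw [one_mul, proj_ap]
        exact PiLp.norm_apply_le v a
      calc |(n a : ℝ)| / 8 * ‖(EuclideanSpace.proj a : E4 →L[ℝ] ℝ)‖ ≤ (B / 8) * 1 :=
            mul_le_mul (by linarith [h a]) h3 (norm_nonneg _) (by positivity)
        _ = B / 8 := mul_one _
    calc ∑ a : Fin 4, ‖((n a : ℝ) / 8) • (EuclideanSpace.proj a : E4 →L[ℝ] ℝ)‖
        ≤ ∑ _a : Fin 4, B / 8 := Finset.sum_le_sum fun a _ => h2 a
      _ = B / 2 := by simp; ring
  have hpi := Real.pi_lt_four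
  calc 2 * Real.pi * _ ≤ 2 * Real.pi * (B / 2) := mul_le_mul_of_nonneg_left h1 (by positivity)
    _ ≤ 4 * B := by nlinarith

lemma norm_iter_th {B : ℝ} {n : Fin 4 → ℤ} (h : ∀ a, |(n a : ℝ)| ≤ B) (j : ℕ) (hj : 1 ≤ j)
    (z : E4) : ‖iteratedFDeriv ℝ j (th n) z‖ ≤ (4 * B) ^ j := by
  have hB : 0 ≤ B := (abs_nonneg _).trans (h 0)
  have hf : fderiv ℝ (th n) = fun _ => thL n := by
    rw [th_eq]
    funext z
    rw [fderiv_add_const]
    exact (thL n).fderiv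
  obtain ⟨j, rfl⟩ := Nat.exists_eq_add_of_le hj
  rw [add_comm, ← norm_iteratedFDeriv_fderiv, hf]
  rcases j with _ | j
  · rw [norm_iteratedFDeriv_zero, zero_add, pow_one]
    exact norm_thL h
  · rw [iteratedFDeriv_succ_const]
    simp only [Pi.zero_apply, norm_zero]
    positivity

lemma norm_iter_tf {ι : Type} [Fintype ι] (ν : Ix ι) (i : ι) (m : ℕ) (z : E4) :
    ‖iteratedFDeriv ℝ m (tf ν i) z‖ ≤ m.factorial * (4 * wt ν.1.1) ^ m := by
  have h1 := norm_iteratedFDeriv_comp_le (𝕜 := ℝ) (g := tg (ν.2 i)) (f := th (sl ν.1.1 i))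
    (n := m) (N := ∞) (contDiff_tg (ν.2 i)) (contDiff_th (sl ν.1.1 i))
    (by exact_mod_cast le_top) z (C := 1) (D := 4 * wt ν.1.1)
    (fun j _ => norm_iter_tg _ _ _)
    (fun j hj _ => norm_iter_th (fun a => le_wt ν.1.1 (i, a)) j hj z)
  rw [mul_one] at h1
  exact h1

/-- **bounds of multiplied kernels** -/
theorem mult_bound (N k : ℕ) : ∃ C : ℝ, 1 ≤ C ∧ ∀ q ∈ ClK N k, ∀ ν : Ix (Fin N), ∀ i : Fin N,
    ∀ j ≤ k, ∀ z ∈ closedBall (0 : E4) 1,
      ‖iteratedFDeriv ℝ j (fun z => (q i).1 z * tf ν i z) z‖ ≤ C * wt ν.1.1 ^ k := by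
  refine ⟨2 ^ k * (k.factorial * 4 ^ k), ?_, fun q hq ν i j hj z hz => ?_⟩
  · have h1 : (1:ℝ) ≤ 2 ^ k := one_le_pow₀ (by norm_num)
    have h2 : (1:ℝ) ≤ k.factorial := by exact_mod_cast Nat.factorial_pos k
    have h3 : (1:ℝ) ≤ 4 ^ k := one_le_pow₀ (by norm_num)
    nlinarith [mul_nonneg (sub_nonneg.2 h2) (sub_nonneg.2 h3),
      mul_nonneg (sub_nonneg.2 h1) (sub_nonneg.2 (one_le_mul_of_one_le_of_one_le h2 h3))]
  · have hw : 1 ≤ wt ν.1.1 := one_le_wt _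
    have hle : ((j : ℕ) : WithTop ℕ∞) ≤ ∞ := by exact_mod_cast le_top
    have h1 := norm_iteratedFDeriv_mul_le (𝕜 := ℝ) (q i).2 (contDiff_tf ν i) z (n := j) hle
    refine h1.trans ?_
    have h2 : ∀ l ∈ Finset.range (j + 1), (j.choose l : ℝ) * ‖iteratedFDeriv ℝ l (q i).1 z‖ *
        ‖iteratedFDeriv ℝ (j - l) (tf ν i) z‖ ≤
        (j.choose l : ℝ) * (k.factorial * 4 ^ k * wt ν.1.1 ^ k) := by
      intro l hl
      have hl' : l ≤ j := Nat.lt_succ_iff.1 (Finset.mem_range.1 hl)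
      have a1 : ‖iteratedFDeriv ℝ l (q i).1 z‖ ≤ 1 := hq i l (hl'.trans hj) z hz
      have a2 : ‖iteratedFDeriv ℝ (j - l) (tf ν i) z‖ ≤ k.factorial * 4 ^ k * wt ν.1.1 ^ k := by
        refine (norm_iter_tf ν i (j - l) z).trans ?_
        have b1 : ((j - l).factorial : ℝ) ≤ k.factorial := by
          exact_mod_cast Nat.factorial_le ((Nat.sub_le j l).trans hj)
        have b2 : (4 * wt ν.1.1) ^ (j - l) ≤ (4 * wt ν.1.1) ^ k :=
          pow_le_pow_right₀ (by linarith) ((Nat.sub_le j l).trans hj)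
        calc ((j - l).factorial : ℝ) * (4 * wt ν.1.1) ^ (j - l)
            ≤ k.factorial * (4 * wt ν.1.1) ^ k :=
              mul_le_mul b1 b2 (by positivity) (by positivity)
          _ = _ := by rw [mul_pow]; ring
      rw [mul_assoc]
      refine mul_le_mul_of_nonneg_left ?_ (Nat.cast_nonneg _)
      calc ‖iteratedFDeriv ℝ l (q i).1 z‖ * ‖iteratedFDeriv ℝ (j - l) (tf ν i) z‖
          ≤ 1 * (k.factorial * 4 ^ k * wt ν.1.1 ^ k) :=
            mul_le_mul a1 a2 (norm_nonneg _) zero_le_one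
        _ = _ := one_mul _
    refine (Finset.sum_le_sum h2).trans ?_
    rw [← Finset.sum_mul]
    have h3 : ∑ l ∈ Finset.range (j + 1), (j.choose l : ℝ) = 2 ^ j := by
      exact_mod_cast Nat.sum_range_choose j
    rw [h3]
    have h4 : (2:ℝ) ^ j ≤ 2 ^ k := pow_le_pow_right₀ (by norm_num) hj
    calc (2:ℝ) ^ j * (k.factorial * 4 ^ k * wt ν.1.1 ^ k)
        ≤ 2 ^ k * (k.factorial * 4 ^ k * wt ν.1.1 ^ k) :=
          mul_le_mul_of_nonneg_right h4 (by positivity)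
      _ = _ := by ring

end

end Crest.Agent.R240.Lk.MB
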