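import Mathlib
import Crest.Agent.R240.LkH0

/-!
# Row 240, LEAK: scaling of the kernels (helper461)
-/

set_option autoImplicit false
set_option maxSynthPendingDepth 3
set_option linter.unusedSectionVars false

open Set Function Filter MeasureTheory Metric
open scoped Manifold ContDiff Topology

namespace Crest.Agent.R240.Lk

open Crest.Agent.R240.Ch Crest.Agent.R240.Sm

noncomputable section

variable {M : Type*} [TopologicalSpace M] [ChartedSpace E4 M] [IsManifold 𝓘(ℝ, E4) ∞ M]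

lemma kk_mul (c : ℝ) (q : E4 → ℝ) : kk (fun z => c * q z) = fun z => c * kk q z := by
  funext z; simp only [kk]; ring

lemma opL_mulK (S : Sys M) [T2Space M] {e : ℝ} (h : S.Ok e) (c : ℝ) (q : Fin S.n → KF)
    (l : List (Fin S.n)) (b : X2 M) :
    S.opL e (mulK c q) l b = (c ^ l.length) • S.opL e q l b := by
  induction l with
  | nil => simp [Sys.opL_nil]
  | cons i l ih =>
    rw [Sys.opL_cons, Sys.opL_cons, LinearMap.comp_apply, LinearMap.comp_apply, ih, map_smul,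
      List.length_cons, pow_succ, mul_smul]
    congr 1
    apply Subtype.ext
    rw [Sys.op1_coe h i (mulK c q i).2]
    have h1 : ((c • S.op1 e i (q i).1 (S.opL e q l b) : X2 M) : F2 E4 M) =
        c • (S.op1 e i (q i).1 (S.opL e q l b) : F2 E4 M) := rfl
    rw [h1, Sys.op1_coe h i (q i).2, mulK_coe, kk_mul, A1_smul_left]

/-- scaling of all the kernels. -/
theorem A_mulK (S : Sys M) [T2Space M] {e : ℝ} (h : S.Ok e) (c : ℝ) (q : Fin S.n → KF)
    (b : X2 M) : S.A e (mulK c q) b = (c ^ S.n) • S.A e q b := by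
  have h1 := opL_mulK S h c q (List.finRange S.n) b
  rw [List.length_finRange] at h1
  exact h1

/-- bounds for kernels multiplied by trigonometric factors, from the multiplier bound. -/
theorem A_tfK_bound_of (S : Sys M) [T2Space M] (k : ℕ) {C : ℝ} (hC : 1 ≤ C)
    (hmult : ∀ q ∈ ClK S.n k, ∀ ν : Ix (Fin S.n), ∀ i : Fin S.n, ∀ j ≤ k,
      ∀ z ∈ closedBall (0 : E4) 1,
        ‖iteratedFDeriv ℝ j (fun z => (q i).1 z * tf ν i z) z‖ ≤ C * wt ν.1.1 ^ k) :
    ∀ e, S.Ok e → ∀ (L : X2 M →ₗ[ℝ] ℝ) (F : X2 M → ℝ) (n : ℝ), 0 ≤ n → (∀ b, 0 ≤ F b) →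
      (∀ p ∈ ClK S.n k, ∀ b, |L (S.A e p b)| ≤ n * F b) →
      ∀ q ∈ ClK S.n k, ∀ ν b, |L (S.A e (tfK ν q) b)| ≤ (C * wt ν.1.1 ^ k) ^ S.n * n * F b := by
  intro e he L F n hn hF hL q hq ν b
  set A : ℝ := C * wt ν.1.1 ^ k with hA
  have hA1 : 1 ≤ A := by
    have : 1 ≤ wt ν.1.1 ^ k := one_le_pow₀ (one_le_wt _)
    nlinarith
  have hA0 : 0 < A := lt_of_lt_of_le one_pos hA1
  have hmem : mulK A⁻¹ (tfK ν q) ∈ ClK S.n k := by
    intro i j hj z hz
    have h1 := hmult q hq ν i j hj z hz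
    have h2 : ContDiffAt ℝ j (fun z => (q i).1 z * tf ν i z) z :=
      ((tfK ν q i).2.of_le (by exact_mod_cast le_top)).contDiffAt
    have h3 : iteratedFDeriv ℝ j (mulK A⁻¹ (tfK ν q) i).1 z =
        A⁻¹ • iteratedFDeriv ℝ j (fun z => (q i).1 z * tf ν i z) z := by
      rw [mulK_coe]
      exact iteratedFDeriv_const_smul_apply (𝕜 := ℝ) (R := ℝ) (a := A⁻¹)
        (f := fun z => (q i).1 z * tf ν i z) h2
    rw [h3, norm_smul, norm_inv, Real.norm_eq_abs, abs_of_pos hA0]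
    calc A⁻¹ * ‖iteratedFDeriv ℝ j (fun z => (q i).1 z * tf ν i z) z‖ ≤ A⁻¹ * A := by gcongr
      _ = 1 := inv_mul_cancel₀ hA0.ne'
  have h4 := hL _ hmem b
  rw [A_mulK S he, map_smul, smul_eq_mul, abs_mul, abs_of_pos (by positivity)] at h4
  have h5 : |L (S.A e (tfK ν q) b)| = A ^ S.n * ((A⁻¹) ^ S.n * |L (S.A e (tfK ν q) b)|) := by
    rw [← mul_assoc, ← mul_pow, mul_inv_cancel₀ hA0.ne', one_pow, one_mul]
  rw [h5, mul_assoc]
  exact mul_le_mul_of_nonneg_left h4 (by positivity)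

end

end Crest.Agent.R240.Lk
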