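import Mathlib
import Crest.Agent.R240.LkT
import Crest.Agent.R240.Sm7b

/-!
# Row 240, block R (smoothing), FUBINI (helper404)

The composition of one-chart averages is one average over the product of the parameter spaces.
-/

set_option autoImplicit false
set_option maxSynthPendingDepth 3
set_option linter.unusedSectionVars false

open Set Function Filter Metric Bundle MeasureTheory
open scoped Manifold ContDiff Topology

namespace Crest.Agent.R240.Leak

open Crest.Agent.R240.Ch Crest.Agent.R240.Sm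

noncomputable section

/-! ### integration over `Fin (n + 1) → E4` -/

lemma integral_cons {n : ℕ} {V : Type*} [NormedAddCommGroup V] [NormedSpace ℝ V]
    {F : (Fin (n + 1) → E4) → V} (hF : Integrable F) :
    ∫ z, F z = ∫ z0 : E4, ∫ z' : Fin n → E4, F (Fin.cons z0 z') := by
  have mp := (volume_preserving_piFinSuccAbove (fun _ : Fin (n + 1) => E4) 0).symm
  have e1 : ∀ a : E4 × (Fin n → E4),
      (MeasurableEquiv.piFinSuccAbove (fun _ : Fin (n + 1) => E4) 0).symm a
        = Fin.cons a.1 a.2 := by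
    intro a
    rw [MeasurableEquiv.piFinSuccAbove_symm_apply, Fin.insertNthEquiv_zero]
    rfl
  have hint : Integrable (fun a : E4 × (Fin n → E4) => F (Fin.cons a.1 a.2))
      ((volume : Measure E4).prod (volume : Measure (Fin n → E4))) := by
    have h1 := (mp.integrable_comp_emb (MeasurableEquiv.measurableEmbedding _) (g := F)).2 hF
    refine h1.congr (Eventually.of_forall fun a => ?_)
    simp only [comp_apply, e1]
  rw [← mp.integral_comp' F]
  simp only [e1]
  exact integral_prod _ hint

/-! ### the product kernel -/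

section ker

variable {ι : Type*} [Fintype ι]

/-- the product kernel -/
def kp (κ : ι → E4 → ℝ) (z : ι → E4) : ℝ := ∏ i, κ i (z i)

lemma continuous_kp {κ : ι → E4 → ℝ} (h : ∀ i, Continuous (κ i)) : Continuous (kp κ) :=
  continuous_finsetProd _ fun i _ => (h i).comp (continuous_apply i)

lemma tsupport_kp (κ : ι → E4 → ℝ) :
    tsupport (kp κ) ⊆ Set.pi univ fun i => tsupport (κ i) := by
  refine closure_minimal ?_ (isClosed_set_pi fun i _ => isClosed_tsupport _)
  intro z hz i _
  apply subset_tsupport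
  intro h
  exact hz (Finset.prod_eq_zero (Finset.mem_univ i) h)

lemma hasCompactSupport_kp {κ : ι → E4 → ℝ} (h : ∀ i, HasCompactSupport (κ i)) :
    HasCompactSupport (kp κ) :=
  (isCompact_univ_pi fun i => h i).of_isClosed_subset (isClosed_tsupport _) (tsupport_kp κ)

end ker

variable {M : Type*} [TopologicalSpace M] [ChartedSpace E4 M] [IsManifold 𝓘(ℝ, E4) ∞ M]

/-- the pull-back at `x` is a linear function of the value of the form at `psi x`. -/
lemma exists_pb (G : Fam E4) (p : M) (z : E4) (x : M) :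
    ∃ D : E4 →L[ℝ] E4, ∀ b : F2 E4 M, at2 (pullG G p z b) x = pull D (at2 b (psi G p z x)) := by
  by_cases hx : x ∈ (chartAt E4 p).source
  · refine ⟨(tcc p (psi G p z x) (psi G p z x)).comp
      ((G.dg z (chartAt E4 p x)).comp (tcc x p x)), fun b => ?_⟩
    rw [at2_pullG_of_mem hx, rep_eq_pb, pb_comp, ← psi_of_mem hx]
    rfl
  · refine ⟨ContinuousLinearMap.id ℝ E4, fun b => ?_⟩
    rw [at2_pullG_of_notMem hx, psi_of_notMem hx, pull_id]

/-- data of a one-chart average -/
structure AdmK {ι : Type*} (G : ι → Fam E4) (κ : ι → E4 → ℝ) (e : ℝ) : Prop where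
  cont : ∀ i, Continuous (κ i)
  comp : ∀ i, HasCompactSupport (κ i)
  supp : ∀ i, ∀ z ∈ tsupport (κ i), e • z ∈ ball (0 : E4) (G i).r

/-- composition of one-chart averages -/
def AA {ι : Type*} (G : ι → Fam E4) (p : ι → M) (κ : ι → E4 → ℝ) (e : ℝ) (l : List ι)
    (b : F2 E4 M) : F2 E4 M :=
  l.foldr (fun i b => avg (κ i) (fun z => pullG (G i) (p i) (e • z) b)) b

lemma AA_cons {ι : Type*} (G : ι → Fam E4) (p : ι → M) (κ : ι → E4 → ℝ) (e : ℝ) (i : ι)
    (l : List ι) (b : F2 E4 M) : AA G p κ e (i :: l) b =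
      avg (κ i) (fun z => pullG (G i) (p i) (e • z) (AA G p κ e l b)) := rfl

lemma AA_map {ι ι' : Type*} (G : ι → Fam E4) (p : ι → M) (κ : ι → E4 → ℝ) (e : ℝ) (f : ι' → ι)
    (l : List ι') (b : F2 E4 M) :
    AA G p κ e (l.map f) b = AA (fun i => G (f i)) (fun i => p (f i)) (fun i => κ (f i)) e l b := by
  unfold AA
  rw [List.foldr_map]

lemma PP_map {ι ι' : Type*} (G : ι → Fam E4) (p : ι → M) (z : ι → E4) (f : ι' → ι)
    (l : List ι') (b : F2 E4 M) :
    PP G p (l.map f) z b = PP (fun i => G (f i)) (fun i => p (f i)) l (fun i => z (f i)) b := by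
  unfold PP
  rw [List.foldr_map]

/-- parameters admissible at scale `e`. -/
def UE {ι : Type*} (G : ι → Fam E4) (e : ℝ) : Set (ι → E4) := {z | e • z ∈ UU G}

lemma isOpen_UE {ι : Type*} [Fintype ι] {G : ι → Fam E4} (e : ℝ) : IsOpen (UE G e) :=
  isOpen_UU.preimage (continuous_const_smul e)

lemma tsupport_kp_UE {ι : Type*} [Fintype ι] {G : ι → Fam E4} {κ : ι → E4 → ℝ} {e : ℝ}
    (h : AdmK G κ e) : tsupport (kp κ) ⊆ UE G e := by
  intro z hz i
  exact h.supp i _ (tsupport_kp κ hz i (mem_univ i))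

lemma jsm_PPe {ι : Type*} [Fintype ι] [T2Space M] {G : ι → Fam E4} {p : ι → M} {l : List ι}
    (hG : HG G p) {b : F2 E4 M} (hb : Smooth2 b) (e : ℝ) :
    JSm (UE G e) (fun z => PP G p l (e • z) b) := by
  have h1 : ContDiff ℝ ∞ (fun z : ι → E4 => e • z) := contDiff_const_smul e
  exact JSm.PP hG (isOpen_UE e) h1.contDiffOn (fun _ h => h) (JSm.const hb _)

lemma integrable_PP {ι : Type} [Fintype ι] [T2Space M] {G : ι → Fam E4} {p : ι → M}
    {l : List ι} (hG : HG G p) {κ : ι → E4 → ℝ} {e : ℝ} (h : AdmK G κ e) {b : F2 E4 M}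
    (hb : Smooth2 b) (x : M) :
    Integrable (fun z : ι → E4 => kp κ z • at2 (PP G p l (e • z) b) x) :=
  integrable_smul_of (isOpen_UE e) (continuous_kp h.cont) (hasCompactSupport_kp h.comp)
    (tsupport_kp_UE h) ((jsm_PPe hG hb e).continuousOn_at2 x)

/-- **FUBINI** -/
theorem at2_AA [T2Space M] : ∀ {N : ℕ} {G : Fin N → Fam E4} {p : Fin N → M} (_ : HG G p)
    {κ : Fin N → E4 → ℝ} {e : ℝ} (_ : AdmK G κ e) {b : F2 E4 M} (_ : Smooth2 b) (x : M),
    at2 (AA G p κ e (List.finRange N) b) x =
      ∫ z : Fin N → E4, kp κ z • at2 (PP G p (List.finRange N) (e • z) b) x := by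
  intro N
  induction N with
  | zero =>
    intro G p hG κ e h b hb x
    have hv : (volume : Measure (Fin 0 → E4)) = Measure.dirac isEmptyElim := Measure.volume_pi_eq_dirac _
    rw [hv, integral_dirac]
    simp only [kp, Finset.univ_eq_empty, Finset.prod_empty, one_smul, List.finRange_zero]
    rfl
  | succ N ih =>
    intro G p hG κ e h b hb x
    rw [integral_cons (integrable_PP hG h hb x)]
    simp only [List.finRange_succ, AA_cons, PP_cons, AA_map, PP_map, at2_avg]
    refine integral_congr_ae (Eventually.of_forall fun z0 => ?_)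
    simp only
    have hG' : HG (fun i => G (Fin.succ i)) (fun i => p (Fin.succ i)) := fun i => hG _
    have h' : AdmK (fun i => G (Fin.succ i)) (fun i => κ (Fin.succ i)) e :=
      ⟨fun i => h.cont _, fun i => h.comp _, fun i => h.supp _⟩
    obtain ⟨D, hD⟩ := exists_pb (G 0) (p 0) (e • z0) x
    have e1 : ∀ z' : Fin N → E4, kp κ (Fin.cons z0 z' : Fin (N + 1) → E4)
        = κ 0 z0 * kp (fun i => κ (Fin.succ i)) z' := by
      intro z'
      unfold kp
      rw [Fin.prod_univ_succ]
      simp only [Fin.cons_zero, Fin.cons_succ]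
    have e2 : ∀ z' : Fin N → E4, (e • (Fin.cons z0 z' : Fin (N + 1) → E4)) 0 = e • z0 := by
      intro z'
      simp only [Pi.smul_apply, Fin.cons_zero]
    have e3 : ∀ z' : Fin N → E4, (fun i : Fin N => (e • (Fin.cons z0 z' : Fin (N + 1) → E4))
        (Fin.succ i)) = e • z' := by
      intro z'
      funext i
      simp only [Pi.smul_apply, Fin.cons_succ]
    simp only [e1, e2, e3, hD, mul_smul]
    rw [integral_smul]
    congr 1
    rw [ih hG' h' hb, ← pullL_apply, ← ContinuousLinearMap.integral_comp_comm _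
      (integrable_PP hG' h' hb _)]
    refine integral_congr_ae (Eventually.of_forall fun z' => ?_)
    simp only
    rw [map_smul, pullL_apply]

/-- the composition of the averages as one average. -/
theorem AA_eq_avg [T2Space M] {N : ℕ} {G : Fin N → Fam E4} {p : Fin N → M} (hG : HG G p)
    {κ : Fin N → E4 → ℝ} {e : ℝ} (h : AdmK G κ e) {b : F2 E4 M} (hb : Smooth2 b) :
    AA G p κ e (List.finRange N) b =
      avg (kp κ) (fun z => PP G p (List.finRange N) (e • z) b) := by
  funext x
  exact at2_AA hG h hb x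

lemma AL_eq_AA {ι : Type*} (G : ι → Fam E4) (p : ι → M) (κ : ι → E4 → ℝ) (l : List ι) (e : ℝ)
    (b : F2 E4 M) : Sm7.AL G p κ l e b = AA G p κ e l b := rfl

/-! ### general index types -/

section general

variable {ι : Type} [Fintype ι]

/-- **FUBINI**, for an enumeration of the index type. -/
theorem at2_AL_of [T2Space M] {G : ι → Fam E4} {p : ι → M} (hG : HG G p)
    {κ : ι → E4 → ℝ} {e : ℝ} (h : AdmK G κ e) {n : ℕ} (σ : Fin n ≃ ι)
    {b : F2 E4 M} (hb : Smooth2 b) (x : M) :
    at2 (AA G p κ e ((List.finRange n).map σ) b) x =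
      ∫ z : ι → E4, (∏ i, κ i (z i)) • at2 (PP G p ((List.finRange n).map σ) (e • z) b) x := by
  have h' : AdmK (fun i => G (σ i)) (fun i => κ (σ i)) e :=
    ⟨fun i => h.cont _, fun i => h.comp _, fun i => h.supp _⟩
  rw [AA_map, at2_AA (fun i => hG _) h' hb x]
  have mp := volume_measurePreserving_piCongrLeft (fun _ : ι => E4) σ
  rw [← mp.integral_comp' (fun z : ι → E4 => (∏ i, κ i (z i)) •
    at2 (PP G p ((List.finRange n).map σ) (e • z) b) x)]
  refine integral_congr_ae (Eventually.of_forall fun z => ?_)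
  simp only
  have e1 : ∀ i, (MeasurableEquiv.piCongrLeft (fun _ : ι => E4) σ z) (σ i) = z i := by
    intro i
    rw [MeasurableEquiv.coe_piCongrLeft]
    exact Equiv.piCongrLeft_apply_apply (fun _ : ι => E4) σ z i
  have e2 : kp (fun i => κ (σ i)) z
      = ∏ i, κ i ((MeasurableEquiv.piCongrLeft (fun _ : ι => E4) σ z) i) := by
    rw [kp, ← σ.prod_comp]
    refine Finset.prod_congr rfl fun i _ => ?_
    rw [e1]
  have e3 : PP G p ((List.finRange n).map σ)
        (e • (MeasurableEquiv.piCongrLeft (fun _ : ι => E4) σ z)) b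
      = PP (fun i => G (σ i)) (fun i => p (σ i)) (List.finRange n) (e • z) b := by
    rw [PP_map]
    congr 1
    funext i
    simp only [Pi.smul_apply, e1]
  rw [e2, e3]

/-- **FUBINI**, general index type: `l` enumerates `ι`. -/
theorem at2_AL [T2Space M] {G : ι → Fam E4} {p : ι → M} (hG : HG G p)
    {κ : ι → E4 → ℝ} {e : ℝ} (h : AdmK G κ e) {l : List ι} (hl : l.Nodup) (hm : ∀ i, i ∈ l)
    {b : F2 E4 M} (hb : Smooth2 b) (x : M) :
    at2 (Sm7.AL G p κ l e b) x =
      ∫ z : ι → E4, (∏ i, κ i (z i)) • at2 (PP G p l (e • z) b) x := by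
  classical
  have key := at2_AL_of hG h (List.Nodup.getEquivOfForallMemList l hl hm) hb x
  have hl2 : (List.finRange l.length).map (List.Nodup.getEquivOfForallMemList l hl hm) = l :=
    List.map_get_finRange l
  rw [hl2] at key
  exact key

theorem AL_eq_avg [T2Space M] {G : ι → Fam E4} {p : ι → M} (hG : HG G p)
    {κ : ι → E4 → ℝ} {e : ℝ} (h : AdmK G κ e) {l : List ι} (hl : l.Nodup) (hm : ∀ i, i ∈ l)
    {b : F2 E4 M} (hb : Smooth2 b) :
    Sm7.AL G p κ l e b = avg (kp κ) (fun z => PP G p l (e • z) b) := by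
  funext x
  exact at2_AL hG h hl hm hb x

end general

end

end Crest.Agent.R240.Leak
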