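import Mathlib
import Crest.Agent.R240.NrmM
import Crest.Agent.R240.NrCm
import Crest.Agent.R240.Sm4a
import Crest.Agent.R240.SmJoint
import Crest.Agent.R240.Ch7

/-!
# Row 240, LEAK (helper404): a global finite frame of smooth two-forms; `L²` lemmas
-/

set_option autoImplicit false
set_option maxSynthPendingDepth 3
set_option linter.unusedSectionVars false

open Set Function Filter Metric MeasureTheory
open scoped Manifold ContDiff Topology

namespace Crest.Agent.R240.Leak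

open Crest.Agent.R240.Ch Crest.Agent.R240.Sm

noncomputable section

/-! ### pointwise -/

/-- expansion of an alternating form. -/
lemma alt_sum {b : Bil} (hb : Alt b) :
    b = ∑ k : Fin 4, ∑ l : Fin 4, (1 / 2 * ent b k l) • wed (pr k) (pr l) := by
  ext u v
  have e1 : (∑ k : Fin 4, ∑ l : Fin 4, (1 / 2 * ent b k l) • wed (pr k) (pr l)) u v
      = ∑ k : Fin 4, ∑ l : Fin 4, (1 / 2 * ent b k l) * (u k * v l - u l * v k) := by
    rw [sum_apply, sum_apply]
    refine Finset.sum_congr rfl fun k _ => ?_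
    rw [sum_apply, sum_apply]
    refine Finset.sum_congr rfl fun l _ => ?_
    have : ((1 / 2 * ent b k l) • wed (pr k) (pr l)) u v
        = (1 / 2 * ent b k l) * (wed (pr k) (pr l) u v) := rfl
    rw [this, wed_apply]
    simp only [pr_apply]
  rw [e1, alt_expand hb]
  simp only [Fin.sum_univ_four]
  rw [hb.ent_self 0, hb.ent_self 1, hb.ent_self 2, hb.ent_self 3, hb.ent_swap 1 0, hb.ent_swap 2 0,
    hb.ent_swap 3 0, hb.ent_swap 2 1, hb.ent_swap 3 1, hb.ent_swap 3 2]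
  ring

/-- the Hodge norm controls the values. -/
lemma norm_le_nr {J : E4 →L[ℝ] E4} {F b : Bil} (hJ : ∀ v, J (J v) = -v) (hF : SPos J F)
    (hb : Alt b) {R S : ℝ} (hR : ‖F‖ ≤ R) (hS : ‖J‖ ≤ S) : ‖b‖ ≤ √2 * (R * S) * nr J F b := by
  have hR0 : 0 ≤ R := (norm_nonneg _).trans hR
  have hS0 : 0 ≤ S := (norm_nonneg _).trans hS
  have hn0 : 0 ≤ nr J F b := Real.sqrt_nonneg _
  obtain ⟨A, hA⟩ := exists_frame hJ hF
  have hn : ∀ w, ‖A.symm w‖ ^ 2 ≤ R * S * ‖w‖ ^ 2 := by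
    intro w
    have h1 : F w (J w) = ‖A.symm w‖ ^ 2 := by
      have := hA.normsq (A.symm w)
      simpa using this
    rw [← h1]
    calc F w (J w) ≤ |F w (J w)| := le_abs_self _
      _ ≤ ‖F‖ * ‖w‖ * ‖J w‖ := F.le_opNorm₂ _ _
      _ ≤ R * ‖w‖ * (S * ‖w‖) := by
          have h2 : ‖J w‖ ≤ S * ‖w‖ := (J.le_opNorm w).trans (by gcongr)
          gcongr
      _ = R * S * ‖w‖ ^ 2 := by ring
  refine ContinuousLinearMap.opNorm_le_bound₂ _ (by positivity) fun u v => ?_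
  have h1 : b u v = pull (A : E4 →L[ℝ] E4) b (A.symm u) (A.symm v) := by simp
  have h2 := alt_apply_sq_le (hb.pull (A : E4 →L[ℝ] E4)) (A.symm u) (A.symm v)
  have h3 : N0 (pull (A : E4 →L[ℝ] E4) b) = 2 * nsq J F b := by
    rw [Ns.frame_nsq hF hA hb]; ring
  have h4 : 0 ≤ nsq J F b := Ns.nsq_nonneg hJ hF hb
  have h6 : nr J F b ^ 2 = nsq J F b := Real.sq_sqrt h4
  have h7 : √2 ^ 2 = (2 : ℝ) := Real.sq_sqrt (by norm_num)
  rw [Real.norm_eq_abs]
  apply abs_le_of_sq_le_sq _ (by positivity)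
  rw [h1]
  refine h2.trans ?_
  rw [h3]
  calc 2 * nsq J F b * (‖A.symm u‖ ^ 2 * ‖A.symm v‖ ^ 2)
      = 2 * nsq J F b * ‖A.symm u‖ ^ 2 * ‖A.symm v‖ ^ 2 := by ring
    _ ≤ 2 * nsq J F b * (R * S * ‖u‖ ^ 2) * (R * S * ‖v‖ ^ 2) := by
        have := hn u
        have := hn v
        gcongr
    _ = (√2 ^ 2) * (nr J F b ^ 2) * (R * S) ^ 2 * ‖u‖ ^ 2 * ‖v‖ ^ 2 := by
        rw [h7, h6]; ring
    _ = (√2 * (R * S) * nr J F b * ‖u‖ * ‖v‖) ^ 2 := by ring

variable {M : Type*} [MetricSpace M] [CompactSpace M] [ChartedSpace E4 M]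
    [IsManifold 𝓘(ℝ, E4) ∞ M] [MeasurableSpace M] [BorelSpace M]

/-- `‖rep p b y‖ ≤ C |b|_x` on compact pieces. -/
theorem rep_le_nr (D : Dat M) (p : M) {K : Set E4} (hK : IsCompact K)
    (hKt : K ⊆ (chartAt E4 p).target) :
    ∃ C : ℝ, 0 ≤ C ∧ ∀ b : F2 E4 M, (∀ x, Alt (at2 b x)) → ∀ y ∈ K,
      ‖rep p b y‖ ≤ C * D.nr b ((chartAt E4 p).symm y) := by
  have hsF := Int.dat_smF D
  have cF : ContinuousOn (rep p D.F) K := (hsF.2 p).continuousOn.mono hKt
  have cJ : ContinuousOn (repJ p D.J) K := (D.smJ p).continuousOn.mono hKt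
  obtain ⟨R, hR⟩ := hK.exists_bound_of_continuousOn cF
  obtain ⟨S, hS⟩ := hK.exists_bound_of_continuousOn cJ
  refine ⟨√2 * (max R 0 * max S 0), by positivity, fun b hb y hy => ?_⟩
  rw [NrCm.nr_chart D hb (hKt hy)]
  have hJ : ∀ v, repJ p D.J y (repJ p D.J y v) = -v := by
    intro v
    rw [repJ_apply, repJ_apply, tcc_cancel' (symm_mem (hKt hy)), D.sq, map_neg,
      tcc_cancel (symm_mem (hKt hy))]
  have hF : SPos (repJ p D.J y) (rep p D.F y) := by
    have h := Int.dat_sposF D ((chartAt E4 p).symm y)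
    refine ⟨fun v => ?_, fun u v => ?_, fun v hv => ?_⟩
    · rw [rep_apply]; exact h.alt _
    · rw [rep_apply, rep_apply, repJ_apply, repJ_apply, tcc_cancel' (symm_mem (hKt hy)),
        tcc_cancel' (symm_mem (hKt hy))]
      exact h.inv _ _
    · rw [rep_apply, repJ_apply, tcc_cancel' (symm_mem (hKt hy))]
      refine h.pos _ fun h0 => hv ?_
      have := congrArg (tcc ((chartAt E4 p).symm y) p ((chartAt E4 p).symm y)) h0
      rwa [tcc_cancel (symm_mem (hKt hy)), map_zero] at this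
  have hbr : Alt (rep p b y) := fun v => by rw [rep_apply]; exact hb _ _
  exact norm_le_nr hJ hF hbr ((hR y hy).trans (le_max_left _ _)) ((hS y hy).trans (le_max_left _ _))

/-! ### the frame -/

section frame

/-- the coefficient functions -/
def fco (A : FA E4 M) (i : Fin A.n) (k l : Fin 4) : X2 M →ₗ[ℝ] (M → ℝ) where
  toFun b x := A.χ i x * (1 / 2 * ent (rep (A.c i) b.1 (chartAt E4 (A.c i) x)) k l)
  map_add' a b := by
    funext x
    have e : rep (A.c i) (a + b : X2 M).1 (chartAt E4 (A.c i) x)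
        = rep (A.c i) a.1 (chartAt E4 (A.c i) x) + rep (A.c i) b.1 (chartAt E4 (A.c i) x) := rfl
    rw [e, ent_add, Pi.add_apply]
    ring
  map_smul' r a := by
    funext x
    have e : rep (A.c i) (r • a : X2 M).1 (chartAt E4 (A.c i) x)
        = r • rep (A.c i) a.1 (chartAt E4 (A.c i) x) := rfl
    rw [e, ent_smul, Pi.smul_apply, RingHom.id_apply, smul_eq_mul]
    ring

lemma fco_apply (A : FA E4 M) (i : Fin A.n) (k l : Fin 4) (b : X2 M) (x : M) :
    fco A i k l b x = A.χ i x * (1 / 2 * ent (rep (A.c i) b.1 (chartAt E4 (A.c i) x)) k l) := rfl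

lemma smoothF_fco (A : FA E4 M) (i : Fin A.n) (k l : Fin 4) (b : X2 M) :
    SmoothF E4 (fco A i k l b) := by
  have hχ : SmoothF E4 (A.χ i) := (smoothF_iff _).1 (A.χ_smooth i)
  refine SmoothF.of_local fun x => ?_
  by_cases hx : x ∈ (chartAt E4 (A.c i)).source
  · refine ⟨A.c i, hx, ?_⟩
    have hy := (chartAt E4 (A.c i)).map_source hx
    have h1 : ContDiffAt ℝ ∞ (repF (A.c i) (A.χ i)) (chartAt E4 (A.c i) x) :=
      contDiffOn_chart_iff.1 (hχ (A.c i)) _ hy
    have h2 : ContDiffAt ℝ ∞ (rep (A.c i) b.1) (chartAt E4 (A.c i) x) :=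
      contDiffOn_chart_iff.1 (b.2.2 (A.c i)) _ hy
    have h3 : ContDiffAt ℝ ∞ (fun y => ent (rep (A.c i) b.1 y) k l) (chartAt E4 (A.c i) x) :=
      (h2.clm_apply contDiffAt_const).clm_apply contDiffAt_const
    have h4 := h1.mul (contDiffAt_const (c := (1 / 2 : ℝ)) |>.mul h3)
    refine h4.congr_of_eventuallyEq ?_
    filter_upwards [(chartAt E4 (A.c i)).open_target.mem_nhds hy] with y hy'
    simp only [repF, fco_apply]
    rw [(chartAt E4 (A.c i)).right_inv hy']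
  · refine ⟨x, mem_chart_source E4 x, ?_⟩
    have hx' : x ∉ tsupport (A.χ i) := fun h => hx (A.χ_supp i h).1
    refine (contDiffAt_const (c := (0 : ℝ))).congr_of_eventuallyEq ?_
    have hc : ContinuousAt (chartAt E4 x).symm (chartAt E4 x x) :=
      (chartAt E4 x).continuousAt_symm (mem_chart_target E4 x)
    have hn : (tsupport (A.χ i))ᶜ ∈ 𝓝 ((chartAt E4 x).symm (chartAt E4 x x)) := by
      rw [(chartAt E4 x).left_inv (mem_chart_source E4 x)]
      exact (isClosed_tsupport _).isOpen_compl.mem_nhds hx'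
    filter_upwards [hc.preimage_mem_nhds hn] with y hy
    simp only [repF, fco_apply]
    rw [image_eq_zero_of_notMem_tsupport hy, zero_mul]

theorem exists_frame_ix (D : Dat M) : ∃ (n : ℕ) (c : Fin n → Fin 4 → Fin 4 → X2 M)
    (f : Fin n → Fin 4 → Fin 4 → X2 M →ₗ[ℝ] (M → ℝ)) (C : ℝ), 0 ≤ C ∧
    (∀ i k l b, SmoothF E4 (f i k l b)) ∧
    (∀ (b : X2 M) x, at2 b.1 x = ∑ i, ∑ k, ∑ l, f i k l b x • at2 (c i k l).1 x) ∧
    (∀ i k l (b : X2 M) x, |f i k l b x| ≤ C * D.nr b.1 x) := by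
  obtain ⟨A⟩ : Nonempty (FA E4 M) := exists_FA
  have hcut : ∀ i : Fin A.n, ∃ c : Cut E4, tsupport c.θ ⊆ (chartAt E4 (A.c i)).target ∧
      (∀ᶠ y in 𝓝ˢ (A.K i), c.θ y = 1) ∧ ∀ y, c.θ y ∈ Icc (0 : ℝ) 1 := fun i =>
    exists_cut (A.isCompact_K i) (chartAt E4 (A.c i)).open_target (A.K_sub i)
  choose ct hct1 hct2 hct3 using hcut
  have hct2' : ∀ i, ∀ y ∈ A.K i, (ct i).θ y = 1 := fun i y hy =>
    (hct2 i).self_of_nhdsSet y hy
  have hsm : ∀ i k l, Smooth2 (ext2 (A.c i) (fun y => (ct i).θ y • wed (pr k) (pr l)) : F2 E4 M) := by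
    intro i k l
    refine Sm4.smooth2_ext2 (K := tsupport (ct i).θ) (ct i).comp (hct1 i) ?_ ?_ ?_
    · exact (ct i).smooth.smul contDiff_const
    · intro y hy
      rw [image_eq_zero_of_notMem_tsupport hy]
      exact zero_smul ℝ _
    · intro y v
      have : ((ct i).θ y • wed (pr k) (pr l)) v v = (ct i).θ y * (wed (pr k) (pr l) v v) := rfl
      rw [this, wed_alt, mul_zero]
  choose C hC0 hC using fun i => rep_le_nr D (A.c i) (A.isCompact_K i) (A.K_sub i)
  refine ⟨A.n, fun i k l => ⟨_, hsm i k l⟩, fco A, ∑ i, C i, Finset.sum_nonneg fun i _ => hC0 i,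
    smoothF_fco A, fun b x => ?_, fun i k l b x => ?_⟩
  · have h1 : ∀ i, ∑ k : Fin 4, ∑ l : Fin 4, fco A i k l b x •
        at2 (ext2 (A.c i) (fun y => (ct i).θ y • wed (pr k) (pr l)) : F2 E4 M) x
        = A.χ i x • at2 b.1 x := by
      intro i
      by_cases hx : A.χ i x = 0
      · simp only [fco_apply, hx, zero_mul, zero_smul, Finset.sum_const_zero]
      · have hx1 := A.χ_supp i (subset_tsupport _ hx)
        have hyK : chartAt E4 (A.c i) x ∈ A.K i := interior_subset hx1.2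
        have halt : Alt (rep (A.c i) b.1 (chartAt E4 (A.c i) x)) := fun v => by
          rw [rep_apply]; exact b.2.1 _ _
        have h2 : ∀ k l, at2 (ext2 (A.c i) (fun y => (ct i).θ y • wed (pr k) (pr l)) : F2 E4 M) x
            = pullL (tcc x (A.c i) x) (wed (pr k) (pr l)) := by
          intro k l
          rw [Sm4.at2_ext2_of_mem hx1.1, hct2' i _ hyK]
          ext u v
          simp only [pb_apply, pullL_apply, pull_apply]
          have : ((1 : ℝ) • wed (pr k) (pr l)) ((tcc x (A.c i) x) u) ((tcc x (A.c i) x) v)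
              = 1 * (wed (pr k) (pr l) ((tcc x (A.c i) x) u) ((tcc x (A.c i) x) v)) := rfl
          rw [this, one_mul]
        have h3 : at2 b.1 x = pullL (tcc x (A.c i) x) (rep (A.c i) b.1 (chartAt E4 (A.c i) x)) := by
          rw [pullL_apply]; exact at2_eq_pull hx1.1 b.1
        have h4 : ∑ k : Fin 4, ∑ l : Fin 4, fco A i k l b x •
            at2 (ext2 (A.c i) (fun y => (ct i).θ y • wed (pr k) (pr l)) : F2 E4 M) x
            = A.χ i x • pullL (tcc x (A.c i) x) (∑ k : Fin 4, ∑ l : Fin 4,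
              (1 / 2 * ent (rep (A.c i) b.1 (chartAt E4 (A.c i) x)) k l) • wed (pr k) (pr l)) := by
          rw [map_sum, Finset.smul_sum]
          refine Finset.sum_congr rfl fun k _ => ?_
          rw [map_sum, Finset.smul_sum]
          refine Finset.sum_congr rfl fun l _ => ?_
          rw [map_smul, smul_smul, h2, fco_apply]
        rw [h4, ← alt_sum halt, ← h3]
    simp only [h1]
    rw [← Finset.sum_smul, A.χ_sum, one_smul]
  · rw [fco_apply]
    by_cases hx : A.χ i x = 0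
    · rw [hx, zero_mul, abs_zero]
      exact mul_nonneg (Finset.sum_nonneg fun i _ => hC0 i) (NM.nr_nonneg D _ _)
    · have hx1 := A.χ_supp i (subset_tsupport _ hx)
      have hyK : chartAt E4 (A.c i) x ∈ A.K i := interior_subset hx1.2
      have h1 := hC i b.1 (fun x v => b.2.1 x v) _ hyK
      rw [(chartAt E4 (A.c i)).left_inv hx1.1] at h1
      have h2 := abs_ent_le (rep (A.c i) b.1 (chartAt E4 (A.c i) x)) k l
      have h3 : C i * D.nr b.1 x ≤ (∑ i, C i) * D.nr b.1 x :=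
        mul_le_mul_of_nonneg_right
          (Finset.single_le_sum (fun i _ => hC0 i) (Finset.mem_univ i)) (NM.nr_nonneg D _ _)
      rw [abs_mul, abs_mul]
      have h4 : |A.χ i x| ≤ 1 := abs_le.2 ⟨by linarith [A.χ_nonneg i x], A.χ_le i x⟩
      have h5 : |(1 / 2 : ℝ)| = 1 / 2 := abs_of_pos (by norm_num)
      have h6 := abs_nonneg (ent (rep (A.c i) b.1 (chartAt E4 (A.c i) x)) k l)
      have h7 := abs_nonneg (A.χ i x)
      rw [h5]
      nlinarith [norm_nonneg (rep (A.c i) b.1 (chartAt E4 (A.c i) x))]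

/-- **a global finite frame** with coefficient functionals. -/
theorem exists_frame (D : Dat M) : ∃ (n : ℕ) (c : Fin n → X2 M)
    (f : Fin n → X2 M →ₗ[ℝ] (M → ℝ)) (C : ℝ), 0 ≤ C ∧
    (∀ j b, SmoothF E4 (f j b)) ∧
    (∀ (b : X2 M) x, at2 b.1 x = ∑ j, f j b x • at2 (c j).1 x) ∧
    (∀ j (b : X2 M) x, |f j b x| ≤ C * D.nr b.1 x) := by
  obtain ⟨n, c, f, C, hC, hs, he, hb⟩ := exists_frame_ix D
  let σ := (Fintype.equivFin (Fin n × Fin 4 × Fin 4))
  refine ⟨Fintype.card (Fin n × Fin 4 × Fin 4),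
    fun j => c (σ.symm j).1 (σ.symm j).2.1 (σ.symm j).2.2,
    fun j => f (σ.symm j).1 (σ.symm j).2.1 (σ.symm j).2.2, C, hC, fun j b => hs _ _ _ b,
    fun b x => ?_, fun j b x => hb _ _ _ b x⟩
  rw [σ.symm.sum_comp (fun j => f j.1 j.2.1 j.2.2 b x • at2 (c j.1 j.2.1 j.2.2).1 x), he,
    Fintype.sum_prod_type]
  refine Finset.sum_congr rfl fun i _ => ?_
  rw [Fintype.sum_prod_type]

end frame

/-! ### `L²` lemmas -/

/-- monotonicity of the `L²` norm. -/
theorem n2_mono (D : Dat M) {b c : F2 E4 M} (hb : Smooth2 b) (hc : Smooth2 c) {K : ℝ}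
    (hK : 0 ≤ K) (h : ∀ x, D.nr b x ≤ K * D.nr c x) : D.n2 b ≤ K * D.n2 c := by
  rw [NM.n2_eq D hb, NM.n2_eq D hc]
  have h1 : ∫ x, D.nr b x ^ 2 ∂D.μ ≤ K ^ 2 * ∫ x, D.nr c x ^ 2 ∂D.μ := by
    rw [← integral_const_mul]
    refine integral_mono (NM.integrable_cont D ((NM.continuous_nr D hb).pow 2))
      (NM.integrable_cont D (continuous_const.mul ((NM.continuous_nr D hc).pow 2))) fun x => ?_
    have := h x
    have h0 := NM.nr_nonneg D b x
    calc D.nr b x ^ 2 ≤ (K * D.nr c x) ^ 2 := pow_le_pow_left₀ h0 this 2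
      _ = K ^ 2 * D.nr c x ^ 2 := by ring
  calc √(∫ x, D.nr b x ^ 2 ∂D.μ) ≤ √(K ^ 2 * ∫ x, D.nr c x ^ 2 ∂D.μ) := Real.sqrt_le_sqrt h1
    _ = K * √(∫ x, D.nr c x ^ 2 ∂D.μ) := by
        rw [Real.sqrt_mul (sq_nonneg K), Real.sqrt_sq hK]

/-- `‖f g‖₂ ≤ K C ‖b‖₂` if `|g| ≤ K` and `|f| ≤ C |b|`. -/
theorem n2_fmul_le (D : Dat M) {b g : F2 E4 M} (hb : Smooth2 b) {f : M → ℝ}
    (hfg : Smooth2 (fmul f g)) {K C : ℝ} (hK : 0 ≤ K) (hC : 0 ≤ C) (h1 : ∀ x, D.nr g x ≤ K)
    (h2 : ∀ x, |f x| ≤ C * D.nr b x) : D.n2 (fmul f g) ≤ K * C * D.n2 b := by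
  refine n2_mono D hfg hb (by positivity) fun x => ?_
  rw [NM.nr_fmul]
  calc |f x| * D.nr g x ≤ (C * D.nr b x) * K :=
        mul_le_mul (h2 x) (h1 x) (NM.nr_nonneg D _ _) ((abs_nonneg _).trans (h2 x))
    _ = K * C * D.nr b x := by ring

end

end Crest.Agent.R240.Leak
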