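import Mathlib
import Crest.Agent.R240.Sm2d
import Crest.Agent.R240.Cmp

/-!
# Row 240, block R (smoothing), part Sm7a (helper950)

Joint jet bounds: the derivatives (with respect to the parameter and the point) of `T w (β w)` on
compact sets are bounded by those of `β`.
-/

set_option autoImplicit false
set_option linter.unusedSectionVars false
set_option maxSynthPendingDepth 3

open Set Function Filter Metric Bundle
open scoped Manifold ContDiff Topology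

namespace Crest.Agent.R240.Sm

open Crest.Agent.R240.Ch

noncomputable section

section Euclid

variable {A B V V' : Type*} [NormedAddCommGroup A] [NormedSpace ℝ A]
  [NormedAddCommGroup B] [NormedSpace ℝ B] [NormedAddCommGroup V] [NormedSpace ℝ V]
  [NormedAddCommGroup V'] [NormedSpace ℝ V']

lemma continuousAt_iter {N : Set A} (hN : IsOpen N) {f : A → V} (hf : ContDiffOn ℝ ∞ f N) (j : ℕ)
    {v : A} (hv : v ∈ N) : ContinuousAt (iteratedFDeriv ℝ j f) v := by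
  have h := hf.continuousOn_iteratedFDerivWithin (m := j) (by exact_mod_cast le_top)
    hN.uniqueDiffOn
  have h2 : ContinuousOn (iteratedFDeriv ℝ j f) N :=
    h.congr (fun x hx => (iteratedFDerivWithin_of_isOpen j hN hx).symm)
  exact h2.continuousAt (hN.mem_nhds hv)

/-- derivative bounds near a point. -/
lemma exists_bound_near {N : Set A} (hN : IsOpen N) {f : A → V} (hf : ContDiffOn ℝ ∞ f N) (m : ℕ)
    {v : A} (hv : v ∈ N) :
    ∃ D : ℝ, 1 ≤ D ∧ ∀ᶠ w in 𝓝 v, ∀ j ≤ m, ‖iteratedFDeriv ℝ j f w‖ ≤ D := by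
  refine ⟨1 + ∑ j ∈ Finset.range (m + 1), ‖iteratedFDeriv ℝ j f v‖, ?_, ?_⟩
  · have : 0 ≤ ∑ j ∈ Finset.range (m + 1), ‖iteratedFDeriv ℝ j f v‖ :=
      Finset.sum_nonneg fun _ _ => norm_nonneg _
    linarith
  · have h : ∀ j ∈ Finset.range (m + 1), ∀ᶠ w in 𝓝 v,
        ‖iteratedFDeriv ℝ j f w‖ < 1 + ‖iteratedFDeriv ℝ j f v‖ := by
      intro j _
      exact (continuousAt_iter hN hf j hv).norm.eventually_lt continuousAt_const (by linarith)
    have h' := (Finset.eventually_all (Finset.range (m + 1))).2 h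
    filter_upwards [h'] with w hw j hj
    have hj' : j ∈ Finset.range (m + 1) := Finset.mem_range.2 (Nat.lt_succ_of_le hj)
    refine (hw j hj').le.trans ?_
    have := Finset.single_le_sum (f := fun j => ‖iteratedFDeriv ℝ j f v‖)
      (fun i _ => norm_nonneg _) hj'
    linarith

/-- bound for the derivatives of `v ↦ Λ v (g (Φ v))`. -/
lemma bound_comp {N : Set A} (hN : IsOpen N) {S : Set B} (hS : IsOpen S)
    {Λ : A → V →L[ℝ] V'} {Φ : A → B} {g : B → V} (hΛ : ContDiffOn ℝ ∞ Λ N)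
    (hΦ : ContDiffOn ℝ ∞ Φ N) (hg : ContDiffOn ℝ ∞ g S) (hm : MapsTo Φ N S) (m : ℕ)
    {D : ℝ} (hD : 1 ≤ D) {v : A} (hv : v ∈ N)
    (h1 : ∀ j ≤ m, ‖iteratedFDeriv ℝ j Λ v‖ ≤ D) (h2 : ∀ j ≤ m, ‖iteratedFDeriv ℝ j Φ v‖ ≤ D)
    {b : ℝ} (h3 : ∀ j ≤ m, ‖iteratedFDeriv ℝ j g (Φ v)‖ ≤ b) :
    ∀ j ≤ m, ‖iteratedFDeriv ℝ j (fun v => Λ v (g (Φ v))) v‖ ≤ 2 ^ m * (D * ((m.factorial : ℝ) * D ^ m)) * b := by
  intro j hj
  have hb : 0 ≤ b := (norm_nonneg _).trans (h3 0 (Nat.zero_le m))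
  have hD0 : 0 ≤ D := by linarith
  have hgΦ : ContDiffOn ℝ ∞ (g ∘ Φ) N := hg.comp hΦ hm
  have key : ∀ i ≤ m, ‖iteratedFDerivWithin ℝ i (g ∘ Φ) N v‖ ≤ (m.factorial : ℝ) * D ^ m * b := by
    intro i hi
    have := norm_iteratedFDerivWithin_comp_le (n := i) (C := b) (D := D) hg hΦ
      (by exact_mod_cast le_top) hS.uniqueDiffOn hN.uniqueDiffOn hm hv
      (fun k hk => by
        rw [iteratedFDerivWithin_of_isOpen k hS (hm hv)]
        exact h3 k (hk.trans hi))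
      (fun k hk1 hk => by
        rw [iteratedFDerivWithin_of_isOpen k hN hv]
        exact (h2 k (hk.trans hi)).trans (le_self_pow₀ hD (by omega)))
    refine this.trans ?_
    have e1 : (i.factorial : ℝ) ≤ (m.factorial : ℝ) := by exact_mod_cast Nat.factorial_le hi
    have e2 : D ^ i ≤ D ^ m := pow_le_pow_right₀ hD hi
    calc (i.factorial : ℝ) * b * D ^ i ≤ (m.factorial : ℝ) * b * D ^ m := by gcongr
      _ = (m.factorial : ℝ) * D ^ m * b := by ring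
  have h4 := norm_iteratedFDerivWithin_clm_apply (n := j) hΛ hgΦ hN.uniqueDiffOn hv
    (by exact_mod_cast le_top)
  rw [iteratedFDerivWithin_of_isOpen j hN hv] at h4
  have e0 : iteratedFDeriv ℝ j (fun v => Λ v (g (Φ v))) v =
    iteratedFDeriv ℝ j (fun y => (Λ y) ((g ∘ Φ) y)) v := rfl
  rw [e0]
  refine h4.trans ?_
  have h5 : ∀ i ∈ Finset.range (j + 1), (j.choose i : ℝ) * ‖iteratedFDerivWithin ℝ i Λ N v‖ *
      ‖iteratedFDerivWithin ℝ (j - i) (g ∘ Φ) N v‖ ≤ (j.choose i : ℝ) * (D * ((m.factorial : ℝ) * D ^ m * b)) := by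
    intro i hi
    have hi' : i ≤ j := Nat.lt_succ_iff.1 (Finset.mem_range.1 hi)
    rw [mul_assoc]
    refine mul_le_mul_of_nonneg_left ?_ (Nat.cast_nonneg _)
    refine mul_le_mul ?_ (key _ ((Nat.sub_le _ _).trans hj)) (norm_nonneg _) hD0
    rw [iteratedFDerivWithin_of_isOpen i hN hv]
    exact h1 i (hi'.trans hj)
  refine (Finset.sum_le_sum h5).trans ?_
  rw [← Finset.sum_mul]
  have e3 : ∑ i ∈ Finset.range (j + 1), (j.choose i : ℝ) = 2 ^ j := by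
    exact_mod_cast Nat.sum_range_choose j
  rw [e3]
  have e4 : (2 : ℝ) ^ j ≤ 2 ^ m := pow_le_pow_right₀ (by norm_num) hj
  calc (2 : ℝ) ^ j * (D * ((m.factorial : ℝ) * D ^ m * b)) ≤ 2 ^ m * (D * ((m.factorial : ℝ) * D ^ m * b)) := by
        refine mul_le_mul_of_nonneg_right e4 ?_
        positivity
    _ = _ := by ring

/-- functions not depending on the first variable. -/
lemma norm_iter_comp_snd_le {S : Set B} (hS : IsOpen S) {f : B → V} (hf : ContDiffOn ℝ ∞ f S)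
    (j : ℕ) {v : A × B} (hv : v.2 ∈ S) :
    ‖iteratedFDeriv ℝ j (fun w : A × B => f w.2) v‖ ≤ ‖iteratedFDeriv ℝ j f v.2‖ := by
  have hopen : IsOpen ((ContinuousLinearMap.snd ℝ A B) ⁻¹' S) :=
    hS.preimage (ContinuousLinearMap.snd ℝ A B).continuous
  have h := ContinuousLinearMap.iteratedFDerivWithin_comp_right (i := j) (n := ∞)
    (ContinuousLinearMap.snd ℝ A B) hf hS.uniqueDiffOn hopen.uniqueDiffOn (x := v) hv
    (by exact_mod_cast le_top)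
  have hv' : (ContinuousLinearMap.snd ℝ A B) v ∈ S := hv
  rw [iteratedFDerivWithin_of_isOpen j hopen hv, iteratedFDerivWithin_of_isOpen j hS hv'] at h
  have e : iteratedFDeriv ℝ j (fun w : A × B => f w.2) v =
    iteratedFDeriv ℝ j (f ∘ ⇑(ContinuousLinearMap.snd ℝ A B)) v := rfl
  rw [e, h]
  refine (ContinuousMultilinearMap.norm_compContinuousLinearMap_le _ _).trans ?_
  have h1 : ∏ _i : Fin j, ‖ContinuousLinearMap.snd ℝ A B‖ ≤ 1 :=
    Finset.prod_le_one (fun _ _ => norm_nonneg _) fun _ _ => ContinuousLinearMap.norm_snd_le ℝ A B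
  exact mul_le_of_le_one_right (norm_nonneg _) h1

end Euclid

section Man

variable {M : Type*} [TopologicalSpace M] [ChartedSpace E4 M] [IsManifold 𝓘(ℝ, E4) ∞ M]
variable {W : Type*} [NormedAddCommGroup W] [NormedSpace ℝ W]

/-- joint jet bound: all derivatives of order `≤ m` of `(w, y) ↦ rep (β w) y` are at most `B` for
`w ∈ C` and `y` in the pieces of the cover. -/
def JB (𝒰 : Cover M) (m : ℕ) (C : Set W) (β : W → F2 E4 M) (B : ℝ) : Prop :=
  ∀ i, ∀ w ∈ C, ∀ y ∈ 𝒰.K i, ∀ j ≤ m,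
    ‖iteratedFDeriv ℝ j (fun v : W × E4 => rep (𝒰.p i) (β v.1) v.2) (w, y)‖ ≤ B

omit [IsManifold 𝓘(ℝ, E4) ∞ M] in
lemma JB.mono' [IsManifold 𝓘(ℝ, E4) ∞ M] {𝒰 : Cover M} {m m' : ℕ} {C C' : Set W}
    {β : W → F2 E4 M} {B B' : ℝ}
    (h : JB 𝒰 m C β B) (hm : m' ≤ m) (hC : C' ⊆ C) (hB : B ≤ B') : JB 𝒰 m' C' β B' :=
  fun i w hw y hy j hj => (h i w (hC hw) y hy j (hj.trans hm)).trans hB

/-- constant families. -/
lemma JB.const {𝒰 : Cover M} {m : ℕ} {b : F2 E4 M} (hb : Smooth2 b) (C : Set W) :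
    JB 𝒰 m C (fun _ => b) (𝒰.cm m b) := by
  intro i w _ y hy j hj
  exact (norm_iter_comp_snd_le (A := W) (chartAt E4 (𝒰.p i)).open_target (hb.2 (𝒰.p i)) j
    (v := (w, y)) (𝒰.sub i hy)).trans (le_cm 𝒰 hj hb hy)

/-- **joint jet bounds.** -/
theorem LF.jb (𝒰 : Cover M) {U : Set W} (hU : IsOpen U) {T : W → F2 E4 M → F2 E4 M}
    {φ : W → M → M} (h : LF U T φ) {C : Set W} (hC : IsCompact C) (hCU : C ⊆ U) (m : ℕ) :
    ∃ A : ℝ, 0 ≤ A ∧ ∀ β : W → F2 E4 M,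
      (∀ q : M, ContDiffOn ℝ ∞ (fun v : W × E4 => rep q (β v.1) v.2)
        (U ×ˢ (chartAt E4 q).target)) →
      ∀ B : ℝ, JB 𝒰 m C β B → JB 𝒰 m C (fun w => T w (β w)) (A * B) := by
  classical
  have hi : ∀ i : Fin 𝒰.N, ∃ A : ℝ, 0 ≤ A ∧ ∀ β : W → F2 E4 M,
      (∀ q : M, ContDiffOn ℝ ∞ (fun v : W × E4 => rep q (β v.1) v.2)
        (U ×ˢ (chartAt E4 q).target)) →
      ∀ B : ℝ, JB 𝒰 m C β B → ∀ v ∈ C ×ˢ 𝒰.K i, v ∈ C ×ˢ 𝒰.K i → ∀ j ≤ m,
        ‖iteratedFDeriv ℝ j (fun v : W × E4 => rep (𝒰.p i) (T v.1 (β v.1)) v.2) v‖ ≤ A * B := by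
    intro i
    refine (hC.prod (𝒰.cpt i)).induction_on
      (p := fun s => ∃ A : ℝ, 0 ≤ A ∧ ∀ β : W → F2 E4 M,
        (∀ q : M, ContDiffOn ℝ ∞ (fun v : W × E4 => rep q (β v.1) v.2)
          (U ×ˢ (chartAt E4 q).target)) →
        ∀ B : ℝ, JB 𝒰 m C β B → ∀ v ∈ s, v ∈ C ×ˢ 𝒰.K i → ∀ j ≤ m,
          ‖iteratedFDeriv ℝ j (fun v : W × E4 => rep (𝒰.p i) (T v.1 (β v.1)) v.2) v‖ ≤ A * B)
      ?_ ?_ ?_ ?_
    · exact ⟨0, le_rfl, fun β _ B _ v hv => hv.elim⟩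
    · rintro s t hst ⟨A, hA, hh⟩
      exact ⟨A, hA, fun β hβ B hB v hv => hh β hβ B hB v (hst hv)⟩
    · rintro s t ⟨A, hA, hh⟩ ⟨A', hA', hh'⟩
      refine ⟨max A A', le_max_of_le_left hA, fun β hβ B hB v hv hv2 j hj => ?_⟩
      have hB0 : 0 ≤ B := (norm_nonneg _).trans (hB i v.1 hv2.1 v.2 hv2.2 0 (Nat.zero_le m))
      rcases hv with hv | hv
      · exact (hh β hβ B hB v hv hv2 j hj).trans
          (mul_le_mul_of_nonneg_right (le_max_left _ _) hB0)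
      · exact (hh' β hβ B hB v hv hv2 j hj).trans
          (mul_le_mul_of_nonneg_right (le_max_right _ _) hB0)
    · rintro ⟨w0, y0⟩ ⟨hw0, hy0⟩
      simp only at hw0 hy0
      obtain ⟨k, hk1, hk2⟩ := 𝒰.cov (φ w0 ((chartAt E4 (𝒰.p i)).symm y0))
      obtain ⟨N, ho, hmem, hs, hc, hV, Λ, hΛ, hr⟩ := h w0 (hCU hw0) (𝒰.p i) y0 (𝒰.sub i hy0)
        (𝒰.p k) hk1
      set V : W × E4 → E4 :=
        fun v => chartAt E4 (𝒰.p k) (φ v.1 ((chartAt E4 (𝒰.p i)).symm v.2)) with hVd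
      set Φ : W × E4 → W × E4 := fun v => (v.1, V v) with hΦ
      have hΦs : ContDiffOn ℝ ∞ Φ N := contDiffOn_fst.prodMk hV
      have hΦm : MapsTo Φ N (U ×ˢ (chartAt E4 (𝒰.p k)).target) := fun v hv =>
        ⟨(hs hv).1, (chartAt E4 (𝒰.p k)).map_source (hc v hv)⟩
      obtain ⟨D1, hD1, e1⟩ := exists_bound_near ho hΛ m hmem
      obtain ⟨D2, hD2, e2⟩ := exists_bound_near ho hΦs m hmem
      set D := max D1 D2 with hD
      have hD3 : 1 ≤ D := le_max_of_le_left hD1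
      have e3 : ∀ᶠ v in 𝓝 (w0, y0), V v ∈ interior (𝒰.K k) :=
        (hV.continuousOn.continuousAt (ho.mem_nhds hmem)).preimage_mem_nhds
          (isOpen_interior.mem_nhds hk2)
      have e4 : ∀ᶠ v in 𝓝 (w0, y0), v ∈ N := ho.mem_nhds hmem
      refine ⟨{v | v ∈ N ∧ V v ∈ interior (𝒰.K k) ∧ (∀ j ≤ m, ‖iteratedFDeriv ℝ j Λ v‖ ≤ D1) ∧
        (∀ j ≤ m, ‖iteratedFDeriv ℝ j Φ v‖ ≤ D2)}, ?_, 2 ^ m * (D * ((m.factorial : ℝ) * D ^ m)), ?_, ?_⟩
      · refine mem_nhdsWithin_of_mem_nhds ?_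
        filter_upwards [e1, e2, e3, e4] with v h1 h2 h3 h4 using ⟨h4, h3, h1, h2⟩
      · have : 0 ≤ D := by linarith
        positivity
      · rintro β hβ B hB ⟨w, y⟩ ⟨hvN, hvK, h1, h2⟩ ⟨hw, hy⟩ j hj
        have hβk := hβ (𝒰.p k)
        by_cases hU0 : (w, y) ∈ N
        swap
        · exact absurd hvN hU0
        have hev : (fun v : W × E4 => rep (𝒰.p i) (T v.1 (β v.1)) v.2) =ᶠ[𝓝 (w, y)]
            fun v => Λ v ((fun v : W × E4 => rep (𝒰.p k) (β v.1) v.2) (Φ v)) := by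
          filter_upwards [ho.mem_nhds hvN] with v hv
          exact hr v hv (β v.1)
        rw [(hev.iteratedFDeriv ℝ j).eq_of_nhds]
        have hbc := bound_comp ho (hU.prod (chartAt E4 (𝒰.p k)).open_target) hΛ hΦs hβk hΦm m hD3 hvN
          (fun j hj => (h1 j hj).trans (le_max_left _ _))
          (fun j hj => (h2 j hj).trans (le_max_right _ _)) (b := B)
          (fun j hj => hB k w hw (V (w, y)) (interior_subset hvK) j hj) j hj
        exact hbc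
  choose A hA hh using hi
  refine ⟨∑ i, A i, Finset.sum_nonneg fun i _ => hA i, fun β hβ B hB i w hw y hy j hj => ?_⟩
  have hB0 : 0 ≤ B := (norm_nonneg _).trans (hB i w hw y hy 0 (Nat.zero_le m))
  refine (hh i β hβ B hB (w, y) ⟨hw, hy⟩ ⟨hw, hy⟩ j hj).trans ?_
  exact mul_le_mul_of_nonneg_right
    (Finset.single_le_sum (f := A) (fun i _ => hA i) (Finset.mem_univ i)) hB0

/-- joint jet bounds for a fixed form. -/
theorem LF.jb_const (𝒰 : Cover M) {U : Set W} (hU : IsOpen U) {T : W → F2 E4 M → F2 E4 M}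
    {φ : W → M → M} (h : LF U T φ) {C : Set W} (hC : IsCompact C) (hCU : C ⊆ U) (m : ℕ) :
    ∃ A : ℝ, 0 ≤ A ∧ ∀ b : F2 E4 M, Smooth2 b → JB 𝒰 m C (fun w => T w b) (A * 𝒰.cm m b) := by
  obtain ⟨A, hA, hh⟩ := LF.jb 𝒰 hU h hC hCU m
  exact ⟨A, hA, fun b hb => hh (fun _ => b) (JSm.const hb U).2 _ (JB.const hb C)⟩

end Man

end

end Crest.Agent.R240.Sm
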