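import Mathlib
import Crest.Agent.R240.SmJet

/-!
# Row 240 (S0371), node N8(5), helper609: crude smoothing bounds, Euclidean core

`Op ε k A β q = ∫ ζ, k ζ • A (q, ε ζ) (β (Y (q, ε ζ)))` where `Y (q, ·)` is a local
diffeomorphism.  Each derivative in `q` costs `ε⁻¹` after integration by parts in `ζ`; the last
integral is estimated by a change of variables.
-/

set_option autoImplicit false
set_option maxSynthPendingDepth 3
set_option linter.unusedSectionVars false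

open Set Filter Topology MeasureTheory
open scoped ContDiff

namespace Crest.Agent.R240.SmCr

open Crest.Agent.R240.SmJ

noncomputable section

section Base

variable {E : Type} [NormedAddCommGroup E] [NormedSpace ℝ E] [FiniteDimensional ℝ E]
  [MeasurableSpace E] [BorelSpace E] (μ : Measure E) [IsFiniteMeasureOnCompacts μ]
variable {V : Type} [NormedAddCommGroup V] [NormedSpace ℝ V]

/-- integration over a compact set as a continuous linear map on `C(K, V)`. -/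
def intK (K : Set E) [CompactSpace K] : C(K, V) →L[ℝ] V :=
  haveI : IsFiniteMeasure (μ.comap ((↑) : K → E)) := by
    refine ⟨?_⟩
    have hK : IsCompact K := isCompact_iff_compactSpace.2 inferInstance
    rw [comap_subtype_coe_apply hK.measurableSet]
    simpa using hK.measure_lt_top
  LinearMap.mkContinuous
    { toFun := fun g => ∫ x : K, g x ∂(μ.comap ((↑) : K → E))
      map_add' := fun f g => by
        simp only [ContinuousMap.add_apply]
        exact integral_add (f.continuous.integrable_of_hasCompactSupport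
          (HasCompactSupport.of_compactSpace _)) (g.continuous.integrable_of_hasCompactSupport
          (HasCompactSupport.of_compactSpace _))
      map_smul' := fun c f => by
        simp only [ContinuousMap.smul_apply, RingHom.id_apply]
        exact integral_smul c _ }
    ((μ.comap ((↑) : K → E)).real univ) (fun g => by
      refine (norm_integral_le_of_norm_le_const (C := ‖g‖)
        (Eventually.of_forall fun x => g.norm_coe_le_norm x)).trans ?_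
      rw [mul_comm])

theorem intK_apply (K : Set E) [CompactSpace K] (g : C(K, V)) :
    intK μ K g = ∫ x : K, g x ∂(μ.comap ((↑) : K → E)) := rfl

theorem intK_eq (K : Set E) [CompactSpace K] (g : C(K, V)) (f : E → V)
    (h : ∀ x : K, g x = f x) : intK μ K g = ∫ x in K, f x ∂μ := by
  have hK : IsCompact K := isCompact_iff_compactSpace.2 inferInstance
  rw [intK_apply, ← integral_subtype_comap hK.measurableSet]
  exact integral_congr_ae (Eventually.of_forall fun x => h x)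

variable {W : Type} [NormedAddCommGroup W] [NormedSpace ℝ W]

theorem integrable_smul {k : E → ℝ} {H : E → W} {R : ℝ} (hk : Continuous k)
    (hs : tsupport k ⊆ Metric.closedBall 0 1) (hR : 1 < R)
    (hH : ContinuousOn H (Metric.ball 0 R)) : Integrable (fun ζ => k ζ • H ζ) μ := by
  have : ProperSpace E := FiniteDimensional.proper ℝ E
  have h1 : IntegrableOn (fun ζ => k ζ • H ζ) (Metric.closedBall 0 1) μ :=
    ContinuousOn.integrableOn_compact (isCompact_closedBall 0 1)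
      (hk.continuousOn.smul (hH.mono (Metric.closedBall_subset_ball hR)))
  rw [← integrableOn_iff_integrable_of_support_subset (s := Metric.closedBall (0 : E) 1)]
  · exact h1
  · intro ζ hζ
    apply hs
    apply subset_tsupport
    intro h0
    apply hζ
    simp [h0]

end Base

section IBP

variable {E : Type} [NormedAddCommGroup E] [NormedSpace ℝ E] [FiniteDimensional ℝ E]
  [MeasurableSpace E] [BorelSpace E] (μ : Measure E) [μ.IsAddHaarMeasure]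
  {W : Type} [NormedAddCommGroup W] [NormedSpace ℝ W]

theorem ibp {k : E → ℝ} {H : E → W} {R : ℝ} (hk : ContDiff ℝ ∞ k)
    (hs : tsupport k ⊆ Metric.closedBall 0 1) (hR : 1 < R)
    (hH : ContDiffOn ℝ ∞ H (Metric.ball 0 R)) (v : E) :
    ∫ ζ, k ζ • fderiv ℝ H ζ v ∂μ = - ∫ ζ, fderiv ℝ k ζ v • H ζ ∂μ := by
  have hdk : ContDiff ℝ ∞ (fun ζ => fderiv ℝ k ζ v) :=
    (hk.fderiv_right (m := ∞) (by simp)).clm_apply contDiff_const
  have hs' : tsupport (fun ζ => fderiv ℝ k ζ v) ⊆ Metric.closedBall 0 1 :=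
    (tsupport_fderiv_apply_subset ℝ v).trans hs
  have hdH : ContinuousOn (fun ζ => fderiv ℝ H ζ v) (Metric.ball 0 R) :=
    (hH.continuousOn_fderiv_of_isOpen Metric.isOpen_ball (by simp)).clm_apply continuousOn_const
  refine integral_smul_fderiv_eq_neg_fderiv_smul_of_integrable
    (integrable_smul μ hdk.continuous hs' hR hH.continuousOn)
    (integrable_smul μ hk.continuous hs hR hdH)
    (integrable_smul μ hk.continuous hs hR hH.continuousOn)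
    (fun x _ => hk.differentiable (by simp) x) (fun x hx => ?_)
  have hx' : x ∈ Metric.ball (0 : E) R := Metric.closedBall_subset_ball hR (hs hx)
  exact (hH.contDiffAt (Metric.isOpen_ball.mem_nhds hx')).differentiableAt (by simp)

end IBP

/-! ### the operators -/

section Main

variable {E Z Q : Type} [NormedAddCommGroup E] [NormedSpace ℝ E] [NormedAddCommGroup Z]
  [NormedSpace ℝ Z] [NormedAddCommGroup Q] [NormedSpace ℝ Q]

/-- local data for the smoothing operators -/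
structure Dat (Q Z E : Type) [NormedAddCommGroup E] [NormedSpace ℝ E] [NormedAddCommGroup Z]
    [NormedSpace ℝ Z] [NormedAddCommGroup Q] [NormedSpace ℝ Q] where
  N : Set Q
  r : ℝ
  Y : Q × Z → E
  S : Q × Z → (Q →L[ℝ] Z)
  open_N : IsOpen N
  r_pos : 0 < r
  smY : ContDiffOn ℝ ∞ Y (N ×ˢ Metric.ball 0 r)
  smS : ContDiffOn ℝ ∞ S (N ×ˢ Metric.ball 0 r)
  rel : ∀ p ∈ N ×ˢ Metric.ball (0 : Z) r, (dy Y p).comp (S p) = dx Y p

variable (d : Dat Q Z E) {V : Type} [NormedAddCommGroup V] [NormedSpace ℝ V]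
  {W : Type} [NormedAddCommGroup W] [NormedSpace ℝ W]

namespace Dat

/-- the domain -/
def Ω : Set (Q × Z) := d.N ×ˢ Metric.ball (0 : Z) d.r

theorem open_Ω : IsOpen d.Ω := d.open_N.prod Metric.isOpen_ball

theorem mem_scale {ε : ℝ} (hε : 0 < ε) {ζ : Z} (hζ : ζ ∈ Metric.ball (0 : Z) (d.r / ε)) :
    ε • ζ ∈ Metric.ball (0 : Z) d.r := by
  rw [mem_ball_zero_iff] at hζ ⊢
  rw [norm_smul, Real.norm_of_nonneg hε.le]
  rwa [lt_div_iff₀ hε, mul_comm] at hζ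

theorem one_lt {ε : ℝ} (hε : 0 < ε) (hr : ε < d.r) : 1 < d.r / ε := by
  rwa [lt_div_iff₀ hε, one_mul]

theorem mapsTo {ε : ℝ} (hε : 0 < ε) :
    MapsTo (fun p : Q × Z => (p.1, ε • p.2)) (d.N ×ˢ Metric.ball (0 : Z) (d.r / ε)) d.Ω :=
  fun _ hp => ⟨hp.1, d.mem_scale hε hp.2⟩

/-- the integrand -/
def G (ε : ℝ) (k : Z → ℝ) (A : Q × Z → V →L[ℝ] W) (β : E → V) (p : Q × Z) : W :=
  k p.2 • A (p.1, ε • p.2) (β (d.Y (p.1, ε • p.2)))

theorem contDiffOn_scale (ε : ℝ) (s : Set (Q × Z)) :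
    ContDiffOn ℝ ∞ (fun p : Q × Z => (p.1, ε • p.2)) s :=
  (contDiff_fst.prodMk (contDiff_snd.const_smul ε)).contDiffOn

theorem contDiffOn_G {ε : ℝ} (hε : 0 < ε) {k : Z → ℝ} (hk : ContDiff ℝ ∞ k)
    {A : Q × Z → V →L[ℝ] W} (hA : ContDiffOn ℝ ∞ A d.Ω) {β : E → V} (hβ : ContDiff ℝ ∞ β) :
    ContDiffOn ℝ ∞ (d.G ε k A β) (d.N ×ˢ Metric.ball (0 : Z) (d.r / ε)) := by
  have h1 := contDiffOn_scale (Q := Q) (Z := Z) ε (d.N ×ˢ Metric.ball (0 : Z) (d.r / ε))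
  have hA' := hA.comp h1 (d.mapsTo hε)
  have hY' := d.smY.comp h1 (d.mapsTo hε)
  have hb := hβ.comp_contDiffOn hY'
  exact (hk.comp contDiff_snd).contDiffOn.smul (hA'.clm_apply hb)

variable [FiniteDimensional ℝ Z] [MeasurableSpace Z] [BorelSpace Z] (μ : Measure Z)
  [μ.IsAddHaarMeasure]

/-- the smoothing operator -/
def Op (ε : ℝ) (k : Z → ℝ) (A : Q × Z → V →L[ℝ] W) (β : E → V) (q : Q) : W :=
  ∫ ζ, d.G ε k A β (q, ζ) ∂μ

theorem G_eq_zero {ε : ℝ} {k : Z → ℝ} (hs : tsupport k ⊆ Metric.closedBall 0 1)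
    {A : Q × Z → V →L[ℝ] W} {β : E → V} (q : Q) {ζ : Z} (hζ : ζ ∉ Metric.closedBall (0 : Z) 1) :
    d.G ε k A β (q, ζ) = 0 := by
  have : k ζ = 0 := image_eq_zero_of_notMem_tsupport fun h => hζ (hs h)
  simp [G, this]

theorem Op_eq {ε : ℝ} {k : Z → ℝ} (hs : tsupport k ⊆ Metric.closedBall 0 1)
    {A : Q × Z → V →L[ℝ] W} {β : E → V} (q : Q) :
    d.Op μ ε k A β q = ∫ ζ in Metric.closedBall 0 1, d.G ε k A β (q, ζ) ∂μ := by
  rw [Op]
  exact (setIntegral_eq_integral_of_forall_compl_eq_zero fun ζ hζ => d.G_eq_zero hs q hζ).symm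

theorem Op_eq_intK {ε : ℝ} (hε : 0 < ε) (hr : ε < d.r) {k : Z → ℝ} (hk : ContDiff ℝ ∞ k)
    (hs : tsupport k ⊆ Metric.closedBall 0 1)
    {A : Q × Z → V →L[ℝ] W} (hA : ContDiffOn ℝ ∞ A d.Ω) {β : E → V} (hβ : ContDiff ℝ ∞ β)
    [CompactSpace (Metric.closedBall (0 : Z) 1)] {q : Q} (hq : q ∈ d.N) :
    d.Op μ ε k A β q =
      intK μ (Metric.closedBall (0 : Z) 1) (restr (Metric.closedBall (0 : Z) 1) (d.G ε k A β) q) := by
  rw [d.Op_eq μ hs]
  refine (intK_eq μ _ _ (fun ζ => d.G ε k A β (q, ζ)) fun ζ => ?_).symm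
  exact restr_apply (Metric.closedBall_subset_ball (d.one_lt hε hr))
    (d.contDiffOn_G hε hk hA hβ).continuousOn hq ζ

theorem contDiffOn_Op {ε : ℝ} (hε : 0 < ε) (hr : ε < d.r) {k : Z → ℝ} (hk : ContDiff ℝ ∞ k)
    (hs : tsupport k ⊆ Metric.closedBall 0 1)
    {A : Q × Z → V →L[ℝ] W} (hA : ContDiffOn ℝ ∞ A d.Ω) {β : E → V} (hβ : ContDiff ℝ ∞ β) :
    ContDiffOn ℝ ∞ (d.Op μ ε k A β) d.N := by
  have : ProperSpace Z := FiniteDimensional.proper ℝ Z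
  have hc : CompactSpace (Metric.closedBall (0 : Z) 1) :=
    isCompact_iff_compactSpace.1 (isCompact_closedBall 0 1)
  have h1 := contDiffOn_restr (Metric.closedBall (0 : Z) 1) d.open_N Metric.isOpen_ball
    (Metric.closedBall_subset_ball (d.one_lt hε hr)) (d.contDiffOn_G hε hk hA hβ)
  have h2 := (intK μ (Metric.closedBall (0 : Z) 1) (V := W)).contDiff (n := ∞) |>.comp_contDiffOn h1
  exact h2.congr fun q hq => d.Op_eq_intK μ hε hr hk hs hA hβ hq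

theorem fderiv_Op [CompleteSpace W] {ε : ℝ} (hε : 0 < ε) (hr : ε < d.r) {k : Z → ℝ}
    (hk : ContDiff ℝ ∞ k) (hs : tsupport k ⊆ Metric.closedBall 0 1)
    {A : Q × Z → V →L[ℝ] W} (hA : ContDiffOn ℝ ∞ A d.Ω) {β : E → V} (hβ : ContDiff ℝ ∞ β)
    {q : Q} (hq : q ∈ d.N) :
    fderiv ℝ (d.Op μ ε k A β) q =
      ∫ ζ in Metric.closedBall 0 1, dx (d.G ε k A β) (q, ζ) ∂μ := by
  have : ProperSpace Z := FiniteDimensional.proper ℝ Z
  have hc : CompactSpace (Metric.closedBall (0 : Z) 1) :=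
    isCompact_iff_compactSpace.1 (isCompact_closedBall 0 1)
  have hsub : Metric.closedBall (0 : Z) 1 ⊆ Metric.ball 0 (d.r / ε) :=
    Metric.closedBall_subset_ball (d.one_lt hε hr)
  have hG := d.contDiffOn_G hε hk hA hβ
  have h1 := hasFDerivAt_restr (Metric.closedBall (0 : Z) 1) d.open_N Metric.isOpen_ball
    hsub hG hq
  have h2 := (intK μ (Metric.closedBall (0 : Z) 1) (V := W)).hasFDerivAt.comp q h1
  have h3 : HasFDerivAt (d.Op μ ε k A β) _ q :=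
    h2.congr_of_eventuallyEq (Filter.eventually_of_mem (d.open_N.mem_nhds hq) fun q' hq' =>
      d.Op_eq_intK μ hε hr hk hs hA hβ hq')
  rw [h3.fderiv]
  have hdG : ContinuousOn (dx (d.G ε k A β)) (d.N ×ˢ Metric.ball (0 : Z) (d.r / ε)) :=
    (contDiffOn_dx (d.open_N.prod Metric.isOpen_ball) hG).continuousOn
  have hint : IntegrableOn (fun ζ => dx (d.G ε k A β) (q, ζ)) (Metric.closedBall 0 1) μ := by
    refine ContinuousOn.integrableOn_compact (isCompact_closedBall 0 1) ?_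
    exact cont_slice hsub hdG hq
  ext u
  rw [ContinuousLinearMap.integral_apply hint]
  show intK μ _ (swapL _ _ _ (restr _ (dx (d.G ε k A β)) q) u) = _
  refine intK_eq μ _ _ (fun ζ => dx (d.G ε k A β) (q, ζ) u) fun ζ => ?_
  rw [swapL_apply, restr_apply hsub hdG hq]

/-! ### the class is closed under derivatives -/

/-- derivative of the coefficient in the parameter -/
def A1 (A : Q × Z → V →L[ℝ] W) (p : Q × Z) : V →L[ℝ] (Q →L[ℝ] W) :=
  ContinuousLinearMap.flip (dx A p)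

/-- coefficient times a component of the vector field `S` -/
def Bc (ℓ : Z →L[ℝ] ℝ) (A : Q × Z → V →L[ℝ] W) (p : Q × Z) : V →L[ℝ] (Q →L[ℝ] W) :=
  (ContinuousLinearMap.smulRightL ℝ Q W (ℓ.comp (d.S p))).comp (A p)

omit [FiniteDimensional ℝ Z] [MeasurableSpace Z] [BorelSpace Z] in
theorem Bc_apply (ℓ : Z →L[ℝ] ℝ) (A : Q × Z → V →L[ℝ] W) (p : Q × Z) (v : V) (u : Q) :
    d.Bc ℓ A p v u = ℓ (d.S p u) • A p v := rfl

omit [FiniteDimensional ℝ Z] [MeasurableSpace Z] [BorelSpace Z] in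
theorem A1_apply (A : Q × Z → V →L[ℝ] W) (p : Q × Z) (v : V) (u : Q) :
    A1 A p v u = dx A p u v := rfl

omit [FiniteDimensional ℝ Z] [MeasurableSpace Z] [BorelSpace Z] in
theorem contDiffOn_A1 {A : Q × Z → V →L[ℝ] W} (hA : ContDiffOn ℝ ∞ A d.Ω) :
    ContDiffOn ℝ ∞ (A1 A) d.Ω :=
  (ContinuousLinearMap.flipₗᵢ ℝ Q V W).contDiff.comp_contDiffOn (contDiffOn_dx d.open_Ω hA)

omit [FiniteDimensional ℝ Z] [MeasurableSpace Z] [BorelSpace Z] in
theorem contDiffOn_Bc (ℓ : Z →L[ℝ] ℝ) {A : Q × Z → V →L[ℝ] W} (hA : ContDiffOn ℝ ∞ A d.Ω) :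
    ContDiffOn ℝ ∞ (d.Bc ℓ A) d.Ω := by
  have h1 : ContDiffOn ℝ ∞ (fun p => ℓ.comp (d.S p)) d.Ω :=
    contDiffOn_const.clm_comp d.smS
  have h2 : ContDiffOn ℝ ∞ (fun p => ContinuousLinearMap.smulRightL ℝ Q W (ℓ.comp (d.S p))) d.Ω :=
    (ContinuousLinearMap.smulRightL ℝ Q W).contDiff.comp_contDiffOn h1
  exact h2.clm_comp hA

/-- derivative in `ζ` of the coefficient -/
def Ce (e : Z) (A : Q × Z → V →L[ℝ] W) (p : Q × Z) : V →L[ℝ] W := dy A p e

omit [FiniteDimensional ℝ Z] [MeasurableSpace Z] [BorelSpace Z] in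
theorem contDiffOn_Ce (e : Z) {A : Q × Z → V →L[ℝ] W} (hA : ContDiffOn ℝ ∞ A d.Ω) :
    ContDiffOn ℝ ∞ (Ce e A) d.Ω :=
  (contDiffOn_dy d.open_Ω hA).clm_apply contDiffOn_const

omit [FiniteDimensional ℝ Z] [MeasurableSpace Z] [BorelSpace Z] in
/-- derivative of the integrand in the parameter -/
theorem dx_G {ε : ℝ} (hε : 0 < ε) {k : Z → ℝ} (hk : ContDiff ℝ ∞ k)
    {A : Q × Z → V →L[ℝ] W} (hA : ContDiffOn ℝ ∞ A d.Ω) {β : E → V} (hβ : ContDiff ℝ ∞ β)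
    {q : Q} (hq : q ∈ d.N) {ζ : Z} (hζ : ζ ∈ Metric.ball (0 : Z) (d.r / ε)) (u : Q) :
    dx (d.G ε k A β) (q, ζ) u = k ζ • (dx A (q, ε • ζ) u (β (d.Y (q, ε • ζ))) +
      A (q, ε • ζ) (fderiv ℝ β (d.Y (q, ε • ζ)) (dx d.Y (q, ε • ζ) u))) := by
  have hp : (q, ε • ζ) ∈ d.Ω := ⟨hq, d.mem_scale hε hζ⟩
  have hG : DifferentiableAt ℝ (d.G ε k A β) (q, ζ) :=
    ((d.contDiffOn_G hε hk hA hβ).contDiffAt ((d.open_N.prod Metric.isOpen_ball).mem_nhds
      ⟨hq, hζ⟩)).differentiableAt (by simp)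
  have h0 := hasFDerivAt_dx hG
  have hAd : DifferentiableAt ℝ A (q, ε • ζ) :=
    (hA.contDiffAt (d.open_Ω.mem_nhds hp)).differentiableAt (by simp)
  have hYd : DifferentiableAt ℝ d.Y (q, ε • ζ) :=
    (d.smY.contDiffAt (d.open_Ω.mem_nhds hp)).differentiableAt (by simp)
  have hA' := hasFDerivAt_dx hAd
  have hY' := hasFDerivAt_dx hYd
  have hb := (hβ.differentiable (by simp) (d.Y (q, ε • ζ))).hasFDerivAt
  have h1 := (hA'.clm_apply (hb.comp q hY')).const_smul (k ζ)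
  have h2 : (fun x => d.G ε k A β (x, ζ)) =
      k ζ • fun x => (A (x, ε • ζ)) ((β ∘ fun x => d.Y (x, ε • ζ)) x) := rfl
  have h3 := h0.unique (h2 ▸ h1)
  rw [h3]
  simp [add_comm]

/-- the inner function -/
def H (ε : ℝ) (A : Q × Z → V →L[ℝ] W) (β : E → V) (q : Q) (ζ : Z) : W :=
  A (q, ε • ζ) (β (d.Y (q, ε • ζ)))

omit [FiniteDimensional ℝ Z] [MeasurableSpace Z] [BorelSpace Z] in
theorem contDiffOn_H {ε : ℝ} (hε : 0 < ε)
    {A : Q × Z → V →L[ℝ] W} (hA : ContDiffOn ℝ ∞ A d.Ω) {β : E → V} (hβ : ContDiff ℝ ∞ β)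
    {q : Q} (hq : q ∈ d.N) :
    ContDiffOn ℝ ∞ (d.H ε A β q) (Metric.ball (0 : Z) (d.r / ε)) := by
  have h1 : ContDiffOn ℝ ∞ (fun ζ : Z => (q, ε • ζ)) (Metric.ball (0 : Z) (d.r / ε)) :=
    (contDiff_const.prodMk (contDiff_id.const_smul ε)).contDiffOn
  have hm : MapsTo (fun ζ : Z => (q, ε • ζ)) (Metric.ball (0 : Z) (d.r / ε)) d.Ω :=
    fun ζ hζ => ⟨hq, d.mem_scale hε hζ⟩
  exact (hA.comp h1 hm).clm_apply (hβ.comp_contDiffOn (d.smY.comp h1 hm))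

/-- derivative term -/
def T (ε : ℝ) (e : Z) (A : Q × Z → V →L[ℝ] W) (β : E → V) (q : Q) (ζ : Z) : W :=
  A (q, ε • ζ) (fderiv ℝ β (d.Y (q, ε • ζ)) (dy d.Y (q, ε • ζ) (ε • e)))

omit [FiniteDimensional ℝ Z] [MeasurableSpace Z] [BorelSpace Z] in
theorem fderiv_H {ε : ℝ} (hε : 0 < ε)
    {A : Q × Z → V →L[ℝ] W} (hA : ContDiffOn ℝ ∞ A d.Ω) {β : E → V} (hβ : ContDiff ℝ ∞ β)
    {q : Q} (hq : q ∈ d.N) {ζ : Z} (hζ : ζ ∈ Metric.ball (0 : Z) (d.r / ε)) (e : Z) :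
    fderiv ℝ (d.H ε A β q) ζ e = ε • d.H ε (Ce e A) β q ζ + d.T ε e A β q ζ := by
  have hp : (q, ε • ζ) ∈ d.Ω := ⟨hq, d.mem_scale hε hζ⟩
  have hAd : DifferentiableAt ℝ A (q, ε • ζ) :=
    (hA.contDiffAt (d.open_Ω.mem_nhds hp)).differentiableAt (by simp)
  have hYd : DifferentiableAt ℝ d.Y (q, ε • ζ) :=
    (d.smY.contDiffAt (d.open_Ω.mem_nhds hp)).differentiableAt (by simp)
  have hsc : HasFDerivAt (fun ζ : Z => ε • ζ) (ε • ContinuousLinearMap.id ℝ Z) ζ :=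
    (hasFDerivAt_id ζ).const_smul ε
  have hA' := (hasFDerivAt_dy hAd).comp ζ hsc
  have hY' := (hasFDerivAt_dy hYd).comp ζ hsc
  have hb := (hβ.differentiable (by simp) (d.Y (q, ε • ζ))).hasFDerivAt
  have h1 := hA'.clm_apply (hb.comp ζ hY')
  have h2 : d.H ε A β q =
      fun ζ => ((fun y => A ((q, ε • ζ).1, y)) ∘ fun ζ => ε • ζ) ζ
        ((β ∘ ((fun y => d.Y ((q, ε • ζ).1, y)) ∘ fun ζ => ε • ζ)) ζ) := rfl
  have h3 : HasFDerivAt (d.H ε A β q) _ ζ := h2 ▸ h1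
  rw [h3.fderiv]
  simp only [H, T, Ce, add_apply, ContinuousLinearMap.comp_apply,
    ContinuousLinearMap.flip_apply, smul_apply,
    ContinuousLinearMap.id_apply, Function.comp, map_smul]
  exact add_comm _ _

theorem ibp_T {ε : ℝ} (hε : 0 < ε) (hr : ε < d.r) {k : Z → ℝ} (hk : ContDiff ℝ ∞ k)
    (hs : tsupport k ⊆ Metric.closedBall 0 1)
    {A : Q × Z → V →L[ℝ] W} (hA : ContDiffOn ℝ ∞ A d.Ω) {β : E → V} (hβ : ContDiff ℝ ∞ β)
    {q : Q} (hq : q ∈ d.N) (e : Z) :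
    Integrable (fun ζ => k ζ • d.T ε e A β q ζ) μ ∧
    ∫ ζ, k ζ • d.T ε e A β q ζ ∂μ =
      - d.Op μ ε (fun ζ => fderiv ℝ k ζ e) A β q - ε • d.Op μ ε k (Ce e A) β q := by
  have hR := d.one_lt hε hr
  have hH := d.contDiffOn_H hε hA hβ hq
  have hH1 := d.contDiffOn_H hε (d.contDiffOn_Ce e hA) hβ hq
  have hdH : ContinuousOn (fun ζ => fderiv ℝ (d.H ε A β q) ζ e) (Metric.ball 0 (d.r / ε)) :=
    (hH.continuousOn_fderiv_of_isOpen Metric.isOpen_ball (by simp)).clm_apply continuousOn_const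
  have hTc : ContinuousOn (d.T ε e A β q) (Metric.ball 0 (d.r / ε)) := by
    refine (hdH.sub (hH1.continuousOn.const_smul ε)).congr fun ζ hζ => ?_
    simp only [Pi.sub_apply, Pi.smul_apply]
    rw [d.fderiv_H hε hA hβ hq hζ e]; simp
  have hTi := integrable_smul μ hk.continuous hs hR hTc
  refine ⟨hTi, ?_⟩
  have h1 := ibp μ hk hs hR hH e
  have h2 : ∫ ζ, k ζ • fderiv ℝ (d.H ε A β q) ζ e ∂μ =
      ∫ ζ, (ε • (k ζ • d.H ε (Ce e A) β q ζ) + k ζ • d.T ε e A β q ζ) ∂μ := by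
    refine integral_congr_ae (Eventually.of_forall fun ζ => ?_)
    by_cases hζ : ζ ∈ Metric.ball (0 : Z) (d.r / ε)
    · simp only
      rw [d.fderiv_H hε hA hβ hq hζ e, smul_add, smul_comm]
    · have h0 : k ζ = 0 := image_eq_zero_of_notMem_tsupport fun h =>
        hζ (Metric.closedBall_subset_ball hR (hs h))
      simp [h0]
  have hI1 : Integrable (fun ζ => ε • (k ζ • d.H ε (Ce e A) β q ζ)) μ :=
    (integrable_smul μ hk.continuous hs hR hH1.continuousOn).smul ε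
  rw [integral_add hI1 hTi, integral_smul] at h2
  have h3 : d.Op μ ε k (Ce e A) β q = ∫ ζ, k ζ • d.H ε (Ce e A) β q ζ ∂μ := rfl
  have h4 : d.Op μ ε (fun ζ => fderiv ℝ k ζ e) A β q =
      ∫ ζ, fderiv ℝ k ζ e • d.H ε A β q ζ ∂μ := rfl
  rw [h3, h4, ← neg_eq_iff_eq_neg.2 h1, h2]
  simp

/-- **derivative of the smoothing operator** -/
theorem fderiv_Op' [CompleteSpace W] {ε : ℝ} (hε : 0 < ε) (hr : ε < d.r) {k : Z → ℝ}
    (hk : ContDiff ℝ ∞ k) (hs : tsupport k ⊆ Metric.closedBall 0 1)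
    {A : Q × Z → V →L[ℝ] W} (hA : ContDiffOn ℝ ∞ A d.Ω) {β : E → V} (hβ : ContDiff ℝ ∞ β)
    {ι : Type} [Fintype ι] (b : Module.Basis ι ℝ Z) (ℓ : ι → Z →L[ℝ] ℝ)
    (hℓ : ∀ v, v = ∑ a, ℓ a v • b a)
    {q : Q} (hq : q ∈ d.N) :
    fderiv ℝ (d.Op μ ε k A β) q = d.Op μ ε k (A1 A) β q -
      ∑ a, (ε⁻¹ • d.Op μ ε (fun ζ => fderiv ℝ k ζ (b a)) (d.Bc (ℓ a) A) β q +
        d.Op μ ε k (Ce (b a) (d.Bc (ℓ a) A)) β q) := by
  have hR := d.one_lt hε hr
  have hsub : Metric.closedBall (0 : Z) 1 ⊆ Metric.ball 0 (d.r / ε) :=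
    Metric.closedBall_subset_ball hR
  rw [d.fderiv_Op μ hε hr hk hs hA hβ hq]
  have e1 : ∫ ζ in Metric.closedBall 0 1, dx (d.G ε k A β) (q, ζ) ∂μ =
      ∫ ζ, (k ζ • d.H ε (A1 A) β q ζ +
        ∑ a, ε⁻¹ • (k ζ • d.T ε (b a) (d.Bc (ℓ a) A) β q ζ)) ∂μ := by
    have e2 : ∀ ζ, ζ ∉ Metric.closedBall (0 : Z) 1 → (k ζ • d.H ε (A1 A) β q ζ +
        ∑ a, ε⁻¹ • (k ζ • d.T ε (b a) (d.Bc (ℓ a) A) β q ζ)) = 0 := by
      intro ζ hζ
      have h0 : k ζ = 0 := image_eq_zero_of_notMem_tsupport fun h => hζ (hs h)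
      simp [h0]
    refine Eq.trans ?_ (setIntegral_eq_integral_of_forall_compl_eq_zero e2)
    · refine setIntegral_congr_fun (s := Metric.closedBall (0 : Z) 1) measurableSet_closedBall
        fun ζ hζ => ?_
      ext u
      have hζ' := hsub hζ
      have hp : (q, ε • ζ) ∈ d.Ω := ⟨hq, d.mem_scale hε hζ'⟩
      rw [d.dx_G hε hk hA hβ hq hζ' u]
      rw [add_apply, sum_apply, smul_add]
      congr 1
      have h5 : dx d.Y (q, ε • ζ) u = dy d.Y (q, ε • ζ) (∑ a, ℓ a (d.S (q, ε • ζ) u) • b a) := by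
        rw [← hℓ, ← d.rel _ hp]; rfl
      rw [h5, map_sum, map_sum, map_sum, Finset.smul_sum]
      refine Finset.sum_congr rfl fun a _ => ?_
      simp only [T, smul_apply, Bc_apply, map_smul]
      rw [smul_comm (ε⁻¹) (k ζ), smul_smul (ε⁻¹) ε, inv_mul_cancel₀ hε.ne', one_smul]
  have hI : ∀ a, Integrable (fun ζ => ε⁻¹ • (k ζ • d.T ε (b a) (d.Bc (ℓ a) A) β q ζ)) μ :=
    fun a => (d.ibp_T μ hε hr hk hs (d.contDiffOn_Bc (ℓ a) hA) hβ hq (b a)).1.smul ε⁻¹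
  rw [e1, integral_add
    (integrable_smul μ hk.continuous hs hR (d.contDiffOn_H hε (d.contDiffOn_A1 hA) hβ hq).continuousOn)
    (integrable_finsetSum _ fun a _ => hI a),
    integral_finsetSum _ (fun a _ => hI a)]
  rw [sub_eq_add_neg, ← Finset.sum_neg_distrib]
  congr 1
  refine Finset.sum_congr rfl fun a _ => ?_
  rw [integral_smul, (d.ibp_T μ hε hr hk hs (d.contDiffOn_Bc (ℓ a) hA) hβ hq (b a)).2]
  rw [smul_sub, smul_smul, inv_mul_cancel₀ hε.ne', one_smul, smul_neg]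
  abel

/-- the `L¹` quantity -/
def I1 (ε : ℝ) (β : E → V) (q : Q) : ℝ := ∫ ζ in Metric.closedBall (0 : Z) 1, ‖β (d.Y (q, ε • ζ))‖ ∂μ

theorem I1_nonneg (ε : ℝ) (β : E → V) (q : Q) : 0 ≤ d.I1 μ ε β q :=
  integral_nonneg fun _ => norm_nonneg _

theorem norm_Op_le {r1 : ℝ} (hr1 : r1 < d.r) {Kq : Set Q} (hKq : Kq ⊆ d.N)
    {A : Q × Z → V →L[ℝ] W} {CA : ℝ} (hCA : 0 ≤ CA)
    (hCAb : ∀ p ∈ Kq ×ˢ Metric.closedBall (0 : Z) r1, ‖A p‖ ≤ CA)
    {k : Z → ℝ} (hs : tsupport k ⊆ Metric.closedBall 0 1) {Bk : ℝ} (hBk : ∀ ζ, ‖k ζ‖ ≤ Bk)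
    {ε : ℝ} (hε : 0 < ε) (hε1 : ε ≤ r1) {β : E → V} (hβ : ContDiff ℝ ∞ β) {q : Q} (hq : q ∈ Kq) :
    ‖d.Op μ ε k A β q‖ ≤ CA * Bk * d.I1 μ ε β q := by
  have : ProperSpace Z := FiniteDimensional.proper ℝ Z
  have hBk0 : 0 ≤ Bk := (norm_nonneg _).trans (hBk 0)
  rw [d.Op_eq μ hs, I1, ← integral_const_mul]
  have hm : MapsTo (fun ζ : Z => (q, ε • ζ)) (Metric.closedBall (0 : Z) 1) d.Ω := by
    intro ζ hζ
    refine ⟨hKq hq, ?_⟩
    rw [mem_ball_zero_iff, norm_smul, Real.norm_of_nonneg hε.le]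
    rw [mem_closedBall_zero_iff] at hζ
    nlinarith
  have hint : IntegrableOn (fun ζ => CA * Bk * ‖β (d.Y (q, ε • ζ))‖) (Metric.closedBall 0 1) μ := by
    refine ContinuousOn.integrableOn_compact (isCompact_closedBall 0 1) ?_
    refine continuousOn_const.mul (ContinuousOn.norm ?_)
    exact hβ.continuous.comp_continuousOn (d.smY.continuousOn.comp (by fun_prop) hm)
  refine norm_integral_le_of_norm_le hint ?_
  refine (ae_restrict_iff' measurableSet_closedBall).2 (Eventually.of_forall fun ζ hζ => ?_)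
  have hA : ‖A (q, ε • ζ)‖ ≤ CA := by
    refine hCAb _ ⟨hq, ?_⟩
    rw [mem_closedBall_zero_iff, norm_smul, Real.norm_of_nonneg hε.le]
    rw [mem_closedBall_zero_iff] at hζ
    nlinarith
  calc ‖d.G ε k A β (q, ζ)‖ = ‖k ζ‖ * ‖A (q, ε • ζ) (β (d.Y (q, ε • ζ)))‖ := norm_smul _ _
    _ ≤ Bk * (CA * ‖β (d.Y (q, ε • ζ))‖) := by
        refine mul_le_mul (hBk ζ) ?_ (norm_nonneg _) hBk0
        exact (ContinuousLinearMap.le_opNorm _ _).trans
          (mul_le_mul_of_nonneg_right hA (norm_nonneg _))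
    _ = _ := by ring

theorem norm_iter_fderiv_apply_le {k : Z → ℝ} (hk : ContDiff ℝ ∞ k) (e : Z) {m : ℕ} {Bk : ℝ}
    (hBk : ∀ i ≤ m + 1, ∀ ζ, ‖iteratedFDeriv ℝ i k ζ‖ ≤ Bk) :
    ∀ i ≤ m, ∀ ζ, ‖iteratedFDeriv ℝ i (fun ζ => fderiv ℝ k ζ e) ζ‖ ≤ ‖e‖ * Bk := by
  intro i hi ζ
  have h1 : ContDiff ℝ ∞ (fderiv ℝ k) := hk.fderiv_right (m := ∞) (by simp)
  refine (norm_iteratedFDeriv_clm_apply_const (N := ∞) h1.contDiffAt
    (by exact_mod_cast le_top)).trans ?_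
  refine mul_le_mul_of_nonneg_left ?_ (norm_nonneg _)
  rw [norm_iteratedFDeriv_fderiv]
  exact hBk (i + 1) (by omega) ζ

/-- **the crude bound, before the change of variables** -/
theorem bound {r1 : ℝ} (hr0 : 0 < r1) (hr1 : r1 < d.r) (hr1' : r1 ≤ 1)
    {Kq : Set Q} (hKc : IsCompact Kq) (hKq : Kq ⊆ d.N) (m : ℕ) :
    ∀ {W : Type} [NormedAddCommGroup W] [NormedSpace ℝ W] [CompleteSpace W]
      (A : Q × Z → V →L[ℝ] W), ContDiffOn ℝ ∞ A d.Ω → ∃ C : ℝ, 0 ≤ C ∧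
      ∀ k : Z → ℝ, ContDiff ℝ ∞ k → tsupport k ⊆ Metric.closedBall 0 1 → ∀ Bk : ℝ,
        (∀ i ≤ m, ∀ ζ, ‖iteratedFDeriv ℝ i k ζ‖ ≤ Bk) → ∀ ε : ℝ, 0 < ε → ε ≤ r1 →
        ∀ β : E → V, ContDiff ℝ ∞ β → ∀ q ∈ interior Kq,
          ‖iteratedFDeriv ℝ m (d.Op μ ε k A β) q‖ ≤ C * Bk * (ε ^ m)⁻¹ * d.I1 μ ε β q := by
  have hprop : ProperSpace Z := FiniteDimensional.proper ℝ Z
  have hcomp : IsCompact (Kq ×ˢ Metric.closedBall (0 : Z) r1) :=
    hKc.prod (isCompact_closedBall 0 r1)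
  have hsubΩ : Kq ×ˢ Metric.closedBall (0 : Z) r1 ⊆ d.Ω :=
    prod_mono hKq (Metric.closedBall_subset_ball hr1)
  induction m with
  | zero =>
    intro W _ _ _ A hA
    obtain ⟨C, hC⟩ := hcomp.exists_bound_of_continuousOn (hA.continuousOn.mono hsubΩ)
    refine ⟨max C 0, le_max_right _ _, fun k hk hs Bk hBk ε hε hε1 β hβ q hq => ?_⟩
    have h0 : ∀ ζ, ‖k ζ‖ ≤ Bk := fun ζ => by
      have := hBk 0 le_rfl ζ
      rwa [norm_iteratedFDeriv_zero] at this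
    rw [norm_iteratedFDeriv_zero, pow_zero, inv_one, mul_one]
    exact d.norm_Op_le μ hr1 hKq (le_max_right _ _) (fun p hp => (hC p hp).trans (le_max_left _ _))
      hs h0 hε hε1 hβ (interior_subset hq)
  | succ m ih =>
    intro W _ _ _ A hA
    let b := Module.finBasis ℝ Z
    let ℓ : Fin (Module.finrank ℝ Z) → Z →L[ℝ] ℝ := fun a => LinearMap.toContinuousLinearMap (b.coord a)
    have hℓ : ∀ v, v = ∑ a, ℓ a v • b a := fun v => (b.sum_repr v).symm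
    obtain ⟨C1, hC1, h1⟩ := ih (A1 A) (d.contDiffOn_A1 hA)
    choose C2 hC2 h2 using fun a => ih (d.Bc (ℓ a) A) (d.contDiffOn_Bc (ℓ a) hA)
    choose C3 hC3 h3 using fun a => ih (Ce (b a) (d.Bc (ℓ a) A))
      (d.contDiffOn_Ce (b a) (d.contDiffOn_Bc (ℓ a) hA))
    refine ⟨C1 + ∑ a, (C2 a * ‖b a‖ + C3 a), ?_, ?_⟩
    · refine add_nonneg hC1 (Finset.sum_nonneg fun a _ => ?_)
      exact add_nonneg (mul_nonneg (hC2 a) (norm_nonneg _)) (hC3 a)
    intro k hk hs Bk hBk ε hε hε1 β hβ q hq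
    have hBk0 : 0 ≤ Bk := (norm_nonneg _).trans (hBk 0 (Nat.zero_le _) 0)
    have hεr : ε < d.r := lt_of_le_of_lt hε1 hr1
    have hI := d.I1_nonneg μ ε β q
    have hqN : q ∈ d.N := hKq (interior_subset hq)
    have hdk : ∀ a, ContDiff ℝ ∞ (fun ζ => fderiv ℝ k ζ (b a)) := fun a =>
      (hk.fderiv_right (m := ∞) (by simp)).clm_apply contDiff_const
    have hds : ∀ a, tsupport (fun ζ => fderiv ℝ k ζ (b a)) ⊆ Metric.closedBall 0 1 := fun a =>
      (tsupport_fderiv_apply_subset ℝ (b a)).trans hs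
    have hev : fderiv ℝ (d.Op μ ε k A β) =ᶠ[𝓝 q] fun q => d.Op μ ε k (A1 A) β q -
      ∑ a, (ε⁻¹ • d.Op μ ε (fun ζ => fderiv ℝ k ζ (b a)) (d.Bc (ℓ a) A) β q +
        d.Op μ ε k (Ce (b a) (d.Bc (ℓ a) A)) β q) :=
      Filter.eventually_of_mem (isOpen_interior.mem_nhds hq) fun q' hq' =>
        d.fderiv_Op' μ hε hεr hk hs hA hβ b ℓ hℓ (hKq (interior_subset hq'))
    have hcd : ∀ {W : Type} [NormedAddCommGroup W] [NormedSpace ℝ W] (A : Q × Z → V →L[ℝ] W)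
        (k : Z → ℝ), ContDiffOn ℝ ∞ A d.Ω → ContDiff ℝ ∞ k →
        tsupport k ⊆ Metric.closedBall 0 1 → ContDiffAt ℝ m (d.Op μ ε k A β) q := by
      intro W _ _ A k hA hk hs
      exact ((d.contDiffOn_Op μ hε hεr hk hs hA hβ).contDiffAt
        (d.open_N.mem_nhds hqN)).of_le (by exact_mod_cast le_top)
    have c1 := hcd (A1 A) k (d.contDiffOn_A1 hA) hk hs
    have c2 := fun a => hcd (d.Bc (ℓ a) A) (fun ζ => fderiv ℝ k ζ (b a))
      (d.contDiffOn_Bc (ℓ a) hA) (hdk a) (hds a)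
    have c3 := fun a => hcd (Ce (b a) (d.Bc (ℓ a) A)) k
      (d.contDiffOn_Ce (b a) (d.contDiffOn_Bc (ℓ a) hA)) hk hs
    rw [← norm_iteratedFDeriv_fderiv, (hev.iteratedFDeriv ℝ m).eq_of_nhds]
    rw [fun_iteratedFDeriv_sub_apply c1 (ContDiffAt.sum fun a _ => ((c2 a).const_smul ε⁻¹).add (c3 a))]
    rw [iteratedFDeriv_fun_sum_apply (fun a _ => ((c2 a).const_smul ε⁻¹).add (c3 a))]
    have hinv : (ε ^ (m + 1))⁻¹ = (ε ^ m)⁻¹ * ε⁻¹ := by rw [pow_succ, mul_inv]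
    have hε2 : 1 ≤ ε⁻¹ := one_le_inv₀ hε |>.2 (hε1.trans hr1')
    set P : ℝ := Bk * (ε ^ m)⁻¹ * d.I1 μ ε β q with hP
    have hP0 : 0 ≤ P := by positivity
    have e1 : ‖iteratedFDeriv ℝ m (d.Op μ ε k (A1 A) β) q‖ ≤ C1 * P := by
      have := h1 k hk hs Bk (fun i hi => hBk i (by omega)) ε hε hε1 β hβ q hq
      rw [hP]; linarith
    have e2 : ∀ a, ‖iteratedFDeriv ℝ m (d.Op μ ε (fun ζ => fderiv ℝ k ζ (b a)) (d.Bc (ℓ a) A) β) q‖
        ≤ C2 a * ‖b a‖ * P := by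
      intro a
      have := h2 a _ (hdk a) (hds a) (‖b a‖ * Bk)
        (norm_iter_fderiv_apply_le hk (b a) hBk) ε hε hε1 β hβ q hq
      rw [hP]; linarith
    have e3 : ∀ a, ‖iteratedFDeriv ℝ m (d.Op μ ε k (Ce (b a) (d.Bc (ℓ a) A)) β) q‖ ≤ C3 a * P := by
      intro a
      have := h3 a k hk hs Bk (fun i hi => hBk i (by omega)) ε hε hε1 β hβ q hq
      rw [hP]; linarith
    calc _ ≤ ‖iteratedFDeriv ℝ m (d.Op μ ε k (A1 A) β) q‖ + ‖∑ a, iteratedFDeriv ℝ m (fun q =>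
          ε⁻¹ • d.Op μ ε (fun ζ => fderiv ℝ k ζ (b a)) (d.Bc (ℓ a) A) β q +
          d.Op μ ε k (Ce (b a) (d.Bc (ℓ a) A)) β q) q‖ := norm_sub_le _ _
      _ ≤ C1 * P * ε⁻¹ + ∑ a, (C2 a * ‖b a‖ + C3 a) * P * ε⁻¹ := by
          refine add_le_add (e1.trans (le_mul_of_one_le_right (by positivity) hε2))
            ((norm_sum_le _ _).trans (Finset.sum_le_sum fun a _ => ?_))
          rw [fun_iteratedFDeriv_add_apply ((c2 a).const_smul ε⁻¹) (c3 a)]
          refine (norm_add_le _ _).trans ?_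
          have h4 := iteratedFDeriv_const_smul_apply' (𝕜 := ℝ) (a := ε⁻¹) (c2 a)
          rw [h4, norm_smul, Real.norm_of_nonneg (by positivity)]
          have h5 := mul_le_mul_of_nonneg_left (e2 a) (inv_nonneg.2 hε.le)
          have h6 : C3 a * P ≤ C3 a * P * ε⁻¹ :=
            le_mul_of_one_le_right (mul_nonneg (hC3 a) hP0) hε2
          have h7 := e3 a
          nlinarith
      _ = _ := by
          rw [hinv, hP, ← Finset.sum_mul, ← Finset.sum_mul]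
          ring

end Dat

end Main

end

end Crest.Agent.R240.SmCr
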