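import Mathlib
import Crest.Agent.R240.SmCr

/-!
# Row 240 (S0371), node N8(5), helper609: crude smoothing bounds, change of variables
-/

set_option autoImplicit false
set_option maxSynthPendingDepth 3
set_option linter.unusedSectionVars false

open Set Filter Topology MeasureTheory
open scoped ContDiff ENNReal NNReal

namespace Crest.Agent.R240.SmCr

open Crest.Agent.R240.SmJ

noncomputable section

section Slice

variable {E Z : Type} [NormedAddCommGroup E] [NormedSpace ℝ E] [FiniteDimensional ℝ E]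
  [MeasurableSpace E] [BorelSpace E] (ν : Measure E) [ν.IsAddHaarMeasure]
  [NormedAddCommGroup Z] [NormedSpace ℝ Z] [FiniteDimensional ℝ Z]
  [MeasurableSpace Z] [BorelSpace Z] (μ : Measure Z) [μ.IsAddHaarMeasure]

/-- averaging over translations in the direction of `j`. -/
theorem lintegral_slice (j : E →L[ℝ] Z) (hj : ‖j‖ ≤ 1) {f : Z → ℝ≥0∞} (hf : Measurable f)
    {C : ℝ≥0∞} (hC : ∀ w ∈ Metric.closedBall (0 : Z) 2,
      ∫⁻ ζ in Metric.closedBall (0 : E) 1, f (w + j ζ) ∂ν ≤ C) :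
    ν (Metric.closedBall 0 1) * ∫⁻ z in Metric.closedBall (0 : Z) 1, f z ∂μ ≤
      C * μ (Metric.closedBall 0 2) := by
  have hprop : ProperSpace Z := FiniteDimensional.proper ℝ Z
  have hpropE : ProperSpace E := FiniteDimensional.proper ℝ E
  have h1 : ∀ ζ ∈ Metric.closedBall (0 : E) 1,
      ∫⁻ z in Metric.closedBall (0 : Z) 1, f z ∂μ ≤
        ∫⁻ w in Metric.closedBall (0 : Z) 2, f (w + j ζ) ∂μ := by
    intro ζ hζ
    rw [← lintegral_indicator measurableSet_closedBall,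
      ← lintegral_indicator measurableSet_closedBall,
      ← lintegral_add_right_eq_self _ (j ζ)]
    refine lintegral_mono fun w => ?_
    by_cases hw : w + j ζ ∈ Metric.closedBall (0 : Z) 1
    · have hw2 : w ∈ Metric.closedBall (0 : Z) 2 := by
        rw [mem_closedBall_zero_iff] at hw hζ ⊢
        have h2 : ‖j ζ‖ ≤ 1 := (j.le_opNorm ζ).trans (by nlinarith [norm_nonneg ζ, norm_nonneg j])
        calc ‖w‖ = ‖(w + j ζ) - j ζ‖ := by rw [add_sub_cancel_right]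
          _ ≤ ‖w + j ζ‖ + ‖j ζ‖ := norm_sub_le _ _
          _ ≤ 2 := by linarith
      rw [indicator_of_mem hw, indicator_of_mem hw2]
    · rw [indicator_of_notMem hw]; exact zero_le
  calc ν (Metric.closedBall 0 1) * ∫⁻ z in Metric.closedBall (0 : Z) 1, f z ∂μ
      = ∫⁻ _ in Metric.closedBall (0 : E) 1, (∫⁻ z in Metric.closedBall (0 : Z) 1, f z ∂μ) ∂ν := by
        rw [setLIntegral_const, mul_comm]
    _ ≤ ∫⁻ ζ in Metric.closedBall (0 : E) 1,
        (∫⁻ w in Metric.closedBall (0 : Z) 2, f (w + j ζ) ∂μ) ∂ν :=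
        setLIntegral_mono' measurableSet_closedBall h1
    _ = ∫⁻ w in Metric.closedBall (0 : Z) 2,
        (∫⁻ ζ in Metric.closedBall (0 : E) 1, f (w + j ζ) ∂ν) ∂μ := by
        refine lintegral_lintegral_swap ?_
        refine (hf.comp ?_).aemeasurable
        exact (measurable_snd.add (j.measurable.comp measurable_fst))
    _ ≤ ∫⁻ _ in Metric.closedBall (0 : Z) 2, C ∂μ :=
        setLIntegral_mono' measurableSet_closedBall hC
    _ = C * μ (Metric.closedBall 0 2) := setLIntegral_const _ _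

end Slice

namespace Dat

variable {E Z Q : Type} [NormedAddCommGroup E] [NormedSpace ℝ E] [FiniteDimensional ℝ E]
  [MeasurableSpace E] [BorelSpace E] (ν : Measure E) [ν.IsAddHaarMeasure]
  [NormedAddCommGroup Z] [NormedSpace ℝ Z] [FiniteDimensional ℝ Z]
  [MeasurableSpace Z] [BorelSpace Z] (μ : Measure Z) [μ.IsAddHaarMeasure]
  [NormedAddCommGroup Q] [NormedSpace ℝ Q] (d : Dat Q Z E)
  {V : Type} [NormedAddCommGroup V] [NormedSpace ℝ V]

/-- quantitative non-degeneracy in the direction `j`. -/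
structure ND (j : E →L[ℝ] Z) (L0 : E ≃L[ℝ] E) (c c0 : ℝ) : Prop where
  j_le : ‖j‖ ≤ 1
  c0_pos : 0 < c0
  c_small : ‖(L0.symm : E →L[ℝ] E)‖ * c < 1
  app : ∀ p ∈ d.Ω, ‖(dy d.Y p).comp j - (L0 : E →L[ℝ] E)‖ ≤ c
  det : ∀ p ∈ d.Ω, c0 ≤ |((dy d.Y p).comp j).det|

variable {d} in
theorem inner_le {j : E →L[ℝ] Z} {L0 : E ≃L[ℝ] E} {c c0 : ℝ} (h : d.ND j L0 c c0)
    {q : Q} (hq : q ∈ d.N) {ε : ℝ} (hε : 0 < ε) (hr : 3 * ε < d.r) {w : Z}
    (hw : w ∈ Metric.closedBall (0 : Z) 2) (g : E → ℝ≥0∞) :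
    ∫⁻ ζ in Metric.closedBall (0 : E) 1, g (d.Y (q, ε • (w + j ζ))) ∂ν ≤
      ENNReal.ofReal ((c0 * ε ^ Module.finrank ℝ E)⁻¹) * ∫⁻ x, g x ∂ν := by
  set n := Module.finrank ℝ E with hn
  set s := Metric.closedBall (0 : E) 1 with hs
  set f : E → E := fun ζ => d.Y (q, ε • (w + j ζ)) with hf
  set f' : E → E →L[ℝ] E := fun ζ => ε • ((dy d.Y (q, ε • (w + j ζ))).comp j) with hf'
  have hmem : ∀ ζ ∈ s, (q, ε • (w + j ζ)) ∈ d.Ω := by
    intro ζ hζ
    refine ⟨hq, ?_⟩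
    rw [mem_ball_zero_iff, norm_smul, Real.norm_of_nonneg hε.le]
    rw [hs, mem_closedBall_zero_iff] at hζ
    rw [mem_closedBall_zero_iff] at hw
    have h2 : ‖j ζ‖ ≤ 1 := (j.le_opNorm ζ).trans (by nlinarith [norm_nonneg ζ, norm_nonneg j, h.j_le])
    have h3 : ‖w + j ζ‖ ≤ 3 := (norm_add_le _ _).trans (by linarith)
    nlinarith
  have hder : ∀ ζ ∈ s, HasFDerivWithinAt f (f' ζ) s ζ := by
    intro ζ hζ
    have hYd : DifferentiableAt ℝ d.Y (q, ε • (w + j ζ)) :=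
      (d.smY.contDiffAt (d.open_Ω.mem_nhds (hmem ζ hζ))).differentiableAt (by simp)
    have h1 : HasFDerivAt (fun ζ : E => ε • (w + j ζ)) (ε • j) ζ :=
      (j.hasFDerivAt.const_add w).const_smul ε
    have h2 := (hasFDerivAt_dy hYd).comp ζ h1
    have h3 : (dy d.Y (q, ε • (w + j ζ))).comp (ε • j) = f' ζ := by
      rw [hf', ContinuousLinearMap.comp_smul]
    rw [h3] at h2
    exact h2.hasFDerivWithinAt
  have hinj : InjOn f s := by
    intro x hx y hy hxy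
    have hφ : ∀ ζ ∈ s, ‖f' ζ - ε • (L0 : E →L[ℝ] E)‖ ≤ ε * c := by
      intro ζ hζ
      rw [hf', ← smul_sub, norm_smul, Real.norm_of_nonneg hε.le]
      exact mul_le_mul_of_nonneg_left (h.app _ (hmem ζ hζ)) hε.le
    have h1 := (convex_closedBall (0 : E) 1).norm_image_sub_le_of_norm_hasFDerivWithin_le'
      hder hφ hx hy
    rw [hxy, sub_self, zero_sub, norm_neg, smul_apply, norm_smul, Real.norm_of_nonneg hε.le,
      mul_assoc] at h1
    have h2 : ‖(L0 : E →L[ℝ] E) (y - x)‖ ≤ c * ‖y - x‖ := le_of_mul_le_mul_left h1 hε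
    have h3 : ‖y - x‖ ≤ ‖(L0.symm : E →L[ℝ] E)‖ * ‖(L0 : E →L[ℝ] E) (y - x)‖ := by
      have := (L0.symm : E →L[ℝ] E).le_opNorm (L0 (y - x))
      simpa using this
    have h4 : ‖y - x‖ ≤ (‖(L0.symm : E →L[ℝ] E)‖ * c) * ‖y - x‖ := by
      refine h3.trans ?_
      rw [mul_assoc]
      exact mul_le_mul_of_nonneg_left h2 (norm_nonneg _)
    have h5 : ‖y - x‖ ≤ 0 := by
      by_contra hcon
      push Not at hcon
      nlinarith [h.c_small]
    have h6 := norm_le_zero_iff.1 h5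
    exact (sub_eq_zero.1 h6).symm
  have hdet : ∀ ζ ∈ s, c0 * ε ^ n ≤ |(f' ζ).det| := by
    intro ζ hζ
    have h1 : (f' ζ).det = ε ^ n * ((dy d.Y (q, ε • (w + j ζ))).comp j).det := by
      rw [hf', ContinuousLinearMap.det, ContinuousLinearMap.toLinearMap_smul, LinearMap.det_smul]
    rw [h1, abs_mul, abs_of_nonneg (by positivity), mul_comm]
    exact mul_le_mul_of_nonneg_left (h.det _ (hmem ζ hζ)) (by positivity)
  have hpos : 0 < c0 * ε ^ n := mul_pos h.c0_pos (by positivity)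
  calc ∫⁻ ζ in s, g (f ζ) ∂ν
      ≤ ∫⁻ ζ in s, ENNReal.ofReal ((c0 * ε ^ n)⁻¹) * (ENNReal.ofReal |(f' ζ).det| * g (f ζ)) ∂ν := by
        refine setLIntegral_mono' measurableSet_closedBall fun ζ hζ => ?_
        rw [← mul_assoc, ← ENNReal.ofReal_mul (by positivity)]
        have h1 : 1 ≤ (c0 * ε ^ n)⁻¹ * |(f' ζ).det| := by
          rw [inv_mul_eq_div, le_div_iff₀ hpos, one_mul]
          exact hdet ζ hζ
        calc g (f ζ) = 1 * g (f ζ) := (one_mul _).symm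
          _ ≤ _ := by
            gcongr
            exact ENNReal.one_le_ofReal.2 h1
    _ = ENNReal.ofReal ((c0 * ε ^ n)⁻¹) * ∫⁻ ζ in s, ENNReal.ofReal |(f' ζ).det| * g (f ζ) ∂ν :=
        lintegral_const_mul' _ _ ENNReal.ofReal_ne_top
    _ = ENNReal.ofReal ((c0 * ε ^ n)⁻¹) * ∫⁻ x in f '' s, g x ∂ν := by
        rw [lintegral_image_eq_lintegral_abs_det_fderiv_mul ν measurableSet_closedBall hder hinj g]
    _ ≤ _ := by gcongr; exact Measure.restrict_le_self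

variable {d} in
theorem I1_le {j : E →L[ℝ] Z} {L0 : E ≃L[ℝ] E} {c c0 : ℝ} (h : d.ND j L0 c c0)
    {q : Q} (hq : q ∈ d.N) {ε : ℝ} (hε : 0 < ε) (hr : 3 * ε < d.r) {β : E → V}
    (hβ : Continuous β) (hβi : Integrable β ν) :
    d.I1 μ ε β q ≤ μ.real (Metric.closedBall 0 2) / ν.real (Metric.closedBall 0 1) *
      ((c0 * ε ^ Module.finrank ℝ E)⁻¹ * ∫ x, ‖β x‖ ∂ν) := by
  have hprop : ProperSpace Z := FiniteDimensional.proper ℝ Z
  have hpropE : ProperSpace E := FiniteDimensional.proper ℝ E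
  set n := Module.finrank ℝ E with hn
  set B1 := Metric.closedBall (0 : Z) 1 with hB1
  have hsub : Metric.closedBall (0 : Z) 3 ⊆ Metric.ball 0 (d.r / ε) := by
    refine Metric.closedBall_subset_ball ?_
    rw [lt_div_iff₀ hε]; exact hr
  have hcont : ContinuousOn (fun z : Z => β (d.Y (q, ε • z))) (Metric.ball 0 (d.r / ε)) := by
    have hm : MapsTo (fun z : Z => (q, ε • z)) (Metric.ball (0 : Z) (d.r / ε)) d.Ω :=
      fun z hz => ⟨hq, d.mem_scale hε hz⟩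
    exact hβ.comp_continuousOn (d.smY.continuousOn.comp (by fun_prop) hm)
  set f : Z → ℝ≥0∞ := (Metric.ball (0 : Z) (d.r / ε)).indicator
    (fun z => ‖β (d.Y (q, ε • z))‖ₑ) with hf
  have hfm : Measurable f := by
    classical
    rw [hf, ← piecewise_eq_indicator]
    exact ContinuousOn.measurable_piecewise hcont.enorm continuousOn_const
      Metric.isOpen_ball.measurableSet
  have hfe : ∀ z ∈ Metric.closedBall (0 : Z) 3, f z = ‖β (d.Y (q, ε • z))‖ₑ := fun z hz =>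
    indicator_of_mem (hsub hz) _
  have hC : ∀ w ∈ Metric.closedBall (0 : Z) 2,
      ∫⁻ ζ in Metric.closedBall (0 : E) 1, f (w + j ζ) ∂ν ≤
        ENNReal.ofReal ((c0 * ε ^ n)⁻¹) * ∫⁻ x, ‖β x‖ₑ ∂ν := by
    intro w hw
    refine le_trans (le_of_eq ?_) (inner_le ν h hq hε hr hw (fun x => ‖β x‖ₑ))
    refine setLIntegral_congr_fun measurableSet_closedBall fun ζ hζ => ?_
    refine hfe _ ?_
    rw [mem_closedBall_zero_iff] at hw hζ ⊢
    have h2 : ‖j ζ‖ ≤ 1 := (j.le_opNorm ζ).trans (by nlinarith [norm_nonneg ζ, norm_nonneg j, h.j_le])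
    exact (norm_add_le _ _).trans (by linarith)
  have h1 := lintegral_slice ν μ j h.j_le hfm hC
  have hB13 : B1 ⊆ Metric.closedBall (0 : Z) 3 := Metric.closedBall_subset_closedBall (by norm_num)
  have h2 : ∫⁻ z in B1, f z ∂μ = ENNReal.ofReal (d.I1 μ ε β q) := by
    have hint : IntegrableOn (fun z => β (d.Y (q, ε • z))) B1 μ :=
      (hcont.mono (hB13.trans hsub)).integrableOn_compact (isCompact_closedBall 0 1)
    rw [I1, ofReal_integral_norm_eq_lintegral_enorm hint]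
    exact setLIntegral_congr_fun measurableSet_closedBall fun z hz => hfe z (hB13 hz)
  have h3 : ∫⁻ x, ‖β x‖ₑ ∂ν = ENNReal.ofReal (∫ x, ‖β x‖ ∂ν) :=
    (ofReal_integral_norm_eq_lintegral_enorm hβi).symm
  rw [h2, h3] at h1
  have hI0 : 0 ≤ ∫ x, ‖β x‖ ∂ν := integral_nonneg fun _ => norm_nonneg _
  have hν : ν (Metric.closedBall (0 : E) 1) = ENNReal.ofReal (ν.real (Metric.closedBall 0 1)) :=
    (ofReal_measureReal (isCompact_closedBall (0 : E) 1).measure_lt_top.ne).symm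
  have hμ : μ (Metric.closedBall (0 : Z) 2) = ENNReal.ofReal (μ.real (Metric.closedBall 0 2)) :=
    (ofReal_measureReal (isCompact_closedBall (0 : Z) 2).measure_lt_top.ne).symm
  have hc0 := h.c0_pos
  rw [hν, hμ, ← ENNReal.ofReal_mul measureReal_nonneg, ← ENNReal.ofReal_mul (by positivity),
    ← ENNReal.ofReal_mul (by positivity), ENNReal.ofReal_le_ofReal_iff (by positivity)] at h1
  have hνpos : 0 < ν.real (Metric.closedBall (0 : E) 1) := by
    refine ENNReal.toReal_pos (Metric.measure_closedBall_pos ν 0 one_pos).ne'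
      (isCompact_closedBall (0 : E) 1).measure_lt_top.ne
  rw [div_mul_eq_mul_div, le_div_iff₀ hνpos]
  linarith

end Dat

section Exists

variable {E Z Q : Type} [NormedAddCommGroup E] [NormedSpace ℝ E] [FiniteDimensional ℝ E]
  [NormedAddCommGroup Z] [NormedSpace ℝ Z] [NormedAddCommGroup Q] [NormedSpace ℝ Q]

/-- local data from a submersion. -/
theorem exists_dat {U : Set (Q × Z)} (hU : IsOpen U) {Y : Q × Z → E} (hY : ContDiffOn ℝ ∞ Y U)
    {q0 : Q} (h0 : (q0, (0 : Z)) ∈ U) {j : E →L[ℝ] Z} (hj : ‖j‖ ≤ 1) {L0 : E ≃L[ℝ] E}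
    (hL0 : (dy Y (q0, 0)).comp j = (L0 : E →L[ℝ] E)) :
    ∃ (d : Dat Q Z E) (c c0 : ℝ), d.Y = Y ∧ q0 ∈ d.N ∧ d.Ω ⊆ U ∧ d.ND j L0 c c0 := by
  set Lf : Q × Z → E →L[ℝ] E := fun p => (dy Y p).comp j with hLf
  have hLs : ContDiffOn ℝ ∞ Lf U := (contDiffOn_dy hU hY).clm_comp contDiffOn_const
  have hLc : ContinuousAt Lf (q0, 0) := hLs.continuousOn.continuousAt (hU.mem_nhds h0)
  have hLf0 : Lf (q0, 0) = L0 := hL0
  set c : ℝ := 1 / (2 * (‖(L0.symm : E →L[ℝ] E)‖ + 1)) with hc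
  have hcpos : 0 < c := by positivity
  have hcs : ‖(L0.symm : E →L[ℝ] E)‖ * c < 1 := by
    rw [hc, mul_one_div, div_lt_one (by positivity)]
    have := norm_nonneg (L0.symm : E →L[ℝ] E)
    linarith
  have hdet0 : 0 < |(L0 : E →L[ℝ] E).det| := by
    rw [abs_pos]
    exact (LinearEquiv.isUnit_det' L0.toLinearEquiv).ne_zero
  have hdetc : ContinuousAt (fun p => |(Lf p).det|) (q0, 0) :=
    (ContinuousLinearMap.continuous_det.continuousAt.comp hLc).abs
  have hev : ∀ᶠ p in 𝓝 (q0, (0 : Z)), p ∈ U ∧ ‖Lf p - (L0 : E →L[ℝ] E)‖ < c ∧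
      |(L0 : E →L[ℝ] E).det| / 2 < |(Lf p).det| ∧ ∃ e : E ≃L[ℝ] E, (e : E →L[ℝ] E) = Lf p := by
    have e1 : ∀ᶠ p in 𝓝 (q0, (0 : Z)), ‖Lf p - (L0 : E →L[ℝ] E)‖ < c := by
      have h1 : ContinuousAt (fun p => ‖Lf p - (L0 : E →L[ℝ] E)‖) (q0, 0) :=
        (hLc.sub continuousAt_const).norm
      refine h1.eventually (Iio_mem_nhds ?_)
      show ‖Lf (q0, 0) - (L0 : E →L[ℝ] E)‖ < c
      rw [hLf0, sub_self, norm_zero]; exact hcpos
    have e2 : ∀ᶠ p in 𝓝 (q0, (0 : Z)), |(L0 : E →L[ℝ] E).det| / 2 < |(Lf p).det| := by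
      refine hdetc.eventually (Ioi_mem_nhds ?_)
      show |(L0 : E →L[ℝ] E).det| / 2 < |(Lf (q0, 0)).det|
      rw [hLf0]; linarith
    have e3 : ∀ᶠ p in 𝓝 (q0, (0 : Z)), ∃ e : E ≃L[ℝ] E, (e : E →L[ℝ] E) = Lf p := by
      have h1 : range ((↑) : (E ≃L[ℝ] E) → E →L[ℝ] E) ∈ 𝓝 (Lf (q0, 0)) := by
        rw [hLf0]; exact ContinuousLinearEquiv.nhds L0
      filter_upwards [hLc.eventually h1] with p hp
      exact hp
    filter_upwards [hU.mem_nhds h0, e1, e2, e3] with p h1 h2 h3 h4 using ⟨h1, h2, h3, h4⟩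
  obtain ⟨ρ, hρ, hball⟩ := Metric.eventually_nhds_iff_ball.1 hev
  rw [← ball_prod_same] at hball
  have hsub : Metric.ball q0 ρ ×ˢ Metric.ball (0 : Z) ρ ⊆ U := fun p hp => (hball p hp).1
  refine ⟨⟨Metric.ball q0 ρ, ρ, Y, fun p => (j.comp (Lf p).inverse).comp (dx Y p),
    Metric.isOpen_ball, hρ, hY.mono hsub, ?_, ?_⟩, c, |(L0 : E →L[ℝ] E).det| / 2, rfl,
    Metric.mem_ball_self hρ, hsub, ⟨hj, by positivity, hcs, fun p hp => (hball p hp).2.1.le,
      fun p hp => (hball p hp).2.2.1.le⟩⟩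
  · have h1 : ContDiffOn ℝ ∞ (fun p => (Lf p).inverse) (Metric.ball q0 ρ ×ˢ Metric.ball (0 : Z) ρ) := by
      intro p hp
      obtain ⟨e, he⟩ := (hball p hp).2.2.2
      have h2 : ContDiffAt ℝ ∞ (ContinuousLinearMap.inverse : (E →L[ℝ] E) → E →L[ℝ] E) (Lf p) := by
        rw [← he]; exact contDiffAt_map_inverse e
      have h3 : ContDiffAt ℝ ∞ Lf p := (hLs p (hsub hp)).contDiffAt (hU.mem_nhds (hsub hp))
      exact (h2.comp p h3).contDiffWithinAt
    exact (contDiffOn_const.clm_comp h1).clm_comp ((contDiffOn_dx hU hY).mono hsub)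
  · intro p hp
    obtain ⟨e, he⟩ := (hball p hp).2.2.2
    have h1 : (Lf p).comp (Lf p).inverse = ContinuousLinearMap.id ℝ E := by
      rw [← he, ContinuousLinearMap.inverse_equiv]
      exact e.coe_comp_coe_symm
    calc (dy Y p).comp ((j.comp (Lf p).inverse).comp (dx Y p))
        = ((Lf p).comp (Lf p).inverse).comp (dx Y p) := rfl
      _ = dx Y p := by rw [h1, ContinuousLinearMap.id_comp]

end Exists

section Local

variable {E Z Q : Type} [NormedAddCommGroup E] [NormedSpace ℝ E] [FiniteDimensional ℝ E]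
  [MeasurableSpace E] [BorelSpace E] (ν : Measure E) [ν.IsAddHaarMeasure]
  [NormedAddCommGroup Z] [NormedSpace ℝ Z] [FiniteDimensional ℝ Z]
  [MeasurableSpace Z] [BorelSpace Z] (μ : Measure Z) [μ.IsAddHaarMeasure]
  [NormedAddCommGroup Q] [NormedSpace ℝ Q] [FiniteDimensional ℝ Q] (d : Dat Q Z E)
  {V : Type} [NormedAddCommGroup V] [NormedSpace ℝ V]

/-- **crude bound, Euclidean core.** -/
theorem local_crude {j : E →L[ℝ] Z} {L0 : E ≃L[ℝ] E} {c c0 : ℝ} (h : d.ND j L0 c c0)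
    {q0 : Q} (hq0 : q0 ∈ d.N) : ∃ ρ : ℝ, 0 < ρ ∧ Metric.ball q0 ρ ⊆ d.N ∧ 3 * ρ < d.r ∧
      ∀ {W : Type} [NormedAddCommGroup W] [NormedSpace ℝ W] [CompleteSpace W]
        (A : Q × Z → V →L[ℝ] W), ContDiffOn ℝ ∞ A d.Ω → ∀ m : ℕ, ∃ C : ℝ, 0 ≤ C ∧
      ∀ k : Z → ℝ, ContDiff ℝ ∞ k → tsupport k ⊆ Metric.closedBall 0 1 → ∀ Bk : ℝ,
        (∀ i ≤ m, ∀ ζ, ‖iteratedFDeriv ℝ i k ζ‖ ≤ Bk) → ∀ ε : ℝ, 0 < ε → ε ≤ ρ →
        ∀ β : E → V, ContDiff ℝ ∞ β → Integrable β ν → ∀ q ∈ Metric.ball q0 ρ,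
          ‖iteratedFDeriv ℝ m (d.Op μ ε k A β) q‖ ≤
            C * Bk * (ε ^ (m + Module.finrank ℝ E))⁻¹ * ∫ x, ‖β x‖ ∂ν := by
  have hpQ : ProperSpace Q := FiniteDimensional.proper ℝ Q
  have hpE : ProperSpace E := FiniteDimensional.proper ℝ E
  obtain ⟨ρ1, hρ1, hb1⟩ := Metric.isOpen_iff.1 d.open_N q0 hq0
  have hr := d.r_pos
  set ρ : ℝ := min (ρ1 / 2) (min (d.r / 4) 1) with hρ
  have hρpos : 0 < ρ := by positivity
  have hρ2 : ρ ≤ ρ1 / 2 := min_le_left _ _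
  have hρ3 : ρ ≤ d.r / 4 := (min_le_right _ _).trans (min_le_left _ _)
  have hρ4 : ρ ≤ 1 := (min_le_right _ _).trans (min_le_right _ _)
  have hK : Metric.closedBall q0 ρ ⊆ d.N :=
    (Metric.closedBall_subset_ball (by linarith)).trans hb1
  have h3ρ : 3 * ρ < d.r := by linarith
  refine ⟨ρ, hρpos, Metric.ball_subset_closedBall.trans hK, h3ρ, ?_⟩
  intro W _ _ _ A hA m
  obtain ⟨C, hC, hb⟩ := d.bound μ (r1 := ρ) hρpos (by linarith) hρ4
    (isCompact_closedBall q0 ρ) hK m A hA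
  have hνpos : 0 < ν.real (Metric.closedBall (0 : E) 1) :=
    ENNReal.toReal_pos (Metric.measure_closedBall_pos ν 0 one_pos).ne'
      (isCompact_closedBall (0 : E) 1).measure_lt_top.ne
  have hc0 := h.c0_pos
  set C1 : ℝ := μ.real (Metric.closedBall (0 : Z) 2) / ν.real (Metric.closedBall (0 : E) 1) with hC1
  have hC10 : 0 ≤ C1 := by positivity
  refine ⟨C * C1 * c0⁻¹, by positivity, ?_⟩
  intro k hk hs Bk hBk ε hε hερ β hβ hβi q hq
  have hBk0 : 0 ≤ Bk := (norm_nonneg _).trans (hBk 0 (Nat.zero_le _) 0)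
  have hqi : q ∈ interior (Metric.closedBall q0 ρ) := Metric.ball_subset_interior_closedBall hq
  have h1 := hb k hk hs Bk hBk ε hε hερ β hβ q hqi
  have hqN : q ∈ d.N := hK (Metric.ball_subset_closedBall hq)
  have h2 := Dat.I1_le ν μ h hqN hε (by linarith) hβ.continuous hβi
  refine h1.trans ?_
  have h3 : 0 ≤ C * Bk * (ε ^ m)⁻¹ := by positivity
  refine (mul_le_mul_of_nonneg_left h2 h3).trans (le_of_eq ?_)
  rw [pow_add, mul_inv, mul_inv]
  ring

end Local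

end

end Crest.Agent.R240.SmCr
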