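import Mathlib
import Crest.Agent.R240.LkT
import Crest.Agent.R240.Sm2d
import Crest.Agent.R240.SmCr2

/-!
# Row 240, block R (smoothing): the local form of the composed pull-backs (helper950)

Input of `SmCr2.exists_dat` / `local_crude` on `M`.
-/

set_option autoImplicit false
set_option maxSynthPendingDepth 3
set_option linter.unusedSectionVars false

open Set Function Filter Metric Bundle
open scoped Manifold ContDiff Topology

namespace Crest.Agent.R240.SmCrM

open Crest.Agent.R240.Ch Crest.Agent.R240.Sm Crest.Agent.R240.Leak Crest.Agent.R240.SmJ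

noncomputable section

section General

variable {E : Type*} [NormedAddCommGroup E] [NormedSpace ℝ E]
variable {M : Type*} [TopologicalSpace M] [ChartedSpace E M] [IsManifold 𝓘(ℝ, E) ∞ M]
variable {ι : Type*} [Fintype ι] {G : ι → Fam E} {p : ι → M}

/-- the composed pull-backs are a smooth family over the composed diffeomorphisms. -/
theorem LF_PP [T2Space M] (hG : ∀ i, (G i).K ⊆ (chartAt E (p i)).target) (l : List ι) :
    LF (UU G) (fun z : ι → E => PP (M := M) G p l z) (fun z => PS G p l z) := by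
  induction l with
  | nil => exact LF.id isOpen_UU
  | cons i l ih =>
    have h1 : LF (UU G) (fun z : ι → E => pullG (G i) (p i) (z i))
        (fun z => psi (G i) (p i) (z i)) :=
      LF.pullG (hG i) isOpen_UU (contDiff_apply ℝ E i).contDiffOn (fun z hz => hz i)
    exact h1.comp ih

omit [IsManifold 𝓘(ℝ, E) ∞ M] [Fintype ι] in
lemma PS_eq_self {l : List ι} {z : ι → E} (h : ∀ i ∈ l, z i = 0) (x : M) :
    PS G p l z x = x := by
  induction l generalizing x with
  | nil => rfl
  | cons i l ih =>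
    rw [PS_cons, h i List.mem_cons_self, psi_zero]
    exact ih (fun j hj => h j (List.mem_cons_of_mem _ hj)) x

omit [IsManifold 𝓘(ℝ, E) ∞ M] [Fintype ι] in
lemma PS_single {l : List ι} (hn : l.Nodup) {i : ι} (hi : i ∈ l) {z : ι → E}
    (hz : ∀ j, j ≠ i → z j = 0) (x : M) : PS G p l z x = psi (G i) (p i) (z i) x := by
  induction l generalizing x with
  | nil => simp at hi
  | cons k l ih =>
    rw [List.nodup_cons] at hn
    rw [PS_cons]
    by_cases hk : k = i
    · subst hk
      exact PS_eq_self (fun j hj => hz j (fun h => hn.1 (h ▸ hj))) _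
    · have hi' : i ∈ l := by
        rcases List.mem_cons.1 hi with h | h
        · exact absurd h.symm hk
        · exact h
      rw [hz k hk, psi_zero]
      exact ih hn.2 hi' x

omit [IsManifold 𝓘(ℝ, E) ∞ M] [Fintype ι] in
lemma PS_zero (l : List ι) (x : M) : PS G p l (0 : ι → E) x = x :=
  PS_eq_self (fun _ _ => rfl) x

end General

section Four

variable {M : Type*} [TopologicalSpace M] [ChartedSpace E4 M] [IsManifold 𝓘(ℝ, E4) ∞ M]
variable {ι : Type} [Fintype ι] [DecidableEq ι] {p : ι → M}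

/-- inclusion of the `i`-th slot. -/
def slot (i : ι) : E4 →L[ℝ] (ι → E4) := ContinuousLinearMap.single ℝ (fun _ : ι => E4) i

omit [Fintype ι] in
lemma slot_apply (i : ι) (ζ : E4) : slot i ζ = Pi.single i ζ := rfl

lemma norm_slot_le (i : ι) : ‖slot i‖ ≤ 1 := by
  refine ContinuousLinearMap.opNorm_le_bound _ zero_le_one fun ζ => ?_
  rw [slot_apply, one_mul, pi_norm_le_iff_of_nonneg (norm_nonneg _)]
  intro j
  by_cases h : j = i
  · subst h; simp
  · simp [Pi.single_eq_of_ne h]

variable {c : ι → Cut E4}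

/-- the families -/
abbrev GG (c : ι → Cut E4) : ι → Fam E4 := fun i => (c i).fam

/-- the local expression of the composed diffeomorphism, with the point first. -/
def YY (c : ι → Cut E4) (p : ι → M) (l : List ι) (q : M) (i : ι) (v : E4 × (ι → E4)) : E4 :=
  chartAt E4 (p i) (PS (GG c) p l v.2 ((chartAt E4 q).symm v.1))

/-- **the local form of the composed pull-backs near a point where `θ_i = 1`.** -/
theorem local_form [T2Space M] (hG : ∀ i, (GG c i).K ⊆ (chartAt E4 (p i)).target) {l : List ι}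
    (hn : l.Nodup) {i : ι} (hi : i ∈ l) {q : M} {y0 : E4} (hy0 : y0 ∈ (chartAt E4 q).target)
    (hx : (chartAt E4 q).symm y0 ∈ (chartAt E4 (p i)).source)
    (hθ : (c i).θ (chartAt E4 (p i) ((chartAt E4 q).symm y0)) = 1) :
    ∃ U : Set (E4 × (ι → E4)), IsOpen U ∧ (y0, (0 : ι → E4)) ∈ U ∧
      (∀ v ∈ U, v.1 ∈ (chartAt E4 q).target ∧ v.2 ∈ UU (GG c) ∧
        PS (GG c) p l v.2 ((chartAt E4 q).symm v.1) ∈ (chartAt E4 (p i)).source) ∧
      ContDiffOn ℝ ∞ (YY c p l q i) U ∧
      YY c p l q i (y0, 0) = chartAt E4 (p i) ((chartAt E4 q).symm y0) ∧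
      (dy (YY c p l q i) (y0, 0)).comp (slot i) = ContinuousLinearMap.id ℝ E4 ∧
      ∃ Λ : E4 × (ι → E4) → (Bil →L[ℝ] Bil), ContDiffOn ℝ ∞ Λ U ∧
        ∀ v ∈ U, ∀ b : F2 E4 M,
          rep q (PP (GG c) p l v.2 b) v.1 = Λ v (rep (p i) b (YY c p l q i v)) := by
  have hx0 : PS (GG c) p l (0 : ι → E4) ((chartAt E4 q).symm y0) = (chartAt E4 q).symm y0 :=
    PS_zero l _
  obtain ⟨N, ho, hmem, hs, hc, hV, Λ, hΛ, hr⟩ := LF_PP hG l 0 zero_mem_UU q y0 hy0 (p i)
    (by beta_reduce; rw [hx0]; exact hx)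
  have hsw : ContDiff ℝ ∞ (fun v : E4 × (ι → E4) => (v.2, v.1)) := contDiff_snd.prodMk contDiff_fst
  set U : Set (E4 × (ι → E4)) := (fun v : E4 × (ι → E4) => (v.2, v.1)) ⁻¹' N with hU
  have hUo : IsOpen U := ho.preimage hsw.continuous
  have hm : MapsTo (fun v : E4 × (ι → E4) => (v.2, v.1)) U N := fun v hv => hv
  have hY : ContDiffOn ℝ ∞ (YY c p l q i) U := by
    exact ContDiffOn.comp (g := fun v : (ι → E4) × E4 =>
      chartAt E4 (p i) (PS (GG c) p l v.1 ((chartAt E4 q).symm v.2)))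
      (f := fun v : E4 × (ι → E4) => (v.2, v.1)) hV hsw.contDiffOn hm
  have hΛ' : ContDiffOn ℝ ∞ (fun v : E4 × (ι → E4) => Λ (v.2, v.1)) U :=
    ContDiffOn.comp (g := Λ) (f := fun v : E4 × (ι → E4) => (v.2, v.1)) hΛ hsw.contDiffOn hm
  refine ⟨U, hUo, hmem, ?_, hY, ?_, ?_, fun v => Λ (v.2, v.1), hΛ', ?_⟩
  · intro v hv
    exact ⟨(hs hv).2, (hs hv).1, hc _ hv⟩
  · simp only [YY, hx0]
  · have hd : DifferentiableAt ℝ (YY c p l q i) (y0, 0) :=
      ((hY (y0, 0) hmem).contDiffAt (hUo.mem_nhds hmem)).differentiableAt (by simp)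
    have h1 : HasFDerivAt (fun z : ι → E4 => YY c p l q i (y0, z))
        (dy (YY c p l q i) (y0, 0)) (slot i 0) := by
      rw [map_zero]; exact hasFDerivAt_dy hd
    have h2 : HasFDerivAt (fun ζ : E4 => YY c p l q i (y0, slot i ζ))
        ((dy (YY c p l q i) (y0, 0)).comp (slot i)) 0 :=
      h1.comp (0 : E4) (slot i).hasFDerivAt
    have h3 : (fun ζ : E4 => YY c p l q i (y0, slot i ζ)) =ᶠ[𝓝 0]
        fun ζ => chartAt E4 (p i) ((chartAt E4 q).symm y0) + ζ := by
      have hb : ball (0 : E4) (GG c i).r ∈ 𝓝 (0 : E4) := ball_mem_nhds _ (GG c i).r_pos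
      filter_upwards [hb] with ζ hζ
      have e1 : PS (GG c) p l (slot i ζ) ((chartAt E4 q).symm y0) =
          psi (GG c i) (p i) ζ ((chartAt E4 q).symm y0) := by
        rw [PS_single hn hi (z := slot i ζ)]
        · rw [slot_apply, Pi.single_eq_same]
        · intro j hj
          rw [slot_apply, Pi.single_eq_of_ne hj]
      simp only [YY]
      rw [e1, (chart_psi (hG i) hζ hx).2]
      change (c i).tau ζ _ = _
      rw [Cut.tau, hθ, one_smul]
    have h4 : HasFDerivAt (fun ζ : E4 => chartAt E4 (p i) ((chartAt E4 q).symm y0) + ζ)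
        (ContinuousLinearMap.id ℝ E4) 0 := (hasFDerivAt_id (0 : E4)).const_add _
    exact h2.unique (h4.congr_of_eventuallyEq h3)
  · intro v hv b
    exact hr (v.2, v.1) hv b

end Four

end

end Crest.Agent.R240.SmCrM
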