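import Mathlib
import Crest.Agent.R240.LkF
import Crest.Agent.R240.LkG
import Crest.Agent.R240.Lk7
import Crest.Agent.R240.SmSys
import Crest.Agent.R240.SmCrM
import Crest.Agent.R240.CmPi
import Crest.Agent.R240.SmSlice
import Crest.Agent.R240.Sm7a

/-!
# Row 240, LEAK (helper404): bounds for the composed pull-backs and for the operators `S.A e q`
-/

set_option autoImplicit false
set_option maxSynthPendingDepth 3
set_option linter.unusedSectionVars false

open Set Function Filter Metric MeasureTheory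
open scoped Manifold ContDiff Topology

namespace Crest.Agent.R240.Leak

open Crest.Agent.R240.Ch Crest.Agent.R240.Sm Crest.Agent.R240.Lk Crest.Agent.R240.SmJ

noncomputable section

/-! ### summability over the index set of the Fourier expansion -/

lemma summable_fst {A B : Type*} [Finite B] {f : A → ℝ} (hf : Summable f) (h0 : ∀ a, 0 ≤ f a) :
    Summable fun p : A × B => f p.1 := by
  have := Fintype.ofFinite B
  have h := hf.mul_of_nonneg (g := fun _ : B => (1:ℝ)) Summable.of_finite h0 (fun _ => zero_le_one)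
  simpa using h

lemma summable_Ix {ι : Type} [Fintype ι] {r : ℕ} (hr : 1 ≤ r) :
    Summable fun ν : Ix ι => (wt ν.1.1 ^ r)⁻¹ := by
  classical
  have h0 : ∀ n : ι × Fin 4 → ℤ, 0 ≤ (wt n ^ r)⁻¹ := fun n =>
    inv_nonneg.2 (pow_nonneg (wt_pos n).le r)
  have h1 : Summable fun n : ι × Fin 4 → ℤ => (wt n ^ r)⁻¹ := summable_wt_pow hr
  have h2 : Summable fun p : (ι × Fin 4 → ℤ) × Bool => (wt p.1 ^ r)⁻¹ := summable_fst h1 h0
  exact summable_fst (B := ι → Bool) h2 fun p => h0 p.1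

/-! ### pointwise structure of the composed pull-back -/

section man

variable {M : Type*} [TopologicalSpace M] [ChartedSpace E4 M] [IsManifold 𝓘(ℝ, E4) ∞ M]

lemma exists_pullPP {ι : Type*} (G : ι → Fam E4) (p : ι → M) (l : List ι) (z : ι → E4) (x : M) :
    ∃ D : E4 →L[ℝ] E4, ∀ b : F2 E4 M, at2 (PP G p l z b) x = pull D (at2 b (PS G p l z x)) := by
  induction l generalizing x with
  | nil => exact ⟨ContinuousLinearMap.id ℝ E4, fun b => by rw [pull_id]; rfl⟩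
  | cons i l ih =>
    obtain ⟨D1, h1⟩ := exists_pb (G i) (p i) (z i) x
    obtain ⟨D2, h2⟩ := ih (psi (G i) (p i) (z i) x)
    refine ⟨D2.comp D1, fun b => ?_⟩
    rw [PP_cons, h1, h2, pull_comp]
    rfl

/-- the value at a point is controlled by `cm 0`. -/
lemma norm_at2_le (𝒰 : Cover M) (x : M) :
    ∃ c : ℝ, 0 ≤ c ∧ ∀ b : F2 E4 M, Smooth2 b → ‖at2 b x‖ ≤ c * 𝒰.cm 0 b := by
  obtain ⟨i, hx, hy⟩ := 𝒰.cov x
  refine ⟨‖(tcc x (𝒰.p i) x : E4 →L[ℝ] E4)‖ ^ 2, by positivity, fun b hb => ?_⟩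
  rw [at2_eq_pull hx]
  refine (NrCm.norm_pull_le _ _).trans (mul_le_mul_of_nonneg_left ?_ (by positivity))
  have h := Ch.le_cm 𝒰 le_rfl hb (interior_subset hy) (m := 0) (j := 0)
  rwa [norm_iteratedFDeriv_zero] at h

/-- multiplication by a smooth function is bounded for `cm m`. -/
lemma cm_fmul_le (𝒰 : Cover M) {f : M → ℝ} (hf : SmoothF E4 f) (m : ℕ) :
    ∃ C : ℝ, 0 ≤ C ∧ ∀ g : F2 E4 M, Smooth2 g → 𝒰.cm m (fmul f g) ≤ C * 𝒰.cm m g := by
  have h : ∀ i : Fin 𝒰.N, ∃ C : ℝ, 0 ≤ C ∧ ∀ b : E4 → Bil,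
      ContDiffOn ℝ ∞ b (chartAt E4 (𝒰.p i)).target → ∀ B : ℝ, 0 ≤ B →
      (∀ j ≤ m, ∀ y ∈ 𝒰.K i, ‖iteratedFDeriv ℝ j b y‖ ≤ B) → ∀ j ≤ m, ∀ y ∈ 𝒰.K i,
      ‖iteratedFDeriv ℝ j (fun y => (repF (𝒰.p i) f y • ContinuousLinearMap.id ℝ Bil) (b y)) y‖
        ≤ C * B := fun i =>
    N5.clm_bound (chartAt E4 (𝒰.p i)).open_target ((hf (𝒰.p i)).smul contDiffOn_const)
      (𝒰.cpt i) (𝒰.sub i) m
  choose C hC0 hC using h
  refine ⟨∑ i, C i, Finset.sum_nonneg fun i _ => hC0 i, fun g hg => ?_⟩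
  have hcg := Ch.cm_nonneg 𝒰 m g
  refine Ch.cm_le 𝒰 (mul_nonneg (Finset.sum_nonneg fun i _ => hC0 i) hcg) fun i j hj y hy => ?_
  have h1 := hC i (rep (𝒰.p i) g) (hg.2 _) (𝒰.cm m g) hcg
    (fun j hj y hy => Ch.le_cm 𝒰 hj hg hy) j hj y hy
  have h2 : (fun y => (repF (𝒰.p i) f y • ContinuousLinearMap.id ℝ Bil) (rep (𝒰.p i) g y))
      = rep (𝒰.p i) (fmul f g) := by
    funext y
    rfl
  rw [h2] at h1
  exact h1.trans (mul_le_mul_of_nonneg_right
    (Finset.single_le_sum (fun i _ => hC0 i) (Finset.mem_univ i)) hcg)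

/-- triangle inequality for finite sums. -/
lemma cm_sum_le' (𝒰 : Cover M) (m : ℕ) {κ : Type*} (s : Finset κ) (X : κ → X2 M) :
    𝒰.cm m ((∑ j ∈ s, X j : X2 M) : F2 E4 M) ≤ ∑ j ∈ s, 𝒰.cm m (X j : F2 E4 M) := by
  classical
  induction s using Finset.induction_on with
  | empty =>
    simp only [Finset.sum_empty]
    exact le_of_eq (Ch.cm_zero 𝒰 m)
  | insert a s ha ih =>
    rw [Finset.sum_insert ha, Finset.sum_insert ha]
    exact (Ch.cm_add_le 𝒰 m (X a).2 (∑ j ∈ s, X j : X2 M).2).trans (add_le_add le_rfl ih)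

variable [T2Space M]

/-- uniform `cm`-bound of the composed pull-backs. -/
lemma cm_PP (𝒰 : Cover M) {ι : Type} [Fintype ι] {G : ι → Fam E4} {p : ι → M} {l : List ι}
    (hG : HG G p) {C : Set (ι → E4)} (hC : IsCompact C) (hCU : C ⊆ UU G) (m : ℕ) :
    ∃ A : ℝ, 0 ≤ A ∧ ∀ b : F2 E4 M, Smooth2 b → ∀ z ∈ C, ∀ i, ∀ y ∈ 𝒰.K i, ∀ j ≤ m,
      ‖iteratedFDeriv ℝ j (rep (𝒰.p i) (PP G p l z b)) y‖ ≤ A * 𝒰.cm m b := by
  have hLF : LF (UU G) (fun z : ι → E4 => PP (M := M) G p l z) (fun z => PS G p l z) :=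
    SmCrM.LF_PP hG l
  obtain ⟨A, hA, h⟩ := LF.jb_const 𝒰 isOpen_UU hLF hC hCU m
  refine ⟨A, hA, fun b hb z hz i y hy j hj => ?_⟩
  have ho : IsOpen (UU G ×ˢ (chartAt E4 (𝒰.p i)).target) :=
    isOpen_UU.prod (chartAt E4 (𝒰.p i)).open_target
  have hg : ContDiffOn ℝ ∞ (fun v : (ι → E4) × E4 => rep (𝒰.p i) (PP G p l v.1 b) v.2)
      (UU G ×ˢ (chartAt E4 (𝒰.p i)).target) := (jsm_PP (l := l) hG hb).2 (𝒰.p i)
  have hm : ((z, y) : (ι → E4) × E4) ∈ UU G ×ˢ (chartAt E4 (𝒰.p i)).target :=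
    ⟨hCU hz, 𝒰.sub i hy⟩
  have h1 : ‖jy j (fun v : (ι → E4) × E4 => rep (𝒰.p i) (PP G p l v.1 b) v.2) (z, y)‖ ≤
      ‖iteratedFDeriv ℝ j (fun v : (ι → E4) × E4 => rep (𝒰.p i) (PP G p l v.1 b) v.2) (z, y)‖ :=
    norm_jy_le ho hg j hm
  have h2 : jy j (fun v : (ι → E4) × E4 => rep (𝒰.p i) (PP G p l v.1 b) v.2) (z, y) =
      iteratedFDeriv ℝ j (rep (𝒰.p i) (PP G p l z b)) y := rfl
  rw [h2] at h1
  exact h1.trans (h b hb i z hz y hy j hj)

end man

/-! ### the concrete system -/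

section sys

variable {M : Type*} [TopologicalSpace M] [ChartedSpace E4 M] [IsManifold 𝓘(ℝ, E4) ∞ M]
variable {S : Sys M}

lemma admK {e : ℝ} (h : S.Ok e) (q : Fin S.n → KF) : AdmK S.G (fun i => kk (q i).1) e where
  cont i := (kk_smooth (q i).2).continuous
  comp i := (kk_ker (q i).2).cpt
  supp i z hz := by
    have h1 := kk_supp _ hz
    rw [mem_closedBall_zero_iff] at h1
    rw [mem_ball_zero_iff, norm_smul, Real.norm_eq_abs, abs_of_pos h.1]
    have h2 := h.2 i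
    have h3 : (S.G i).r = (S.c i).z0 := rfl
    rw [h3]
    nlinarith [h.1, norm_nonneg z]

lemma A_eq_avg [T2Space M] {e : ℝ} (h : S.Ok e) (q : Fin S.n → KF) (b : X2 M) :
    (S.A e q b : F2 E4 M) = avg (kp fun i => kk (q i).1)
      (fun z => PP S.G S.p (List.finRange S.n) (e • z) (b : F2 E4 M)) := by
  have h1 := Sys.opL_coe h q (List.finRange S.n) b
  have h2 := AL_eq_avg (fun i => S.hG i) (admK h q) (List.nodup_finRange _) (List.mem_finRange) b.2
  exact h1.trans h2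

/-- the kernel vanishes unless all `z i` are in the unit ball. -/
lemma norm_le_of_kp {q : Fin S.n → KF} {z : Fin S.n → E4} (hz : kp (fun i => kk (q i).1) z ≠ 0)
    (i : Fin S.n) : ‖z i‖ ≤ 1 := by
  have h : kk (q i).1 (z i) ≠ 0 := fun h0 => hz (Finset.prod_eq_zero (Finset.mem_univ i) h0)
  exact (kk_ne h).le

lemma norm_le_of_tsupport {q : Fin S.n → KF} {z : Fin S.n → E4}
    (hz : z ∈ tsupport (kp fun i => kk (q i).1)) (i : Fin S.n) : ‖z i‖ ≤ 1 := by
  have h1 := tsupport_kp _ hz i (mem_univ i)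
  simpa using kk_supp _ h1

/-- the compact set of parameters. -/
def CC (n : ℕ) (e : ℝ) : Set (Fin n → E4) := Set.pi univ fun _ => closedBall (0 : E4) e

lemma isCompact_CC (n : ℕ) (e : ℝ) : IsCompact (CC n e) :=
  isCompact_univ_pi fun _ => isCompact_closedBall _ _

lemma smul_mem_CC {n : ℕ} {e e1 : ℝ} (he : 0 < e) (he1 : e ≤ e1) {z : Fin n → E4}
    (hz : ∀ i, ‖z i‖ ≤ 1) : e • z ∈ CC n e1 := by
  intro i _
  rw [mem_closedBall_zero_iff, Pi.smul_apply, norm_smul, Real.norm_eq_abs, abs_of_pos he]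
  have := hz i
  nlinarith [norm_nonneg (z i)]

lemma CC_subset {e1 : ℝ} (h : S.Ok e1) : CC S.n e1 ⊆ UU S.G := by
  intro z hz i
  have h1 := hz i (mem_univ i)
  rw [mem_closedBall_zero_iff] at h1
  rw [mem_ball_zero_iff]
  exact lt_of_le_of_lt h1 (h.2 i)

lemma abs_kp_le {q : Fin S.n → KF} (hq : ∀ i, ∀ z ∈ closedBall (0 : E4) 1, |(q i).1 z| ≤ 1)
    (z : Fin S.n → E4) : |kp (fun i => kk (q i).1) z| ≤ |kp (fun _ => kap0) z| := by
  simp only [kp, Finset.abs_prod]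
  refine Finset.prod_le_prod (fun i _ => abs_nonneg _) fun i _ => ?_
  by_cases hz : kap0 (z i) = 0
  · simp [kk, hz]
  · have h3 : z i ∈ closedBall (0 : E4) 1 := by
      rw [mem_closedBall_zero_iff]; exact (norm_lt_of_kap0 hz).le
    have h4 := hq i _ h3
    rw [kk, abs_mul]
    exact mul_le_of_le_one_left (abs_nonneg _) h4

lemma integrable_abs_kp {q : Fin S.n → KF} :
    Integrable fun z : Fin S.n → E4 => |kp (fun i => kk (q i).1) z| := by
  have h1 : Continuous (kp (fun i => kk (q i).1)) :=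
    continuous_kp fun i => (kk_smooth (q i).2).continuous
  have h2 : HasCompactSupport (kp (fun i => kk (q i).1)) :=
    hasCompactSupport_kp fun i => (kk_ker (q i).2).cpt
  exact h1.abs.integrable_of_hasCompactSupport (h2.comp_left abs_zero)

variable (S) in
lemma integrable_abs_kp0 : Integrable fun z : Fin S.n → E4 => |kp (fun _ => kap0) z| := by
  have h1 : Continuous (kp (fun _ : Fin S.n => kap0)) := continuous_kp fun i => kap0_cont
  have h2 : HasCompactSupport (kp (fun _ : Fin S.n => kap0)) := hasCompactSupport_kp fun i => kap0_comp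
  exact h1.abs.integrable_of_hasCompactSupport (h2.comp_left abs_zero)

lemma int_abs_kp_le {q : Fin S.n → KF}
    (hq : ∀ i, ∀ z ∈ closedBall (0 : E4) 1, |(q i).1 z| ≤ 1) :
    ∫ z : Fin S.n → E4, |kp (fun i => kk (q i).1) z| ≤ ∫ z : Fin S.n → E4, |kp (fun _ => kap0) z| :=
  integral_mono integrable_abs_kp (integrable_abs_kp0 S) (abs_kp_le hq)

/-- uniform `cm`-bound of the operators, for all kernels with `|q i| ≤ 1` on the unit ball. -/
lemma cm_A_le [T2Space M] (𝒰 : Cover M) {e1 : ℝ} (h1 : S.Ok e1) (m : ℕ) :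
    ∃ A : ℝ, 0 ≤ A ∧ ∀ e, 0 < e → e ≤ e1 → ∀ q : Fin S.n → KF,
      (∀ i, ∀ z ∈ closedBall (0 : E4) 1, |(q i).1 z| ≤ 1) → ∀ b : X2 M,
        𝒰.cm m (S.A e q b : F2 E4 M) ≤ A * 𝒰.cm m (b : F2 E4 M) := by
  obtain ⟨A, hA, h⟩ := cm_PP 𝒰 (l := List.finRange S.n) (fun i => S.hG i) (isCompact_CC S.n e1)
    (CC_subset h1) m
  have hI : 0 ≤ ∫ z : Fin S.n → E4, |kp (fun _ => kap0) z| := integral_nonneg fun z => abs_nonneg _
  refine ⟨(∫ z : Fin S.n → E4, |kp (fun _ => kap0) z|) * A, mul_nonneg hI hA,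
    fun e he he1 q hq b => ?_⟩
  have hok : S.Ok e := ⟨he, fun i => lt_of_le_of_lt he1 (h1.2 i)⟩
  have hK := admK hok q
  have hcb := Ch.cm_nonneg 𝒰 m (b : F2 E4 M)
  have hB : 0 ≤ A * 𝒰.cm m (b : F2 E4 M) := mul_nonneg hA hcb
  have h2 : 𝒰.cm m (avg (kp fun i => kk (q i).1)
      (fun z => PP S.G S.p (List.finRange S.n) (e • z) (b : F2 E4 M))) ≤
      (∫ z, |kp (fun i => kk (q i).1) z|) * (A * 𝒰.cm m (b : F2 E4 M)) :=
    Sm7.cm_avg_le 𝒰 (isOpen_UE (G := S.G) e) (continuous_kp hK.cont)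
      (hasCompactSupport_kp hK.comp) (tsupport_kp_UE hK)
      (jsm_PPe (l := List.finRange S.n) (fun i => S.hG i) b.2 e) hB
      (fun z hz i y hy j hj =>
        h b b.2 _ (smul_mem_CC he he1 (norm_le_of_tsupport hz)) i y hy j hj)
  rw [A_eq_avg hok q b, mul_assoc]
  exact h2.trans (mul_le_mul_of_nonneg_right (int_abs_kp_le hq) hB)

end sys

/-! ### `L²` bounds of finite sums -/

section dat

variable {M : Type*} [MetricSpace M] [CompactSpace M] [ChartedSpace E4 M]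
    [IsManifold 𝓘(ℝ, E4) ∞ M] [MeasurableSpace M] [BorelSpace M]

lemma n2_sum_le (D : Dat M) {κ : Type*} (s : Finset κ) (X : κ → X2 M) :
    D.n2 ((∑ j ∈ s, X j : X2 M) : F2 E4 M) ≤ ∑ j ∈ s, D.n2 (X j : F2 E4 M) := by
  classical
  induction s using Finset.induction_on with
  | empty =>
    simp only [Finset.sum_empty]
    have h := NM.n2_smul D 0 (0 : F2 E4 M)
    rw [abs_zero, zero_mul, zero_smul] at h
    exact le_of_eq h
  | insert a s ha ih =>
    rw [Finset.sum_insert ha, Finset.sum_insert ha]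
    exact (NM.n2_add_le D (X a).2 (∑ j ∈ s, X j : X2 M).2).trans (add_le_add le_rfl ih)

end dat

end

end Crest.Agent.R240.Leak
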