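import Mathlib
import Crest.Agent.R240.Lk8
import Crest.Agent.R240.LkH0
import Crest.Agent.R240.LkF
import Crest.Agent.R240.SmCrM
import Crest.Agent.R240.Sm7a

/-!
# Row 240, LEAK (helper895), part Q: bounds of the composed pull-backs and the interchange of the
series and the integral.
-/

set_option autoImplicit false
set_option linter.unusedSectionVars false
set_option maxSynthPendingDepth 3

open Set Function Filter MeasureTheory Metric
open scoped Manifold ContDiff Topology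

namespace Crest.Agent.R240.Lk

open Crest.Agent.R240.Ch Crest.Agent.R240.Sm Crest.Agent.R240.Leak

noncomputable section

variable {M : Type*} [TopologicalSpace M] [ChartedSpace E4 M] [IsManifold 𝓘(ℝ, E4) ∞ M]
  [T2Space M]

/-- the composed pull-back of the system -/
abbrev PS' (S : Sys M) (z : Fin S.n → E4) (b : F2 E4 M) : F2 E4 M :=
  PP S.G S.p (List.finRange S.n) z b

omit [T2Space M] in
lemma HG_S (S : Sys M) : HG S.G S.p := S.hG

lemma jsm_PS (S : Sys M) {b : F2 E4 M} (hb : Smooth2 b) :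
    JSm (UU S.G) (fun z : Fin S.n → E4 => PS' S z b) := jsm_PP (HG_S S) hb

lemma jb_PS (𝒰 : Cover M) (S : Sys M) {C : Set (Fin S.n → E4)} (hCc : IsCompact C) (hCU : C ⊆ UU S.G) (m : ℕ) : ∃ A : ℝ, 0 ≤ A ∧ ∀ b : F2 E4 M, Smooth2 b → JB 𝒰 m C (fun w => PS' S w b) (A * 𝒰.cm m b) := by
  have hLF : LF (UU S.G) (fun z : Fin S.n → E4 => PP (M := M) S.G S.p (List.finRange S.n) z)
      (fun z => PS S.G S.p (List.finRange S.n) z) := SmCrM.LF_PP (HG_S S) (List.finRange S.n)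
  exact LF.jb_const 𝒰 isOpen_UU hLF hCc hCU m

lemma slice_PS (𝒰 : Cover M) (S : Sys M) {b : F2 E4 M} (hb : Smooth2 b) {w : Fin S.n → E4} (hw : w ∈ UU S.G) {i : Fin 𝒰.N} {y : E4} (hy : y ∈ 𝒰.K i) (j : ℕ) :
    ‖iteratedFDeriv ℝ j (rep (𝒰.p i) (PS' S w b)) y‖ ≤ ‖iteratedFDeriv ℝ j (fun v : (Fin S.n → E4) × E4 => rep (𝒰.p i) (PS' S v.1 b) v.2) (w, y)‖ := by
  have hop : IsOpen (UU S.G ×ˢ (chartAt E4 (𝒰.p i)).target) :=
    (isOpen_UU (G := S.G)).prod (chartAt E4 (𝒰.p i)).open_target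
  have h2 := SmJ.norm_jy_le hop
    ((jsm_PS S hb).2 (𝒰.p i)) j (p := (w, y)) ⟨hw, 𝒰.sub i hy⟩
  exact h2

/-- **uniform `C^m` bounds of the composed pull-backs** -/
theorem PP_bd (𝒰 : Cover M) (S : Sys M) {e1 : ℝ} (h : ∀ i, e1 < (S.c i).z0)
    (m : ℕ) : ∃ A : ℝ, 0 ≤ A ∧ ∀ b : F2 E4 M, Smooth2 b → ∀ e, 0 ≤ e → e ≤ e1 →
      ∀ z : Fin S.n → E4, (∀ i, ‖z i‖ ≤ 1) → ∀ i, ∀ y ∈ 𝒰.K i, ∀ j ≤ m,
        ‖iteratedFDeriv ℝ j (rep (𝒰.p i) (PS' S (e • z) b)) y‖ ≤ A * 𝒰.cm m b := by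
  have hCc : IsCompact (Set.pi univ fun _ : Fin S.n => closedBall (0 : E4) e1) := isCompact_univ_pi fun _ => isCompact_closedBall _ _
  have hCU : (Set.pi univ fun _ : Fin S.n => closedBall (0 : E4) e1) ⊆ UU S.G := by
    intro z hz i
    have h1 := hz i (mem_univ i)
    rw [mem_closedBall_zero_iff] at h1
    rw [mem_ball_zero_iff]
    exact lt_of_le_of_lt h1 (h i)
  obtain ⟨A, hA, hJ⟩ := jb_PS 𝒰 S hCc hCU m
  refine ⟨A, hA, fun b hb e he he' z hz i y hy j hj => ?_⟩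
  have hmem : e • z ∈ (Set.pi univ fun _ : Fin S.n => closedBall (0 : E4) e1) := by
    intro i _
    rw [mem_closedBall_zero_iff, Pi.smul_apply, norm_smul, Real.norm_eq_abs, abs_of_nonneg he]
    calc e * ‖z i‖ ≤ e * 1 := mul_le_mul_of_nonneg_left (hz i) he
      _ ≤ e1 := by rw [mul_one]; exact he'
  exact (slice_PS 𝒰 S hb (hCU hmem) hy j).trans (hJ b hb i (e • z) hmem y hy j hj)

/-- pointwise bound at a point -/
theorem PP_bd_at (𝒰 : Cover M) (S : Sys M) {e1 : ℝ} (h : ∀ i, e1 < (S.c i).z0) (x : M) :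
    ∃ A : ℝ, 0 ≤ A ∧ ∀ b : F2 E4 M, Smooth2 b → ∀ e, 0 ≤ e → e ≤ e1 →
      ∀ z : Fin S.n → E4, (∀ i, ‖z i‖ ≤ 1) →
        ‖at2 (PS' S (e • z) b) x‖ ≤ A * 𝒰.cm 0 b := by
  obtain ⟨A, hA, hb⟩ := PP_bd 𝒰 S h 0
  obtain ⟨i, hi1, hi2⟩ := 𝒰.cov x
  refine ⟨‖pullL (tcc x (𝒰.p i) x)‖ * A, mul_nonneg (norm_nonneg _) hA,
    fun b hbs e he he' z hz => ?_⟩
  have h1 := hb b hbs e he he' z hz i _ (interior_subset hi2) 0 le_rfl
  rw [norm_iteratedFDeriv_zero] at h1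
  rw [at2_eq_pull hi1, ← pullL_apply]
  refine (ContinuousLinearMap.le_opNorm _ _).trans ?_
  rw [mul_assoc]
  exact mul_le_mul_of_nonneg_left h1 (norm_nonneg _)

/-! ### the kernels -/

omit [T2Space M] in
lemma admK_tf (S : Sys M) {e : ℝ} (h : S.Ok e) (q : Fin S.n → KF) :
    AdmK S.G (fun i => kk (q i).1) e :=
  ⟨fun i => (kk_smooth (q i).2).continuous,
    fun i => (isCompact_closedBall (0 : E4) 1).of_isClosed_subset (isClosed_tsupport _)
      (kk_supp (q i).1), fun i z hz => by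
      have h1 := kk_supp (q i).1 hz
      rw [mem_closedBall_zero_iff] at h1
      rw [mem_ball_zero_iff, norm_smul, Real.norm_eq_abs, abs_of_pos h.1]
      calc e * ‖z‖ ≤ e * 1 := mul_le_mul_of_nonneg_left h1 h.1.le
        _ < (S.G i).r := by rw [mul_one]; exact h.2 i⟩

/-- the operator as an integral -/
theorem at2_A (S : Sys M) {e : ℝ} (h : S.Ok e) (q : Fin S.n → KF) (b : X2 M) (x : M) :
    at2 (S.A e q b : F2 E4 M) x =
      ∫ z : Fin S.n → E4, kp (fun i => kk (q i).1) z • at2 (PS' S (e • z) b) x := by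
  rw [Sys.A, Sys.opL_coe h q _ b, AL_eq_AA, at2_AA (HG_S S) (admK_tf S h q) b.2 x]

theorem A_eq_avg (S : Sys M) {e : ℝ} (h : S.Ok e) (q : Fin S.n → KF) (b : X2 M) :
    (S.A e q b : F2 E4 M) = avg (kp (fun i => kk (q i).1)) (fun z => PS' S (e • z) b) :=
  F2_ext fun x => at2_A S h q b x

omit [T2Space M] in
/-- the mass of the product kernel -/
lemma abs_kp_le (N : ℕ) {q : Fin N → KF} (hq : q ∈ ClK N 0) (ν : Ix (Fin N)) (z : Fin N → E4) :
    |kp (fun i => kk (tfK ν q i).1) z| ≤ kp (fun _ => kap0) z := by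
  unfold kp
  rw [Finset.abs_prod]
  refine Finset.prod_le_prod (fun i _ => abs_nonneg _) fun i _ => ?_
  simp only [tfK_coe, kk]
  by_cases h : kap0 (z i) = 0
  · rw [h, mul_zero, abs_zero]
  · have h1 : |(q i).1 (z i)| ≤ 1 := ClK.abs_le hq i (by simpa using (norm_lt_of_kap0 h).le)
    rw [abs_mul, abs_mul, abs_of_nonneg (kap0_nonneg _)]
    have h2 : |tf ν i (z i)| ≤ 1 := abs_tg_le _ _
    have h3 : |(q i).1 (z i)| * |tf ν i (z i)| ≤ 1 := by
      calc |(q i).1 (z i)| * |tf ν i (z i)| ≤ 1 * 1 :=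
            mul_le_mul h1 h2 (abs_nonneg _) zero_le_one
        _ = 1 := mul_one 1
    calc |(q i).1 (z i)| * |tf ν i (z i)| * kap0 (z i) ≤ 1 * kap0 (z i) :=
          mul_le_mul_of_nonneg_right h3 (kap0_nonneg _)
      _ = kap0 (z i) := one_mul _

lemma kp_kap0_int (N : ℕ) : Integrable (kp (fun _ : Fin N => kap0)) :=
  (continuous_kp fun _ => kap0_cont).integrable_of_hasCompactSupport
    (hasCompactSupport_kp fun _ => kap0_comp)

lemma kp_kap0_nonneg (N : ℕ) (z : Fin N → E4) : 0 ≤ kp (fun _ : Fin N => kap0) z :=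
  Finset.prod_nonneg fun _ _ => kap0_nonneg _

/-- the mass -/
def mass (N : ℕ) : ℝ := ∫ z, kp (fun _ : Fin N => kap0) z

lemma mass_nonneg (N : ℕ) : 0 ≤ mass N := integral_nonneg fun z => kp_kap0_nonneg N z

lemma norm_of_kp_ne {N : ℕ} {q : Fin N → KF} {z : Fin N → E4}
    (h : kp (fun i => kk (q i).1) z ≠ 0) (i : Fin N) : ‖z i‖ ≤ 1 :=
  (kk_ne (Finset.prod_ne_zero_iff.1 h i (Finset.mem_univ i))).le

lemma norm_of_tsupport {N : ℕ} {q : Fin N → KF} {z : Fin N → E4}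
    (h : z ∈ tsupport (kp (fun i => kk (q i).1))) (i : Fin N) : ‖z i‖ ≤ 1 := by
  have h1 := tsupport_kp _ h i (mem_univ i)
  have h2 := kk_supp _ h1
  simpa using h2

/-- **`C^m` bounds, uniform in the multiplier** -/
theorem cm_A_tfK (𝒰 : Cover M) (S : Sys M) {e1 : ℝ} (h : ∀ i, e1 < (S.c i).z0) (m : ℕ) :
    ∃ C : ℝ, 0 ≤ C ∧ ∀ e, 0 < e → e ≤ e1 → ∀ q ∈ ClK S.n 0, ∀ ν (b : X2 M),
      𝒰.cm m (S.A e (tfK ν q) b : F2 E4 M) ≤ C * 𝒰.cm m (b : F2 E4 M) := by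
  obtain ⟨A, hA, hbd⟩ := PP_bd 𝒰 S h m
  refine ⟨mass S.n * A, mul_nonneg (mass_nonneg _) hA, fun e he he' q hq ν b => ?_⟩
  have hok : S.Ok e := ⟨he, fun i => lt_of_le_of_lt he' (h i)⟩
  have hadm := admK_tf S hok (tfK ν q)
  rw [A_eq_avg S hok]
  have h1 := Sm7.cm_avg_le 𝒰 (isOpen_UE (G := S.G) e) (continuous_kp hadm.cont)
    (hasCompactSupport_kp hadm.comp) (tsupport_kp_UE hadm)
    (jsm_PPe (l := List.finRange S.n) (HG_S S) b.2 e) (m := m)
    (B := A * 𝒰.cm m (b : F2 E4 M)) (mul_nonneg hA (cm_nonneg 𝒰 m _))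
    (fun z hz i y hy j hj => hbd b b.2 e he.le he' z (fun i => norm_of_tsupport hz i) i y hy j hj)
  refine h1.trans ?_
  rw [mul_assoc]
  refine mul_le_mul_of_nonneg_right ?_ (mul_nonneg hA (cm_nonneg 𝒰 m _))
  refine integral_mono ?_ (kp_kap0_int S.n) fun z => abs_kp_le S.n hq ν z
  exact ((continuous_kp hadm.cont).integrable_of_hasCompactSupport
    (hasCompactSupport_kp hadm.comp)).abs

/-- **interchange of the series and the integral** -/
theorem interchange (𝒰 : Cover M) (S : Sys M) {e : ℝ} (hok : S.Ok e) {q : Fin S.n → KF}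
    (hq : q ∈ ClK S.n 0) (B : Ix (Fin S.n) → X2 M)
    (hB : Summable fun ν => 𝒰.cm 0 (B ν : F2 E4 M)) (x : M) (V : (Fin S.n → E4) → Bil)
    (hV : ∀ z : Fin S.n → E4, (∀ i, ‖z i‖ ≤ 1) →
      HasSum (fun ν => (∏ i, tf ν i (z i)) • at2 (PS' S (e • z) (B ν)) x) (V z)) :
    HasSum (fun ν => at2 (S.A e (tfK ν q) (B ν) : F2 E4 M) x)
      (∫ z : Fin S.n → E4, kp (fun i => kk (q i).1) z • V z) := by
  obtain ⟨A, hA, hbd⟩ := PP_bd_at 𝒰 S (e1 := e) hok.2 x
  set F : Ix (Fin S.n) → (Fin S.n → E4) → Bil := fun ν z =>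
    kp (fun i => kk (tfK ν q i).1) z • at2 (PS' S (e • z) (B ν)) x with hF
  have hint : ∀ ν, Integrable (F ν) := fun ν =>
    integrable_PP (HG_S S) (admK_tf S hok (tfK ν q)) (B ν).2 x
  have hnorm : ∀ ν, ∫ z, ‖F ν z‖ ≤ mass S.n * A * 𝒰.cm 0 (B ν : F2 E4 M) := by
    intro ν
    have h1 : ∀ z, ‖F ν z‖ ≤ kp (fun _ : Fin S.n => kap0) z * (A * 𝒰.cm 0 (B ν : F2 E4 M)) := by
      intro z
      simp only [hF]
      rw [norm_smul, Real.norm_eq_abs]
      by_cases hz : kp (fun i => kk (tfK ν q i).1) z = 0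
      · rw [hz, abs_zero, zero_mul]
        exact mul_nonneg (kp_kap0_nonneg _ _) (mul_nonneg hA (cm_nonneg 𝒰 0 _))
      · exact mul_le_mul (abs_kp_le S.n hq ν z)
          (hbd _ (B ν).2 e hok.1.le le_rfl z fun i => norm_of_kp_ne hz i) (norm_nonneg _)
          (kp_kap0_nonneg _ _)
    calc ∫ z, ‖F ν z‖ ≤ ∫ z, kp (fun _ : Fin S.n => kap0) z * (A * 𝒰.cm 0 (B ν : F2 E4 M)) :=
          integral_mono (hint ν).norm ((kp_kap0_int S.n).mul_const _) h1
      _ = mass S.n * A * 𝒰.cm 0 (B ν : F2 E4 M) := by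
          rw [integral_mul_const, mass, mul_assoc]
  have hsum : Summable fun ν => ∫ z, ‖F ν z‖ :=
    Summable.of_nonneg_of_le (fun ν => integral_nonneg fun z => norm_nonneg _) hnorm
      (hB.mul_left _)
  have h2 := hasSum_integral_of_summable_integral_norm hint hsum
  have h3 : (fun z => ∑' ν, F ν z) = fun z => kp (fun i => kk (q i).1) z • V z := by
    funext z
    have e1 : ∀ ν, F ν z = kp (fun i => kk (q i).1) z •
        ((∏ i, tf ν i (z i)) • at2 (PS' S (e • z) (B ν)) x) := by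
      intro ν
      simp only [hF]
      rw [smul_smul]
      congr 1
      unfold kp
      rw [← Finset.prod_mul_distrib]
      refine Finset.prod_congr rfl fun i _ => ?_
      simp only [tfK_coe, kk]
      ring
    by_cases hz : kp (fun i => kk (q i).1) z = 0
    · simp only [e1, hz, zero_smul, tsum_zero]
    · have h4 := (hV z fun i => norm_of_kp_ne hz i).const_smul (kp (fun i => kk (q i).1) z)
      simp only [e1]
      exact h4.tsum_eq
  rw [h3] at h2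
  refine h2.congr_fun fun ν => ?_
  rw [at2_A S hok]

end

end Crest.Agent.R240.Lk
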