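import Mathlib
import Crest.Agent.R240.LkP1
import Crest.Agent.R240.LkQ

/-!
# Row 240, LEAK (helper404): the Fourier series of the leak

`hasSum_leak` : for a `J`-invariant form, the anti-invariant part of `S.A e q (D.pi' P)` is
`e` times a rapidly converging series of terms `S.A e (tfK ν q) (E e ν P)`.
-/

set_option autoImplicit false
set_option maxSynthPendingDepth 3
set_option linter.unusedSectionVars false

open Set Function Filter Metric MeasureTheory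
open scoped Manifold ContDiff Topology

namespace Crest.Agent.R240.Leak

open Crest.Agent.R240.Ch Crest.Agent.R240.Sm Crest.Agent.R240.Lk Crest.Agent.R240.SmJ

noncomputable section

section man

variable {M : Type*} [TopologicalSpace M] [ChartedSpace E4 M] [IsManifold 𝓘(ℝ, E4) ∞ M]

/-- the value at a point as a linear map. -/
def at2Lin (x : M) : F2 E4 M →ₗ[ℝ] Bil where
  toFun b := at2 b x
  map_add' _ _ := rfl
  map_smul' _ _ := rfl

/-- `TT z` as a linear map. -/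
def TTLin {ι : Type*} (J : EndF E4 M) (G : ι → Fam E4) (p : ι → M) (l : List ι) (z : ι → E4) :
    F2 E4 M →ₗ[ℝ] F2 E4 M where
  toFun b := TT J G p l z b
  map_add' a b := TT_add z a b
  map_smul' r a := TT_smul z r a

/-- expansion of `TT z b` in a frame. -/
lemma TT_frame {ι : Type*} {J : EndF E4 M} {G : ι → Fam E4} {p : ι → M} {l : List ι}
    (hG : HG G p) {z : ι → E4} (hz : z ∈ UU G) {n : ℕ} (c : Fin n → X2 M) (a : Fin n → ℝ)
    {b : F2 E4 M} {x : M} (h : at2 b x = ∑ j, a j • at2 (c j).1 x) :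
    at2 (TT J G p l z b) x = ∑ j, a j • at2 (TT J G p l z (c j).1) x := by
  have h1 : at2 b x = at2 (∑ j, a j • (c j).1) x := by
    rw [h]
    have := map_sum (at2Lin x) (fun j => a j • (c j).1) Finset.univ
    exact this.symm
  rw [TT_local hG hz h1]
  have h2 : TT J G p l z (∑ j, a j • (c j).1) = ∑ j, a j • TT J G p l z (c j).1 := by
    have := map_sum (TTLin J G p l z) (fun j => a j • (c j).1) Finset.univ
    simp only [map_smul] at this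
    exact this
  rw [h2]
  have h3 := map_sum (at2Lin x) (fun j => a j • TT J G p l z (c j).1) Finset.univ
  exact h3

/-- product of a smooth function and a smooth form. -/
def fX {f : M → ℝ} (hf : SmoothF E4 f) (b : X2 M) : X2 M := ⟨fmul f b.1, Smooth2.fmul hf b.2⟩

lemma fX_coe {f : M → ℝ} (hf : SmoothF E4 f) (b : X2 M) : (fX hf b : F2 E4 M) = fmul f b.1 := rfl

lemma at2_fX {f : M → ℝ} (hf : SmoothF E4 f) (b : X2 M) (x : M) :
    at2 (fX hf b : F2 E4 M) x = f x • at2 b.1 x := rfl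

/-- the forms of the expansion. -/
def EE {N n : ℕ} {f : Fin n → X2 M →ₗ[ℝ] (M → ℝ)} (hf : ∀ j b, SmoothF E4 (f j b))
    (d : Fin n → Ix (Fin N) → ℝ → X2 M) (e : ℝ) (ν : Ix (Fin N)) (P : X2 M) : X2 M :=
  ∑ j, fX (hf j P) (d j ν e)

lemma at2_EE {N n : ℕ} {f : Fin n → X2 M →ₗ[ℝ] (M → ℝ)} (hf : ∀ j b, SmoothF E4 (f j b))
    (d : Fin n → Ix (Fin N) → ℝ → X2 M) (e : ℝ) (ν : Ix (Fin N)) (P : X2 M) (x : M) :
    at2 (EE hf d e ν P : F2 E4 M) x = ∑ j, f j P x • at2 (d j ν e).1 x := by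
  have h := map_sum ((at2Lin x).comp (Submodule.subtype _ : X2 M →ₗ[ℝ] F2 E4 M))
    (fun j => fX (hf j P) (d j ν e)) Finset.univ
  exact h

/-- **the expansion of the leak for fixed parameters**. -/
lemma hasSum_z {N n : ℕ} {J : EndF E4 M} {G : Fin N → Fam E4} {p : Fin N → M} {l : List (Fin N)}
    (hG : HG G p) {c : Fin n → X2 M} {f : Fin n → X2 M →ₗ[ℝ] (M → ℝ)}
    (hf : ∀ j b, SmoothF E4 (f j b))
    (hfr : ∀ (b : X2 M) x, at2 b.1 x = ∑ j, f j b x • at2 (c j).1 x)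
    {d : Fin n → Ix (Fin N) → ℝ → X2 M} {e : ℝ} {z : Fin N → E4} (hz : e • z ∈ UU G)
    (hd : ∀ j x, HasSum (fun ν : Ix (Fin N) => (∏ i, tf ν i (z i)) • (e • at2 (d j ν e).1 x))
      (at2 (TT J G p l (e • z) (c j).1) x)) (P : X2 M) (x : M) :
    HasSum (fun ν : Ix (Fin N) => (∏ i, tf ν i (z i)) • (e • at2 (PP G p l (e • z) (EE hf d e ν P).1) x))
      (at2 (Ch.bpp J (PP G p l (e • z) (Ch.bp J P.1))) x) := by
  obtain ⟨D, hD⟩ := exists_pullPP G p l (e • z) x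
  rw [bpp_PP hG hz, hD, TT_frame hG hz c _ (hfr P _)]
  have h1 : HasSum (fun ν : Ix (Fin N) => ∑ j, f j P (PS G p l (e • z) x) •
      ((∏ i, tf ν i (z i)) • (e • at2 (d j ν e).1 (PS G p l (e • z) x))))
      (∑ j, f j P (PS G p l (e • z) x) •
        at2 (TT J G p l (e • z) (c j).1) (PS G p l (e • z) x)) :=
    hasSum_sum fun j _ => (hd j _).const_smul _
  have h2 := h1.mapL (pullL D)
  rw [pullL_apply] at h2
  refine h2.congr_fun fun ν => ?_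
  rw [hD, at2_EE, ← pullL_apply, ← map_smul, ← map_smul]
  congr 1
  rw [Finset.smul_sum, Finset.smul_sum]
  refine Finset.sum_congr rfl fun j _ => ?_
  simp only [smul_smul]
  congr 1
  ring

end man

section sys

variable {M : Type*} [MetricSpace M] [CompactSpace M] [ChartedSpace E4 M]
    [IsManifold 𝓘(ℝ, E4) ∞ M] [MeasurableSpace M] [BorelSpace M]

/-- Fourier expansion of the leak of one smooth form. -/
lemma exists_fouX (D : Dat M) (𝒰 : Cover M) (S : Sys M) {e2 : ℝ} (h2 : S.Ok e2) (c : X2 M) :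
    ∃ d : Ix (Fin S.n) → ℝ → X2 M,
      (∀ m r : ℕ, ∃ C, 0 ≤ C ∧ ∀ ν, ∀ e ∈ Icc 0 (e2 / 4),
        𝒰.cm m (d ν e : F2 E4 M) ≤ C * (wt ν.1.1 ^ r)⁻¹) ∧
      (∀ e ∈ Icc 0 (e2 / 4), ∀ z : Fin S.n → E4, (∀ i, ‖z i‖ ≤ 1) → ∀ x,
        HasSum (fun ν : Ix (Fin S.n) => (∏ i, tf ν i (z i)) • (e • at2 (d ν e).1 x))
          (at2 (TT D.J S.G S.p (List.finRange S.n) (e • z) c.1) x)) := by
  classical
  have he2 : 0 < e2 := h2.1
  have hin : ∀ e : ℝ, |e| < e2 / 2 → ∀ z : Fin S.n → E4, (∀ i, ‖z i‖ ≤ 3 / 2) →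
      e • z ∈ UU S.G := by
    intro e he z hz i
    rw [mem_ball_zero_iff, Pi.smul_apply, norm_smul, Real.norm_eq_abs]
    have h3 : (S.G i).r = (S.c i).z0 := rfl
    have h4 := h2.2 i
    have h5 := hz i
    rw [h3]
    have : |e| * ‖z i‖ ≤ e2 / 2 * (3 / 2) := mul_le_mul he.le h5 (norm_nonneg _) (by positivity)
    linarith
  have hj : JSm (UU S.G) (fun z => TT D.J S.G S.p (List.finRange S.n) z c.1) :=
    jsm_TT D.smJ (fun i => S.hG i) c.2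
  have h0 : ∀ x, at2 (TT D.J S.G S.p (List.finRange S.n) (0 : Fin S.n → E4) c.1) x = 0 := by
    intro x
    rw [TT_zero D.sq]
    rfl
  obtain ⟨d, hd1, hd2, hd3⟩ := exists_fou 𝒰 (isOpen_UU (G := S.G))
    (fun z hz t ht => smul_mem_UU hz ht.1 ht.2)
    (e0 := e2 / 4) (e1 := e2 / 2) (ρ := 3 / 2) (by positivity) (by linarith) (by norm_num)
    (by norm_num) hin hj h0
  have hd : ∀ ν, ∀ e ∈ Icc 0 (e2 / 4),
      ((if h : Smooth2 (d ν e) then (⟨d ν e, h⟩ : X2 M) else 0 : X2 M) : F2 E4 M) = d ν e :=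
    fun ν e he => by rw [dif_pos (hd1 ν e he)]
  refine ⟨fun ν e => if h : Smooth2 (d ν e) then (⟨d ν e, h⟩ : X2 M) else 0, fun m r => ?_,
    fun e he z hz x => ?_⟩
  · obtain ⟨C, hC, h⟩ := hd2 m r
    refine ⟨C, hC, fun ν e he => ?_⟩
    rw [hd ν e he]
    exact h ν e he
  · refine (hd3 e he z hz x).congr_fun fun ν => ?_
    rw [hd ν e he]

lemma cm_EE_le (𝒰 : Cover M) {N n : ℕ} {f : Fin n → X2 M →ₗ[ℝ] (M → ℝ)}
    (hf : ∀ j b, SmoothF E4 (f j b)) {d : Fin n → Ix (Fin N) → ℝ → X2 M} {e0 : ℝ}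
    (hd : ∀ j, ∀ m r : ℕ, ∃ C, 0 ≤ C ∧ ∀ ν, ∀ e ∈ Icc 0 e0,
        𝒰.cm m (d j ν e : F2 E4 M) ≤ C * (wt ν.1.1 ^ r)⁻¹) (P : X2 M) (m r : ℕ) :
    ∃ C, 0 ≤ C ∧ ∀ ν, ∀ e ∈ Icc 0 e0,
        𝒰.cm m (EE hf d e ν P : F2 E4 M) ≤ C * (wt ν.1.1 ^ r)⁻¹ := by
  choose A hA0 hA using fun j => hd j m r
  choose B hB0 hB using fun j => cm_fmul_le 𝒰 (hf j P) m
  refine ⟨∑ j, B j * A j, Finset.sum_nonneg fun j _ => mul_nonneg (hB0 j) (hA0 j),
    fun ν e he => ?_⟩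
  refine (cm_sum_le' 𝒰 m Finset.univ fun j => fX (hf j P) (d j ν e)).trans ?_
  rw [Finset.sum_mul]
  refine Finset.sum_le_sum fun j _ => ?_
  rw [mul_assoc]
  exact (hB j _ (d j ν e).2).trans (mul_le_mul_of_nonneg_left (hA j ν e he) (hB0 j))

lemma n2_EE_le (D : Dat M) (𝒰 : Cover M) {N n : ℕ} {f : Fin n → X2 M →ₗ[ℝ] (M → ℝ)}
    (hf : ∀ j b, SmoothF E4 (f j b)) {K : ℝ} (hK : 0 ≤ K)
    (hfK : ∀ j (b : X2 M) x, |f j b x| ≤ K * D.nr b.1 x)
    {d : Fin n → Ix (Fin N) → ℝ → X2 M} {e0 : ℝ}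
    (hd : ∀ j, ∀ m r : ℕ, ∃ C, 0 ≤ C ∧ ∀ ν, ∀ e ∈ Icc 0 e0,
        𝒰.cm m (d j ν e : F2 E4 M) ≤ C * (wt ν.1.1 ^ r)⁻¹) (r : ℕ) :
    ∃ C, 0 ≤ C ∧ ∀ e ∈ Icc 0 e0, ∀ ν, ∀ P : X2 M,
        D.n2 (EE hf d e ν P : F2 E4 M) ≤ C * (wt ν.1.1 ^ r)⁻¹ * D.n2 (P : F2 E4 M) := by
  choose A hA0 hA using fun j => hd j 0 r
  obtain ⟨L, hL0, hL⟩ := NrCm.nr_le_cm D 𝒰
  refine ⟨∑ j, L * A j * K, Finset.sum_nonneg fun j _ =>
    mul_nonneg (mul_nonneg hL0 (hA0 j)) hK, fun e he ν P => ?_⟩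
  refine (n2_sum_le D Finset.univ fun j => fX (hf j P) (d j ν e)).trans ?_
  have hw : 0 ≤ (wt ν.1.1 ^ r)⁻¹ := inv_nonneg.2 (pow_nonneg (wt_pos _).le r)
  rw [Finset.sum_mul, Finset.sum_mul]
  refine Finset.sum_le_sum fun j _ => ?_
  have h1 : ∀ x, D.nr (d j ν e).1 x ≤ L * (A j * (wt ν.1.1 ^ r)⁻¹) := fun x =>
    (hL (d j ν e) x).trans (mul_le_mul_of_nonneg_left (hA j ν e he) hL0)
  have h2 := n2_fmul_le D P.2 (Smooth2.fmul (hf j P) (d j ν e).2)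
    (mul_nonneg hL0 (mul_nonneg (hA0 j) hw)) hK h1 (hfK j P)
  refine h2.trans (le_of_eq ?_)
  ring

/-- `antip` as a continuous linear map. -/
def antiL (J : E4 →L[ℝ] E4) : Bil →L[ℝ] Bil :=
  (1 / 2 : ℝ) • (ContinuousLinearMap.id ℝ Bil - pullL J)

lemma antiL_apply (J : E4 →L[ℝ] E4) (b : Bil) : antiL J b = antip J b := rfl

/-- the leak as an integral. -/
lemma at2_leak (D : Dat M) (S : Sys M) {e : ℝ} (hok : S.Ok e) (q : Fin S.n → KF) (P : X2 M)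
    (x : M) :
    at2 (D.pi'' (S.A e q (D.pi' P)) : F2 E4 M) x =
      ∫ z : Fin S.n → E4, kp (fun i => kk (q i).1) z •
        at2 (Ch.bpp D.J (PP S.G S.p (List.finRange S.n) (e • z) (Ch.bp D.J P.1))) x := by
  have h1 : at2 (D.pi'' (S.A e q (D.pi' P)) : F2 E4 M) x =
      antiL (atJ D.J x) (at2 (S.A e q (D.pi' P) : F2 E4 M) x) := rfl
  have hint : Integrable (fun z : Fin S.n → E4 => kp (fun i => kk (q i).1) z •
      at2 (PP S.G S.p (List.finRange S.n) (e • z) (Ch.bp D.J P.1)) x) :=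
    integrable_PP (fun i => S.hG i) (admK hok q) (D.pi' P).2 x
  rw [h1, at2_A S hok q (D.pi' P) x]
  have h2 := (antiL (atJ D.J x)).integral_comp_comm hint
  refine Eq.trans h2.symm ?_
  refine integral_congr_ae (Eventually.of_forall fun z => ?_)
  simp only
  rw [map_smul]
  rfl

/-- **THE SERIES OF THE LEAK** -/
theorem hasSum_leak (D : Dat M) (𝒰 : Cover M) (S : Sys M) :
    ∃ e1 : ℝ, 0 < e1 ∧ (∀ e, 0 < e → e ≤ e1 → S.Ok e) ∧
      ∃ E : ℝ → Ix (Fin S.n) → X2 M → X2 M,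
      (∀ r : ℕ, ∃ C : ℝ, 0 ≤ C ∧ ∀ e, 0 < e → e ≤ e1 → ∀ ν (P : X2 M),
        D.n2 (E e ν P : F2 E4 M) ≤ C * (wt ν.1.1 ^ r)⁻¹ * D.n2 (P : F2 E4 M)) ∧
      (∀ e, 0 < e → e ≤ e1 → ∀ q ∈ ClK S.n 0, ∀ P : X2 M,
        (∀ l : ℕ, Summable fun ν => 𝒰.cm l (S.A e (tfK ν q) (E e ν P) : F2 E4 M)) ∧
        ∀ x, HasSum (fun ν => e • at2 (S.A e (tfK ν q) (E e ν P) : F2 E4 M) x)
          (at2 (D.pi'' (S.A e q (D.pi' P)) : F2 E4 M) x)) := by
  obtain ⟨e2, he2, -, hok2⟩ := S.exists_ok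
  have h2 : S.Ok e2 := hok2 e2 he2 le_rfl
  have hle : e2 / 4 ≤ e2 := by linarith
  have hok : ∀ e, 0 < e → e ≤ e2 / 4 → S.Ok e := fun e he he' => hok2 e he (he'.trans hle)
  obtain ⟨n, c, f, K, hK, hf, hfr, hfK⟩ := exists_frame D
  choose d hd1 hd2 using fun j => exists_fouX D 𝒰 S h2 (c j)
  refine ⟨e2 / 4, by positivity, hok, EE hf d, fun r => ?_, fun e he he' q hq P => ?_⟩
  · obtain ⟨C, hC, h⟩ := n2_EE_le D 𝒰 hf hK hfK hd1 r
    exact ⟨C, hC, fun e he he' ν P => h e ⟨he.le, he'⟩ ν P⟩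
  · have hoke := hok e he he'
    have hcm : ∀ m, Summable fun ν => 𝒰.cm m (EE hf d e ν P : F2 E4 M) := by
      intro m
      obtain ⟨C, hC, h⟩ := cm_EE_le 𝒰 hf hd1 P m 1
      exact Summable.of_nonneg_of_le (fun ν => Ch.cm_nonneg 𝒰 m _)
        (fun ν => h ν e ⟨he.le, he'⟩) ((summable_Ix (ι := Fin S.n) le_rfl).mul_left C)
    refine ⟨fun m => ?_, fun x => ?_⟩
    · obtain ⟨C, hC, h⟩ := cm_A_tfK 𝒰 S (e1 := e) hoke.2 m
      exact Summable.of_nonneg_of_le (fun ν => Ch.cm_nonneg 𝒰 m _)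
        (fun ν => h e he le_rfl q hq ν _) ((hcm m).mul_left C)
    · rw [at2_leak D S hoke q P x]
      have hB : Summable fun ν => 𝒰.cm 0 ((e • EE hf d e ν P : X2 M) : F2 E4 M) := by
        refine ((hcm 0).mul_left |e|).congr fun ν => ?_
        exact (Ch.cm_smul 𝒰 0 (EE hf d e ν P).2 e).symm
      have hV : ∀ z : Fin S.n → E4, (∀ i, ‖z i‖ ≤ 1) →
          HasSum (fun ν => (∏ i, tf ν i (z i)) •
            at2 (PS' S (e • z) ((e • EE hf d e ν P : X2 M) : F2 E4 M)) x)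
            (at2 (Ch.bpp D.J (PP S.G S.p (List.finRange S.n) (e • z) (Ch.bp D.J P.1))) x) := by
        intro z hz
        have hez : e • z ∈ UU S.G := CC_subset hoke (smul_mem_CC he le_rfl hz)
        have h3 := hasSum_z (J := D.J) (l := List.finRange S.n) (fun i => S.hG i) hf hfr hez
          (fun j x => hd2 j e ⟨he.le, he'⟩ z hz x) P x
        refine h3.congr_fun fun ν => ?_
        have h4 : PS' S (e • z) ((e • EE hf d e ν P : X2 M) : F2 E4 M) =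
            e • PP S.G S.p (List.finRange S.n) (e • z) (EE hf d e ν P : F2 E4 M) := PP_smul _ _ _
        rw [h4]
        rfl
      have h5 := interchange 𝒰 S hoke hq (fun ν => e • EE hf d e ν P) hB x _ hV
      refine h5.congr_fun fun ν => ?_
      rw [map_smul]
      rfl

end sys

end

end Crest.Agent.R240.Leak
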