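import Mathlib
import Crest.Agent.R240.Lk8
import Crest.Agent.R240.Lk9
import Crest.Agent.R240.LkP
import Crest.Agent.R240.LkH

/-!
# Row 240, LEAK (helper895, 404, 461): the field `leak` of the smoothing package
-/

set_option autoImplicit false
set_option maxSynthPendingDepth 3

open scoped Manifold ContDiff

namespace Crest.Agent.R240.Lk

open Crest.Agent.R240.Ch Crest.Agent.R240.Sm

variable {M : Type*} [MetricSpace M] [CompactSpace M] [ChartedSpace E4 M]
    [IsManifold 𝓘(ℝ, E4) ∞ M] [MeasurableSpace M] [BorelSpace M]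

/-- **the exact leak estimate** -/
theorem fLeak (D : Dat M) (𝒰 : Cover M) (S : Sys M) : FLeak D 𝒰 S :=
  fLeak_of D 𝒰 S tfK (Leak.hasSum_leak D 𝒰 S) fun k => by
    obtain ⟨C, hC, h⟩ := MB.mult_bound S.n k
    exact ⟨C, hC, A_tfK_bound_of S k hC h⟩

end Crest.Agent.R240.Lk
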