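import Mathlib
import Crest.Agent.R240.LkH0

/-!
Row 240, N8 field `leak` (helper915): the multiplier bound.
-/

set_option autoImplicit false
set_option maxSynthPendingDepth 3
set_option linter.unusedSectionVars false

open Set Function Filter Metric
open scoped ContDiff Topology
open Crest.Agent.R240.Sm

namespace Crest.Agent.R240.Lk

noncomputable section

/-- linear part of the phase -/
def thL (n : Fin 4 → ℤ) : E4 →L[ℝ] ℝ :=
  (2 * Real.pi / 8) • ∑ a, (n a : ℝ) • (EuclideanSpace.proj a : E4 →L[ℝ] ℝ)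

lemma thL_apply (n : Fin 4 → ℤ) (z : E4) :
    thL n z = (2 * Real.pi / 8) * ∑ a, (n a : ℝ) * z a := by
  simp [thL]

lemma th_eq (n : Fin 4 → ℤ) (z : E4) : th n z = thL n z + 2 * Real.pi * ∑ a, (n a : ℝ) * (1 / 2) := by
  rw [thL_apply, th, Finset.mul_sum, Finset.mul_sum, Finset.mul_sum, ← Finset.sum_add_distrib]
  refine Finset.sum_congr rfl fun a _ => ?_
  ring

lemma norm_thL_le (n : Fin 4 → ℤ) : ‖thL n‖ ≤ ∑ a, |(n a : ℝ)| := by
  refine ContinuousLinearMap.opNorm_le_bound _ (Finset.sum_nonneg fun a _ => abs_nonneg _) fun z => ?_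
  rw [thL_apply]
  have h1 : |∑ a, (n a : ℝ) * z a| ≤ (∑ a, |(n a : ℝ)|) * ‖z‖ := by
    rw [Finset.sum_mul]
    refine (Finset.abs_sum_le_sum_abs _ _).trans (Finset.sum_le_sum fun a _ => ?_)
    rw [abs_mul]
    exact mul_le_mul_of_nonneg_left (PiLp.norm_apply_le z a) (abs_nonneg _)
  rw [norm_mul, Real.norm_eq_abs, Real.norm_eq_abs]
  have h2 : |2 * Real.pi / 8| ≤ 1 := by
    rw [abs_of_nonneg (by positivity)]
    have := Real.pi_le_four
    linarith
  calc |2 * Real.pi / 8| * |∑ a, (n a : ℝ) * z a| ≤ 1 * ((∑ a, |(n a : ℝ)|) * ‖z‖) :=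
        mul_le_mul h2 h1 (abs_nonneg _) zero_le_one
    _ = _ := one_mul _

lemma hasFDerivAt_tgth (s : Bool) (n : Fin 4 → ℤ) (z : E4) :
    HasFDerivAt (fun z => tg s (th n z)) ((sg s * tg (!s) (th n z)) • thL n) z := by
  have h1 : HasFDerivAt (th n) (thL n) z := by
    have h2 : HasFDerivAt (fun z => thL n z + 2 * Real.pi * ∑ a, (n a : ℝ) * (1 / 2)) (thL n) z :=
      (thL n).hasFDerivAt.add_const _
    exact h2.congr_of_eventuallyEq (Eventually.of_forall fun z => th_eq n z)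
  exact (hasDerivAt_tg s (th n z)).comp_hasFDerivAt z h1

lemma contDiff_tgth (s : Bool) (n : Fin 4 → ℤ) : ContDiff ℝ ∞ (fun z => tg s (th n z)) :=
  (contDiff_tg s).comp (contDiff_th n)

lemma norm_iter_tgth (n : Fin 4 → ℤ) (j : ℕ) : ∀ (s : Bool) (z : E4),
    ‖iteratedFDeriv ℝ j (fun z => tg s (th n z)) z‖ ≤ ‖thL n‖ ^ j := by
  induction j with
  | zero =>
    intro s z
    rw [norm_iteratedFDeriv_zero, pow_zero, Real.norm_eq_abs]
    exact abs_tg_le s _
  | succ j ih =>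
    intro s z
    rw [← norm_iteratedFDeriv_fderiv]
    set g : ℝ →L[ℝ] (E4 →L[ℝ] ℝ) := ContinuousLinearMap.smulRight (1 : ℝ →L[ℝ] ℝ) (sg s • thL n)
      with hg
    have e1 : fderiv ℝ (fun z => tg s (th n z)) = g ∘ fun z => tg (!s) (th n z) := by
      funext z
      rw [(hasFDerivAt_tgth s n z).fderiv, hg]
      simp only [comp_apply, ContinuousLinearMap.smulRight_apply, ContinuousLinearMap.one_apply,
        smul_smul]
      rw [mul_comm]
    rw [e1]
    refine (ContinuousLinearMap.norm_iteratedFDeriv_comp_left g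
      ((contDiff_tgth (!s) n).contDiffAt) (by exact_mod_cast le_top)).trans ?_
    have hgn : ‖g‖ ≤ ‖thL n‖ := by
      rw [hg, ContinuousLinearMap.norm_smulRight_apply, norm_smul]
      have h1 : ‖(1 : ℝ →L[ℝ] ℝ)‖ ≤ 1 := ContinuousLinearMap.norm_id_le
      have h2 : ‖sg s‖ = 1 := by cases s <;> simp [sg]
      rw [h2, one_mul]
      exact mul_le_of_le_one_left (norm_nonneg _) h1
    rw [pow_succ, mul_comm (‖thL n‖ ^ j)]
    exact mul_le_mul hgn (ih (!s) z) (norm_nonneg _) (norm_nonneg _)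

variable {N : ℕ}

lemma le_wt {d : Type} [Fintype d] (n : d → ℤ) (i : d) : |(n i : ℝ)| ≤ wt n := by
  classical
  have h1 : 1 + (n i : ℝ) ^ 2 ≤ wt n := by
    unfold wt
    rw [← Finset.mul_prod_erase Finset.univ (fun i => 1 + (n i : ℝ) ^ 2) (Finset.mem_univ i)]
    refine le_mul_of_one_le_right (by positivity) ?_
    refine Finset.prod_induction _ (fun r : ℝ => 1 ≤ r) (fun a b ha hb => ?_) le_rfl ?_
    · nlinarith
    · intro i _
      nlinarith [sq_nonneg (n i : ℝ)]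
  have h2 : |(n i : ℝ)| ≤ 1 + (n i : ℝ) ^ 2 := by
    rw [← sq_abs (n i : ℝ)]
    nlinarith [sq_nonneg (|(n i : ℝ)| - 1), abs_nonneg (n i : ℝ)]
  exact h2.trans h1

lemma norm_thL_sl_le (n : Fin N × Fin 4 → ℤ) (i : Fin N) : ‖thL (sl n i)‖ ≤ 4 * wt n := by
  refine (norm_thL_le _).trans ?_
  calc ∑ a, |(sl n i a : ℝ)| ≤ ∑ _a : Fin 4, wt n := Finset.sum_le_sum fun a _ => le_wt n (i, a)
    _ = 4 * wt n := by simp

/-- **the multiplier bound.** -/
theorem mult_bound' (N k : ℕ) : ∃ C : ℝ, 1 ≤ C ∧ ∀ q ∈ ClK N k, ∀ ν : Ix (Fin N), ∀ i : Fin N,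
    ∀ j ≤ k, ∀ z ∈ closedBall (0 : E4) 1,
      ‖iteratedFDeriv ℝ j (fun z => (q i).1 z * tf ν i z) z‖ ≤ C * wt ν.1.1 ^ k := by
  refine ⟨8 ^ k, one_le_pow₀ (by norm_num), fun q hq ν i j hj z hz => ?_⟩
  have hw : 1 ≤ 4 * wt ν.1.1 := by
    have := one_le_wt ν.1.1
    linarith
  have h1 := norm_iteratedFDeriv_mul_le (q i).2 (contDiff_tgth (ν.2 i) (sl ν.1.1 i)) z
    (n := j) (by exact_mod_cast le_top)
  refine h1.trans ?_
  have h2 : ∀ m ∈ Finset.range (j + 1), (j.choose m : ℝ) * ‖iteratedFDeriv ℝ m (q i).1 z‖ *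
      ‖iteratedFDeriv ℝ (j - m) (fun z => tg (ν.2 i) (th (sl ν.1.1 i) z)) z‖ ≤
      (j.choose m : ℝ) * (4 * wt ν.1.1) ^ k := by
    intro m hm
    have hm' : m ≤ j := Nat.lt_succ_iff.1 (Finset.mem_range.1 hm)
    have h3 := hq i m (hm'.trans hj) z hz
    have h4 := norm_iter_tgth (sl ν.1.1 i) (j - m) (ν.2 i) z
    have h5 : ‖thL (sl ν.1.1 i)‖ ^ (j - m) ≤ (4 * wt ν.1.1) ^ k :=
      (pow_le_pow_left₀ (norm_nonneg _) (norm_thL_sl_le _ _) _).trans
        (pow_le_pow_right₀ hw (by omega))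
    rw [mul_assoc]
    refine mul_le_mul_of_nonneg_left ?_ (Nat.cast_nonneg _)
    calc ‖iteratedFDeriv ℝ m (q i).1 z‖ *
        ‖iteratedFDeriv ℝ (j - m) (fun z => tg (ν.2 i) (th (sl ν.1.1 i) z)) z‖
        ≤ 1 * (4 * wt ν.1.1) ^ k := mul_le_mul h3 (h4.trans h5) (norm_nonneg _) zero_le_one
      _ = _ := one_mul _
  refine (Finset.sum_le_sum h2).trans ?_
  rw [← Finset.sum_mul]
  have h6 : (∑ m ∈ Finset.range (j + 1), (j.choose m : ℝ)) = 2 ^ j := by
    exact_mod_cast Nat.sum_range_choose j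
  rw [h6, mul_pow, ← mul_assoc]
  refine mul_le_mul_of_nonneg_right ?_ (by have := wt_pos ν.1.1; positivity)
  calc (2 : ℝ) ^ j * 4 ^ k ≤ 2 ^ k * 4 ^ k :=
        mul_le_mul_of_nonneg_right (pow_le_pow_right₀ (by norm_num) hj) (by positivity)
    _ = 8 ^ k := by rw [← mul_pow]; norm_num

end

end Crest.Agent.R240.Lk
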