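import Mathlib
import Crest.Agent.R240.Lin4
import Crest.Agent.R240.Kern
import Crest.Agent.R240.CutFun

/-!
Row 240 (S0371), LOC5 (helper873): the limit `e → 0`, `K → ∞` in Step 5.
-/

set_option autoImplicit false

open MeasureTheory Metric Set Filter Topology
open scoped ContDiff ENNReal

namespace Crest.Agent.R240.Loc5

noncomputable section

instance instBilSC : SecondCountableTopology Bil := inferInstance
instance instBilBS : BorelSpace Bil := inferInstance
instance instBilCS : CompleteSpace Bil := inferInstance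

/-- `W` in the first argument as a continuous linear map. -/
def WL (c : Bil) : Bil →L[ℝ] ℝ := LinearMap.toContinuousLinearMap
  { toFun := fun b => W b c
    map_add' := fun a b => W_add_left a b c
    map_smul' := fun r b => W_smul_left r b c }

@[simp] theorem WL_apply (b c : Bil) : WL c b = W b c := rfl

theorem abs_W_le (b c : Bil) : |W b c| ≤ 6 * (‖b‖ * ‖c‖) := by
  have h : ∀ i j k l : Fin 4, |ent b i j * ent c k l| ≤ ‖b‖ * ‖c‖ := by
    intro i j k l
    rw [abs_mul]
    exact mul_le_mul (abs_ent_le b i j) (abs_ent_le c k l) (abs_nonneg _) (norm_nonneg _)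
  have h1 := abs_le.1 (h 0 1 2 3)
  have h2 := abs_le.1 (h 0 2 1 3)
  have h3 := abs_le.1 (h 0 3 1 2)
  have h4 := abs_le.1 (h 1 2 0 3)
  have h5 := abs_le.1 (h 1 3 0 2)
  have h6 := abs_le.1 (h 2 3 0 1)
  unfold W
  rw [abs_le]
  constructor <;> linarith [h1.1, h1.2, h2.1, h2.2, h3.1, h3.2, h4.1, h4.2, h5.1, h5.2, h6.1, h6.2]

theorem continuous_ent (i j : Fin 4) : Continuous fun b : Bil => ent b i j := by
  unfold ent
  fun_prop

theorem measurable_W {X : Type*} [MeasurableSpace X] {f g : X → Bil} (hf : Measurable f)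
    (hg : Measurable g) : Measurable fun x => W (f x) (g x) := by
  have h : ∀ i j, Measurable fun x => ent (f x) i j := fun i j =>
    (continuous_ent i j).measurable.comp hf
  have h' : ∀ i j, Measurable fun x => ent (g x) i j := fun i j =>
    (continuous_ent i j).measurable.comp hg
  unfold W
  exact (((((h 0 1).mul (h' 2 3)).sub ((h 0 2).mul (h' 1 3))).add ((h 0 3).mul (h' 1 2))).add
    ((h 1 2).mul (h' 0 3))).sub ((h 1 3).mul (h' 0 2)) |>.add ((h 2 3).mul (h' 0 1))

theorem measurable_gf (K : ℝ) : Measurable (CutFun.gf K) := by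
  unfold CutFun.gf CutFun.qf
  exact (Real.smoothTransition.continuous).measurable.comp (by fun_prop)

/-- mollifier of scale `e`. -/
structure Ker (e : ℝ) (k : E4 → ℝ) : Prop where
  cont : Continuous k
  nonneg : ∀ z, 0 ≤ k z
  supp : ∀ z, e ≤ ‖z‖ → k z = 0
  int : ∫ z, k z = 1

theorem Ker.compact {e : ℝ} {k : E4 → ℝ} (h : Ker e k) : HasCompactSupport k := by
  refine HasCompactSupport.intro (isCompact_closedBall (0 : E4) e) ?_
  intro x hx
  apply h.supp
  rw [mem_closedBall, dist_zero_right, not_le] at hx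
  exact hx.le

theorem Ker.integrable {e : ℝ} {k : E4 → ℝ} (h : Ker e k) : Integrable k :=
  h.cont.integrable_of_hasCompactSupport h.compact

theorem Ker.int_sub {e : ℝ} {k : E4 → ℝ} (h : Ker e k) (y : E4) : ∫ x, k (x - y) = 1 := by
  rw [integral_sub_right_eq_self (fun x => k x) y, h.int]

theorem Ker.integrable_sub {e : ℝ} {k : E4 → ℝ} (h : Ker e k) (y : E4) :
    Integrable fun x => k (x - y) := h.integrable.comp_sub_right y

theorem Ker.bound {e : ℝ} {k : E4 → ℝ} (h : Ker e k) : ∃ B, 0 ≤ B ∧ ∀ z, k z ≤ B := by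
  obtain ⟨B, hB⟩ := h.compact.exists_bound_of_continuous h.cont
  refine ⟨max B 0, le_max_right _ _, fun z => ?_⟩
  exact ((le_abs_self _).trans (hB z)).trans (le_max_left _ _)

/-- the mollified current density. -/
def Ph (s : Measure E4) (φ : E4 → Bil) (k : E4 → ℝ) (x : E4) : Bil := ∫ y, k (x - y) • φ y ∂s

section basic

variable {s : Measure E4} [IsFiniteMeasure s] {φ : E4 → Bil} {A : ℝ} {e : ℝ} {k : E4 → ℝ}

theorem integrable_kφ (hφ : Measurable φ) (hA : ∀ y, ‖φ y‖ ≤ A) (hk : Ker e k) (x : E4) :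
    Integrable (fun y => k (x - y) • φ y) s := by
  obtain ⟨B, hB0, hB⟩ := hk.bound
  refine Integrable.of_bound (C := B * A) ?_ ?_
  · have h1 : Measurable fun y => k (x - y) := hk.cont.measurable.comp (measurable_const.sub measurable_id)
    exact (h1.smul hφ).aestronglyMeasurable
  · refine ae_of_all _ fun y => ?_
    rw [norm_smul, Real.norm_of_nonneg (hk.nonneg _)]
    exact mul_le_mul (hB _) (hA y) (norm_nonneg _) hB0

theorem W_Ph (hφ : Measurable φ) (hA : ∀ y, ‖φ y‖ ≤ A) (hk : Ker e k) (x : E4) (c : Bil) :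
    W (Ph s φ k x) c = ∫ y, k (x - y) * W (φ y) c ∂s := by
  have h := (WL c).integral_comp_comm (integrable_kφ hφ hA hk x (s := s))
  unfold Ph
  rw [← WL_apply, ← h]
  refine integral_congr_ae (ae_of_all _ fun y => ?_)
  simp only [WL_apply]
  exact W_smul_left _ _ _

end basic

/-! ### the function `h e K y = ∫ g_K(t x) k(x-y) W(φ y, D x) dx` -/

/-- the integrand -/
def Fxy (t : E4 → ℝ) (K : ℝ) (k : E4 → ℝ) (φ D : E4 → Bil) (x y : E4) : ℝ :=
  CutFun.gf K (t x) * (k (x - y) * W (φ y) (D x))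

section Fubini

variable {s : Measure E4} [IsFiniteMeasure s] {φ D : E4 → Bil} {A : ℝ} {e : ℝ} {k : E4 → ℝ}
  {t : E4 → ℝ} {K : ℝ}

theorem measurable_Fxy (hφ : Measurable φ) (hD : Continuous D) (hk : Ker e k) (ht : Measurable t) :
    Measurable fun z : E4 × E4 => Fxy t K k φ D z.1 z.2 := by
  unfold Fxy
  have h1 : Measurable fun z : E4 × E4 => CutFun.gf K (t z.1) :=
    (measurable_gf K).comp (ht.comp measurable_fst)
  have h2 : Measurable fun z : E4 × E4 => k (z.1 - z.2) :=
    hk.cont.measurable.comp (measurable_fst.sub measurable_snd)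
  have h3 : Measurable fun z : E4 × E4 => W (φ z.2) (D z.1) :=
    measurable_W (hφ.comp measurable_snd) (hD.measurable.comp measurable_fst)
  exact h1.mul (h2.mul h3)

theorem abs_Fxy_le (hA : ∀ y, ‖φ y‖ ≤ A) (hk : Ker e k) (x y : E4) :
    |Fxy t K k φ D x y| ≤ k (x - y) * (6 * (A * ‖D x‖)) := by
  unfold Fxy
  rw [abs_mul, abs_mul, abs_of_nonneg (CutFun.gf_nonneg K _), abs_of_nonneg (hk.nonneg _)]
  have h1 := CutFun.gf_le_one K (t x)
  have h2 : |W (φ y) (D x)| ≤ 6 * (A * ‖D x‖) := (abs_W_le _ _).trans (by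
    have := mul_le_mul_of_nonneg_right (hA y) (norm_nonneg (D x))
    linarith)
  have h3 := mul_le_mul_of_nonneg_left h2 (hk.nonneg (x - y))
  have h4 : 0 ≤ k (x - y) * |W (φ y) (D x)| := mul_nonneg (hk.nonneg _) (abs_nonneg _)
  calc CutFun.gf K (t x) * (k (x - y) * |W (φ y) (D x)|) ≤ 1 * (k (x - y) * |W (φ y) (D x)|) :=
        mul_le_mul_of_nonneg_right h1 h4
    _ ≤ _ := by rw [one_mul]; exact h3

theorem integrable_Fxy (hφ : Measurable φ) (hA : ∀ y, ‖φ y‖ ≤ A) (hD : Continuous D)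
    (hDc : HasCompactSupport D) (hk : Ker e k) (ht : Measurable t) :
    Integrable (fun z : E4 × E4 => Fxy t K k φ D z.1 z.2) ((volume : Measure E4).prod s) := by
  obtain ⟨B, hB0, hB⟩ := hk.bound
  have hA0 : 0 ≤ A := (norm_nonneg _).trans (hA 0)
  have h1 : Integrable (fun x => ‖D x‖) (volume : Measure E4) :=
    (hD.integrable_of_hasCompactSupport hDc).norm
  have h2 : Integrable (fun z : E4 × E4 => B * (6 * A) * ‖D z.1‖) ((volume : Measure E4).prod s) :=
    (h1.comp_fst s).const_mul _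
  refine h2.mono' (measurable_Fxy hφ hD hk ht).aestronglyMeasurable ?_
  refine ae_of_all _ fun z => ?_
  rw [Real.norm_eq_abs]
  refine (abs_Fxy_le hA hk _ _).trans ?_
  have h3 : 0 ≤ 6 * (A * ‖D z.1‖) := by positivity
  have h4 := mul_le_mul_of_nonneg_right (hB (z.1 - z.2)) h3
  linarith [h4]

theorem fubini_Fxy (hφ : Measurable φ) (hA : ∀ y, ‖φ y‖ ≤ A) (hD : Continuous D)
    (hDc : HasCompactSupport D) (hk : Ker e k) (ht : Measurable t) :
    ∫ x, CutFun.gf K (t x) * W (Ph s φ k x) (D x) = ∫ y, (∫ x, Fxy t K k φ D x y) ∂s := by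
  rw [← integral_integral_swap (f := fun x y => Fxy t K k φ D x y)
    (integrable_Fxy hφ hA hD hDc hk ht)]
  refine integral_congr_ae (ae_of_all _ fun x => ?_)
  simp only
  unfold Fxy
  rw [W_Ph hφ hA hk, integral_const_mul]

theorem integrable_h (hφ : Measurable φ) (hA : ∀ y, ‖φ y‖ ≤ A) (hD : Continuous D)
    (hDc : HasCompactSupport D) (hk : Ker e k) (ht : Measurable t) :
    Integrable (fun y => ∫ x, Fxy t K k φ D x y) s :=
  (integrable_Fxy hφ hA hD hDc hk ht).integral_prod_right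

theorem integrable_slice (hA : ∀ y, ‖φ y‖ ≤ A) (hφ : Measurable φ) (hD : Continuous D)
    {CD : ℝ} (hCD : ∀ x, ‖D x‖ ≤ CD) (hk : Ker e k) (ht : Measurable t) (y : E4) :
    Integrable (fun x => Fxy t K k φ D x y) := by
  have hA0 : 0 ≤ A := (norm_nonneg _).trans (hA 0)
  refine ((hk.integrable_sub y).mul_const (6 * (A * CD))).mono' ?_ ?_
  · exact ((measurable_Fxy hφ hD hk ht).comp (measurable_id.prodMk measurable_const)).aestronglyMeasurable
  · refine ae_of_all _ fun x => ?_
    rw [Real.norm_eq_abs]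
    refine (abs_Fxy_le hA hk _ _).trans ?_
    have := hCD x
    exact mul_le_mul_of_nonneg_left (by gcongr) (hk.nonneg _)

theorem abs_h_le (hA : ∀ y, ‖φ y‖ ≤ A) {CD : ℝ} (hCD : ∀ x, ‖D x‖ ≤ CD) (hk : Ker e k) (y : E4) :
    |∫ x, Fxy t K k φ D x y| ≤ 6 * (A * CD) := by
  have hA0 : 0 ≤ A := (norm_nonneg _).trans (hA 0)
  have h1 : ∀ x, ‖Fxy t K k φ D x y‖ ≤ k (x - y) * (6 * (A * CD)) := by
    intro x
    rw [Real.norm_eq_abs]
    refine (abs_Fxy_le hA hk _ _).trans ?_
    have := hCD x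
    exact mul_le_mul_of_nonneg_left (by gcongr) (hk.nonneg _)
  have h2 := norm_integral_le_of_norm_le ((hk.integrable_sub y).mul_const (6 * (A * CD)))
    (ae_of_all _ h1)
  rw [integral_mul_const, hk.int_sub, one_mul] at h2
  exact h2

end Fubini

/-! ### the two regimes -/

section regimes

variable {s s' : Measure E4} [IsFiniteMeasure s] [IsFiniteMeasure s'] {φ D : E4 → Bil} {A : ℝ}

/-- where `w = ∞` the function `h e K y` vanishes for small `e`. -/
theorem h_eventually_zero {k : ℝ → E4 → ℝ} {e0 : ℝ} (he0 : 0 < e0) (hk : ∀ e, 0 < e → e ≤ e0 → Ker e (k e))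
    {t : ℝ → E4 → ℝ} {C : ℝ}
    (hC : 0 < C) (hlo : ∀ e x, 0 < e → e ≤ e0 → x ∈ tsupport D → (Kern.we s' e x).toReal ≤ C * (1 + t e x))
    {K : ℝ} (hK : 0 < K) {y : E4} (hy : Kern.w s' y = ⊤) :
    ∀ᶠ e in 𝓝[>] (0 : ℝ), ∫ x, Fxy (t e) K (k e) φ D x y = 0 := by
  obtain ⟨tK, htK0, htK⟩ := CutFun.exists_gf_eq_zero K hK
  have hM : ENNReal.ofReal (C * (1 + tK)) ≠ ⊤ := ENNReal.ofReal_ne_top
  have h1 := Kern.we_unif_large s' hy hM
  filter_upwards [h1, Ioc_mem_nhdsGT he0] with e he1 he2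
  have hz : ∀ x, Fxy (t e) K (k e) φ D x y = 0 := by
    intro x
    by_cases hx : x ∈ tsupport D
    · by_cases hd : e ≤ ‖x - y‖
      · unfold Fxy; rw [(hk e he2.1 he2.2).supp _ hd]; ring
      · have hd' : dist x y ≤ e := by rw [dist_eq_norm]; exact (not_le.1 hd).le
        have h3 := he1 x hd'
        have h4 : C * (1 + tK) ≤ (Kern.we s' e x).toReal := by
          rw [← ENNReal.ofReal_le_iff_le_toReal (Kern.we_ne_top s' he2.1 x)]
          exact h3
        have h5 := hlo e x he2.1 he2.2 hx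
        have h6 : tK ≤ t e x := by
          have : C * (1 + tK) ≤ C * (1 + t e x) := h4.trans h5
          have := le_of_mul_le_mul_left this hC
          linarith
        unfold Fxy; rw [htK _ h6]; ring
    · have h0 : D x = 0 := image_eq_zero_of_notMem_tsupport hx
      unfold Fxy
      rw [h0]
      have : W (φ y) 0 = 0 := by simp [W, ent_zero]
      rw [this]; ring
  simp [hz]

omit [IsFiniteMeasure s'] in
/-- where `w < ∞`: comparison of `h e K y` with `W (φ y) (D y)`. -/
theorem h_sub_le (hφ : Measurable φ) (hA : ∀ y, ‖φ y‖ ≤ A) (hD : Continuous D) {CD : ℝ} (hCD : ∀ x, ‖D x‖ ≤ CD)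
    {e : ℝ} {k : E4 → ℝ} (hk : Ker e k) {t : E4 → ℝ} (htm : Measurable t) {C : ℝ}
    (ht0 : ∀ x ∈ tsupport D, 0 ≤ t x) (hC0 : 0 ≤ C)
    (hup : ∀ x ∈ tsupport D, t x ≤ C * (1 + (Kern.we s' e x).toReal))
    {K : ℝ} (hK0 : 0 < K) (hK : 1 ≤ Real.log K) {y : E4} (hy : Kern.w s' y ≠ ⊤) {η : ℝ} (hη : 0 ≤ η)
    (hosc : ∀ x, dist x y ≤ e → ‖D x - D y‖ ≤ η) :
    |(∫ x, Fxy t K k φ D x y) - W (φ y) (D y)| ≤
      6 * (A * CD) * (1 - CutFun.gf K (C * (1 + (Kern.w s' y).toReal))) + 6 * (A * η) := by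
  have hA0 : 0 ≤ A := (norm_nonneg _).trans (hA 0)
  have hCD0 : 0 ≤ CD := (norm_nonneg _).trans (hCD 0)
  set T : ℝ := C * (1 + (Kern.w s' y).toReal) with hT
  have hg1 := CutFun.gf_le_one K T
  have e1 : W (φ y) (D y) = ∫ x, k (x - y) * W (φ y) (D y) := by
    rw [integral_mul_const, hk.int_sub, one_mul]
  rw [e1, ← integral_sub (integrable_slice hA hφ hD hCD hk htm y) ((hk.integrable_sub y).mul_const _)]
  set c : ℝ := 6 * (A * CD) * (1 - CutFun.gf K T) + 6 * (A * η) with hc
  have hc0 : 0 ≤ c := by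
    have : 0 ≤ 1 - CutFun.gf K T := by linarith
    positivity
  have hpt : ∀ x, ‖Fxy t K k φ D x y - k (x - y) * W (φ y) (D y)‖ ≤ k (x - y) * c := by
    intro x
    by_cases hd : e ≤ ‖x - y‖
    · unfold Fxy
      rw [hk.supp _ hd]
      simp
    · have hd' : dist x y ≤ e := by rw [dist_eq_norm]; exact (not_le.1 hd).le
      have hfac : Fxy t K k φ D x y - k (x - y) * W (φ y) (D y)
          = k (x - y) * ((CutFun.gf K (t x) - 1) * W (φ y) (D x) + W (φ y) (D x - D y)) := by
        unfold Fxy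
        rw [W_sub_right]
        ring
      rw [hfac, Real.norm_eq_abs, abs_mul, abs_of_nonneg (hk.nonneg _)]
      refine mul_le_mul_of_nonneg_left ?_ (hk.nonneg _)
      have h1 : |W (φ y) (D x - D y)| ≤ 6 * (A * η) := by
        refine (abs_W_le _ _).trans ?_
        have := mul_le_mul (hA y) (hosc x hd') (norm_nonneg _) hA0
        linarith
      have h2 : |(CutFun.gf K (t x) - 1) * W (φ y) (D x)| ≤ 6 * (A * CD) * (1 - CutFun.gf K T) := by
        by_cases hx : x ∈ tsupport D
        · have h3 : t x ≤ T := by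
            refine (hup x hx).trans ?_
            rw [hT]
            have h4 := Kern.we_le_w_of_dist s' hd'
            have h5 : (Kern.we s' e x).toReal ≤ (Kern.w s' y).toReal := ENNReal.toReal_mono hy h4
            gcongr
          have h6 := CutFun.gf_anti hK0 hK (ht0 x hx) h3
          have h7 := CutFun.gf_le_one K (t x)
          rw [abs_mul, abs_of_nonpos (by linarith)]
          have h8 : |W (φ y) (D x)| ≤ 6 * (A * CD) := (abs_W_le _ _).trans (by
            have := mul_le_mul (hA y) (hCD x) (norm_nonneg _) hA0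
            linarith)
          calc -(CutFun.gf K (t x) - 1) * |W (φ y) (D x)|
              ≤ (1 - CutFun.gf K T) * (6 * (A * CD)) :=
                mul_le_mul (by linarith) h8 (abs_nonneg _) (by linarith)
            _ = _ := by ring
        · have h0 : D x = 0 := image_eq_zero_of_notMem_tsupport hx
          have h9 : W (φ y) (D x) = 0 := by rw [h0]; simp [W, ent_zero]
          rw [h9, mul_zero, abs_zero]
          have : 0 ≤ 1 - CutFun.gf K T := by linarith
          positivity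
      exact (abs_add_le _ _).trans (add_le_add h2 h1)
  have h3 := norm_integral_le_of_norm_le ((hk.integrable_sub y).mul_const c) (ae_of_all _ hpt)
  rw [integral_mul_const, hk.int_sub, one_mul] at h3
  exact h3

end regimes

/-! ### the limit -/

/-- hypotheses of the limit lemma: kernels `k e`, functions `t e` comparable with `w_e`, and the
energy estimate `|∫ g_K(t_e) W(Φ_e, D)| ≤ Cm / √log K`. -/
structure LimHyp (s s' : Measure E4) (φ D : E4 → Bil) (A C Cm e0 : ℝ) (k : ℝ → E4 → ℝ)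
    (t : ℝ → E4 → ℝ) : Prop where
  mφ : Measurable φ
  bφ : ∀ y, ‖φ y‖ ≤ A
  cD : Continuous D
  sD : HasCompactSupport D
  e0pos : 0 < e0
  Cpos : 0 < C
  ker : ∀ e, 0 < e → e ≤ e0 → Ker e (k e)
  mt : ∀ e, 0 < e → e ≤ e0 → Measurable (t e)
  t0 : ∀ e x, 0 < e → e ≤ e0 → x ∈ tsupport D → 0 ≤ t e x
  up : ∀ e x, 0 < e → e ≤ e0 → x ∈ tsupport D → t e x ≤ C * (1 + (Kern.we s' e x).toReal)
  lo : ∀ e x, 0 < e → e ≤ e0 → x ∈ tsupport D → (Kern.we s' e x).toReal ≤ C * (1 + t e x)
  main : ∀ e K, 0 < e → e ≤ e0 → 0 < K → 1 ≤ Real.log K →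
    |∫ x, CutFun.gf K (t e x) * W (Ph s φ (k e) x) (D x)| ≤ Cm / √(Real.log K)

section lim

variable {s s' : Measure E4} [IsFiniteMeasure s] [IsFiniteMeasure s'] {φ D : E4 → Bil}
  {A C Cm e0 : ℝ} {k : ℝ → E4 → ℝ} {t : ℝ → E4 → ℝ}

omit [IsFiniteMeasure s] [IsFiniteMeasure s'] in
theorem LimHyp.A_nonneg (H : LimHyp s s' φ D A C Cm e0 k t) : 0 ≤ A := (norm_nonneg _).trans (H.bφ 0)

theorem tendsto_h_compl (H : LimHyp s s' φ D A C Cm e0 k t) {CD : ℝ} (hCD : ∀ x, ‖D x‖ ≤ CD)
    {K : ℝ} (hK : 0 < K) :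
    Tendsto (fun e => ∫ y in {y | Kern.w s' y < ⊤}ᶜ, (∫ x, Fxy (t e) K (k e) φ D x y) ∂s)
      (𝓝[>] (0 : ℝ)) (𝓝 0) := by
  have hS : MeasurableSet {y | Kern.w s' y < ⊤} :=
    measurableSet_lt (Kern.measurable_w s') measurable_const
  suffices key : Tendsto (fun e => ∫ y in {y | Kern.w s' y < ⊤}ᶜ, (∫ x, Fxy (t e) K (k e) φ D x y) ∂s)
      (𝓝[>] (0 : ℝ)) (𝓝 (∫ y in {y | Kern.w s' y < ⊤}ᶜ, (0 : ℝ) ∂s)) by simpa using key
  refine tendsto_integral_filter_of_dominated_convergence (fun _ => 6 * (A * CD)) ?_ ?_ ?_ ?_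
  · filter_upwards [Ioc_mem_nhdsGT H.e0pos] with e he
    exact (integrable_h H.mφ H.bφ H.cD H.sD (H.ker e he.1 he.2) (H.mt e he.1 he.2)).aestronglyMeasurable.restrict
  · filter_upwards [Ioc_mem_nhdsGT H.e0pos] with e he
    refine ae_of_all _ fun y => ?_
    rw [Real.norm_eq_abs]
    exact abs_h_le H.bφ hCD (H.ker e he.1 he.2) y
  · exact integrable_const _
  · rw [ae_restrict_iff' hS.compl]
    refine ae_of_all _ fun y hy => ?_
    have hy' : Kern.w s' y = ⊤ := by
      simpa using hy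
    have := h_eventually_zero (φ := φ) H.e0pos H.ker H.Cpos H.lo hK hy'
    refine tendsto_const_nhds.congr' ?_
    filter_upwards [this] with e he
    exact he.symm

theorem limit_K (H : LimHyp s s' φ D A C Cm e0 k t) {CD : ℝ} (hCD : ∀ x, ‖D x‖ ≤ CD)
    {K : ℝ} (hK0 : 0 < K) (hK : 1 ≤ Real.log K) :
    |∫ y in {y | Kern.w s' y < ⊤}, W (φ y) (D y) ∂s| ≤ Cm / √(Real.log K) +
      ∫ y in {y | Kern.w s' y < ⊤},
        6 * (A * CD) * (1 - CutFun.gf K (C * (1 + (Kern.w s' y).toReal))) ∂s := by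
  have hA0 := H.A_nonneg
  have hCD0 : 0 ≤ CD := (norm_nonneg _).trans (hCD 0)
  set S : Set E4 := {y | Kern.w s' y < ⊤} with hSdef
  have hS : MeasurableSet S := measurableSet_lt (Kern.measurable_w s') measurable_const
  -- uniform continuity
  have huc : UniformContinuous D := H.sD.uniformContinuous_of_continuous H.cD
  have hWint : Integrable (fun y => W (φ y) (D y)) s := by
    refine Integrable.of_bound (C := 6 * (A * CD)) (measurable_W H.mφ H.cD.measurable).aestronglyMeasurable ?_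
    refine ae_of_all _ fun y => ?_
    rw [Real.norm_eq_abs]
    refine (abs_W_le _ _).trans ?_
    have := mul_le_mul (H.bφ y) (hCD y) (norm_nonneg _) hA0
    linarith
  have hgm : Measurable fun y => 6 * (A * CD) * (1 - CutFun.gf K (C * (1 + (Kern.w s' y).toReal))) := by
    refine Measurable.const_mul ?_ _
    refine measurable_const.sub ((measurable_gf K).comp ?_)
    exact (measurable_const.add (Kern.measurable_w s').ennreal_toReal).const_mul _
  have hgint : IntegrableOn (fun y => 6 * (A * CD) * (1 - CutFun.gf K (C * (1 + (Kern.w s' y).toReal)))) S s := by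
    refine Integrable.of_bound (C := 6 * (A * CD)) hgm.aestronglyMeasurable ?_
    refine ae_of_all _ fun y => ?_
    have h1 := CutFun.gf_le_one K (C * (1 + (Kern.w s' y).toReal))
    have h2 := CutFun.gf_nonneg K (C * (1 + (Kern.w s' y).toReal))
    rw [Real.norm_of_nonneg (mul_nonneg (by positivity) (by linarith))]
    have : (0:ℝ) ≤ 6 * (A * CD) := by positivity
    nlinarith
  have hstep : ∀ η : ℝ, 0 < η → |∫ y in S, W (φ y) (D y) ∂s| ≤ Cm / √(Real.log K) +
      (∫ y in S, 6 * (A * CD) * (1 - CutFun.gf K (C * (1 + (Kern.w s' y).toReal))) ∂s)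
      + 6 * (A * η) * s.real S + η := by
    intro η hη
    obtain ⟨δ, hδ, hosc⟩ := Metric.uniformContinuous_iff.1 huc η hη
    have ht := tendsto_h_compl H hCD hK0
    have ht' := (Metric.tendsto_nhds.1 ht) η hη
    have hev : ∀ᶠ e in 𝓝[>] (0 : ℝ), 0 < e ∧ e ≤ e0 ∧ e < δ := by
      filter_upwards [Ioc_mem_nhdsGT H.e0pos, Ioo_mem_nhdsGT hδ] with e h1 h2
      exact ⟨h1.1, h1.2, h2.2⟩
    obtain ⟨e, he1, he2, he3, he4⟩ := (ht'.and hev).exists
    have hk := H.ker e he2 he3
    have htm := H.mt e he2 he3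
    set h : E4 → ℝ := fun y => ∫ x, Fxy (t e) K (k e) φ D x y with hh
    have hint : Integrable h s := integrable_h H.mφ H.bφ H.cD H.sD hk htm
    have hI := H.main e K he2 he3 hK0 hK
    rw [fubini_Fxy H.mφ H.bφ H.cD H.sD hk htm] at hI
    have hsplit : ∫ y, h y ∂s = (∫ y in S, h y ∂s) + ∫ y in Sᶜ, h y ∂s :=
      (integral_add_compl hS hint).symm
    have hc : |∫ y in Sᶜ, h y ∂s| ≤ η := by
      rw [dist_zero_right, Real.norm_eq_abs] at he1
      exact he1.le
    have hd : |∫ y in S, (h y - W (φ y) (D y)) ∂s| ≤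
        (∫ y in S, 6 * (A * CD) * (1 - CutFun.gf K (C * (1 + (Kern.w s' y).toReal))) ∂s)
          + 6 * (A * η) * s.real S := by
      have hb : ∀ y ∈ S, ‖h y - W (φ y) (D y)‖ ≤
          6 * (A * CD) * (1 - CutFun.gf K (C * (1 + (Kern.w s' y).toReal))) + 6 * (A * η) := by
        intro y hy
        rw [Real.norm_eq_abs]
        refine h_sub_le H.mφ H.bφ H.cD hCD hk htm (fun x hx => H.t0 e x he2 he3 hx) H.Cpos.le
          (fun x hx => H.up e x he2 he3 hx) hK0 hK (ne_of_lt hy) hη.le ?_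
        intro x hx
        have := hosc (lt_of_le_of_lt hx he4)
        rw [dist_eq_norm] at this
        exact this.le
      have h1 := norm_integral_le_of_norm_le (μ := s.restrict S)
        (f := fun y => h y - W (φ y) (D y))
        (hgint.add (integrable_const (6 * (A * η)))) (by
          rw [ae_restrict_iff' hS]
          exact ae_of_all _ hb)
      rw [Real.norm_eq_abs] at h1
      refine h1.trans (le_of_eq ?_)
      have h2 := integral_add hgint (integrable_const (μ := s.restrict S) (6 * (A * η)))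
      simp only [Pi.add_apply] at h2 ⊢
      rw [h2, integral_const, smul_eq_mul]
      simp [mul_comm, Measure.real]
    have he : ∫ y in S, W (φ y) (D y) ∂s = ∫ y, h y ∂s - (∫ y in Sᶜ, h y ∂s)
        - ∫ y in S, (h y - W (φ y) (D y)) ∂s := by
      rw [integral_sub hint.integrableOn hWint.integrableOn, hsplit]
      ring
    rw [he]
    have a1 := abs_le.1 hI
    have a2 := abs_le.1 hc
    have a3 := abs_le.1 hd
    rw [abs_le]
    constructor <;> linarith [a1.1, a1.2, a2.1, a2.2, a3.1, a3.2]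
  refine le_of_forall_pos_le_add fun ε hε => ?_
  have hsr : 0 ≤ s.real S := measureReal_nonneg
  set B : ℝ := 6 * A * s.real S + 1 with hB
  have hBpos : 0 < B := by positivity
  have := hstep (ε / B) (by positivity)
  have h4 : 6 * (A * (ε / B)) * s.real S + ε / B = ε := by
    field_simp
    rw [hB]
  linarith

theorem limit_zero (H : LimHyp s s' φ D A C Cm e0 k t) :
    ∫ y in {y | Kern.w s' y < ⊤}, W (φ y) (D y) ∂s = 0 := by
  obtain ⟨CD, hCD⟩ := H.sD.exists_bound_of_continuous H.cD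
  have hA0 := H.A_nonneg
  have hCD0 : 0 ≤ CD := (norm_nonneg _).trans (hCD 0)
  set S : Set E4 := {y | Kern.w s' y < ⊤} with hSdef
  have hlim1 : Tendsto (fun K : ℝ => Cm / √(Real.log K)) atTop (𝓝 0) := by
    refine tendsto_const_nhds.div_atTop ?_
    exact Real.tendsto_sqrt_atTop.comp Real.tendsto_log_atTop
  have hlim2 : Tendsto (fun K : ℝ => ∫ y in S,
        6 * (A * CD) * (1 - CutFun.gf K (C * (1 + (Kern.w s' y).toReal))) ∂s) atTop (𝓝 0) := by
    have h0 : (0 : ℝ) = ∫ y in S, (0 : ℝ) ∂s := by simp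
    rw [h0]
    refine tendsto_integral_filter_of_dominated_convergence (fun _ => 6 * (A * CD)) ?_ ?_ ?_ ?_
    · refine Eventually.of_forall fun K => ?_
      refine Measurable.aestronglyMeasurable ?_
      refine Measurable.const_mul ?_ _
      refine measurable_const.sub ((measurable_gf K).comp ?_)
      exact (measurable_const.add (Kern.measurable_w s').ennreal_toReal).const_mul _
    · refine Eventually.of_forall fun K => ae_of_all _ fun y => ?_
      have h1 := CutFun.gf_le_one K (C * (1 + (Kern.w s' y).toReal))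
      have h2 := CutFun.gf_nonneg K (C * (1 + (Kern.w s' y).toReal))
      rw [Real.norm_of_nonneg (mul_nonneg (by positivity) (by linarith))]
      have : (0:ℝ) ≤ 6 * (A * CD) := by positivity
      nlinarith
    · exact integrable_const _
    · refine ae_of_all _ fun y => ?_
      have hT : 0 ≤ C * (1 + (Kern.w s' y).toReal) := by
        have := H.Cpos
        positivity
      have h3 := ((CutFun.tendsto_gf hT).const_sub 1).const_mul (6 * (A * CD))
      simpa using h3
  have hlim := hlim1.add hlim2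
  rw [add_zero] at hlim
  have hle : |∫ y in S, W (φ y) (D y) ∂s| ≤ 0 := by
    refine ge_of_tendsto hlim ?_
    filter_upwards [eventually_ge_atTop (Real.exp 1)] with K hK
    have hK0 : 0 < K := lt_of_lt_of_le (Real.exp_pos 1) hK
    have hK1 : 1 ≤ Real.log K := (Real.le_log_iff_exp_le hK0).mpr hK
    exact limit_K H hCD hK0 hK1
  exact abs_nonpos_iff.1 hle

end lim

end

end Crest.Agent.R240.Loc5
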