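import Mathlib
import Crest.Agent.R240.LocDef
import Crest.Agent.R240.Lin5
import Crest.Agent.R240.Loc5A

/-!
Row 240 (S0371), LOC5 (helper873): uniform constants of the background `Bg J F`.
-/

set_option autoImplicit false
set_option maxSynthPendingDepth 3

open MeasureTheory Metric Set Filter Topology
open scoped ContDiff ENNReal

namespace Crest.Agent.R240.Loc5

noncomputable section

/-- uniform constants. -/
structure Cst (J : E4 → E4 →L[ℝ] E4) (F : E4 → Bil) (m M L LJ w0 c0 σ : ℝ) : Prop where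
  bd : ∀ y, Bd (J y) (F y) m M
  L0 : 0 ≤ L
  lip : ∀ x y, ‖J x - J y‖ ≤ L * ‖x - y‖
  nJ : ∀ y, ‖J y‖ ≤ LJ
  sg : σ = 1 ∨ σ = -1
  c0pos : 0 < c0
  lo : ∀ y, c0 ≤ σ * W (F y) (F y)
  hi : ∀ y, σ * W (F y) (F y) ≤ w0

section

variable {J : E4 → E4 →L[ℝ] E4} {F : E4 → Bil}

/-- every point has a representative in a fixed ball. -/
theorem exists_rep (h : Bg J F) : ∃ R : ℝ, 0 < R ∧ ∀ y, ∃ z ∈ closedBall (0 : E4) R,
    J y = J z ∧ F y = F z := by
  obtain ⟨R, J0, F0, hc⟩ := h.cst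
  refine ⟨|R| + 1, by positivity, fun y => ?_⟩
  by_cases hy : ‖y‖ ≤ |R| + 1
  · exact ⟨y, by simpa using hy, rfl, rfl⟩
  · have h1 : R ≤ ‖y‖ := (le_abs_self R).trans (by linarith [not_le.1 hy])
    have hn : ‖(|R| + 1) • ee 0‖ = |R| + 1 := by
      rw [norm_smul, norm_ee, mul_one, Real.norm_of_nonneg (by positivity)]
    have h2 : R ≤ ‖(|R| + 1) • ee 0‖ := by
      rw [hn]; linarith [le_abs_self R]
    refine ⟨(|R| + 1) • ee 0, ?_, ?_, ?_⟩
    · rw [mem_closedBall, dist_zero_right, hn]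
    · rw [(hc y h1).1, (hc _ h2).1]
    · rw [(hc y h1).2, (hc _ h2).2]

theorem exists_bounds (h : Bg J F) {g : (E4 →L[ℝ] E4) × Bil → ℝ} (hg : Continuous g) :
    ∃ B, ∀ y, |g (J y, F y)| ≤ B := by
  obtain ⟨R, hR, hrep⟩ := exists_rep h
  have hc : Continuous fun y => g (J y, F y) :=
    hg.comp (h.smJ.continuous.prodMk h.smF.continuous)
  obtain ⟨B, hB⟩ := (isCompact_closedBall (0 : E4) R).exists_bound_of_continuousOn hc.continuousOn
  refine ⟨B, fun y => ?_⟩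
  obtain ⟨z, hz, h1, h2⟩ := hrep y
  rw [h1, h2]
  exact hB z hz

theorem exists_m (h : Bg J F) : ∃ m : ℝ, 0 < m ∧ ∀ y v, m * ‖v‖ ^ 2 ≤ F y v (J y v) := by
  obtain ⟨R, hR, hrep⟩ := exists_rep h
  have hcomp : IsCompact (closedBall (0 : E4) R ×ˢ sphere (0 : E4) 1) :=
    (isCompact_closedBall _ _).prod (isCompact_sphere _ _)
  have hc : Continuous fun p : E4 × E4 => F p.1 p.2 (J p.1 p.2) := by
    have h1 : Continuous fun p : E4 × E4 => J p.1 p.2 :=
      (h.smJ.continuous.comp continuous_fst).clm_apply continuous_snd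
    have h2 : Continuous fun p : E4 × E4 => F p.1 p.2 :=
      (h.smF.continuous.comp continuous_fst).clm_apply continuous_snd
    exact h2.clm_apply h1
  have hne : (closedBall (0 : E4) R ×ˢ sphere (0 : E4) 1).Nonempty :=
    ⟨(0, ee 0), by simp [hR.le, norm_ee]⟩
  obtain ⟨p, hp, hmin⟩ := hcomp.exists_isMinOn hne hc.continuousOn
  have hp2 : p.2 ≠ 0 := by
    intro h0
    have := hp.2
    rw [h0] at this
    simp at this
  refine ⟨F p.1 p.2 (J p.1 p.2), (h.pos p.1).pos _ hp2, fun y v => ?_⟩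
  by_cases hv : v = 0
  · subst hv; simp
  · obtain ⟨z, hz, h1, h2⟩ := hrep y
    have hn : 0 < ‖v‖ := norm_pos_iff.2 hv
    have hmem : (z, ‖v‖⁻¹ • v) ∈ closedBall (0 : E4) R ×ˢ sphere (0 : E4) 1 := by
      refine ⟨hz, ?_⟩
      simp [norm_smul, hn.ne']
    have h3 : F p.1 p.2 (J p.1 p.2) ≤ F z (‖v‖⁻¹ • v) (J z (‖v‖⁻¹ • v)) := hmin hmem
    simp only [map_smul, smul_apply, smul_eq_mul] at h3
    rw [h1, h2]
    have h4 : ‖v‖⁻¹ * (‖v‖⁻¹ * F z v (J z v)) = F z v (J z v) / ‖v‖ ^ 2 := by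
      field_simp
    rw [h4, le_div_iff₀ (by positivity)] at h3
    exact h3

theorem exists_lip (h : Bg J F) : ∃ L : ℝ, 0 ≤ L ∧ ∀ x y, ‖J x - J y‖ ≤ L * ‖x - y‖ := by
  obtain ⟨R, J0, F0, hc⟩ := h.cst
  have hcont : Continuous (fderiv ℝ J) := h.smJ.continuous_fderiv (by simp)
  obtain ⟨B, hB⟩ := (isCompact_closedBall (0 : E4) (|R| + 1)).exists_bound_of_continuousOn
    hcont.continuousOn
  have hB' : ∀ x, ‖fderiv ℝ J x‖ ≤ max B 0 := by
    intro x
    by_cases hx : ‖x‖ ≤ |R| + 1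
    · exact (hB x (by simpa using hx)).trans (le_max_left _ _)
    · have h1 : R < ‖x‖ := lt_of_le_of_lt (le_abs_self R) (by linarith [not_le.1 hx])
      have h2 : J =ᶠ[𝓝 x] fun _ => J0 := by
        filter_upwards [(isOpen_lt continuous_const continuous_norm).mem_nhds h1] with z hz
        exact (hc z (le_of_lt hz)).1
      rw [h2.fderiv_eq]
      simp
  refine ⟨max B 0, le_max_right _ _, fun x y => ?_⟩
  exact (convex_univ).norm_image_sub_le_of_norm_fderiv_le (𝕜 := ℝ)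
    (fun z _ => (h.smJ.differentiable (by simp)) z) (fun z _ => hB' z) (mem_univ y) (mem_univ x)

theorem exists_sign (h : Bg J F) (hne : ∀ y, W (F y) (F y) ≠ 0) :
    ∃ σ : ℝ, (σ = 1 ∨ σ = -1) ∧ ∀ y, 0 < σ * W (F y) (F y) := by
  have hc : Continuous fun y => W (F y) (F y) := by
    have h1 : ∀ i j, Continuous fun y => ent (F y) i j := fun i j =>
      (continuous_ent i j).comp h.smF.continuous
    unfold W
    fun_prop
  have hpre : IsPreconnected (univ : Set E4) := isPreconnected_univ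
  rcases lt_or_gt_of_ne (hne 0) with h0 | h0
  · refine ⟨-1, Or.inr rfl, fun y => ?_⟩
    by_contra hy
    have hy' : 0 ≤ W (F y) (F y) := by linarith
    have := hpre.intermediate_value (mem_univ 0) (mem_univ y) hc.continuousOn
    obtain ⟨z, _, hz⟩ := this ⟨h0.le, hy'⟩
    exact hne z hz
  · refine ⟨1, Or.inl rfl, fun y => ?_⟩
    by_contra hy
    have hy' : W (F y) (F y) ≤ 0 := by linarith
    have := hpre.intermediate_value (mem_univ y) (mem_univ 0) hc.continuousOn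
    obtain ⟨z, _, hz⟩ := this ⟨hy', h0.le⟩
    exact hne z hz

theorem continuous_WW (h : Bg J F) : Continuous fun y => W (F y) (F y) := by
  have h1 : ∀ i j, Continuous fun y => ent (F y) i j := fun i j =>
    (continuous_ent i j).comp h.smF.continuous
  unfold W
  fun_prop

theorem exists_w0 (h : Bg J F) : ∃ w0 : ℝ, ∀ y, |W (F y) (F y)| ≤ w0 := by
  obtain ⟨R, hR, hrep⟩ := exists_rep h
  obtain ⟨B, hB⟩ := (isCompact_closedBall (0 : E4) R).exists_bound_of_continuousOn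
    (continuous_WW h).continuousOn
  refine ⟨B, fun y => ?_⟩
  obtain ⟨z, hz, h1, h2⟩ := hrep y
  rw [h2]
  exact hB z hz

theorem exists_M0 (h : Bg J F) : ∃ M0 : ℝ, ∀ y v, F y v (J y v) ≤ M0 * ‖v‖ ^ 2 := by
  obtain ⟨M0, hM0⟩ := exists_bounds h (g := fun p => ‖p.2‖ * ‖p.1‖) (by fun_prop)
  refine ⟨M0, fun y v => ?_⟩
  have h1 := (abs_le.1 (Bd.abs_diag_le (J y) (F y) v)).2
  have h2 : ‖F y‖ * ‖J y‖ ≤ M0 := (le_abs_self _).trans (hM0 y)
  exact h1.trans (mul_le_mul_of_nonneg_right h2 (by positivity))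

theorem exists_LJ (h : Bg J F) : ∃ LJ : ℝ, ∀ y, ‖J y‖ ≤ LJ := by
  obtain ⟨LJ, hLJ⟩ := exists_bounds h (g := fun p => ‖p.1‖) (by fun_prop)
  exact ⟨LJ, fun y => (le_abs_self _).trans (hLJ y)⟩

theorem exists_c0 (h : Bg J F) {σ : ℝ} (hσF : ∀ y, 0 < σ * W (F y) (F y)) :
    ∃ c0 : ℝ, 0 < c0 ∧ ∀ y, c0 ≤ σ * W (F y) (F y) := by
  obtain ⟨R, hR, hrep⟩ := exists_rep h
  have hcc : Continuous fun y => σ * W (F y) (F y) := continuous_const.mul (continuous_WW h)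
  obtain ⟨z0, hz0, hmin⟩ := (isCompact_closedBall (0 : E4) R).exists_isMinOn
    ⟨0, by simp [hR.le]⟩ hcc.continuousOn
  refine ⟨σ * W (F z0) (F z0), hσF z0, fun y => ?_⟩
  obtain ⟨z, hz, h1, h2⟩ := hrep y
  rw [h2]
  exact hmin hz

theorem exists_cst (h : Bg J F) : ∃ m M L LJ w0 c0 σ : ℝ, Cst J F m M L LJ w0 c0 σ := by
  obtain ⟨m, hm, hmF⟩ := exists_m h
  obtain ⟨L, hL0, hL⟩ := exists_lip h
  obtain ⟨LJ, hLJ⟩ := exists_LJ h
  obtain ⟨M0, hM0⟩ := exists_M0 h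
  obtain ⟨w0, hw0⟩ := exists_w0 h
  have hbd : ∀ y, Bd (J y) (F y) m M0 := fun y => ⟨h.sq y, h.pos y, hm, hmF y, hM0 y⟩
  obtain ⟨σ, hσ, hσF⟩ := exists_sign h (fun y => (hbd y).W_ne)
  obtain ⟨c0, hc0, hc0F⟩ := exists_c0 h hσF
  refine ⟨m, M0, L, LJ, w0, c0, σ, hbd, hL0, hL, hLJ, hσ, hc0, hc0F, fun y => ?_⟩
  have h1 := hw0 y
  have h2 : |σ * W (F y) (F y)| ≤ w0 := by
    rw [abs_mul]
    rcases hσ with h | h <;> rw [h] <;> simpa using h1
  exact (le_abs_self _).trans h2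

end

end

end Crest.Agent.R240.Loc5
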