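import Mathlib
import Crest.Agent.R240.Lin1
import Crest.Agent.R240.En1

/-!
Row 240 (S0371), Part P (helper657): the frozen statement `P4` of LEMMA P (potential of a closed
positive current in a ball of `R^4`, mollified at scale `e`), to be proved in `PotMain.lean`.
-/

set_option autoImplicit false
open scoped ContDiff
open MeasureTheory Metric Crest.Agent.R240.En

namespace Crest.Agent.R240.Pot

/-- rescaled mollifier -/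
noncomputable def rhoE (ρ : E4 → ℝ) (e : ℝ) (z : E4) : ℝ := (e ^ 4)⁻¹ * ρ (e⁻¹ • z)

/-- mollified current `Φ_e(x) = ∫ ρ_e(x - y) φ(y) ds(y)` -/
noncomputable def mol (ρ : E4 → ℝ) (e : ℝ) (s : Measure E4) (φ : E4 → Bil) (x : E4) : Bil :=
  ∫ y, rhoE ρ e (x - y) • φ y ∂s

/-- truncated regularised potentials `∫_{closedBall c R} (|x-y|+e)^{-k} ds(y)` -/
noncomputable def wE (s : Measure E4) (c : E4) (R e : ℝ) (k : ℕ) (x : E4) : ℝ :=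
  ∫ y in closedBall c R, 1 / (‖x - y‖ + e) ^ k ∂s

/-- LEMMA P. -/
def P4 : Prop :=
  ∀ (J : E4 → E4 →L[ℝ] E4) (F : E4 → Bil), ContDiff ℝ ∞ J → ContDiff ℝ ∞ F →
    (∀ y v, J y (J y v) = -v) → (∀ y, SPos (J y) (F y)) →
  ∀ (c : E4) (R : ℝ), 0 < R → ∀ (s : Measure E4), IsFiniteMeasure s →
  ∀ (φ : E4 → Bil), Measurable φ → ∀ (A τ0 : ℝ), (∀ y, ‖φ y‖ ≤ A) → 0 < τ0 →
    (∀ y, Pos (J y) (φ y)) → (∀ y, τ0 ≤ |W (φ y) (F y)|) →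
    (∀ S : E4 → Cov, ContDiff ℝ ∞ S → HasCompactSupport S → tsupport S ⊆ ball c R →
      ∫ y, W (φ y) (d1 S y) ∂s = 0) →
  ∀ (ρ : E4 → ℝ), ContDiff ℝ ∞ ρ → (∀ z, 0 ≤ ρ z) → (∀ z, 1 ≤ ‖z‖ → ρ z = 0) →
    ∫ z, ρ z = 1 →
  ∃ C e0 : ℝ, 0 < C ∧ 0 < e0 ∧ ∀ e : ℝ, 0 < e → e ≤ e0 →
    ∃ (u : E4 → ℝ) (a : E4 → Cov), ContDiff ℝ ∞ u ∧ ContDiff ℝ ∞ a ∧
      ∀ x ∈ ball c (R / 2),
        mol ρ e s φ x = d1 (fun z => Jc (J z) (fderiv ℝ u z)) x + d1 a x ∧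
        wE s c R e 2 x / C - C ≤ - u x ∧
        - u x ≤ C * (1 + wE s c R e 2 x) ∧
        ‖a x‖ ≤ C * (1 + wE s c R e 2 x) ∧
        ‖fderiv ℝ u x‖ ≤ C * wE s c R e 3 x

end Crest.Agent.R240.Pot
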