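import Mathlib
import Crest.Agent.R240.Loc5C
import Crest.Agent.R240.En3b

/-!
Row 240 (S0371), LOC5 (helper873): assembly of the LOCAL POLES THEOREM from Lemma P (`Pot.P4`),
the energy estimate (`En.En3main`), (Q) for the mollified current and the limit lemma.
-/

set_option autoImplicit false
set_option maxSynthPendingDepth 3

open MeasureTheory Metric Set Filter Topology
open scoped ContDiff ENNReal

namespace Crest.Agent.R240.Loc5

open Crest.Agent.R240.En

noncomputable section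

/-- (Q) for the mollified current (proved in `Loc5Q`). -/
def QM : Prop :=
  ∀ (J : E4 → E4 →L[ℝ] E4) (F : E4 → Bil) (m M L LJ w0 σ : ℝ), (∀ y, Bd (J y) (F y) m M) →
    (∀ x y, ‖J x - J y‖ ≤ L * ‖x - y‖) → (∀ y, ‖J y‖ ≤ LJ) → (σ = 1 ∨ σ = -1) →
    (∀ y, 0 < σ * W (F y) (F y)) → (∀ y, σ * W (F y) (F y) ≤ w0) →
    ∃ A : ℝ, 0 ≤ A ∧ ∀ (s : Measure E4), IsFiniteMeasure s → ∀ (φ : E4 → Bil) (B : ℝ),
      Measurable φ → (∀ y, ‖φ y‖ ≤ B) → (∀ y, Pos (J y) (φ y)) →
      ∀ (e : ℝ) (k : E4 → ℝ), 0 < e → e ≤ 1 → Ker e k → ∀ x : E4,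
      ‖Ph s φ k x‖ ≤ B * ∫ y, k (x - y) ∂s ∧
      ‖antip (J x) (Ph s φ k x)‖ ≤ A * e * (B * ∫ y, k (x - y) ∂s) ∧
      (∀ ξ : E4 →L[ℝ] ℝ, 0 ≤ σ * W (Ph s φ k x) (wed ξ (Jc (J x) ξ)) +
        A * e ^ 2 * (B * ∫ y, k (x - y) ∂s) * ‖ξ‖ ^ 2) ∧
      -(A * e ^ 2 * (B * ∫ y, k (x - y) ∂s) ^ 2) ≤ σ * W (Ph s φ k x) (Ph s φ k x)

theorem contDiff_d1 {S : E4 → Cov} (hS : ContDiff ℝ ∞ S) : ContDiff ℝ ∞ (d1 S) := by
  have h1 : ContDiff ℝ ∞ (fderiv ℝ S) := hS.fderiv_right (m := ∞) le_rfl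
  have h2 : ContDiff ℝ ∞ fun x => (fderiv ℝ S x).flip :=
    (ContinuousLinearMap.flipₗᵢ ℝ E4 E4 ℝ).contDiff.comp h1
  exact h1.sub h2

theorem contDiff_Jc' {J : E4 → E4 →L[ℝ] E4} (hJ : ContDiff ℝ ∞ J) {ξ : E4 → Cov}
    (hξ : ContDiff ℝ ∞ ξ) : ContDiff ℝ ∞ (fun x => Jc (J x) (ξ x)) := by
  unfold Jc
  exact (hξ.clm_comp hJ).neg

theorem d1_zero_off {S : E4 → Cov} {x : E4} (hx : x ∉ tsupport S) : d1 S x = 0 := by
  have h1 : S =ᶠ[𝓝 x] fun _ => 0 := notMem_tsupport_iff_eventuallyEq.mp hx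
  have h2 : fderiv ℝ S x = 0 := by
    rw [h1.fderiv_eq]; simp
  ext v w
  simp [h2]

theorem tsupport_d1 (S : E4 → Cov) : tsupport (d1 S) ⊆ tsupport S := by
  refine closure_minimal ?_ (isClosed_tsupport S)
  intro x hx
  by_contra h
  exact hx (d1_zero_off h)

theorem exists_cut {x0 : E4} {R : ℝ} (hR : 0 < R) {K : Set E4} (hK : IsClosed K)
    (hKR : K ⊆ ball x0 R) : ∃ ζ : E4 → ℝ, ContDiff ℝ ∞ ζ ∧ HasCompactSupport ζ ∧
      tsupport ζ ⊆ ball x0 R ∧ ∀ x ∈ K, ζ x = 1 := by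
  obtain ⟨r1, hr1, hK1⟩ := exists_lt_subset_ball hK hKR
  set r2 := max r1 (R / 2) with hr2
  have h1 : 0 < r2 := lt_of_lt_of_le (by positivity) (le_max_right _ _)
  have h2 : r2 < R := max_lt hr1 (by linarith)
  let f : ContDiffBump x0 := ⟨r2, (r2 + R) / 2, h1, by linarith⟩
  refine ⟨f, f.contDiff, f.hasCompactSupport, ?_, fun x hx => ?_⟩
  · rw [f.tsupport_eq]
    apply closedBall_subset_ball
    change (r2 + R) / 2 < R
    linarith
  · apply f.one_of_mem_closedBall
    exact ball_subset_closedBall (ball_subset_ball (le_max_left _ _) (hK1 hx))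

/-! ### the normalised density `φ₁ = φ / |W(F,F)|` -/

/-- `φ₁`. -/
def ph1 (σ : ℝ) (F φ : E4 → Bil) (y : E4) : Bil := (σ * W (F y) (F y))⁻¹ • φ y

section ph1

variable {J : E4 → E4 →L[ℝ] E4} {F : E4 → Bil} {φ : E4 → Bil} {m M L LJ w0 c0 σ : ℝ}

theorem sigma_inv (hσ : σ = 1 ∨ σ = -1) : σ⁻¹ = σ := by
  rcases hσ with h | h <;> rw [h] <;> norm_num

theorem sigma_sq (hσ : σ = 1 ∨ σ = -1) : σ * σ = 1 := by
  rcases hσ with h | h <;> rw [h] <;> norm_num

theorem W_ph1 (hσ : σ = 1 ∨ σ = -1) (y : E4) (c : Bil) :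
    W (ph1 σ F φ y) c = σ * q (F y) (φ y) c := by
  unfold ph1 q
  rw [W_smul_left, mul_inv, sigma_inv hσ]
  ring

theorem ph1_pos (hC : Cst J F m M L LJ w0 c0 σ) (hd : Dens J F φ) (y : E4) :
    Pos (J y) (ph1 σ F φ y) := by
  have hpos : 0 ≤ (σ * W (F y) (F y))⁻¹ := inv_nonneg.2 (hC.c0pos.le.trans (hC.lo y))
  have hp := hd.pos y
  refine ⟨?_, ?_, ?_⟩
  · intro v
    unfold ph1
    rw [smul_apply, smul_apply, hp.alt v, smul_zero]
  · intro u v
    unfold ph1
    rw [smul_apply, smul_apply, smul_apply, smul_apply, hp.inv]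
  · intro v
    unfold ph1
    rw [smul_apply, smul_apply, smul_eq_mul]
    exact mul_nonneg hpos (hp.nonneg v)

theorem ph1_bound (hC : Cst J F m M L LJ w0 c0 σ) (hd : Dens J F φ) (y : E4) :
    ‖ph1 σ F φ y‖ ≤ c0⁻¹ * (2 * M) := by
  have h1 := (hC.bd y).norm_le_q (hd.pos y)
  rw [hd.nrm y, mul_one] at h1
  unfold ph1
  rw [norm_smul, norm_inv, Real.norm_of_nonneg (hC.c0pos.le.trans (hC.lo y))]
  exact mul_le_mul (inv_anti₀ hC.c0pos (hC.lo y)) h1 (norm_nonneg _) (inv_nonneg.2 hC.c0pos.le)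

theorem ph1_meas (h : Bg J F) (hd : Dens J F φ) : Measurable (ph1 σ F φ) := by
  unfold ph1
  exact ((continuous_const.mul (continuous_WW h)).measurable.inv).smul hd.meas

theorem ph1_tr (hC : Cst J F m M L LJ w0 c0 σ) (hd : Dens J F φ) (y : E4) :
    (1 : ℝ) ≤ |W (ph1 σ F φ y) (F y)| := by
  rw [W_ph1 hC.sg, hd.nrm y]
  rcases hC.sg with h | h <;> rw [h] <;> norm_num

theorem ph1_closed (hC : Cst J F m M L LJ w0 c0 σ) {s : Measure E4} {U : Set E4}
    (hcl : ClosedIn F s φ U) (S : E4 → Cov) (hS : ContDiff ℝ ∞ S) (hSc : HasCompactSupport S)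
    (hSU : tsupport S ⊆ U) : ∫ y, W (ph1 σ F φ y) (d1 S y) ∂s = 0 := by
  simp_rw [W_ph1 hC.sg]
  rw [integral_const_mul, hcl S hS hSc hSU, mul_zero]

end ph1

/-! ### the assembly -/

/-- the shifted potential `u - (C+1)` satisfies all requirements. -/
theorem shift_facts {C1 w u na : ℝ} (hC1 : 0 < C1) (hw : 0 ≤ w) (h1 : w / C1 - C1 ≤ -u)
    (h2 : -u ≤ C1 * (1 + w)) (h3 : na ≤ C1 * (1 + w)) :
    1 ≤ -(u - (C1 + 1)) ∧ -(u - (C1 + 1)) ≤ (2 * C1 + 1) * (1 + w) ∧
      w ≤ C1 * -(u - (C1 + 1)) ∧ na ≤ C1 * (1 + C1) * -(u - (C1 + 1)) := by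
  have h0 : 0 ≤ w / C1 := by positivity
  have a1 : 1 ≤ -(u - (C1 + 1)) := by linarith
  have a3 : w ≤ C1 * -(u - (C1 + 1)) := by
    have : w / C1 ≤ -(u - (C1 + 1)) := by linarith
    rw [div_le_iff₀ hC1] at this
    linarith
  refine ⟨a1, ?_, a3, ?_⟩
  · nlinarith
  · have h5 : C1 * (1 + w) ≤ C1 * (1 + C1) * -(u - (C1 + 1)) := by
      have : 1 + w ≤ (1 + C1) * -(u - (C1 + 1)) := by linarith
      calc C1 * (1 + w) ≤ C1 * ((1 + C1) * -(u - (C1 + 1))) := mul_le_mul_of_nonneg_left this hC1.le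
        _ = _ := by ring
    linarith

theorem localPoles_of (hQ : QM) (hP : Pot.P4) : LocalPoles := by
  intro J F hBg x0 R hR s hs C hgr φ hd hcl S hS hSc hSR
  obtain ⟨m, M, L, LJ, w0, c0, σ, hC⟩ := exists_cst hBg
  have hσF : ∀ y, 0 < σ * W (F y) (F y) := fun y => lt_of_lt_of_le hC.c0pos (hC.lo y)
  set φ₁ := ph1 σ F φ with hφ₁
  set B1 := c0⁻¹ * (2 * M) with hB1
  have hM : 0 < M := (hC.bd 0).M_pos
  have hc0 := hC.c0pos
  have hB1' : 0 ≤ B1 := by positivity
  have mφ : Measurable φ₁ := ph1_meas hBg hd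
  have bφ : ∀ y, ‖φ₁ y‖ ≤ B1 := ph1_bound hC hd
  have pφ : ∀ y, Pos (J y) (φ₁ y) := ph1_pos hC hd
  obtain ⟨ρ, hρ⟩ := exists_moll
  obtain ⟨Bρ, hBρ0, hBρ⟩ := hρ.bound
  -- growth with a nonnegative constant
  set C' := max C 0 with hC'
  have hC'0 : 0 ≤ C' := le_max_right _ _
  have hgr' : ∀ y r, 0 < r → s (ball y r) ≤ ENNReal.ofReal (C' * r ^ 2) := fun y r hr =>
    (hgr y r hr).trans (ENNReal.ofReal_le_ofReal
      (mul_le_mul_of_nonneg_right (le_max_left _ _) (by positivity)))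
  -- Lemma P
  obtain ⟨C1, e1, hC1, he1, hPe⟩ := hP J F hBg.smJ hBg.smF hBg.sq hBg.pos x0 (2 * R) (by positivity)
    s hs φ₁ mφ B1 1 bφ one_pos pφ (ph1_tr hC hd)
    (fun S hS hSc hSU => ph1_closed hC hcl S hS hSc hSU) ρ hρ.sm hρ.nn hρ.supp hρ.int
  have hR2 : 2 * R / 2 = R := by ring
  rw [hR2] at hPe
  choose! u a hsu hsa hua using hPe
  -- (Q)
  obtain ⟨AQ, hAQ, hQm⟩ := hQ J F m M L LJ w0 σ hC.bd hC.lip hC.nJ hC.sg hσF hC.hi
  -- cut-off
  obtain ⟨ζ, hζ, hζc, hζR, hζ1⟩ := exists_cut hR (isClosed_tsupport S) hSR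
  -- the constant
  set A3 : ℝ := AQ + B1 * Bρ * C' + C1 * (16 * C') + B1 * s.real univ + C1 * (1 + C1) with hA3
  have hsr : 0 ≤ s.real univ := measureReal_nonneg
  have n1 : 0 ≤ B1 * Bρ * C' := by positivity
  have n2 : 0 ≤ C1 * (16 * C') := by positivity
  have n3 : 0 ≤ B1 * s.real univ := by positivity
  have n4 : 0 ≤ C1 * (1 + C1) := by positivity
  obtain ⟨Cm, hCm⟩ := En3main J hBg.smJ hBg.sq ζ hζ hζc S hS hζ1 A3
  set s' := s.restrict (closedBall x0 (2 * R)) with hs'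
  set e0 := min e1 1 with he0
  have he0pos : 0 < e0 := lt_min he1 one_pos
  have hsupp : tsupport (d1 S) ⊆ ball x0 R := (tsupport_d1 S).trans hSR
  -- facts at scale `e`
  have hfacts : ∀ e x, 0 < e → e ≤ e0 → x ∈ ball x0 R →
      1 ≤ -(u e x - (C1 + 1)) ∧ -(u e x - (C1 + 1)) ≤ (2 * C1 + 1) * (1 + (Kern.we s' e x).toReal) ∧
      (Kern.we s' e x).toReal ≤ C1 * -(u e x - (C1 + 1)) ∧
      ‖a e x‖ ≤ C1 * (1 + C1) * -(u e x - (C1 + 1)) := by
    intro e x he hee hx
    have h1 := hua e he (hee.trans (min_le_left _ _)) x hx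
    have hw : Pot.wE s x0 (2 * R) e 2 x = (Kern.we s' e x).toReal := wE_eq s x0 (2 * R) he x
    rw [hw] at h1
    exact shift_facts hC1 ENNReal.toReal_nonneg h1.2.1 h1.2.2.1 h1.2.2.2.1
  have H : LimHyp s s' φ₁ (d1 S) B1 (2 * C1 + 1) Cm e0 (Pot.rhoE ρ)
      (fun e x => -(u e x - (C1 + 1))) :=
    { mφ := mφ
      bφ := bφ
      cD := (contDiff_d1 hS).continuous
      sD := hSc.of_isClosed_subset (isClosed_tsupport _) (tsupport_d1 S)
      e0pos := he0pos
      Cpos := by positivity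
      ker := fun e he _ => hρ.ker he
      mt := fun e he hee => by
        have := (hsu e he (hee.trans (min_le_left _ _))).continuous
        fun_prop
      t0 := fun e x he hee hx => by
        have := (hfacts e x he hee (hsupp hx)).1
        linarith
      up := fun e x he hee hx => (hfacts e x he hee (hsupp hx)).2.1
      lo := fun e x he hee hx => by
        have h1 := hfacts e x he hee (hsupp hx)
        have h2 := h1.2.2.1
        have h3 := h1.1
        nlinarith
      main := by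
        intro e K he hee hK0 hK
        have hee1 : e ≤ e1 := hee.trans (min_le_left _ _)
        have hee2 : e ≤ 1 := hee.trans (min_le_right _ _)
        have hk := hρ.ker he
        set u' : E4 → ℝ := fun x => u e x - (C1 + 1) with hu'
        have hu's : ContDiff ℝ ∞ u' := (hsu e he hee1).sub contDiff_const
        have hfd : fderiv ℝ u' = fderiv ℝ (u e) := by
          funext x
          rw [hu']
          exact fderiv_sub_const _
        set Φ : E4 → Bil := fun x => d1 (fun z => Jc (J z) (fderiv ℝ u' z)) x + d1 (a e) x with hΦ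
        have hΦs : ContDiff ℝ ∞ Φ :=
          (contDiff_d1 (contDiff_Jc' hBg.smJ (hu's.fderiv_right (m := ∞) le_rfl))).add
            (contDiff_d1 (hsa e he hee1))
        have hΦPh : ∀ x ∈ ball x0 R, Φ x = Ph s φ₁ (Pot.rhoE ρ e) x := by
          intro x hx
          have h1 := (hua e he hee1 x hx).1
          rw [hΦ]
          simp only [hfd]
          rw [← h1]
          rfl
        have hQx := hQm s hs φ₁ B1 mφ bφ pφ e (Pot.rhoE ρ e) he hee2 hk
        have hpn : ∀ x, 0 ≤ pe s B1 (Pot.rhoE ρ e) x := pe_nonneg hB1' hk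
        have hmain := hCm e K Φ u' (a e) (pe s B1 (Pot.rhoE ρ e)) σ he hee2 hK0 hK hC.sg hΦs
          (fun x => (alt_d1 _ x).add (alt_d1 _ x)) hu's (hsa e he hee1) (continuous_pe hk) hpn
          ⟨ball x0 R, isOpen_ball, hζR, fun x _ => rfl⟩
          (fun x hx => by
            rw [hΦPh x (hζR hx)]; exact (hQx x).1)
          (fun x hx ξ => by
            rw [hΦPh x (hζR hx)]
            have h1 := (hQx x).2.2.1 ξ
            have h2 : AQ * e ^ 2 * (B1 * ∫ y, Pot.rhoE ρ e (x - y) ∂s) * ‖ξ‖ ^ 2 ≤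
                A3 * e ^ 2 * pe s B1 (Pot.rhoE ρ e) x * ‖ξ‖ ^ 2 := by
              have : AQ ≤ A3 := by rw [hA3]; linarith
              have h3 := hpn x
              unfold pe at h3 ⊢
              gcongr
            linarith)
          (fun x hx => by
            rw [hΦPh x (hζR hx)]
            refine (hQx x).2.1.trans ?_
            have : AQ ≤ A3 := by rw [hA3]; linarith
            have h3 := hpn x
            unfold pe at h3 ⊢
            gcongr)
          (fun x hx => by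
            rw [hΦPh x (hζR hx)]
            have h1 := (hQx x).2.2.2
            have h2 : AQ * e ^ 2 * (B1 * ∫ y, Pot.rhoE ρ e (x - y) ∂s) ^ 2 ≤
                A3 * e ^ 2 * pe s B1 (Pot.rhoE ρ e) x ^ 2 := by
              have : AQ ≤ A3 := by rw [hA3]; linarith
              unfold pe
              gcongr
            linarith)
          (fun x _ => by
            have h1 := pe_le hB1' hk he (hBρ e he) hBρ0 hC'0 hgr' x
            rw [hA3]; linarith)
          (fun x hx => by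
            rw [hfd]
            have h1 := (hua e he hee1 x (hζR hx)).2.2.2.2
            have h2 := wE_three_le s x0 (2 * R) hC'0 hgr' he x
            have h3 : e * ‖fderiv ℝ (u e) x‖ ≤ C1 * (e * Pot.wE s x0 (2 * R) e 3 x) := by
              have := mul_le_mul_of_nonneg_left h1 he.le
              linarith
            have h4 := mul_le_mul_of_nonneg_left h2 hC1.le
            rw [hA3]; linarith)
          (by
            have h1 := setIntegral_pe_le (s := s) hB1' hk (K := tsupport ζ) hζc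
            rw [hA3]; linarith)
          (fun x hx => (hfacts e x he hee (hζR hx)).1)
          (fun x hx => by
            have h1 := hfacts e x he hee (hζR hx)
            have h2 := h1.2.2.2
            have h3 : C1 * (1 + C1) * -(u e x - (C1 + 1)) ≤ A3 * -(u e x - (C1 + 1)) := by
              have : C1 * (1 + C1) ≤ A3 := by rw [hA3]; linarith
              exact mul_le_mul_of_nonneg_right this (by linarith [h1.1])
            exact h2.trans h3)
        have heq : (fun x => CutFun.gf K (-(u e x - (C1 + 1))) *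
            W (Ph s φ₁ (Pot.rhoE ρ e) x) (d1 S x)) = fun x => CutFun.gf K (-u' x) * W (Φ x) (d1 S x) := by
          funext x
          by_cases hx : x ∈ tsupport S
          · rw [hΦPh x (hSR hx)]
          · rw [d1_zero_off hx]
            have h0 : ∀ b : Bil, W b 0 = 0 := fun b => by simp [W, ent_zero]
            simp only [h0, mul_zero]
        simp only [heq]
        exact hmain }
  have hfin := limit_zero H
  -- back to `q` and `wpot`
  have hS1 : MeasurableSet {y | Kern.w s' y < ⊤} :=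
    measurableSet_lt (Kern.measurable_w s') measurable_const
  have hS2 : MeasurableSet {y | wpot s y < ⊤} := by
    have : Measurable (wpot s) := by
      have h := Kern.measurable_w s
      have h2 : wpot s = Kern.w s := funext fun y => wpot_eq s y
      rw [h2]; exact h
    exact measurableSet_lt this measurable_const
  have hq : ∀ y, q (F y) (φ y) (d1 S y) = σ * W (φ₁ y) (d1 S y) := by
    intro y
    rw [hφ₁, W_ph1 hC.sg, ← mul_assoc, sigma_sq hC.sg, one_mul]
  simp_rw [hq]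
  rw [integral_const_mul]
  have hset : ∫ y in {y | wpot s y < ⊤}, W (φ₁ y) (d1 S y) ∂s =
      ∫ y in {y | Kern.w s' y < ⊤}, W (φ₁ y) (d1 S y) ∂s := by
    rw [← integral_indicator hS1, ← integral_indicator hS2]
    refine integral_congr_ae (ae_of_all _ fun y => ?_)
    by_cases hy : y ∈ ball x0 R
    · have h1 := w_restrict_iff s hR hy
      by_cases h2 : wpot s y < ⊤
      · rw [indicator_of_mem (by exact h2), indicator_of_mem (by exact h1.2 h2)]
      · rw [indicator_of_notMem (by exact h2), indicator_of_notMem (by exact fun h => h2 (h1.1 h))]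
    · have h3 : d1 S y = 0 := d1_zero_off fun h => hy (hSR h)
      have h0 : W (φ₁ y) (d1 S y) = 0 := by rw [h3]; simp [W, ent_zero]
      simp [indicator, h0]
  rw [hset, hfin, mul_zero]

end

end Crest.Agent.R240.Loc5
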