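import Mathlib
import Crest.Agent.R240.Loc5A
import Crest.Agent.R240.Lin5

/-!
Row 240 (S0371), LOC5: (Q) for the mollified current (helper168 for helper873).
-/

set_option autoImplicit false

open MeasureTheory Metric Set Filter Topology
open scoped ContDiff ENNReal

namespace Crest.Agent.R240.Loc5

noncomputable section

/-- evaluation at two vectors. -/
def evL (u v : E4) : Bil →L[ℝ] ℝ := LinearMap.toContinuousLinearMap
  { toFun := fun b => b u v
    map_add' := fun _ _ => rfl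
    map_smul' := fun _ _ => rfl }

@[simp] theorem evL_apply (u v : E4) (b : Bil) : evL u v b = b u v := rfl

/-- `antip J` as a continuous linear map. -/
def antL (J : E4 →L[ℝ] E4) : Bil →L[ℝ] Bil := LinearMap.toContinuousLinearMap
  { toFun := fun b => antip J b
    map_add' := fun a b => by
      ext u v
      have e : ∀ x y, (a + b) x y = a x y + b x y := fun _ _ => rfl
      have e' : (antip J a + antip J b) u v = antip J a u v + antip J b u v := rfl
      rw [e', antip_apply, antip_apply, antip_apply, e, e]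
      ring
    map_smul' := fun r b => by
      ext u v
      have e : ∀ x y, (r • b) x y = r * b x y := fun _ _ => rfl
      have e' : (r • antip J b) u v = r * antip J b u v := rfl
      rw [RingHom.id_apply, e', antip_apply, antip_apply, e, e]
      ring }

@[simp] theorem antL_apply (J : E4 →L[ℝ] E4) (b : Bil) : antL J b = antip J b := rfl

section basic

variable {s : Measure E4} [IsFiniteMeasure s] {φ : E4 → Bil} {B : ℝ} {e : ℝ} {k : E4 → ℝ}

theorem integrable_k (hk : Ker e k) (x : E4) : Integrable (fun y => k (x - y)) s := by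
  obtain ⟨C, hC0, hC⟩ := hk.bound
  refine Integrable.of_bound (C := C) ?_ ?_
  · exact (hk.cont.measurable.comp (measurable_const.sub measurable_id)).aestronglyMeasurable
  · refine ae_of_all _ fun y => ?_
    rw [Real.norm_of_nonneg (hk.nonneg _)]
    exact hC _

theorem Ph_apply (hφ : Measurable φ) (hA : ∀ y, ‖φ y‖ ≤ B) (hk : Ker e k) (x u v : E4) :
    Ph s φ k x u v = ∫ y, k (x - y) * φ y u v ∂s := by
  have h := (evL u v).integral_comp_comm (integrable_kφ hφ hA hk x (s := s))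
  unfold Ph
  rw [← evL_apply u v, ← h]
  rfl

theorem norm_Ph_le (hA : ∀ y, ‖φ y‖ ≤ B) (hk : Ker e k) (x : E4) :
    ‖Ph s φ k x‖ ≤ B * ∫ y, k (x - y) ∂s := by
  unfold Ph
  rw [← integral_const_mul]
  refine norm_integral_le_of_norm_le ((integrable_k hk x).const_mul B) (ae_of_all _ fun y => ?_)
  rw [norm_smul, Real.norm_of_nonneg (hk.nonneg _), mul_comm]
  exact mul_le_mul_of_nonneg_right (hA y) (hk.nonneg _)

theorem Ph_alt (hφ : Measurable φ) (hA : ∀ y, ‖φ y‖ ≤ B) (hk : Ker e k)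
    (hal : ∀ y, Alt (φ y)) (x : E4) : Alt (Ph s φ k x) := by
  intro v
  rw [Ph_apply hφ hA hk]
  simp [hal _ v]

end basic

theorem norm_invp_le (J : E4 →L[ℝ] E4) (b : Bil) :
    ‖invp J b‖ ≤ (1 + ‖J‖ ^ 2) * ‖b‖ := by
  refine ContinuousLinearMap.opNorm_le_bound₂ _ (by positivity) ?_
  intro u v
  rw [invp_apply, Real.norm_eq_abs, abs_div]
  have h1 : |b u v| ≤ ‖b‖ * ‖u‖ * ‖v‖ := by
    rw [← Real.norm_eq_abs]; exact b.le_opNorm₂ u v
  have h2 : |b (J u) (J v)| ≤ ‖b‖ * (‖J‖ * ‖u‖) * (‖J‖ * ‖v‖) := by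
    rw [← Real.norm_eq_abs]
    refine (b.le_opNorm₂ (J u) (J v)).trans ?_
    gcongr
    · exact J.le_opNorm u
    · exact J.le_opNorm v
  have h3 := abs_add_le (b u v) (b (J u) (J v))
  have h4 : (|(2:ℝ)|) = 2 := abs_two
  rw [h4, div_le_iff₀ (by norm_num)]
  have h5 : 0 ≤ ‖b‖ * ‖u‖ * ‖v‖ := by positivity
  have h6 : 0 ≤ ‖J‖ ^ 2 * (‖b‖ * ‖u‖ * ‖v‖) := by positivity
  calc _ ≤ _ := h3
    _ ≤ ‖b‖ * ‖u‖ * ‖v‖ + ‖b‖ * (‖J‖ * ‖u‖) * (‖J‖ * ‖v‖) := add_le_add h1 h2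
    _ ≤ (1 + ‖J‖ ^ 2) * ‖b‖ * ‖u‖ * ‖v‖ * 2 := by nlinarith

set_option maxHeartbeats 4000000 in
/-- (Q) for the mollified current. -/
theorem Qmoll {J : E4 → E4 →L[ℝ] E4} {F : E4 → Bil} {m M L LJ w0 σ : ℝ}
    (hBd : ∀ y, Bd (J y) (F y) m M) (hL : ∀ x y, ‖J x - J y‖ ≤ L * ‖x - y‖)
    (hJ : ∀ y, ‖J y‖ ≤ LJ) (_hσ : σ = 1 ∨ σ = -1) (hσF : ∀ y, 0 < σ * W (F y) (F y))
    (hW : ∀ y, σ * W (F y) (F y) ≤ w0) :
    ∃ A : ℝ, 0 ≤ A ∧ ∀ (s : Measure E4) [IsFiniteMeasure s] (φ : E4 → Bil) (B : ℝ),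
      Measurable φ → (∀ y, ‖φ y‖ ≤ B) → (∀ y, Pos (J y) (φ y)) →
      ∀ (e : ℝ) (k : E4 → ℝ), 0 < e → e ≤ 1 → Ker e k → ∀ x : E4,
      ‖Ph s φ k x‖ ≤ B * ∫ y, k (x - y) ∂s ∧
      ‖antip (J x) (Ph s φ k x)‖ ≤ A * e * (B * ∫ y, k (x - y) ∂s) ∧
      (∀ ξ : E4 →L[ℝ] ℝ, 0 ≤ σ * W (Ph s φ k x) (wed ξ (Jc (J x) ξ)) +
        A * e ^ 2 * (B * ∫ y, k (x - y) ∂s) * ‖ξ‖ ^ 2) ∧
      -(A * e ^ 2 * (B * ∫ y, k (x - y) ∂s) ^ 2) ≤ σ * W (Ph s φ k x) (Ph s φ k x) := by
  -- constants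
  have hm : 0 < m := (hBd 0).m_pos
  have hM : 0 < M := (hBd 0).M_pos
  have hLJ : 0 ≤ LJ := (norm_nonneg _).trans (hJ 0)
  have hw0 : 0 < w0 := (hσF 0).trans_le (hW 0)
  have hL0 : 0 ≤ L := by
    have h1 := hL (ee 0) 0
    rw [sub_zero, norm_ee, mul_one] at h1
    exact (norm_nonneg _).trans h1
  -- c0 e² P is the defect
  set c0 : ℝ := 1 / 4 * L ^ 2 * LJ with hc0
  have hc00 : 0 ≤ c0 := by positivity
  set t0 : ℝ := c0 / m with ht0
  have ht00 : 0 ≤ t0 := by positivity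
  set A1 : ℝ := L * LJ with hA1
  set A2 : ℝ := w0 * (t0 * (3 / m ^ 2 * (M * (2 * LJ)))) with hA2
  set A3 : ℝ := w0 * (2 * t0 * (3 / m ^ 2 * M) + t0 ^ 2) with hA3
  have hA10 : 0 ≤ A1 := by positivity
  have hA20 : 0 ≤ A2 := by positivity
  have hA30 : 0 ≤ A3 := by positivity
  refine ⟨A1 + A2 + A3, by positivity, ?_⟩
  intro s _ φ B hφ hB hpos e k he he1 hk x
  have hB0 : 0 ≤ B := (norm_nonneg _).trans (hB 0)
  have hint0 : 0 ≤ ∫ y, k (x - y) ∂s := integral_nonneg fun y => hk.nonneg _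
  set P : ℝ := B * ∫ y, k (x - y) ∂s with hP
  have hP0 : 0 ≤ P := by positivity
  set X : Bil := Ph s φ k x with hX
  have hXn : ‖X‖ ≤ P := norm_Ph_le hB hk x
  have hXalt : Alt X := Ph_alt hφ hB hk (fun y => (hpos y).alt) x
  have hkint : Integrable (fun y => k (x - y)) s := integrable_k hk x
  -- distance bound on the support
  have hdist : ∀ y, k (x - y) ≠ 0 → ‖J x - J y‖ ≤ L * e := by
    intro y hy
    have h1 : ‖x - y‖ < e := by
      by_contra h
      exact hy (hk.supp _ (not_lt.mp h))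
    exact (hL x y).trans (mul_le_mul_of_nonneg_left h1.le hL0)
  have hB2 := hBd x
  -- (ii)
  have h2 : ‖antip (J x) X‖ ≤ A1 * e * P := by
    have h := (antL (J x)).integral_comp_comm (integrable_kφ hφ hB hk x (s := s))
    have h3 : antip (J x) X = ∫ y, antL (J x) (k (x - y) • φ y) ∂s := by
      rw [h]; rfl
    rw [h3]
    have h4 : A1 * e * P = ∫ y, A1 * e * B * k (x - y) ∂s := by
      rw [integral_const_mul, hP]; ring
    rw [h4]
    refine norm_integral_le_of_norm_le (hkint.const_mul _) (ae_of_all _ fun y => ?_)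
    rw [map_smul, norm_smul, Real.norm_of_nonneg (hk.nonneg _), antL_apply]
    by_cases hy : k (x - y) = 0
    · simp [hy]
    · have h5 := Q_anti (J := J x) (hpos y).inv
      have h6 : ‖antip (J x) (φ y)‖ ≤ A1 * e * B := by
        calc ‖antip (J x) (φ y)‖ ≤ 1 / 2 * ‖J x - J y‖ * (‖J y‖ + ‖J x‖) * ‖φ y‖ := h5
          _ ≤ 1 / 2 * (L * e) * (LJ + LJ) * B := by
              gcongr
              · exact hdist y hy
              · exact hJ y
              · exact hJ x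
              · exact hB y
          _ = A1 * e * B := by rw [hA1]; ring
      calc k (x - y) * ‖antip (J x) (φ y)‖ ≤ k (x - y) * (A1 * e * B) :=
            mul_le_mul_of_nonneg_left h6 (hk.nonneg _)
        _ = A1 * e * B * k (x - y) := by ring
  -- lower bound of X(v, J v)
  have h3 : ∀ v, -(c0 * e ^ 2 * P) * ‖v‖ ^ 2 ≤ X v (J x v) := by
    intro v
    rw [hX, Ph_apply hφ hB hk]
    have h4 : -(c0 * e ^ 2 * P) * ‖v‖ ^ 2 =
        ∫ y, -(c0 * e ^ 2 * B * ‖v‖ ^ 2) * k (x - y) ∂s := by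
      rw [integral_const_mul, hP]; ring
    rw [h4]
    have hi2 : Integrable (fun y => k (x - y) * φ y v (J x v)) s := by
      have := (evL v (J x v)).integrable_comp (integrable_kφ hφ hB hk x (s := s))
      exact this
    apply integral_mono (hkint.const_mul _) hi2
    intro y
    simp only
    by_cases hy : k (x - y) = 0
    · simp [hy]
    · have h5 := Q_lower (J := J x) (hBd y).sq (hpos y) v
      have h6 : 1 / 4 * ‖J x - J y‖ ^ 2 * ‖J y‖ * ‖φ y‖ * ‖v‖ ^ 2 ≤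
          c0 * e ^ 2 * B * ‖v‖ ^ 2 := by
        calc 1 / 4 * ‖J x - J y‖ ^ 2 * ‖J y‖ * ‖φ y‖ * ‖v‖ ^ 2
            ≤ 1 / 4 * (L * e) ^ 2 * LJ * B * ‖v‖ ^ 2 := by
              gcongr
              · exact hdist y hy
              · exact hJ y
              · exact hB y
          _ = c0 * e ^ 2 * B * ‖v‖ ^ 2 := by rw [hc0]; ring
      have h7 : -(c0 * e ^ 2 * B * ‖v‖ ^ 2) ≤ φ y v (J x v) := by linarith
      calc -(c0 * e ^ 2 * B * ‖v‖ ^ 2) * k (x - y) ≤ φ y v (J x v) * k (x - y) :=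
            mul_le_mul_of_nonneg_right h7 (hk.nonneg _)
        _ = k (x - y) * φ y v (J x v) := mul_comm _ _
  -- the invariant part
  set X' : Bil := invp (J x) X with hX'
  have hX'alt : Alt X' := hXalt.invp _
  have hX'inv : ∀ u v, X' (J x u) (J x v) = X' u v := invp_inv hB2.sq X
  have hpos' : Pos (J x) (X' + (t0 * e ^ 2 * P) • F x) := by
    apply hB2.pos_add hX'alt hX'inv
    · intro v
      rw [hX', invp_diag hB2.sq hXalt]
      refine le_trans (le_of_eq ?_) (h3 v)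
      rw [ht0]
      field_simp
    · positivity
  set t : ℝ := t0 * e ^ 2 * P with ht
  have ht_nn : 0 ≤ t := by positivity
  have hσq : ∀ b c : Bil, σ * W b c = (σ * W (F x) (F x)) * q (F x) b c := by
    intro b c
    unfold q
    have := hB2.W_ne
    field_simp
  have hwx : 0 < σ * W (F x) (F x) := hσF x
  have hwx' : σ * W (F x) (F x) ≤ w0 := hW x
  refine ⟨hXn, ?_, ?_, ?_⟩
  · refine h2.trans ?_
    have : A1 * e * P ≤ (A1 + A2 + A3) * e * P := by
      gcongr; linarith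
    exact this
  · intro ξ
    set R : Bil := wed ξ (Jc (J x) ξ) with hR
    have hRpos : Pos (J x) R := wed_Jc_pos hB2.sq ξ
    have h5 := hB2.q_pos_pos hpos' hRpos
    rw [q_add_left, q_smul_left] at h5
    have h6 : q (F x) X R = q (F x) X' R := by
      rw [q_comm (F x) X R, hB2.q_inv_left hRpos.alt hRpos.inv hXalt, q_comm]
    have h7 := (abs_le.1 (hB2.abs_q_le hB2.spos.alt hRpos.alt)).2
    have hFn : ‖F x‖ ≤ M := hB2.norm_F_le
    have hRn : ‖R‖ ≤ 2 * LJ * ‖ξ‖ ^ 2 := by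
      calc ‖R‖ ≤ 2 * ‖ξ‖ * ‖Jc (J x) ξ‖ := norm_wed_le _ _
        _ ≤ 2 * ‖ξ‖ * (‖ξ‖ * LJ) := by
            gcongr
            exact (norm_Jc_le _ _).trans (mul_le_mul_of_nonneg_left (hJ x) (norm_nonneg _))
        _ = _ := by ring
    have h8 : q (F x) (F x) R ≤ 3 / m ^ 2 * (M * (2 * LJ * ‖ξ‖ ^ 2)) := by
      refine h7.trans ?_
      gcongr
    have h9 : -(t * (3 / m ^ 2 * (M * (2 * LJ * ‖ξ‖ ^ 2)))) ≤ q (F x) X R := by
      rw [h6]
      have := mul_le_mul_of_nonneg_left h8 ht_nn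
      linarith
    rw [hσq]
    have h10 : -(w0 * (t * (3 / m ^ 2 * (M * (2 * LJ * ‖ξ‖ ^ 2))))) ≤
        σ * W (F x) (F x) * q (F x) X R := by
      set z := t * (3 / m ^ 2 * (M * (2 * LJ * ‖ξ‖ ^ 2))) with hz
      have hz0 : 0 ≤ z := by positivity
      have a1 : σ * W (F x) (F x) * (-z) ≤ σ * W (F x) (F x) * q (F x) X R :=
        mul_le_mul_of_nonneg_left h9 hwx.le
      have a2 : σ * W (F x) (F x) * z ≤ w0 * z := mul_le_mul_of_nonneg_right hwx' hz0
      linarith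
    have h11 : w0 * (t * (3 / m ^ 2 * (M * (2 * LJ * ‖ξ‖ ^ 2)))) = A2 * e ^ 2 * P * ‖ξ‖ ^ 2 := by
      rw [hA2, ht]; ring
    rw [h11] at h10
    have h12 : A2 * e ^ 2 * P * ‖ξ‖ ^ 2 ≤ (A1 + A2 + A3) * e ^ 2 * P * ‖ξ‖ ^ 2 := by
      gcongr; linarith
    linarith
  · have h5 := hB2.q_self_ge hpos'
    have h6 : q (F x) X' (F x) = q (F x) X (F x) := by
      rw [q_comm (F x) X (F x), hB2.q_inv_left hB2.spos.alt hB2.spos.inv hXalt, q_comm]
    rw [h6] at h5
    have hFn : ‖F x‖ ≤ M := hB2.norm_F_le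
    have h7 := (abs_le.1 (hB2.abs_q_le hXalt hB2.spos.alt)).2
    have h8 : q (F x) X (F x) ≤ 3 / m ^ 2 * (P * M) := by
      refine h7.trans ?_
      gcongr
    have h9 : q (F x) X X = q (F x) X' X' + q (F x) (antip (J x) X) (antip (J x) X) :=
      hB2.q_split hXalt hXalt
    have h10 : 0 ≤ q (F x) (antip (J x) X) (antip (J x) X) :=
      hB2.anti_nonneg (hXalt.antip _) (antip_anti hB2.sq X)
    have h11 : -(2 * t * (3 / m ^ 2 * (P * M)) + t ^ 2) ≤ q (F x) X X := by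
      have := mul_le_mul_of_nonneg_left h8 (by positivity : 0 ≤ 2 * t)
      linarith
    rw [hσq]
    set z := 2 * t * (3 / m ^ 2 * (P * M)) + t ^ 2 with hz
    have hz0 : 0 ≤ z := by positivity
    have a1 : σ * W (F x) (F x) * (-z) ≤ σ * W (F x) (F x) * q (F x) X X :=
      mul_le_mul_of_nonneg_left h11 hwx.le
    have a2 : σ * W (F x) (F x) * z ≤ w0 * z := mul_le_mul_of_nonneg_right hwx' hz0
    have he4 : e ^ 4 ≤ e ^ 2 := by
      have : e ^ 4 = e ^ 2 * e ^ 2 := by ring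
      rw [this]
      have h1 : e ^ 2 ≤ 1 := pow_le_one₀ he.le he1
      have h2 : 0 ≤ e ^ 2 := by positivity
      nlinarith
    have a3 : w0 * z ≤ A3 * e ^ 2 * P ^ 2 := by
      have e1 : w0 * z = w0 * (2 * t0 * (3 / m ^ 2 * M)) * e ^ 2 * P ^ 2
          + w0 * t0 ^ 2 * P ^ 2 * e ^ 4 := by
        rw [hz, ht]; ring
      have e2 : A3 * e ^ 2 * P ^ 2 = w0 * (2 * t0 * (3 / m ^ 2 * M)) * e ^ 2 * P ^ 2
          + w0 * t0 ^ 2 * P ^ 2 * e ^ 2 := by
        rw [hA3]; ring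
      rw [e1, e2]
      have := mul_le_mul_of_nonneg_left he4 (by positivity : 0 ≤ w0 * t0 ^ 2 * P ^ 2)
      linarith
    have a4 : A3 * e ^ 2 * P ^ 2 ≤ (A1 + A2 + A3) * e ^ 2 * P ^ 2 := by
      gcongr; linarith
    linarith

end

end Crest.Agent.R240.Loc5
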