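import Mathlib
import Crest.Agent.R240.Loc5D
import Crest.Agent.R240.Loc5Q

/-!
Row 240 (S0371), LOC5 (helper873): `QM` holds; LocalPoles follows from Lemma P (`Pot.P4`) alone.
-/

set_option autoImplicit false

open MeasureTheory

namespace Crest.Agent.R240.Loc5

theorem qm : QM := by
  intro J F m M L LJ w0 σ h1 h2 h3 h4 h5 h6
  obtain ⟨A, hA, h⟩ := Qmoll h1 h2 h3 h4 h5 h6
  refine ⟨A, hA, fun s hs => ?_⟩
  have := hs
  exact h s

theorem localPoles_of_P4 (hP : Pot.P4) : LocalPoles := localPoles_of qm hP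

end Crest.Agent.R240.Loc5
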