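import Mathlib
import Crest.Agent.R240.Lin1
import Crest.Agent.R240.Kern

/-!
# Row 240, Part P (for helper657): kernel bounds of Lemma P (helper369)

* `invSq`, `invSq_integral_le`
* `kerbd`  : mollified kernels of order `-2` and their derivatives
* `mkbd`   : `m ζ = q ζ ζ / (g ζ ζ)²` satisfies the hypotheses of `kerbd`
* `kerlow` : lower bound for mollified `1/g ζ ζ`
-/

set_option autoImplicit false
set_option maxSynthPendingDepth 3

open MeasureTheory Metric Set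
open Crest.Agent.R240.Kern (ker setLIntegral_ker_off volume_ball_le ker_of_pos)

namespace Crest.Agent.R240.Pot

/-- `∫_{ball z r} ‖ζ‖^{-2} dζ ≤ C r⁴ / (‖z‖ + r)²` as a lower integral. -/
theorem lint_invSq (z : E4) {r : ℝ} (hr : 0 < r) :
    ∫⁻ ζ in ball z r, ENNReal.ofReal (1 / ‖ζ‖ ^ 2) ≤
      ENNReal.ofReal (38880 * r ^ 4 / (‖z‖ + r) ^ 2) := by
  have h := setLIntegral_ker_off (volume : Measure E4) (a := 4) (b := 2) (by norm_num)
    (A := 5) (by norm_num) (fun x r hr => volume_ball_le x hr) z 0 hr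
  have hz : 0 < dist z 0 + r := by have := dist_nonneg (x := z) (y := (0 : E4)); linarith
  rw [ker_of_pos 2 hz, ← ENNReal.ofReal_mul (by positivity)] at h
  refine le_trans ?_ (h.trans (ENNReal.ofReal_le_ofReal ?_))
  · apply lintegral_mono
    intro ζ
    show ENNReal.ofReal (1 / ‖ζ‖ ^ 2) ≤ ker 2 (dist ζ 0)
    rw [dist_zero_right, one_div]
    exact Crest.Agent.R240.Kern.ofReal_le_ker 2 (norm_nonneg _)
  · rw [dist_zero_right]
    apply le_of_eq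
    norm_num
    field_simp

theorem measurable_invSq : Measurable fun ζ : E4 => 1 / ‖ζ‖ ^ 2 := by fun_prop

theorem invSq_ball (z : E4) {r : ℝ} (hr : 0 < r) :
    IntegrableOn (fun ζ : E4 => 1 / ‖ζ‖ ^ 2) (ball z r) := by
  refine ⟨measurable_invSq.aestronglyMeasurable, ?_⟩
  rw [hasFiniteIntegral_iff_norm]
  refine lt_of_le_of_lt ?_ (ENNReal.ofReal_lt_top (r := 38880 * r ^ 4 / (‖z‖ + r) ^ 2))
  refine le_trans (le_of_eq ?_) (lint_invSq z hr)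
  apply lintegral_congr
  intro ζ
  rw [Real.norm_of_nonneg (by positivity)]

theorem invSq_ball_integral_le (z : E4) {r : ℝ} (hr : 0 < r) :
    ∫ ζ in ball z r, 1 / ‖ζ‖ ^ 2 ≤ 38880 * r ^ 4 / (‖z‖ + r) ^ 2 := by
  rw [integral_eq_lintegral_of_nonneg_ae (ae_of_all _ fun ζ => by positivity)
    measurable_invSq.aestronglyMeasurable]
  have h := lint_invSq z hr
  have h2 := ENNReal.toReal_mono ENNReal.ofReal_ne_top h
  rwa [ENNReal.toReal_ofReal (by positivity)] at h2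

/-- (INT) -/
theorem invSq : ∀ r : ℝ, IntegrableOn (fun ζ : E4 => 1 / ‖ζ‖ ^ 2) (closedBall 0 r) volume := by
  intro r
  have h := invSq_ball (0 : E4) (r := |r| + 1) (by positivity)
  refine h.mono_set ?_
  intro x hx
  rw [mem_closedBall] at hx
  rw [mem_ball]
  have := le_abs_self r
  linarith

theorem invSq_closedBall (z : E4) (r : ℝ) :
    IntegrableOn (fun ζ : E4 => 1 / ‖ζ‖ ^ 2) (closedBall z r) volume := by
  refine (invSq (r + ‖z‖)).mono_set ?_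
  intro x hx
  rw [mem_closedBall, dist_zero_right]
  rw [mem_closedBall, dist_eq_norm] at hx
  have := norm_add_le (x - z) z
  rw [sub_add_cancel] at this
  linarith

theorem invSq_integral_le {r : ℝ} (hr : 0 < r) :
    ∫ ζ in closedBall (0 : E4) r, 1 / ‖ζ‖ ^ 2 ≤ 622080 * r ^ 2 := by
  have h1 : ∫ ζ in closedBall (0 : E4) r, 1 / ‖ζ‖ ^ 2 ≤ ∫ ζ in ball (0 : E4) (2 * r), 1 / ‖ζ‖ ^ 2 :=
    setIntegral_mono_set (invSq_ball 0 (by positivity)) (ae_of_all _ fun ζ => by positivity)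
      (Filter.Eventually.of_forall (closedBall_subset_ball (by linarith)))
  have h2 := invSq_ball_integral_le (0 : E4) (r := 2 * r) (by positivity)
  refine h1.trans (h2.trans ?_)
  rw [norm_zero, zero_add, div_le_iff₀ (by positivity)]
  nlinarith [pow_pos hr 4]

section kerbd

variable {m : E4 → ℝ} {A : ℝ}

/-- a kernel of order `-2` is integrable on balls. -/
theorem intOn_ker (hm : Measurable m) (hb : ∀ ζ, ζ ≠ 0 → |m ζ| ≤ A / ‖ζ‖ ^ 2) (z : E4) (r : ℝ) :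
    IntegrableOn m (closedBall z r) := by
  have h := (invSq_closedBall z r).const_mul A
  refine Integrable.mono' h hm.aestronglyMeasurable ?_
  have h0 : ∀ᵐ ζ : E4, ζ ≠ 0 := by
    have := (measure_singleton (μ := (volume : Measure E4)) (0 : E4))
    rw [ae_iff]; simp
  filter_upwards [ae_restrict_of_ae h0] with ζ hζ
  rw [Real.norm_eq_abs]
  refine (hb ζ hζ).trans (le_of_eq ?_)
  ring

/-- integrability of the mollified integrand. -/
theorem int_conv {σ : E4 → ℝ} {e : ℝ} (hσ : Continuous σ) (hs : ∀ z, e < ‖z‖ → σ z = 0) (z : E4)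
    (hm : ∀ z r, IntegrableOn m (closedBall z r)) :
    Integrable fun ζ => σ (z - ζ) * m ζ := by
  have hz : ∀ ζ, ζ ∉ closedBall z e → σ (z - ζ) * m ζ = 0 := by
    intro ζ hζ
    rw [mem_closedBall, not_le, dist_comm, dist_eq_norm] at hζ
    rw [hs _ hζ, zero_mul]
  have h1 : IntegrableOn (fun ζ => σ (z - ζ) * m ζ) (closedBall z e) := by
    apply IntegrableOn.continuousOn_mul
    · exact (hσ.comp (by fun_prop)).continuousOn
    · exact hm z e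
    · exact isCompact_closedBall z e
  rw [integrableOn_iff_integrable_of_support_subset] at h1
  · exact h1
  · intro ζ hζ
    by_contra h
    exact hζ (hz ζ h)

theorem abs_conv_le (hm : Measurable m) (hA : 0 ≤ A) (hb : ∀ ζ, ζ ≠ 0 → |m ζ| ≤ A / ‖ζ‖ ^ 2)
    {σ : E4 → ℝ} {e D : ℝ} (he : 0 < e) (hD : 0 ≤ D) (hσ : Continuous σ)
    (hs : ∀ z, e < ‖z‖ → σ z = 0) (hbd : ∀ z, |σ z| ≤ D) (z : E4) :
    |∫ ζ, σ (z - ζ) * m ζ| ≤ 622080 * A * D * e ^ 4 / (‖z‖ + e) ^ 2 := by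
  have h0 : ∀ᵐ ζ : E4, ζ ≠ 0 := by
    have := (measure_singleton (μ := (volume : Measure E4)) (0 : E4))
    rw [ae_iff]; simp
  have hz : ∀ ζ, ζ ∉ ball z (2 * e) → σ (z - ζ) * m ζ = 0 := by
    intro ζ hζ
    rw [mem_ball, not_lt, dist_comm, dist_eq_norm] at hζ
    rw [hs _ (by linarith), zero_mul]
  rw [← setIntegral_eq_integral_of_forall_compl_eq_zero hz]
  calc |∫ ζ in ball z (2 * e), σ (z - ζ) * m ζ|
      ≤ ∫ ζ in ball z (2 * e), |σ (z - ζ) * m ζ| := abs_integral_le_integral_abs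
    _ ≤ ∫ ζ in ball z (2 * e), D * A * (1 / ‖ζ‖ ^ 2) := by
        apply integral_mono_ae
        · exact ((int_conv hσ hs z (intOn_ker hm hb)).integrableOn).abs
        · exact (invSq_ball z (by positivity)).const_mul _
        · filter_upwards [ae_restrict_of_ae h0] with ζ hζ
          rw [abs_mul]
          calc |σ (z - ζ)| * |m ζ| ≤ D * (A / ‖ζ‖ ^ 2) :=
                mul_le_mul (hbd _) (hb ζ hζ) (abs_nonneg _) hD
            _ = _ := by ring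
    _ = D * A * ∫ ζ in ball z (2 * e), 1 / ‖ζ‖ ^ 2 := integral_const_mul _ _
    _ ≤ D * A * (38880 * (2 * e) ^ 4 / (‖z‖ + 2 * e) ^ 2) := by
        apply mul_le_mul_of_nonneg_left (invSq_ball_integral_le z (by positivity)) (by positivity)
    _ ≤ D * A * (38880 * (2 * e) ^ 4 / (‖z‖ + e) ^ 2) := by
        have hn : 0 < ‖z‖ + e := by positivity
        gcongr
        linarith
    _ = _ := by ring

theorem kerbd : ∃ C : ℝ, 0 < C ∧ ∀ (m : E4 → ℝ) (A : ℝ), Measurable m → 0 ≤ A →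
    (∀ ζ, ζ ≠ 0 → |m ζ| ≤ A / ‖ζ‖ ^ 2) →
    (∀ z ζ : E4, z ≠ 0 → ‖ζ - z‖ ≤ ‖z‖ / 2 → |m ζ - m z| ≤ A * ‖ζ - z‖ / ‖z‖ ^ 3) →
    ∀ (e B : ℝ) (σ : E4 → ℝ), 0 < e → 0 ≤ B → Continuous σ → (∀ z, e < ‖z‖ → σ z = 0) →
    ((∀ z, |σ z| ≤ B / e ^ 4) → ∀ z, |∫ ζ, σ (z - ζ) * m ζ| ≤ C * A * B / (‖z‖ + e) ^ 2) ∧
    ((∀ z, |σ z| ≤ B / e ^ 5) → ∫ z, σ z = 0 →
      ∀ z, |∫ ζ, σ (z - ζ) * m ζ| ≤ C * A * B / (‖z‖ + e) ^ 3) := by
  refine ⟨3 * 622080, by norm_num, ?_⟩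
  intro m A hm hA hb hd e B σ he hB hσ hs
  constructor
  · intro hbd z
    refine (abs_conv_le hm hA hb he (by positivity) hσ hs hbd z).trans ?_
    have hn : 0 < ‖z‖ + e := by positivity
    rw [div_le_div_iff_of_pos_right (by positivity)]
    have : 622080 * A * (B / e ^ 4) * e ^ 4 = 622080 * A * B := by field_simp
    rw [this]
    have : 0 ≤ A * B := by positivity
    nlinarith
  · intro hbd h0 z
    have hn : 0 < ‖z‖ + e := by positivity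
    rcases le_or_gt ‖z‖ (2 * e) with hz | hz
    · refine (abs_conv_le hm hA hb he (by positivity) hσ hs hbd z).trans ?_
      rw [div_le_div_iff₀ (by positivity) (by positivity)]
      have e1 : 622080 * A * (B / e ^ 5) * e ^ 4 * (‖z‖ + e) ^ 3 =
          622080 * (A * B) * (‖z‖ + e) ^ 2 * ((‖z‖ + e) / e) := by field_simp
      rw [e1]
      have e2 : (‖z‖ + e) / e ≤ 3 := by rw [div_le_iff₀ he]; linarith
      calc 622080 * (A * B) * (‖z‖ + e) ^ 2 * ((‖z‖ + e) / e)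
          ≤ 622080 * (A * B) * (‖z‖ + e) ^ 2 * 3 :=
            mul_le_mul_of_nonneg_left e2 (by positivity)
        _ = _ := by ring
    · have hz0 : z ≠ 0 := by
        intro h; rw [h, norm_zero] at hz; linarith
      have hzn : 0 < ‖z‖ := norm_pos_iff.mpr hz0
      have hint1 : Integrable fun ζ => σ (z - ζ) * m ζ := int_conv hσ hs z (intOn_ker hm hb)
      have hint2 : Integrable fun ζ => σ (z - ζ) * m z := by
        have := int_conv (m := fun _ => m z) hσ hs z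
          (fun z r => integrableOn_const (by exact measure_closedBall_lt_top.ne))
        exact this
      have hz2 : ∫ ζ, σ (z - ζ) * m z = 0 := by
        rw [integral_mul_const, integral_sub_left_eq_self (fun ζ => σ ζ) volume z, h0, zero_mul]
      have hsub : ∫ ζ, σ (z - ζ) * m ζ = ∫ ζ, σ (z - ζ) * (m ζ - m z) := by
        have h1 : ∫ ζ, (σ (z - ζ) * m ζ - σ (z - ζ) * m z) =
            (∫ ζ, σ (z - ζ) * m ζ) - ∫ ζ, σ (z - ζ) * m z := integral_sub hint1 hint2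
        rw [hz2, sub_zero] at h1
        rw [← h1]
        congr 1
        funext ζ
        ring
      rw [hsub]
      have hzero : ∀ ζ, ζ ∉ ball z (2 * e) → σ (z - ζ) * (m ζ - m z) = 0 := by
        intro ζ hζ
        rw [mem_ball, not_lt, dist_comm, dist_eq_norm] at hζ
        rw [hs _ (by linarith), zero_mul]
      rw [← setIntegral_eq_integral_of_forall_compl_eq_zero hzero]
      have hpt : ∀ ζ ∈ ball z (2 * e), ‖σ (z - ζ) * (m ζ - m z)‖ ≤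
          B / e ^ 5 * (A * e / ‖z‖ ^ 3) := by
        intro ζ _
        rw [norm_mul, Real.norm_eq_abs, Real.norm_eq_abs]
        by_cases hζ : ‖z - ζ‖ ≤ e
        · have h1 : ‖ζ - z‖ ≤ e := by rw [norm_sub_rev]; exact hζ
          have h2 := hd z ζ hz0 (by linarith)
          have h3 : A * ‖ζ - z‖ / ‖z‖ ^ 3 ≤ A * e / ‖z‖ ^ 3 := by gcongr
          exact mul_le_mul (hbd _) (h2.trans h3) (abs_nonneg _) (by positivity)
        · rw [hs _ (not_le.mp hζ), abs_zero, zero_mul]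
          positivity
      have hv : (volume : Measure E4).real (ball z (2 * e)) ≤ 5 * (2 * e) ^ 4 := by
        have := volume_ball_le z (r := 2 * e) (by positivity)
        have h2 := ENNReal.toReal_mono ENNReal.ofReal_ne_top this
        rwa [ENNReal.toReal_ofReal (by positivity)] at h2
      have h1 := norm_setIntegral_le_of_norm_le_const (measure_ball_lt_top (x := z) (r := 2 * e)
        (μ := (volume : Measure E4))) hpt
      rw [Real.norm_eq_abs] at h1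
      refine h1.trans ?_
      calc B / e ^ 5 * (A * e / ‖z‖ ^ 3) * (volume : Measure E4).real (ball z (2 * e))
          ≤ B / e ^ 5 * (A * e / ‖z‖ ^ 3) * (5 * (2 * e) ^ 4) := by gcongr
        _ = 80 * A * B / ‖z‖ ^ 3 := by field_simp; ring
        _ ≤ 3 * 622080 * A * B / (‖z‖ + e) ^ 3 := by
            rw [div_le_div_iff₀ (by positivity) (by positivity)]
            have h3 : (‖z‖ + e) ^ 3 ≤ (2 * ‖z‖) ^ 3 := by
              apply pow_le_pow_left₀ hn.le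
              linarith
            have hAB : 0 ≤ A * B := by positivity
            calc 80 * A * B * (‖z‖ + e) ^ 3 ≤ 80 * A * B * (2 * ‖z‖) ^ 3 := by gcongr
              _ = 640 * (A * B * ‖z‖ ^ 3) := by ring
              _ ≤ 3 * 622080 * (A * B * ‖z‖ ^ 3) := by
                  have : 0 ≤ A * B * ‖z‖ ^ 3 := by positivity
                  nlinarith
              _ = _ := by ring

end kerbd

section mk

/-- quadratic estimate. -/
theorem quad_le (q : Bil) {L : ℝ} (hq : ‖q‖ ≤ L) (ζ : E4) : |q ζ ζ| ≤ L * ‖ζ‖ ^ 2 := by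
  have h1 : ‖q ζ ζ‖ ≤ ‖q‖ * ‖ζ‖ * ‖ζ‖ := q.le_opNorm₂ ζ ζ
  rw [Real.norm_eq_abs] at h1
  refine h1.trans ?_
  have : ‖q‖ * ‖ζ‖ * ‖ζ‖ = ‖q‖ * ‖ζ‖ ^ 2 := by ring
  rw [this]
  gcongr

theorem quad_sub_le (q : Bil) {L : ℝ} (hq : ‖q‖ ≤ L) (z ζ : E4) (h : ‖ζ - z‖ ≤ ‖z‖ / 2) :
    |q ζ ζ - q z z| ≤ L * (5 / 2) * ‖ζ - z‖ * ‖z‖ := by
  have hL : 0 ≤ L := (norm_nonneg _).trans hq
  have e1 : q ζ ζ - q z z = q (ζ - z) ζ + q z (ζ - z) := by
    simp only [map_sub, sub_apply]; ring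
  have h1 : |q (ζ - z) ζ| ≤ L * ‖ζ - z‖ * ‖ζ‖ := by
    have := q.le_opNorm₂ (ζ - z) ζ
    rw [Real.norm_eq_abs] at this
    refine this.trans ?_
    gcongr
  have h2 : |q z (ζ - z)| ≤ L * ‖z‖ * ‖ζ - z‖ := by
    have := q.le_opNorm₂ z (ζ - z)
    rw [Real.norm_eq_abs] at this
    refine this.trans ?_
    gcongr
  have h3 : ‖ζ‖ ≤ (3 / 2) * ‖z‖ := by
    have := norm_add_le (ζ - z) z
    rw [sub_add_cancel] at this
    linarith
  rw [e1]
  calc |q (ζ - z) ζ + q z (ζ - z)| ≤ |q (ζ - z) ζ| + |q z (ζ - z)| := abs_add_le _ _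
    _ ≤ L * ‖ζ - z‖ * ‖ζ‖ + L * ‖z‖ * ‖ζ - z‖ := add_le_add h1 h2
    _ ≤ L * ‖ζ - z‖ * ((3 / 2) * ‖z‖) + L * ‖z‖ * ‖ζ - z‖ := by gcongr
    _ = _ := by ring

theorem continuous_quad (q : Bil) : Continuous fun ζ : E4 => q ζ ζ := by fun_prop

theorem mkbd {lam Lam : ℝ} (hlam : 0 < lam) : ∃ A : ℝ, 0 ≤ A ∧ ∀ q g : Bil,
    (∀ v, lam * ‖v‖ ^ 2 ≤ g v v) → ‖g‖ ≤ Lam → ‖q‖ ≤ Lam →
    Measurable (fun ζ : E4 => q ζ ζ / (g ζ ζ) ^ 2) ∧
    (∀ ζ, ζ ≠ 0 → |q ζ ζ / (g ζ ζ) ^ 2| ≤ A / ‖ζ‖ ^ 2) ∧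
    (∀ z ζ : E4, z ≠ 0 → ‖ζ - z‖ ≤ ‖z‖ / 2 →
      |q ζ ζ / (g ζ ζ) ^ 2 - q z z / (g z z) ^ 2| ≤ A * ‖ζ - z‖ / ‖z‖ ^ 3) := by
  set L := max Lam 0 with hL
  have hL0 : 0 ≤ L := le_max_right _ _
  refine ⟨L / lam ^ 2 + 40 * L / lam ^ 2 + 130 * L ^ 3 / lam ^ 4, by positivity, ?_⟩
  intro q g hg hgL hqL
  have hgL' : ‖g‖ ≤ L := hgL.trans (le_max_left _ _)
  have hqL' : ‖q‖ ≤ L := hqL.trans (le_max_left _ _)
  refine ⟨(continuous_quad q).measurable.div ((continuous_quad g).measurable.pow_const 2), ?_, ?_⟩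
  · intro ζ hζ
    have hn : 0 < ‖ζ‖ := norm_pos_iff.mpr hζ
    have h1 := quad_le q hqL' ζ
    have h2 := hg ζ
    have h3 : 0 < g ζ ζ := lt_of_lt_of_le (by positivity) h2
    rw [abs_div, abs_of_pos (show 0 < (g ζ ζ) ^ 2 by positivity)]
    have h4 : (lam * ‖ζ‖ ^ 2) ^ 2 ≤ (g ζ ζ) ^ 2 := pow_le_pow_left₀ (by positivity) h2 2
    calc |q ζ ζ| / (g ζ ζ) ^ 2 ≤ (L * ‖ζ‖ ^ 2) / (lam * ‖ζ‖ ^ 2) ^ 2 := by
          gcongr
      _ = L / lam ^ 2 / ‖ζ‖ ^ 2 := by field_simp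
      _ ≤ _ := by
          gcongr
          have : 0 ≤ 40 * L / lam ^ 2 := by positivity
          have : 0 ≤ 130 * L ^ 3 / lam ^ 4 := by positivity
          linarith
  · intro z ζ hz hzζ
    have hn : 0 < ‖z‖ := norm_pos_iff.mpr hz
    have hd1 := quad_sub_le q hqL' z ζ hzζ
    have hd2 := quad_sub_le g hgL' z ζ hzζ
    have hζn : ‖z‖ / 2 ≤ ‖ζ‖ := by
      have h5 := norm_add_le ζ (z - ζ)
      rw [add_sub_cancel] at h5
      rw [norm_sub_rev] at hzζ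
      linarith
    have hζn2 : ‖ζ‖ ≤ (3 / 2) * ‖z‖ := by
      have := norm_add_le (ζ - z) z
      rw [sub_add_cancel] at this
      linarith
    have hgz := hg z
    have hgz0 : 0 < g z z := lt_of_lt_of_le (by positivity) hgz
    have hgζ : lam * ‖z‖ ^ 2 / 4 ≤ g ζ ζ := by
      refine le_trans ?_ (hg ζ)
      have : (‖z‖ / 2) ^ 2 ≤ ‖ζ‖ ^ 2 := pow_le_pow_left₀ (by positivity) hζn 2
      have h6 : lam * (‖z‖ / 2) ^ 2 ≤ lam * ‖ζ‖ ^ 2 := by gcongr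
      calc lam * ‖z‖ ^ 2 / 4 = lam * (‖z‖ / 2) ^ 2 := by ring
        _ ≤ _ := h6
    have hgζ0 : 0 < g ζ ζ := lt_of_lt_of_le (by positivity) hgζ
    have hqz := quad_le q hqL' z
    have hgz2 := quad_le g hgL' z
    have hgζ2 := quad_le g hgL' ζ
    have hsplit : q ζ ζ / (g ζ ζ) ^ 2 - q z z / (g z z) ^ 2 =
        (q ζ ζ - q z z) / (g ζ ζ) ^ 2 -
          q z z * ((g ζ ζ - g z z) * (g ζ ζ + g z z)) / ((g ζ ζ) ^ 2 * (g z z) ^ 2) := by
      field_simp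
      ring
    have hd := norm_nonneg (ζ - z)
    have t1 : |(q ζ ζ - q z z) / (g ζ ζ) ^ 2| ≤ 40 * L / lam ^ 2 * ‖ζ - z‖ / ‖z‖ ^ 3 := by
      rw [abs_div, abs_of_pos (show 0 < (g ζ ζ) ^ 2 by positivity)]
      have h4 : (lam * ‖z‖ ^ 2 / 4) ^ 2 ≤ (g ζ ζ) ^ 2 := pow_le_pow_left₀ (by positivity) hgζ 2
      calc |q ζ ζ - q z z| / (g ζ ζ) ^ 2
          ≤ (L * (5 / 2) * ‖ζ - z‖ * ‖z‖) / (lam * ‖z‖ ^ 2 / 4) ^ 2 := by gcongr
        _ = _ := by field_simp; ring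
    have hsum : |g ζ ζ + g z z| ≤ L * (13 / 4) * ‖z‖ ^ 2 := by
      have h7 : ‖ζ‖ ^ 2 ≤ ((3 / 2) * ‖z‖) ^ 2 := pow_le_pow_left₀ (norm_nonneg _) hζn2 2
      have h8 : L * ‖ζ‖ ^ 2 ≤ L * ((3 / 2) * ‖z‖) ^ 2 := by gcongr
      calc |g ζ ζ + g z z| ≤ |g ζ ζ| + |g z z| := abs_add_le _ _
        _ ≤ L * ((3 / 2) * ‖z‖) ^ 2 + L * ‖z‖ ^ 2 := by linarith
        _ = _ := by ring
    have t2 : |q z z * ((g ζ ζ - g z z) * (g ζ ζ + g z z)) / ((g ζ ζ) ^ 2 * (g z z) ^ 2)| ≤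
        130 * L ^ 3 / lam ^ 4 * ‖ζ - z‖ / ‖z‖ ^ 3 := by
      rw [abs_div, abs_of_pos (show 0 < (g ζ ζ) ^ 2 * (g z z) ^ 2 by positivity), abs_mul, abs_mul]
      have h4 : (lam * ‖z‖ ^ 2 / 4) ^ 2 ≤ (g ζ ζ) ^ 2 := pow_le_pow_left₀ (by positivity) hgζ 2
      have h5 : (lam * ‖z‖ ^ 2) ^ 2 ≤ (g z z) ^ 2 := pow_le_pow_left₀ (by positivity) hgz 2
      calc |q z z| * (|g ζ ζ - g z z| * |g ζ ζ + g z z|) / ((g ζ ζ) ^ 2 * (g z z) ^ 2)
          ≤ (L * ‖z‖ ^ 2) * ((L * (5 / 2) * ‖ζ - z‖ * ‖z‖) * (L * (13 / 4) * ‖z‖ ^ 2)) /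
            ((lam * ‖z‖ ^ 2 / 4) ^ 2 * (lam * ‖z‖ ^ 2) ^ 2) := by gcongr
        _ = _ := by field_simp; ring
    rw [hsplit]
    calc |(q ζ ζ - q z z) / (g ζ ζ) ^ 2 -
          q z z * ((g ζ ζ - g z z) * (g ζ ζ + g z z)) / ((g ζ ζ) ^ 2 * (g z z) ^ 2)|
        ≤ |(q ζ ζ - q z z) / (g ζ ζ) ^ 2| +
          |q z z * ((g ζ ζ - g z z) * (g ζ ζ + g z z)) / ((g ζ ζ) ^ 2 * (g z z) ^ 2)| := abs_sub _ _
      _ ≤ 40 * L / lam ^ 2 * ‖ζ - z‖ / ‖z‖ ^ 3 + 130 * L ^ 3 / lam ^ 4 * ‖ζ - z‖ / ‖z‖ ^ 3 :=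
          add_le_add t1 t2
      _ ≤ _ := by
          have : 0 ≤ L / lam ^ 2 * ‖ζ - z‖ / ‖z‖ ^ 3 := by positivity
          have e2 : (L / lam ^ 2 + 40 * L / lam ^ 2 + 130 * L ^ 3 / lam ^ 4) * ‖ζ - z‖ / ‖z‖ ^ 3 =
            L / lam ^ 2 * ‖ζ - z‖ / ‖z‖ ^ 3 + (40 * L / lam ^ 2 * ‖ζ - z‖ / ‖z‖ ^ 3 +
              130 * L ^ 3 / lam ^ 4 * ‖ζ - z‖ / ‖z‖ ^ 3) := by ring
          rw [e2]
          linarith

/-- (LB) lower bound of the mollified `1/g`. -/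
theorem kerlow {lam Lam : ℝ} (hlam : 0 < lam) : ∃ c : ℝ, 0 < c ∧ ∀ g : Bil,
    (∀ v, lam * ‖v‖ ^ 2 ≤ g v v) → ‖g‖ ≤ Lam → ∀ (e : ℝ) (σ : E4 → ℝ), 0 < e →
    Continuous σ → (∀ z, 0 ≤ σ z) → (∀ z, e < ‖z‖ → σ z = 0) → ∫ z, σ z = 1 →
    ∀ z, c / (‖z‖ + e) ^ 2 ≤ ∫ ζ, σ (z - ζ) / g ζ ζ := by
  set L := max Lam 1 with hL
  have hL0 : 0 < L := lt_of_lt_of_le one_pos (le_max_right _ _)
  refine ⟨1 / L, by positivity, ?_⟩
  intro g hg hgL e σ he hσ hσ0 hs h1 z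
  have hgL' : ‖g‖ ≤ L := hgL.trans (le_max_left _ _)
  have h0 : ∀ᵐ ζ : E4, ζ ≠ 0 := by
    have := (measure_singleton (μ := (volume : Measure E4)) (0 : E4))
    rw [ae_iff]; simp
  have hmeas : Measurable fun ζ : E4 => 1 / g ζ ζ :=
    measurable_const.div (continuous_quad g).measurable
  have hb : ∀ ζ : E4, ζ ≠ 0 → |1 / g ζ ζ| ≤ (1 / lam) / ‖ζ‖ ^ 2 := by
    intro ζ hζ
    have hn : 0 < ‖ζ‖ := norm_pos_iff.mpr hζ
    have h3 : 0 < g ζ ζ := lt_of_lt_of_le (by positivity) (hg ζ)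
    rw [abs_of_pos (by positivity), div_div]
    exact one_div_le_one_div_of_le (by positivity) (hg ζ)
  have hint1 : Integrable fun ζ => σ (z - ζ) * (1 / g ζ ζ) :=
    int_conv hσ hs z (intOn_ker hmeas hb)
  have hn : 0 < ‖z‖ + e := by positivity
  have hint2 : Integrable fun ζ => σ (z - ζ) * (1 / L / (‖z‖ + e) ^ 2) :=
    int_conv (m := fun _ => 1 / L / (‖z‖ + e) ^ 2) hσ hs z
      (fun z r => integrableOn_const (by exact measure_closedBall_lt_top.ne))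
  have hi : ∫ ζ, σ (z - ζ) * (1 / L / (‖z‖ + e) ^ 2) = 1 / L / (‖z‖ + e) ^ 2 := by
    rw [integral_mul_const, integral_sub_left_eq_self (fun ζ => σ ζ) volume z, h1, one_mul]
  have he2 : ∫ ζ, σ (z - ζ) / g ζ ζ = ∫ ζ, σ (z - ζ) * (1 / g ζ ζ) := by
    congr 1; funext ζ; rw [mul_one_div]
  rw [he2]
  rw [← hi]
  apply integral_mono_ae hint2 hint1
  filter_upwards [h0] with ζ hζ
  have hζn : 0 < ‖ζ‖ := norm_pos_iff.mpr hζ
  by_cases hle : ‖z - ζ‖ ≤ e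
  · apply mul_le_mul_of_nonneg_left _ (hσ0 _)
    have h3 : 0 < g ζ ζ := lt_of_lt_of_le (by positivity) (hg ζ)
    rw [div_div]
    apply one_div_le_one_div_of_le h3
    have h4 := quad_le g hgL' ζ
    rw [abs_of_pos h3] at h4
    refine h4.trans ?_
    have h5 : ‖ζ‖ ≤ ‖z‖ + e := by
      have := norm_sub_le z (z - ζ)
      rw [sub_sub_cancel] at this
      linarith
    gcongr
  · show σ (z - ζ) * _ ≤ σ (z - ζ) * _
    rw [hs _ (not_le.mp hle), zero_mul, zero_mul]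

end mk

end Crest.Agent.R240.Pot
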