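import Mathlib
import Crest.Agent.R240.Lin1

/-!
Row 240 (S0371), Part P: the smoothing lemma.  `SS μ p w σ x = ∫ w(t) σ(x - p t) dμ(t)` is smooth
for integrable `w` and smooth compactly supported `σ`, with the expected derivatives.
-/

set_option autoImplicit false
open scoped ContDiff
open MeasureTheory

namespace Crest.Agent.R240.Pot

variable {Ω : Type*} [MeasurableSpace Ω]

/-- smoothing of a weight by a kernel -/
noncomputable def SS (μ : Measure Ω) (p : Ω → E4) (w : Ω → ℝ) (σ : E4 → ℝ) (x : E4) : ℝ :=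
  ∫ t, w t * σ (x - p t) ∂μ

/-- directional derivative of a function -/
noncomputable def dd (σ : E4 → ℝ) (v : E4) : E4 → ℝ := fun z => fderiv ℝ σ z v

lemma dd_contDiff {σ : E4 → ℝ} (hσ : ContDiff ℝ ∞ σ) (v : E4) : ContDiff ℝ ∞ (dd σ v) :=
  (hσ.fderiv_right (m := ∞) le_rfl).clm_apply contDiff_const

lemma dd_compact {σ : E4 → ℝ} (hc : HasCompactSupport σ) (v : E4) : HasCompactSupport (dd σ v) :=
  hc.fderiv_apply (𝕜 := ℝ) v

lemma exists_bd {V : Type*} [NormedAddCommGroup V] {σ : E4 → V} (hσ : Continuous σ)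
    (hc : HasCompactSupport σ) : ∃ C, 0 ≤ C ∧ ∀ x, ‖σ x‖ ≤ C := by
  obtain ⟨C, hC⟩ := hc.exists_bound_of_continuous hσ
  exact ⟨max C 0, le_max_right _ _, fun x => (hC x).trans (le_max_left _ _)⟩

variable {μ : Measure Ω} {p : Ω → E4} {w : Ω → ℝ}

lemma SS_integrable (hw : Integrable w μ) (hp : Measurable p) {σ : E4 → ℝ} (hσ : Continuous σ)
    (hc : HasCompactSupport σ) (x : E4) : Integrable (fun t => w t * σ (x - p t)) μ := by
  obtain ⟨C, hC0, hC⟩ := exists_bd hσ hc
  refine (hw.mul_const C).mono (hw.aestronglyMeasurable.mul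
    ((hσ.measurable.comp (measurable_const.sub hp)).aestronglyMeasurable)) ?_
  refine Filter.Eventually.of_forall fun t => ?_
  simp only [norm_mul]
  exact mul_le_mul_of_nonneg_left ((hC _).trans (le_abs_self C)) (norm_nonneg _)

theorem SS_hasFDerivAt (hw : Integrable w μ) (hp : Measurable p) {σ : E4 → ℝ}
    (hσ : ContDiff ℝ ∞ σ) (hc : HasCompactSupport σ) (x : E4) :
    HasFDerivAt (SS μ p w σ) (∫ t, w t • fderiv ℝ σ (x - p t) ∂μ) x := by
  have hcd : HasCompactSupport (fderiv ℝ σ) := hc.fderiv (𝕜 := ℝ)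
  have hcont : Continuous (fderiv ℝ σ) := hσ.continuous_fderiv (by simp)
  obtain ⟨C, hC0, hC⟩ := exists_bd hcont hcd
  have hmeas : ∀ x, AEStronglyMeasurable (fun t => w t • fderiv ℝ σ (x - p t)) μ := fun x =>
    hw.aestronglyMeasurable.smul
      ((hcont.measurable.comp (measurable_const.sub hp)).aestronglyMeasurable)
  refine hasFDerivAt_integral_of_dominated_of_fderiv_le (s := Set.univ)
    (F := fun x t => w t * σ (x - p t)) (F' := fun x t => w t • fderiv ℝ σ (x - p t))
    (bound := fun t => ‖w t‖ * C) Filter.univ_mem ?_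
    (SS_integrable hw hp hσ.continuous hc x) (hmeas x) ?_ (hw.norm.mul_const C) ?_
  · exact Filter.Eventually.of_forall fun y =>
      (SS_integrable hw hp hσ.continuous hc y).aestronglyMeasurable
  · refine Filter.Eventually.of_forall fun t y _ => ?_
    rw [norm_smul]
    exact mul_le_mul_of_nonneg_left (hC _) (norm_nonneg _)
  · refine Filter.Eventually.of_forall fun t y _ => ?_
    have h1 : HasFDerivAt σ (fderiv ℝ σ (y - p t)) (y - p t) :=
      ((hσ.differentiable (by simp)) _).hasFDerivAt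
    have h2 : HasFDerivAt (fun y => σ (y - p t)) (fderiv ℝ σ (y - p t)) y :=
      (hasFDerivAt_comp_sub (p t)).2 h1
    exact h2.const_mul (w t)

theorem SS_fderiv (hw : Integrable w μ) (hp : Measurable p) {σ : E4 → ℝ}
    (hσ : ContDiff ℝ ∞ σ) (hc : HasCompactSupport σ) (x v : E4) :
    fderiv ℝ (SS μ p w σ) x v = SS μ p w (dd σ v) x := by
  rw [(SS_hasFDerivAt hw hp hσ hc x).fderiv]
  have hcd : HasCompactSupport (fderiv ℝ σ) := hc.fderiv (𝕜 := ℝ)
  have hcont : Continuous (fderiv ℝ σ) := hσ.continuous_fderiv (by simp)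
  obtain ⟨C, hC0, hC⟩ := exists_bd hcont hcd
  have hint : Integrable (fun t => w t • fderiv ℝ σ (x - p t)) μ := by
    refine (hw.norm.mul_const C).mono (hw.aestronglyMeasurable.smul
      ((hcont.measurable.comp (measurable_const.sub hp)).aestronglyMeasurable)) ?_
    refine Filter.Eventually.of_forall fun t => ?_
    rw [norm_smul, norm_mul, norm_norm]
    exact mul_le_mul_of_nonneg_left ((hC _).trans (le_abs_self C)) (norm_nonneg _)
  rw [ContinuousLinearMap.integral_apply hint]
  rfl

theorem SS_contDiff (hw : Integrable w μ) (hp : Measurable p) {σ : E4 → ℝ}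
    (hσ : ContDiff ℝ ∞ σ) (hc : HasCompactSupport σ) : ContDiff ℝ ∞ (SS μ p w σ) := by
  rw [contDiff_infty]
  intro n
  induction n generalizing σ with
  | zero =>
    refine contDiff_zero.2 ?_
    exact continuous_iff_continuousAt.2 fun x => (SS_hasFDerivAt hw hp hσ hc x).continuousAt
  | succ n ih =>
    have : ((n + 1 : ℕ) : WithTop ℕ∞) = (n : WithTop ℕ∞) + 1 := by norm_cast
    rw [this, contDiff_succ_iff_fderiv_apply]
    refine ⟨fun x => (SS_hasFDerivAt hw hp hσ hc x).differentiableAt, by simp, fun v => ?_⟩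
    have h1 : (fun x => fderiv ℝ (SS μ p w σ) x v) = SS μ p w (dd σ v) := by
      funext x; exact SS_fderiv hw hp hσ hc x v
    rw [h1]
    exact ih (dd_contDiff hσ v) (dd_compact hc v)

end Crest.Agent.R240.Pot
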