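import Mathlib
import Crest.Agent.R240.Lin1
import Crest.Agent.R240.PotS

/-!
Row 240 (S0371), Part P: vector version of the smoothing lemma.
`GG μ p T r x = ∫ T(t)(r(x - p t)) dμ(t)` for `r : E4 → V` smooth compactly supported (V finite
dimensional) and a family of linear functionals `T t : V →ₗ[ℝ] ℝ` with `T · v` integrable for all v.
-/

set_option autoImplicit false
set_option maxSynthPendingDepth 3
open scoped ContDiff
open MeasureTheory

namespace Crest.Agent.R240.Pot

variable {Ω : Type*} [MeasurableSpace Ω]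
variable {V : Type*} [NormedAddCommGroup V] [NormedSpace ℝ V] [FiniteDimensional ℝ V]

/-- vector smoothing -/
noncomputable def GG (μ : Measure Ω) (p : Ω → E4) (T : Ω → V →ₗ[ℝ] ℝ) (r : E4 → V) (x : E4) : ℝ :=
  ∫ t, T t (r (x - p t)) ∂μ

/-- directional derivative of a vector function -/
noncomputable def ddv (r : E4 → V) (v : E4) : E4 → V := fun z => fderiv ℝ r z v

lemma ddv_contDiff {r : E4 → V} (hr : ContDiff ℝ ∞ r) (v : E4) : ContDiff ℝ ∞ (ddv r v) :=
  (hr.fderiv_right (m := ∞) le_rfl).clm_apply contDiff_const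

lemma ddv_compact {r : E4 → V} (hc : HasCompactSupport r) (v : E4) : HasCompactSupport (ddv r v) :=
  hc.fderiv_apply (𝕜 := ℝ) v

/-- coordinate functions of a vector function, w.r.t. the standard basis of `V` -/
noncomputable def cf (r : E4 → V) (k : Module.Basis.ofVectorSpaceIndex ℝ V) : E4 → ℝ := fun z =>
  (Module.Basis.ofVectorSpace ℝ V).repr (r z) k

noncomputable instance instFinIdx : Fintype (Module.Basis.ofVectorSpaceIndex ℝ V) :=
  FiniteDimensional.fintypeBasisIndex (Module.Basis.ofVectorSpace ℝ V)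

/-- the coordinate functional as continuous linear map -/
noncomputable def cfl (k : Module.Basis.ofVectorSpaceIndex ℝ V) : V →L[ℝ] ℝ :=
  LinearMap.toContinuousLinearMap ((Module.Basis.ofVectorSpace ℝ V).coord k)

lemma cf_eq (r : E4 → V) (k : Module.Basis.ofVectorSpaceIndex ℝ V) (z : E4) :
    cf r k z = cfl k (r z) := rfl

lemma cf_contDiff {r : E4 → V} (hr : ContDiff ℝ ∞ r) (k : Module.Basis.ofVectorSpaceIndex ℝ V) :
    ContDiff ℝ ∞ (cf r k) := by
  have h : cf r k = fun z => cfl k (r z) := rfl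
  rw [h]
  exact (cfl k).contDiff.comp hr

lemma cf_compact {r : E4 → V} (hc : HasCompactSupport r)
    (k : Module.Basis.ofVectorSpaceIndex ℝ V) : HasCompactSupport (cf r k) := by
  have h : cf r k = (cfl k) ∘ r := rfl
  rw [h]
  exact hc.comp_left (map_zero _)

lemma cf_ddv {r : E4 → V} (hr : ContDiff ℝ ∞ r) (k : Module.Basis.ofVectorSpaceIndex ℝ V) (v : E4) :
    cf (ddv r v) k = dd (cf r k) v := by
  funext z
  have h1 : HasFDerivAt (cf r k) ((cfl k).comp (fderiv ℝ r z)) z :=
    (cfl k).hasFDerivAt.comp z ((hr.differentiable (by simp)) z).hasFDerivAt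
  simp only [dd, h1.fderiv]
  rfl

lemma vec_expand (T : V →ₗ[ℝ] ℝ) (v : V) :
    T v = ∑ k, T (Module.Basis.ofVectorSpace ℝ V k) * (Module.Basis.ofVectorSpace ℝ V).repr v k := by
  conv_lhs => rw [← (Module.Basis.ofVectorSpace ℝ V).sum_repr v]
  rw [map_sum]
  refine Finset.sum_congr rfl fun k _ => ?_
  rw [map_smul, smul_eq_mul, mul_comm]

variable {μ : Measure Ω} {p : Ω → E4} {T : Ω → V →ₗ[ℝ] ℝ}

lemma GG_integrable (hT : ∀ v, Integrable (fun t => T t v) μ) (hp : Measurable p) {r : E4 → V}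
    (hr : Continuous r) (hc : HasCompactSupport r) (x : E4) :
    Integrable (fun t => T t (r (x - p t))) μ := by
  have h : (fun t => T t (r (x - p t))) = fun t =>
      ∑ k, T t (Module.Basis.ofVectorSpace ℝ V k) * cf r k (x - p t) := by
    funext t; exact vec_expand _ _
  rw [h]
  refine integrable_finsetSum _ fun k _ => ?_
  exact SS_integrable (hT _) hp ((cfl k).continuous.comp hr) (cf_compact hc k) x

lemma GG_eq (hT : ∀ v, Integrable (fun t => T t v) μ) (hp : Measurable p) {r : E4 → V}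
    (hr : Continuous r) (hc : HasCompactSupport r) :
    GG μ p T r = fun x => ∑ k, SS μ p (fun t => T t (Module.Basis.ofVectorSpace ℝ V k)) (cf r k) x := by
  funext x
  have h : (fun t => T t (r (x - p t))) = fun t =>
      ∑ k, T t (Module.Basis.ofVectorSpace ℝ V k) * cf r k (x - p t) := by
    funext t; exact vec_expand _ _
  unfold GG
  rw [h, integral_finsetSum]
  · rfl
  · intro k _
    exact SS_integrable (hT _) hp ((cfl k).continuous.comp hr) (cf_compact hc k) x

theorem GG_contDiff (hT : ∀ v, Integrable (fun t => T t v) μ) (hp : Measurable p) {r : E4 → V}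
    (hr : ContDiff ℝ ∞ r) (hc : HasCompactSupport r) : ContDiff ℝ ∞ (GG μ p T r) := by
  rw [GG_eq hT hp hr.continuous hc]
  exact ContDiff.sum fun k _ => SS_contDiff (hT _) hp (cf_contDiff hr k) (cf_compact hc k)

theorem GG_fderiv (hT : ∀ v, Integrable (fun t => T t v) μ) (hp : Measurable p) {r : E4 → V}
    (hr : ContDiff ℝ ∞ r) (hc : HasCompactSupport r) (x v : E4) :
    fderiv ℝ (GG μ p T r) x v = GG μ p T (ddv r v) x := by
  rw [GG_eq hT hp hr.continuous hc, GG_eq hT hp (ddv_contDiff hr v).continuous (ddv_compact hc v)]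
  have hd : ∀ k, DifferentiableAt ℝ
      (SS μ p (fun t => T t (Module.Basis.ofVectorSpace ℝ V k)) (cf r k)) x := fun k =>
    ((SS_contDiff (hT _) hp (cf_contDiff hr k) (cf_compact hc k)).differentiable (by simp)) x
  rw [fderiv_fun_sum fun k _ => hd k, ContinuousLinearMap.sum_apply]
  refine Finset.sum_congr rfl fun k _ => ?_
  rw [SS_fderiv (hT _) hp (cf_contDiff hr k) (cf_compact hc k), cf_ddv hr]

/-! ### covectors from components -/

/-- coordinate covector -/
noncomputable def co (l : Fin 4) : E4 →L[ℝ] ℝ := EuclideanSpace.proj l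

@[simp] lemma co_apply (l : Fin 4) (v : E4) : co l v = v l := rfl

lemma co_expand (ξ : E4 →L[ℝ] ℝ) : ξ = ∑ l, ξ (ee l) • co l := by
  ext v
  conv_lhs => rw [sum_ee v]
  simp [Fin.sum_univ_four, map_add, map_smul, mul_comm]

/-- covector field from scalar components `f x w` (linear in `w`) -/
noncomputable def mkCov (f : E4 → E4 → ℝ) (x : E4) : E4 →L[ℝ] ℝ := ∑ l, f x (ee l) • co l

lemma mkCov_apply {f : E4 → E4 → ℝ} {x : E4} (hadd : ∀ v w, f x (v + w) = f x v + f x w)
    (hsmul : ∀ (c : ℝ) v, f x (c • v) = c * f x v) (w : E4) : mkCov f x w = f x w := by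
  conv_rhs => rw [sum_ee w]
  simp only [mkCov, Fin.sum_univ_four, hadd, hsmul]
  simp [mul_comm]

lemma mkCov_contDiff {f : E4 → E4 → ℝ} (hf : ∀ l, ContDiff ℝ ∞ fun x => f x (ee l)) :
    ContDiff ℝ ∞ (mkCov f) := by
  unfold mkCov
  exact ContDiff.sum fun l _ => (hf l).smul contDiff_const

lemma fderiv_apply_comm {S : E4 → E4 →L[ℝ] ℝ} {x : E4} (hS : DifferentiableAt ℝ S x) (v w : E4) :
    fderiv ℝ S x v w = fderiv ℝ (fun z => S z w) x v := by
  have h1 : HasFDerivAt (fun z => S z w) _ x := hS.hasFDerivAt.clm_apply (hasFDerivAt_const w x)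
  rw [h1.fderiv]; simp

end Crest.Agent.R240.Pot
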