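import Mathlib
import Crest.Agent.R240.Lin1
import Crest.Agent.R240.PotS
import Crest.Agent.R240.PotGG
import Crest.Agent.R240.PotGeo
import Crest.Agent.R240.FrKer

/-!
Row 240 (S0371), Part P: weights `h(y) q_y(ζ,ζ)/g_y(ζ,ζ)^2` on `E4 × closedBall 0 ρ`,
integrability, Fubini.
-/

set_option autoImplicit false
set_option maxSynthPendingDepth 3
open scoped ContDiff
open MeasureTheory Metric

namespace Crest.Agent.R240.Pot

/-! ### uniform ellipticity on balls -/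

lemma exists_lower {g : E4 → Bil} (hg : Continuous g) (hp : ∀ y v, v ≠ 0 → 0 < g y v v)
    (c : E4) (R : ℝ) : ∃ lam : ℝ, 0 < lam ∧ ∀ y ∈ closedBall c R, ∀ v, lam * ‖v‖ ^ 2 ≤ g y v v := by
  by_cases hR : 0 ≤ R
  · have hK : IsCompact (closedBall c R ×ˢ sphere (0 : E4) 1) :=
      (isCompact_closedBall c R).prod (isCompact_sphere 0 1)
    have hne : (closedBall c R ×ˢ sphere (0 : E4) 1).Nonempty :=
      ⟨(c, ee 0), mem_closedBall_self hR, by simp [ee]⟩
    have hcont : Continuous fun t : E4 × E4 => g t.1 t.2 t.2 :=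
      ((hg.comp continuous_fst).clm_apply continuous_snd).clm_apply continuous_snd
    obtain ⟨t0, ht0, hmin⟩ := hK.exists_isMinOn hne hcont.continuousOn
    have ht0' : t0.2 ≠ 0 := by
      have h1 : ‖t0.2‖ = 1 := by simpa using ht0.2
      intro h; rw [h] at h1; simp at h1
    refine ⟨g t0.1 t0.2 t0.2, hp _ _ ht0', fun y hy v => ?_⟩
    by_cases hv : v = 0
    · simp [hv]
    have hn : 0 < ‖v‖ := norm_pos_iff.2 hv
    have h1 : (y, ‖v‖⁻¹ • v) ∈ closedBall c R ×ˢ sphere (0 : E4) 1 := by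
      refine ⟨hy, ?_⟩
      simp [norm_smul, hn.ne']
    have h2 : g t0.1 t0.2 t0.2 ≤ g y (‖v‖⁻¹ • v) (‖v‖⁻¹ • v) := hmin h1
    rw [map_smul, map_smul, smul_apply, smul_eq_mul, smul_eq_mul] at h2
    have h3 : ‖v‖⁻¹ * (‖v‖⁻¹ * g y v v) * ‖v‖ ^ 2 = g y v v := by
      field_simp
    calc g t0.1 t0.2 t0.2 * ‖v‖ ^ 2 ≤ ‖v‖⁻¹ * (‖v‖⁻¹ * g y v v) * ‖v‖ ^ 2 := by gcongr
      _ = g y v v := h3
  · refine ⟨1, one_pos, fun y hy => ?_⟩
    exfalso
    rw [closedBall_eq_empty.2 (not_le.1 hR)] at hy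
    exact hy

lemma exists_upper {V : Type*} [NormedAddCommGroup V] {g : E4 → V} (hg : Continuous g)
    (c : E4) (R : ℝ) : ∃ Lam : ℝ, 0 < Lam ∧ ∀ y ∈ closedBall c R, ‖g y‖ ≤ Lam := by
  obtain ⟨C, hC⟩ := (isCompact_closedBall c R).exists_bound_of_continuousOn hg.continuousOn
  exact ⟨max C 1, lt_max_of_lt_right one_pos, fun y hy => (hC y hy).trans (le_max_left _ _)⟩

/-- the elementary kernel `m_{q,g}(ζ) = q(ζ,ζ)/g(ζ,ζ)^2` -/
noncomputable def kk (q g : Bil) (ζ : E4) : ℝ := q ζ ζ / (g ζ ζ) ^ 2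

lemma kk_bd {q g : Bil} {lam Lam : ℝ} (hl : 0 < lam) (hg : ∀ v, lam * ‖v‖ ^ 2 ≤ g v v)
    (hq : ‖q‖ ≤ Lam) (ζ : E4) : |kk q g ζ| ≤ (Lam / lam ^ 2) * (1 / ‖ζ‖ ^ 2) := by
  by_cases hz : ζ = 0
  · simp [kk, hz]
  have hn : 0 < ‖ζ‖ := norm_pos_iff.2 hz
  have h1 : |q ζ ζ| ≤ Lam * ‖ζ‖ ^ 2 := by
    have := q.le_opNorm₂ ζ ζ
    rw [Real.norm_eq_abs] at this
    calc |q ζ ζ| ≤ ‖q‖ * ‖ζ‖ * ‖ζ‖ := this
      _ ≤ Lam * ‖ζ‖ * ‖ζ‖ := by gcongr
      _ = _ := by ring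
  have h2 : 0 < lam * ‖ζ‖ ^ 2 := by positivity
  have h3 : (lam * ‖ζ‖ ^ 2) ^ 2 ≤ (g ζ ζ) ^ 2 := by
    have := hg ζ
    gcongr
  unfold kk
  rw [abs_div, abs_of_nonneg (sq_nonneg (g ζ ζ))]
  have hL : 0 ≤ Lam := le_trans (norm_nonneg _) hq
  calc |q ζ ζ| / (g ζ ζ) ^ 2 ≤ (Lam * ‖ζ‖ ^ 2) / (lam * ‖ζ‖ ^ 2) ^ 2 := by
        gcongr
    _ = _ := by field_simp

lemma kk_of_smul (k : ℝ) (g : Bil) (ζ : E4) : kk (k • g) g ζ = k / g ζ ζ := by
  unfold kk
  have h : (k • g) ζ ζ = k * g ζ ζ := rfl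
  rw [h]
  by_cases h0 : g ζ ζ = 0
  · simp [h0]
  · field_simp

/-- the base measure -/
noncomputable def muP (s : Measure E4) (r : ℝ) : Measure (E4 × E4) :=
  s.prod (volume.restrict (closedBall (0 : E4) r))

/-- the base map -/
def pP (t : E4 × E4) : E4 := t.1 + t.2

lemma pP_meas : Measurable pP := measurable_fst.add measurable_snd

/-- weights -/
noncomputable def wq (g q : E4 → Bil) (h : E4 → ℝ) (t : E4 × E4) : ℝ :=
  h t.1 * kk (q t.1) (g t.1) t.2

lemma kk_meas {g q : E4 → Bil} (hg : Continuous g) (hq : Continuous q) :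
    Measurable fun t : E4 × E4 => kk (q t.1) (g t.1) t.2 := by
  have h1 : Continuous fun t : E4 × E4 => g t.1 t.2 t.2 :=
    ((hg.comp continuous_fst).clm_apply continuous_snd).clm_apply continuous_snd
  have h2 : Continuous fun t : E4 × E4 => q t.1 t.2 t.2 :=
    ((hq.comp continuous_fst).clm_apply continuous_snd).clm_apply continuous_snd
  exact h2.measurable.div (h1.measurable.pow_const 2)

/-- local integrability of `|ζ|^{-2}` in `R^4` -/
theorem invSqInt (r : ℝ) : IntegrableOn (fun ζ : E4 => 1 / ‖ζ‖ ^ 2) (closedBall 0 r) volume := by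
  have h := (Fr.locInt_inv_pow 2 (by norm_num)).integrableOn_isCompact (isCompact_closedBall (0 : E4) r)
  simpa [one_div] using h

variable {g q : E4 → Bil} {h : E4 → ℝ} {s : Measure E4} {c : E4} {R r : ℝ}

/-- integrability of the weights -/
theorem wq_int [IsFiniteMeasure s] (hg : Continuous g)
    (hp : ∀ y v, v ≠ 0 → 0 < g y v v)
    (hq : Continuous q) (hq0 : ∀ y, y ∉ closedBall c R → q y = 0) (hh : Measurable h)
    {B : ℝ} (hB : ∀ y ∈ closedBall c R, |h y| ≤ B) : Integrable (wq g q h) (muP s r) := by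
  obtain ⟨lam, hl, hlow⟩ := exists_lower hg hp c R
  obtain ⟨Lam, hL, hup⟩ := exists_upper hq c R
  have hmaj : Integrable (fun t : E4 × E4 => (max B 0 * (Lam / lam ^ 2)) * (1 / ‖t.2‖ ^ 2))
      (muP s r) := by
    have h1 : Integrable (fun _ : E4 => max B 0 * (Lam / lam ^ 2)) s := integrable_const _
    exact h1.mul_prod (invSqInt r)
  refine hmaj.mono (((hh.comp measurable_fst).mul (kk_meas hg hq)).aestronglyMeasurable) ?_
  refine Filter.Eventually.of_forall fun t => ?_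
  rw [Real.norm_eq_abs, Real.norm_eq_abs]
  have hnn : 0 ≤ (max B 0 * (Lam / lam ^ 2)) * (1 / ‖t.2‖ ^ 2) := by
    have : 0 ≤ max B 0 := le_max_right _ _
    positivity
  rw [abs_of_nonneg hnn]
  by_cases ht : t.1 ∈ closedBall c R
  · have h2 := kk_bd hl (hlow _ ht) (hup _ ht) t.2
    unfold wq
    rw [abs_mul, mul_assoc]
    exact mul_le_mul ((hB _ ht).trans (le_max_left _ _)) h2 (abs_nonneg _) (le_max_right _ _)
  · unfold wq kk
    rw [hq0 _ ht]
    simpa using hnn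

/-- Fubini for the weights -/
theorem wq_fub [IsFiniteMeasure s] (hg : Continuous g)
    (hp : ∀ y v, v ≠ 0 → 0 < g y v v)
    (hq : Continuous q) (hq0 : ∀ y, y ∉ closedBall c R → q y = 0) (hh : Measurable h)
    {B : ℝ} (hB : ∀ y ∈ closedBall c R, |h y| ≤ B) {σ : E4 → ℝ} (hσ : Continuous σ) {e : ℝ}
    (hσ0 : ∀ z, e < ‖z‖ → σ z = 0) {x : E4} (hx : ∀ y ∈ closedBall c R, ‖x - y‖ + e ≤ r) :
    ∫ t, wq g q h t * σ (x - pP t) ∂(muP s r) =
      ∫ y, h y * (∫ ζ, σ (x - y - ζ) * kk (q y) (g y) ζ) ∂s := by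
  have hc : HasCompactSupport σ := by
    refine HasCompactSupport.intro (isCompact_closedBall (0 : E4) e) fun z hz => hσ0 z ?_
    simpa using hz
  have hint : Integrable (fun t => wq g q h t * σ (x - pP t)) (muP s r) :=
    SS_integrable (wq_int hg hp hq hq0 hh hB) pP_meas hσ hc x
  unfold muP at hint ⊢
  rw [integral_prod _ hint]
  refine integral_congr_ae (Filter.Eventually.of_forall fun y => ?_)
  simp only [wq, pP]
  by_cases hy : y ∈ closedBall c R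
  · have h0 : h y * ∫ ζ, σ (x - y - ζ) * kk (q y) (g y) ζ =
        ∫ ζ, h y * (σ (x - y - ζ) * kk (q y) (g y) ζ) := (integral_const_mul _ _).symm
    rw [h0]
    have h1 : ∀ ζ, ζ ∉ closedBall (0 : E4) r → h y * (σ (x - y - ζ) * kk (q y) (g y) ζ) = 0 := by
      intro ζ hζ
      have h2 : e < ‖x - y - ζ‖ := by
        have h3 : r < ‖ζ‖ := by simpa using hζ
        have h4 := hx y hy
        have h5 : ‖ζ‖ ≤ ‖x - y - ζ‖ + ‖x - y‖ := by
          calc ‖ζ‖ = ‖(x - y) - (x - y - ζ)‖ := by congr 1; abel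
            _ ≤ ‖x - y‖ + ‖x - y - ζ‖ := norm_sub_le _ _
            _ = _ := by ring
        linarith
      rw [hσ0 _ h2]; ring
    have h3 : ∫ ζ in closedBall (0 : E4) r, h y * (σ (x - y - ζ) * kk (q y) (g y) ζ) =
        ∫ ζ, h y * (σ (x - y - ζ) * kk (q y) (g y) ζ) :=
      setIntegral_eq_integral_of_forall_compl_eq_zero h1
    rw [← h3]
    refine integral_congr_ae (Filter.Eventually.of_forall fun ζ => ?_)
    simp only
    rw [show x - (y + ζ) = x - y - ζ by abel]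
    ring
  · have h2 : ∀ ζ, kk (q y) (g y) ζ = 0 := by intro ζ; simp [kk, hq0 y hy]
    simp [h2]

end Crest.Agent.R240.Pot
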