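import Mathlib
import Crest.Agent.R240.Lin1
import Crest.Agent.R240.En1
import Crest.Agent.R240.PotAlg
import Crest.Agent.R240.PotS
import Crest.Agent.R240.PotGG
import Crest.Agent.R240.PotGeo
import Crest.Agent.R240.PotW
import Crest.Agent.R240.PotFS

/-!
Row 240 (S0371), Part P: the smoothed frozen identity.
-/

set_option autoImplicit false
set_option maxSynthPendingDepth 3
open scoped ContDiff
open MeasureTheory Metric Crest.Agent.R240.En

namespace Crest.Agent.R240.Pot

/-! ### measurable functions bounded on the ball -/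

/-- measurable and bounded on `closedBall c R` -/
def MB (c : E4) (R : ℝ) (f : E4 → ℝ) : Prop :=
  Measurable f ∧ ∃ B, 0 ≤ B ∧ ∀ y ∈ closedBall c R, |f y| ≤ B

namespace MB

variable {c : E4} {R : ℝ} {f f' : E4 → ℝ}

lemma of_cont (hf : Continuous f) : MB c R f := by
  obtain ⟨L, hL, h⟩ := exists_upper hf c R
  exact ⟨hf.measurable, L, hL.le, h⟩

lemma const (a : ℝ) : MB c R fun _ => a := of_cont continuous_const

lemma add (h : MB c R f) (h' : MB c R f') : MB c R fun y => f y + f' y := by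
  obtain ⟨hm, B, hB0, hB⟩ := h
  obtain ⟨hm', B', hB0', hB'⟩ := h'
  exact ⟨hm.add hm', B + B', add_nonneg hB0 hB0', fun y hy =>
    (abs_add_le _ _).trans (add_le_add (hB y hy) (hB' y hy))⟩

lemma mul (h : MB c R f) (h' : MB c R f') : MB c R fun y => f y * f' y := by
  obtain ⟨hm, B, hB0, hB⟩ := h
  obtain ⟨hm', B', hB0', hB'⟩ := h'
  refine ⟨hm.mul hm', B * B', mul_nonneg hB0 hB0', fun y hy => ?_⟩
  rw [abs_mul]
  exact mul_le_mul (hB y hy) (hB' y hy) (abs_nonneg _) hB0

lemma neg (h : MB c R f) : MB c R fun y => - f y := by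
  obtain ⟨hm, B, hB0, hB⟩ := h
  exact ⟨hm.neg, B, hB0, fun y hy => by rw [abs_neg]; exact hB y hy⟩

lemma sub (h : MB c R f) (h' : MB c R f') : MB c R fun y => f y - f' y := by
  simpa [sub_eq_add_neg] using h.add h'.neg

lemma sum {ι : Type*} (t : Finset ι) {f : ι → E4 → ℝ} (h : ∀ i, MB c R (f i)) :
    MB c R fun y => ∑ i ∈ t, f i y := by
  classical
  induction t using Finset.induction_on with
  | empty => simpa using const (c := c) (R := R) 0
  | insert a t ha ih =>
    simp only [Finset.sum_insert ha]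
    exact (h a).add ih

end MB

/-! ### the linear functionals -/

/-- bilinear form as function -/
noncomputable abbrev fb (A : Bil) : E4 → E4 → ℝ := fun a b => A a b

lemma wed3_add (ξ η : Cov) (A : Bil) (u v w : E4) :
    wed3 (ξ + η : Cov) (fb A) u v w = wed3 ξ (fb A) u v w + wed3 η (fb A) u v w := by
  simp only [wed3, add_apply]; ring

lemma wed3_smul_cov (r : ℝ) (ξ : Cov) (A : Bil) (u v w : E4) :
    wed3 (r • ξ : Cov) (fb A) u v w = r * wed3 ξ (fb A) u v w := by
  simp only [wed3, smul_apply, smul_eq_mul]; ring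

/-- `ξ ↦ -(tr) ξ(J w)` -/
noncomputable def th1 (tr : ℝ) (J : E4 →L[ℝ] E4) (w : E4) : Cov →ₗ[ℝ] ℝ where
  toFun ξ := -(tr * ξ (J w))
  map_add' ξ η := by simp; ring
  map_smul' r ξ := by simp; ring

/-- `ξ ↦ L(ξ ∧ A)(w)` -/
noncomputable def th2 (G : Fin 4 → Fin 4 → ℝ) (J : E4 →L[ℝ] E4) (A : Bil) (w : E4) :
    Cov →ₗ[ℝ] ℝ where
  toFun ξ := Lop G J (wed3 ξ (fb A)) w
  map_add' ξ η := by
    simp only [Lop, wed3_add, mul_add, Finset.sum_add_distrib]
  map_smul' r ξ := by
    simp only [Lop, wed3_smul_cov, RingHom.id_apply, smul_eq_mul, Finset.mul_sum]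
    refine Finset.sum_congr rfl fun i _ => Finset.sum_congr rfl fun j _ => ?_
    ring

/-- `H ↦ Σ G^{ij} (H(e_i) ∧ A)(e_j, v, w)` -/
noncomputable def th3 (G : Fin 4 → Fin 4 → ℝ) (A : Bil) (v w : E4) : Bil →ₗ[ℝ] ℝ where
  toFun H := ctr G (fun i => wed3 (H (ee i)) (fb A)) v w
  map_add' H K := by
    simp only [ctr, add_apply, wed3_add, mul_add, Finset.sum_add_distrib]
  map_smul' r H := by
    simp only [ctr, smul_apply, wed3_smul_cov, RingHom.id_apply, smul_eq_mul, Finset.mul_sum]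
    refine Finset.sum_congr rfl fun i _ => Finset.sum_congr rfl fun j _ => ?_
    ring

/-- `H ↦ (tr_G H) A(v,w)` -/
noncomputable def thP (G : Fin 4 → Fin 4 → ℝ) (A : Bil) (v w : E4) : Bil →ₗ[ℝ] ℝ where
  toFun H := (∑ i, ∑ j, G i j * H (ee i) (ee j)) * A v w
  map_add' H K := by
    simp only [add_apply, mul_add, Finset.sum_add_distrib, add_mul]
  map_smul' r H := by
    simp only [smul_apply, RingHom.id_apply, smul_eq_mul]
    have h : ∑ i, ∑ j, G i j * (r * H (ee i) (ee j)) = r * ∑ i, ∑ j, G i j * H (ee i) (ee j) := by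
      rw [Finset.mul_sum]
      refine Finset.sum_congr rfl fun i _ => ?_
      rw [Finset.mul_sum]
      refine Finset.sum_congr rfl fun j _ => ?_
      ring
    rw [h]; ring

lemma Lop_add (G : Fin 4 → Fin 4 → ℝ) (J : E4 →L[ℝ] E4) (ξ : Cov) (A : Bil) (v w : E4) :
    Lop G J (wed3 ξ (fb A)) (v + w) = Lop G J (wed3 ξ (fb A)) v + Lop G J (wed3 ξ (fb A)) w := by
  simp only [Lop, wed3, map_add]
  simp only [Finset.mul_sum, ← Finset.sum_add_distrib]
  refine Finset.sum_congr rfl fun i _ => Finset.sum_congr rfl fun j _ => ?_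
  ring

lemma Lop_smul (G : Fin 4 → Fin 4 → ℝ) (J : E4 →L[ℝ] E4) (ξ : Cov) (A : Bil) (r : ℝ) (w : E4) :
    Lop G J (wed3 ξ (fb A)) (r • w) = r * Lop G J (wed3 ξ (fb A)) w := by
  simp only [Lop, wed3, map_smul, smul_eq_mul]
  simp only [Finset.mul_sum]
  refine Finset.sum_congr rfl fun i _ => Finset.sum_congr rfl fun j _ => ?_
  ring

/-- the frozen identity in terms of the functionals -/
theorem frozen_th {J : E4 →L[ℝ] E4} {F A : Bil} (hJ : ∀ v, J (J v) = -v) (hF : SPos J F)
    (hA : Pos J A) (H : Bil) (hH : ∀ v w, H v w = H w v) (v w : E4) :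
    thP (gI (gm J F)) A v w H =
      (th1 (trJ (gI (gm J F)) J (fb A)) J w (H v) - th1 (trJ (gI (gm J F)) J (fb A)) J v (H w))
      + (th2 (gI (gm J F)) J A w (H v) - th2 (gI (gm J F)) J A v (H w))
      + th3 (gI (gm J F)) A v w H := by
  have hs := gm_symm hJ hF
  have h := frozen (gI (gm J F)) (gI_symm hs) J (fun ξ => sharp_J hJ hF ξ) A hA.alt hA.inv H hH v w
  simp only [thP, th1, th2, th3, LinearMap.coe_mk, AddHom.coe_mk]
  rw [h]
  ring

/-! ### measurability and boundedness of the functionals -/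

section mb

variable {c : E4} {R : ℝ} {φ : E4 → Bil} {A : ℝ} {J : E4 → E4 →L[ℝ] E4}
  {G : E4 → Fin 4 → Fin 4 → ℝ}

lemma MB_phi (hm : Measurable φ) (hA : ∀ y, ‖φ y‖ ≤ A) (v w : E4) : MB c R fun y => φ y v w := by
  refine ⟨?_, A * ‖v‖ * ‖w‖, ?_, fun y _ => ?_⟩
  · have h1 : Measurable fun y => φ y v := (ContinuousLinearMap.measurable_apply v).comp hm
    exact (ContinuousLinearMap.measurable_apply w).comp h1
  · have : 0 ≤ A := (norm_nonneg _).trans (hA 0)
    positivity
  · have h1 := (φ y).le_opNorm₂ v w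
    rw [Real.norm_eq_abs] at h1
    refine h1.trans ?_
    have := hA y
    gcongr

lemma coord_cont {a : E4 → E4} (ha : Continuous a) (i : Fin 4) : Continuous fun y => (a y) i :=
  (EuclideanSpace.proj i : E4 →L[ℝ] ℝ).continuous.comp ha

lemma MB_phi' (hm : Measurable φ) (hA : ∀ y, ‖φ y‖ ≤ A) {a b : E4 → E4} (ha : Continuous a)
    (hb : Continuous b) : MB c R fun y => φ y (a y) (b y) := by
  have h : (fun y => φ y (a y) (b y)) = fun y =>
      ∑ i, ∑ j, (a y) i * (b y) j * φ y (ee i) (ee j) := by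
    funext y; exact bil_expand (φ y) (a y) (b y)
  rw [h]
  refine MB.sum _ fun i => MB.sum _ fun j => ?_
  exact ((MB.of_cont (coord_cont ha i)).mul (MB.of_cont (coord_cont hb j))).mul
    (MB_phi hm hA _ _)

lemma app_cont (hJ : Continuous J) (v : E4) : Continuous fun y => J y v :=
  hJ.clm_apply continuous_const

lemma MB_tr (hm : Measurable φ) (hA : ∀ y, ‖φ y‖ ≤ A) (hJ : Continuous J)
    (hG : ∀ i j, Continuous fun y => G y i j) :
    MB c R fun y => trJ (G y) (J y) (fb (φ y)) := by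
  unfold trJ
  refine (MB.const _).mul (MB.sum _ fun i => MB.sum _ fun j => ?_)
  exact (MB.of_cont (hG i j)).mul (MB_phi' hm hA continuous_const (app_cont hJ _))

lemma MB_th1 (hm : Measurable φ) (hA : ∀ y, ‖φ y‖ ≤ A) (hJ : Continuous J)
    (hG : ∀ i j, Continuous fun y => G y i j) (w : E4) (ξ : Cov) :
    MB c R fun y => th1 (trJ (G y) (J y) (fb (φ y))) (J y) w ξ := by
  simp only [th1, LinearMap.coe_mk, AddHom.coe_mk]
  exact ((MB_tr hm hA hJ hG).mul (MB.of_cont (ξ.continuous.comp (app_cont hJ w)))).neg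

lemma MB_th2 (hm : Measurable φ) (hA : ∀ y, ‖φ y‖ ≤ A) (hJ : Continuous J)
    (hG : ∀ i j, Continuous fun y => G y i j) (w : E4) (ξ : Cov) :
    MB c R fun y => th2 (G y) (J y) (φ y) w ξ := by
  simp only [th2, LinearMap.coe_mk, AddHom.coe_mk, Lop, wed3]
  refine (MB.const _).mul (MB.sum _ fun i => MB.sum _ fun j => ?_)
  refine (MB.of_cont (hG i j)).mul (((MB.const _).mul ?_).sub ?_ |>.add ?_)
  · exact MB_phi' hm hA (app_cont hJ _) (app_cont hJ _)
  · exact (MB.of_cont (ξ.continuous.comp (app_cont hJ _))).mul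
      (MB_phi' hm hA continuous_const (app_cont hJ _))
  · exact (MB.of_cont (ξ.continuous.comp (app_cont hJ _))).mul
      (MB_phi' hm hA continuous_const (app_cont hJ _))

lemma MB_th3 (hm : Measurable φ) (hA : ∀ y, ‖φ y‖ ≤ A)
    (hG : ∀ i j, Continuous fun y => G y i j) (v w : E4) (H : Bil) :
    MB c R fun y => th3 (G y) (φ y) v w H := by
  simp only [th3, LinearMap.coe_mk, AddHom.coe_mk, ctr, wed3]
  refine MB.sum _ fun i => MB.sum _ fun j => ?_
  refine (MB.of_cont (hG i j)).mul (((MB.const _).mul ?_).sub ((MB.const _).mul ?_) |>.add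
    ((MB.const _).mul ?_))
  · exact MB_phi hm hA _ _
  · exact MB_phi hm hA _ _
  · exact MB_phi hm hA _ _

lemma MB_thP (hm : Measurable φ) (hA : ∀ y, ‖φ y‖ ≤ A)
    (hG : ∀ i j, Continuous fun y => G y i j) (v w : E4) (H : Bil) :
    MB c R fun y => thP (G y) (φ y) v w H := by
  simp only [thP, LinearMap.coe_mk, AddHom.coe_mk]
  refine MB.mul (MB.sum _ fun i => MB.sum _ fun j => ?_) (MB_phi hm hA _ _)
  exact (MB.of_cont (hG i j)).mul (MB.const _)

end mb

/-! ### families -/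

section fam

variable {V : Type*} [NormedAddCommGroup V] [NormedSpace ℝ V] [FiniteDimensional ℝ V]

/-- weighted family of functionals -/
noncomputable def TT (g : E4 → Bil) (k : E4 → ℝ) (θ : E4 → V →ₗ[ℝ] ℝ) (t : E4 × E4) : V →ₗ[ℝ] ℝ :=
  kk (k t.1 • g t.1) (g t.1) t.2 • θ t.1

variable {g : E4 → Bil} {k : E4 → ℝ} {s : Measure E4} {c : E4} {R r : ℝ}

lemma TT_int [IsFiniteMeasure s] (hg : Continuous g) (hp : ∀ y v, v ≠ 0 → 0 < g y v v)
    (hk : Continuous k) (hk0 : ∀ y, y ∉ closedBall c R → k y = 0) {θ : E4 → V →ₗ[ℝ] ℝ} {v : V}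
    (hθ : MB c R fun y => θ y v) : Integrable (fun t => TT g k θ t v) (muP s r) := by
  obtain ⟨hm, B, _, hB⟩ := hθ
  have h := wq_int (g := g) (q := fun y => k y • g y) (h := fun y => θ y v) (s := s) (c := c)
    (R := R) (r := r) hg hp (hk.smul hg) (fun y hy => by simp [hk0 y hy]) hm hB
  refine h.congr (Filter.Eventually.of_forall fun t => ?_)
  simp only [wq, TT, LinearMap.smul_apply, smul_eq_mul]
  ring

end fam

end Crest.Agent.R240.Pot
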