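import Mathlib
import Crest.Agent.R240.PotId

/-!
Row 240 (S0371), Part P: the data structure `PD` and the smoothed frozen identity for it.
-/

set_option autoImplicit false
set_option maxSynthPendingDepth 3
open scoped ContDiff
open MeasureTheory Metric Crest.Agent.R240.En

namespace Crest.Agent.R240.Pot

lemma fd2_symm {σ : E4 → ℝ} (hσ : ContDiff ℝ ∞ σ) (z v w : E4) :
    fderiv ℝ (fderiv ℝ σ) z v w = fderiv ℝ (fderiv ℝ σ) z w v := by
  have h : IsSymmSndFDerivAt ℝ σ z := by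
    refine ContDiffAt.isSymmSndFDerivAt (n := 2) (hσ.contDiffAt.of_le ?_) (by simp)
    exact WithTop.coe_le_coe.2 le_top
  exact h.eq v w

lemma fd_contDiff {V : Type*} [NormedAddCommGroup V] [NormedSpace ℝ V] {σ : E4 → V}
    (hσ : ContDiff ℝ ∞ σ) : ContDiff ℝ ∞ (fderiv ℝ σ) := hσ.fderiv_right (m := ∞) le_rfl

lemma int5 {Ω : Type*} [MeasurableSpace Ω] {μ : Measure Ω} {a b c d e : Ω → ℝ}
    (ha : Integrable (fun t => a t) μ) (hb : Integrable (fun t => b t) μ)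
    (hc : Integrable (fun t => c t) μ)
    (hd : Integrable (fun t => d t) μ) (he : Integrable (fun t => e t) μ) :
    ∫ t, a t ∂μ - ∫ t, b t ∂μ + (∫ t, c t ∂μ - ∫ t, d t ∂μ) + ∫ t, e t ∂μ =
      ∫ t, (a t - b t + (c t - d t) + e t) ∂μ := by
  have h1 : Integrable (fun t => a t - b t) μ := ha.sub hb
  have h2 : Integrable (fun t => c t - d t) μ := hc.sub hd
  have h3 : Integrable (fun t => a t - b t + (c t - d t)) μ := h1.add h2
  rw [integral_add h3 he, integral_add h1 h2, integral_sub ha hb, integral_sub hc hd]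

/-- The data of Lemma P. -/
structure PD where
  J : E4 → E4 →L[ℝ] E4
  F : E4 → Bil
  smJ : ContDiff ℝ ∞ J
  smF : ContDiff ℝ ∞ F
  sq : ∀ y v, J y (J y v) = -v
  sp : ∀ y, SPos (J y) (F y)
  c : E4
  R : ℝ
  hR : 0 < R
  s : Measure E4
  fin : IsFiniteMeasure s
  φ : E4 → Bil
  mφ : Measurable φ
  A : ℝ
  bA : ∀ y, ‖φ y‖ ≤ A
  pos : ∀ y, Pos (J y) (φ y)
  k : E4 → ℝ
  smk : ContDiff ℝ ∞ k
  hk : tsupport k ⊆ ball c R

namespace PD

variable (D : PD)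

/-- the metric -/
noncomputable def g (y : E4) : Bil := gm (D.J y) (D.F y)
/-- the inverse metric -/
noncomputable def G (y : E4) : Fin 4 → Fin 4 → ℝ := gI (D.g y)
/-- the trace of `φ` -/
noncomputable def tr (y : E4) : ℝ := trJ (D.G y) (D.J y) (fb (D.φ y))

lemma smg : ContDiff ℝ ∞ D.g := gm_contDiff D.smJ D.smF
lemma gsymm (y v w : E4) : D.g y v w = D.g y w v := gm_symm (D.sq y) (D.sp y) v w
lemma gpos (y v : E4) (hv : v ≠ 0) : 0 < D.g y v v := gm_pos (D.sp y) hv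
lemma smG (i j : Fin 4) : ContDiff ℝ ∞ fun y => D.G y i j := gI_contDiff D.smg D.gsymm D.gpos i j
lemma k0 (y : E4) (hy : y ∉ closedBall D.c D.R) : D.k y = 0 := by
  by_contra h
  exact hy (ball_subset_closedBall (D.hk (subset_tsupport _ h)))
lemma A0 : 0 ≤ D.A := (norm_nonneg _).trans (D.bA 0)

lemma MBtr : MB D.c D.R D.tr := MB_tr D.mφ D.bA D.smJ.continuous fun i j => (D.smG i j).continuous

section
variable {V : Type*} [NormedAddCommGroup V] [NormedSpace ℝ V] [FiniteDimensional ℝ V]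

/-- smoothed family -/
noncomputable def GF (r : ℝ) (θ : E4 → V →ₗ[ℝ] ℝ) (f : E4 → V) (x : E4) : ℝ :=
  GG (muP D.s r) pP (TT D.g D.k θ) f x

lemma TTint {r : ℝ} {θ : E4 → V →ₗ[ℝ] ℝ} (hθ : ∀ v, MB D.c D.R fun y => θ y v) (v : V) :
    Integrable (fun t => TT D.g D.k θ t v) (muP D.s r) := by
  have := D.fin
  exact TT_int D.smg.continuous D.gpos D.smk.continuous D.k0 (hθ v)

lemma GF_int {r : ℝ} {θ : E4 → V →ₗ[ℝ] ℝ} (hθ : ∀ v, MB D.c D.R fun y => θ y v) {f : E4 → V}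
    (hf : Continuous f) (hc : HasCompactSupport f) (x : E4) :
    Integrable (fun t => TT D.g D.k θ t (f (x - pP t))) (muP D.s r) :=
  GG_integrable (D.TTint hθ) pP_meas hf hc x

lemma GF_contDiff {r : ℝ} {θ : E4 → V →ₗ[ℝ] ℝ} (hθ : ∀ v, MB D.c D.R fun y => θ y v) {f : E4 → V}
    (hf : ContDiff ℝ ∞ f) (hc : HasCompactSupport f) : ContDiff ℝ ∞ (D.GF r θ f) :=
  GG_contDiff (D.TTint hθ) pP_meas hf hc

lemma GF_fderiv {r : ℝ} {θ : E4 → V →ₗ[ℝ] ℝ} (hθ : ∀ v, MB D.c D.R fun y => θ y v) {f : E4 → V}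
    (hf : ContDiff ℝ ∞ f) (hc : HasCompactSupport f) (x v : E4) :
    fderiv ℝ (D.GF r θ f) x v = D.GF r θ (ddv f v) x :=
  GG_fderiv (D.TTint hθ) pP_meas hf hc x v

end

/-- covector family from functionals linear in a parameter `w` -/
noncomputable def CV (r : ℝ) (θ : E4 → E4 → Cov →ₗ[ℝ] ℝ) (σ : E4 → ℝ) : E4 → Cov :=
  mkCov fun x w => D.GF r (fun y => θ y w) (fderiv ℝ σ) x

section cv

variable {r : ℝ} {θ : E4 → E4 → Cov →ₗ[ℝ] ℝ} {σ : E4 → ℝ}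
  (hMB : ∀ w ξ, MB D.c D.R fun y => θ y w ξ)
  (hadd : ∀ y v w ξ, θ y (v + w) ξ = θ y v ξ + θ y w ξ)
  (hsmul : ∀ y (a : ℝ) w ξ, θ y (a • w) ξ = a * θ y w ξ)
  (hσ : ContDiff ℝ ∞ σ) (hc : HasCompactSupport σ)

include hMB hadd hsmul hσ hc

lemma CV_apply (x w : E4) : D.CV r θ σ x w = D.GF r (fun y => θ y w) (fderiv ℝ σ) x := by
  have hcd : HasCompactSupport (fderiv ℝ σ) := hc.fderiv (𝕜 := ℝ)
  have hcont : Continuous (fderiv ℝ σ) := (fd_contDiff hσ).continuous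
  refine mkCov_apply ?_ ?_ w
  · intro v w
    simp only [GF, GG]
    rw [← integral_add (D.GF_int (hMB v) hcont hcd x) (D.GF_int (hMB w) hcont hcd x)]
    refine integral_congr_ae (Filter.Eventually.of_forall fun t => ?_)
    simp only [TT, LinearMap.smul_apply, hadd, smul_eq_mul]
    ring
  · intro a w
    simp only [GF, GG]
    rw [← integral_const_mul]
    refine integral_congr_ae (Filter.Eventually.of_forall fun t => ?_)
    simp only [TT, LinearMap.smul_apply, hsmul, smul_eq_mul]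
    ring

omit hadd hsmul in
lemma CV_contDiff : ContDiff ℝ ∞ (D.CV r θ σ) :=
  mkCov_contDiff fun l => D.GF_contDiff (hMB (ee l)) (fd_contDiff hσ) (hc.fderiv (𝕜 := ℝ))

lemma CV_d1 (x v w : E4) : d1 (D.CV r θ σ) x v w =
    D.GF r (fun y => θ y w) (ddv (fderiv ℝ σ) v) x
      - D.GF r (fun y => θ y v) (ddv (fderiv ℝ σ) w) x := by
  have hcd : HasCompactSupport (fderiv ℝ σ) := hc.fderiv (𝕜 := ℝ)
  have hd : DifferentiableAt ℝ (D.CV r θ σ) x :=
    ((D.CV_contDiff hMB hσ hc).differentiable (by simp)) x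
  have h1 : ∀ w, (fun z => D.CV r θ σ z w) = D.GF r (fun y => θ y w) (fderiv ℝ σ) := fun w => by
    funext z; exact D.CV_apply hMB hadd hsmul hσ hc z w
  rw [d1_apply, fderiv_apply_comm hd, fderiv_apply_comm hd, h1, h1,
    D.GF_fderiv (hMB w) (fd_contDiff hσ) hcd, D.GF_fderiv (hMB v) (fd_contDiff hσ) hcd]

end cv

/-- the functionals for `b1` -/
noncomputable def t1 (y w : E4) : Cov →ₗ[ℝ] ℝ := th1 (D.tr y) (D.J y) w
/-- the functionals for `b2` -/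
noncomputable def t2 (y w : E4) : Cov →ₗ[ℝ] ℝ := th2 (D.G y) (D.J y) (D.φ y) w
/-- the functionals for `Ψ` -/
noncomputable def t3 (v w y : E4) : Bil →ₗ[ℝ] ℝ := th3 (D.G y) (D.φ y) v w
/-- the functionals for `Φ` -/
noncomputable def tP (v w y : E4) : Bil →ₗ[ℝ] ℝ := thP (D.G y) (D.φ y) v w

lemma MB1 (w : E4) (ξ : Cov) : MB D.c D.R fun y => D.t1 y w ξ :=
  MB_th1 D.mφ D.bA D.smJ.continuous (fun i j => (D.smG i j).continuous) w ξ
lemma MB2 (w : E4) (ξ : Cov) : MB D.c D.R fun y => D.t2 y w ξ :=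
  MB_th2 D.mφ D.bA D.smJ.continuous (fun i j => (D.smG i j).continuous) w ξ
lemma MB3 (v w : E4) (H : Bil) : MB D.c D.R fun y => D.t3 v w y H :=
  MB_th3 D.mφ D.bA (fun i j => (D.smG i j).continuous) v w H
lemma MBP (v w : E4) (H : Bil) : MB D.c D.R fun y => D.tP v w y H :=
  MB_thP D.mφ D.bA (fun i j => (D.smG i j).continuous) v w H

lemma t1_add (y v w : E4) (ξ : Cov) : D.t1 y (v + w) ξ = D.t1 y v ξ + D.t1 y w ξ := by
  simp only [t1, th1, LinearMap.coe_mk, AddHom.coe_mk, map_add]; ring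
lemma t1_smul (y : E4) (a : ℝ) (w : E4) (ξ : Cov) : D.t1 y (a • w) ξ = a * D.t1 y w ξ := by
  simp only [t1, th1, LinearMap.coe_mk, AddHom.coe_mk, map_smul, smul_eq_mul]; ring
lemma t2_add (y v w : E4) (ξ : Cov) : D.t2 y (v + w) ξ = D.t2 y v ξ + D.t2 y w ξ := by
  simp only [t2, th2, LinearMap.coe_mk, AddHom.coe_mk]; exact Lop_add _ _ _ _ _ _
lemma t2_smul (y : E4) (a : ℝ) (w : E4) (ξ : Cov) : D.t2 y (a • w) ξ = a * D.t2 y w ξ := by
  simp only [t2, th2, LinearMap.coe_mk, AddHom.coe_mk]; exact Lop_smul _ _ _ _ _ _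

/-- `b1` -/
noncomputable def b1 (r : ℝ) (σ : E4 → ℝ) : E4 → Cov := D.CV r D.t1 σ
/-- `b2` -/
noncomputable def b2 (r : ℝ) (σ : E4 → ℝ) : E4 → Cov := D.CV r D.t2 σ

/-- the smoothed frozen identity -/
theorem ident {r : ℝ} {σ : E4 → ℝ} (hσ : ContDiff ℝ ∞ σ) (hc : HasCompactSupport σ) (x v w : E4) :
    D.GF r (D.tP v w) (fderiv ℝ (fderiv ℝ σ)) x =
      d1 (D.b1 r σ) x v w + d1 (D.b2 r σ) x v w
        + D.GF r (D.t3 v w) (fderiv ℝ (fderiv ℝ σ)) x := by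
  have hcd : HasCompactSupport (fderiv ℝ σ) := hc.fderiv (𝕜 := ℝ)
  have hcd2 : HasCompactSupport (fderiv ℝ (fderiv ℝ σ)) := hcd.fderiv (𝕜 := ℝ)
  have hs1 := fd_contDiff hσ
  have hs2 := fd_contDiff hs1
  rw [b1, b2, D.CV_d1 D.MB1 D.t1_add D.t1_smul hσ hc, D.CV_d1 D.MB2 D.t2_add D.t2_smul hσ hc]
  have hi : ∀ (θ : E4 → E4 → Cov →ₗ[ℝ] ℝ), (∀ w ξ, MB D.c D.R fun y => θ y w ξ) → ∀ v w,
      Integrable (fun t => TT D.g D.k (fun y => θ y w) t (ddv (fderiv ℝ σ) v (x - pP t)))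
        (muP D.s r) := fun θ h v w =>
    D.GF_int (h w) (ddv_contDiff hs1 v).continuous (ddv_compact hcd v) x
  have i3 := D.GF_int (r := r) (D.MB3 v w) hs2.continuous hcd2 x
  have e1 : D.GF r (fun y => D.t1 y w) (ddv (fderiv ℝ σ) v) x
      - D.GF r (fun y => D.t1 y v) (ddv (fderiv ℝ σ) w) x
      + (D.GF r (fun y => D.t2 y w) (ddv (fderiv ℝ σ) v) x
      - D.GF r (fun y => D.t2 y v) (ddv (fderiv ℝ σ) w) x)
      + D.GF r (D.t3 v w) (fderiv ℝ (fderiv ℝ σ)) x =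
      ∫ t, (TT D.g D.k (fun y => D.t1 y w) t (ddv (fderiv ℝ σ) v (x - pP t))
        - TT D.g D.k (fun y => D.t1 y v) t (ddv (fderiv ℝ σ) w (x - pP t))
        + (TT D.g D.k (fun y => D.t2 y w) t (ddv (fderiv ℝ σ) v (x - pP t))
        - TT D.g D.k (fun y => D.t2 y v) t (ddv (fderiv ℝ σ) w (x - pP t)))
        + TT D.g D.k (D.t3 v w) t (fderiv ℝ (fderiv ℝ σ) (x - pP t))) ∂(muP D.s r) := by
    unfold GF GG
    exact int5 (hi _ D.MB1 v w) (hi _ D.MB1 w v) (hi _ D.MB2 v w) (hi _ D.MB2 w v) i3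
  rw [e1]
  unfold GF GG
  refine integral_congr_ae (Filter.Eventually.of_forall fun t => ?_)
  simp only [TT, LinearMap.smul_apply, smul_eq_mul, ddv]
  have h := frozen_th (D.sq t.1) (D.sp t.1) (D.pos t.1) (fderiv ℝ (fderiv ℝ σ) (x - pP t))
    (fun a b => fd2_symm hσ _ a b) v w
  have h' : D.tP v w t.1 (fderiv ℝ (fderiv ℝ σ) (x - pP t)) =
      (D.t1 t.1 w (fderiv ℝ (fderiv ℝ σ) (x - pP t) v)
        - D.t1 t.1 v (fderiv ℝ (fderiv ℝ σ) (x - pP t) w))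
      + (D.t2 t.1 w (fderiv ℝ (fderiv ℝ σ) (x - pP t) v)
        - D.t2 t.1 v (fderiv ℝ (fderiv ℝ σ) (x - pP t) w))
      + D.t3 v w t.1 (fderiv ℝ (fderiv ℝ σ) (x - pP t)) := h
  rw [h']
  ring

end PD

end Crest.Agent.R240.Pot
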