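import Mathlib
import Crest.Agent.R240.PotFam
import Crest.Agent.R240.PotDefs

/-!
Row 240 (S0371), Part P: Fubini for the smoothed families and the fundamental solution.
-/

set_option autoImplicit false
set_option maxSynthPendingDepth 3
open scoped ContDiff
open MeasureTheory Metric Crest.Agent.R240.En

namespace Crest.Agent.R240.Pot

lemma compact_of_zero {V : Type*} [NormedAddCommGroup V] {f : E4 → V} {e : ℝ}
    (hf0 : ∀ z, e < ‖z‖ → f z = 0) : HasCompactSupport f := by
  refine HasCompactSupport.intro (isCompact_closedBall (0 : E4) e) fun z hz => hf0 z ?_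
  simpa using hz

lemma fderiv_zero_of_zero {V : Type*} [NormedAddCommGroup V] [NormedSpace ℝ V] {f : E4 → V} {e : ℝ}
    (hf0 : ∀ z, e < ‖z‖ → f z = 0) : ∀ z, e < ‖z‖ → fderiv ℝ f z = 0 := by
  intro z hz
  have h1 : f =ᶠ[nhds z] fun _ => (0 : V) := by
    have h2 : {z : E4 | e < ‖z‖} ∈ nhds z :=
      (isOpen_lt continuous_const continuous_norm).mem_nhds hz
    filter_upwards [h2] with z' hz'
    exact hf0 z' hz'
  rw [h1.fderiv_eq]
  simp

namespace PD

variable (D : PD)

section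
variable {V : Type*} [NormedAddCommGroup V] [NormedSpace ℝ V] [FiniteDimensional ℝ V]

/-- the points `x` all of whose interactions are inside the ball of radius `r` -/
def Adm (r e : ℝ) (x : E4) : Prop := ∀ y ∈ closedBall D.c D.R, ‖x - y‖ + e ≤ r

theorem GF_fub {r e : ℝ} {θ : E4 → V →ₗ[ℝ] ℝ} (hθ : ∀ v, MB D.c D.R fun y => θ y v) {f : E4 → V}
    (hf : Continuous f) (hf0 : ∀ z, e < ‖z‖ → f z = 0) {x : E4} (hx : D.Adm r e x) :
    D.GF r θ f x =
      ∫ y, (∫ ζ, kk (D.k y • D.g y) (D.g y) ζ * θ y (f (x - y - ζ))) ∂D.s := by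
  have := D.fin
  have hint := D.GF_int (r := r) hθ hf (compact_of_zero hf0) x
  unfold GF GG
  unfold muP at hint ⊢
  rw [integral_prod _ hint]
  refine integral_congr_ae (Filter.Eventually.of_forall fun y => ?_)
  simp only [TT, pP, LinearMap.smul_apply, smul_eq_mul]
  by_cases hy : y ∈ closedBall D.c D.R
  · have h1 : ∀ ζ, ζ ∉ closedBall (0 : E4) r →
        kk (D.k y • D.g y) (D.g y) ζ * θ y (f (x - y - ζ)) = 0 := by
      intro ζ hζ
      have h2 : e < ‖x - y - ζ‖ := by
        have h3 : r < ‖ζ‖ := by simpa using hζ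
        have h4 := hx y hy
        have h5 : ‖ζ‖ ≤ ‖x - y - ζ‖ + ‖x - y‖ := by
          calc ‖ζ‖ = ‖(x - y) - (x - y - ζ)‖ := by congr 1; abel
            _ ≤ ‖x - y‖ + ‖x - y - ζ‖ := norm_sub_le _ _
            _ = _ := by ring
        linarith
      rw [hf0 _ h2, map_zero, mul_zero]
    have h3 : ∫ ζ in closedBall (0 : E4) r, kk (D.k y • D.g y) (D.g y) ζ * θ y (f (x - y - ζ)) =
        ∫ ζ, kk (D.k y • D.g y) (D.g y) ζ * θ y (f (x - y - ζ)) :=
      setIntegral_eq_integral_of_forall_compl_eq_zero h1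
    rw [← h3]
    refine integral_congr_ae (Filter.Eventually.of_forall fun ζ => ?_)
    simp only
    rw [show x - (y + ζ) = x - y - ζ by abel]
  · have h2 : ∀ ζ, kk (D.k y • D.g y) (D.g y) ζ = 0 := by intro ζ; simp [kk, D.k0 y hy]
    simp [h2]

end

/-- the fundamental solution property, with constant `c0` -/
def FSc (c0 : ℝ) : Prop := ∀ (g : Bil) (_ : ∀ v w, g v w = g w v)
    (_ : ∀ v, v ≠ 0 → 0 < g v v) (G : Fin 4 → Fin 4 → ℝ)
    (_ : ∀ i k, ∑ j, G i j * g (ee j) (ee k) = if i = k then 1 else 0)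
    (rho : E4 → ℝ), ContDiff ℝ ∞ rho → HasCompactSupport rho → ∀ z : E4,
    ∫ ζ, (∑ i, ∑ j, G i j * fderiv ℝ (fderiv ℝ rho) (z - ζ) (ee i) (ee j)) *
      (-(c0 * √ (Matrix.of fun i j => g (ee i) (ee j)).det) / g ζ ζ) = rho z

theorem exists_FSc : ∃ c0 : ℝ, 0 < c0 ∧ FSc c0 := fund

/-- fundamental solution applied under the integral -/
theorem fsI {c0 : ℝ} (hF : FSc c0) {χ : E4 → ℝ} (hk : ∀ y, D.k y = -(χ y * kap c0 (D.g y)))
    {r e : ℝ} {σ : E4 → ℝ} (hσ : ContDiff ℝ ∞ σ) (hσ0 : ∀ z, e < ‖z‖ → σ z = 0) {x : E4}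
    (hx : D.Adm r e x) (v w : E4) :
    D.GF r (D.tP v w) (fderiv ℝ (fderiv ℝ σ)) x = ∫ y, χ y * (D.φ y v w * σ (x - y)) ∂D.s := by
  have hs2 := fd_contDiff (fd_contDiff hσ)
  rw [D.GF_fub (D.MBP v w) hs2.continuous (fderiv_zero_of_zero (fderiv_zero_of_zero hσ0)) hx]
  refine integral_congr_ae (Filter.Eventually.of_forall fun y => ?_)
  simp only
  have h := hF (D.g y) (D.gsymm y) (D.gpos y) (D.G y) (gI_mul (D.gsymm y) (D.gpos y)) σ hσ
    (compact_of_zero hσ0) (x - y)
  rw [← h, ← integral_const_mul, ← integral_const_mul]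
  refine integral_congr_ae (Filter.Eventually.of_forall fun ζ => ?_)
  simp only [kk_of_smul, tP, thP, LinearMap.coe_mk, AddHom.coe_mk]
  rw [hk y]
  unfold kap gM
  ring

/-- the cut-off mollified current -/
noncomputable def Th (χ σ : E4 → ℝ) (x : E4) : Bil := ∫ y, (χ y * σ (x - y)) • D.φ y ∂D.s

lemma phi_int {f : E4 → ℝ} (hf : Measurable f) {B : ℝ} (hB : ∀ y, |f y| ≤ B) :
    Integrable (fun y => f y • D.φ y) D.s := by
  have := D.fin
  have h1 : Integrable (fun _ : E4 => B * D.A) D.s := integrable_const _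
  refine h1.mono ((hf.smul D.mφ).aestronglyMeasurable) ?_
  refine Filter.Eventually.of_forall fun y => ?_
  rw [norm_smul, Real.norm_eq_abs]
  have h2 : |f y| * ‖D.φ y‖ ≤ B * D.A := by
    have := hB y
    have := D.bA y
    have hB0 : 0 ≤ B := (abs_nonneg _).trans (hB 0)
    gcongr
  exact h2.trans (le_abs_self _)

lemma Th_apply {χ σ : E4 → ℝ} (hχ : Continuous χ) (hχ1 : ∀ y, |χ y| ≤ 1) (hσ : Continuous σ)
    (hc : HasCompactSupport σ) (x v w : E4) :
    D.Th χ σ x v w = ∫ y, χ y * (D.φ y v w * σ (x - y)) ∂D.s := by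
  obtain ⟨C, hC0, hC⟩ := exists_bd hσ hc
  have hint : Integrable (fun y => (χ y * σ (x - y)) • D.φ y) D.s := by
    refine D.phi_int (B := 1 * C) ?_ fun y => ?_
    · exact hχ.measurable.mul (hσ.measurable.comp (measurable_const.sub measurable_id))
    · rw [abs_mul]
      have := hC (x - y)
      rw [Real.norm_eq_abs] at this
      exact mul_le_mul (hχ1 y) this (abs_nonneg _) zero_le_one
  unfold Th
  rw [ContinuousLinearMap.integral_apply hint]
  have h2 : Integrable (fun y => ((χ y * σ (x - y)) • D.φ y) v) D.s :=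
    (ContinuousLinearMap.apply ℝ (E4 →L[ℝ] ℝ) v).integrable_comp hint
  rw [ContinuousLinearMap.integral_apply h2]
  refine integral_congr_ae (Filter.Eventually.of_forall fun y => ?_)
  simp only [smul_apply, smul_eq_mul]
  ring

end PD

end Crest.Agent.R240.Pot
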