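import Mathlib
import Crest.Agent.R240.PotFub
import Crest.Agent.R240.PotDefs

/-!
Row 240 (S0371), Part P: statements of the four estimates used in `PotMain`.
-/

set_option autoImplicit false
set_option maxSynthPendingDepth 3
open scoped ContDiff
open MeasureTheory Metric Crest.Agent.R240.En

namespace Crest.Agent.R240.Pot

/-- standard mollifier -/
structure Moll (ρ : E4 → ℝ) : Prop where
  sm : ContDiff ℝ ∞ ρ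
  nn : ∀ z, 0 ≤ ρ z
  sup : ∀ z, 1 ≤ ‖z‖ → ρ z = 0
  one : ∫ z, ρ z = 1

namespace PD

variable (D : PD)

/-- the potential `u` -/
noncomputable def uu (σ : E4 → ℝ) : E4 → ℝ :=
  D.GF (3 * D.R) (fun y => D.tr y • (LinearMap.id : ℝ →ₗ[ℝ] ℝ)) σ

/-- cut-off data: `k = -χ κ(g)`, `0 ≤ χ ≤ 1`, `χ = 1` on the ball of radius `3R/4`. -/
structure Cut (c0 : ℝ) (χ : E4 → ℝ) : Prop where
  sm : ContDiff ℝ ∞ χ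
  nn : ∀ y, 0 ≤ χ y
  le : ∀ y, χ y ≤ 1
  one : ∀ y ∈ closedBall D.c (3 / 4 * D.R), χ y = 1
  kk : ∀ y, D.k y = -(χ y * kap c0 (D.g y))

/-- (U) bounds for `u` -/
def UBd (c0 : ℝ) (χ ρ : E4 → ℝ) : Prop :=
  0 < c0 → D.Cut c0 χ → Moll ρ → ∀ τ : ℝ, 0 < τ → (∀ y ∈ closedBall D.c D.R, τ ≤ D.tr y) →
  ∃ C : ℝ, 0 < C ∧ ∀ e : ℝ, 0 < e → e ≤ D.R / 8 → ∀ x ∈ ball D.c (5 / 8 * D.R),
    wE D.s D.c D.R e 2 x / C - C ≤ - D.uu (rhoE ρ e) x ∧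
    - D.uu (rhoE ρ e) x ≤ C * wE D.s D.c D.R e 2 x ∧
    ‖fderiv ℝ (D.uu (rhoE ρ e)) x‖ ≤ C * wE D.s D.c D.R e 3 x

/-- (A1) bound for `a1 = b1 - J^c du` -/
def A1Bd (ρ : E4 → ℝ) : Prop :=
  Moll ρ → ∃ C : ℝ, 0 < C ∧ ∀ e : ℝ, 0 < e → e ≤ D.R / 8 → ∀ x ∈ ball D.c (5 / 8 * D.R),
    ‖D.b1 (3 * D.R) (rhoE ρ e) x - Jc (D.J x) (fderiv ℝ (D.uu (rhoE ρ e)) x)‖ ≤
      C * wE D.s D.c D.R e 2 x

/-- closedness of the current -/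
def ClosedCur : Prop :=
  ∀ S : E4 → Cov, ContDiff ℝ ∞ S → HasCompactSupport S → tsupport S ⊆ ball D.c D.R →
      ∫ y, W (D.φ y) (d1 S y) ∂D.s = 0

/-- (B2) bound for `b2` -/
def B2Bd (ρ : E4 → ℝ) : Prop :=
  Moll ρ → D.ClosedCur →
  ∃ C : ℝ, 0 < C ∧ ∀ e : ℝ, 0 < e → e ≤ D.R / 8 → ∀ x ∈ ball D.c (5 / 8 * D.R),
    ‖D.b2 (3 * D.R) (rhoE ρ e) x‖ ≤ C * wE D.s D.c D.R e 2 x

/-- (PS) bound for `Ψ` -/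
def PsiBd (ρ : E4 → ℝ) : Prop :=
  Moll ρ → D.ClosedCur →
  ∃ C : ℝ, 0 < C ∧ ∀ e : ℝ, 0 < e → e ≤ D.R / 8 → ∀ x ∈ ball D.c (5 / 8 * D.R),
    ∀ i j : Fin 4, |D.GF (3 * D.R) (D.t3 (ee i) (ee j)) (fderiv ℝ (fderiv ℝ (rhoE ρ e))) x| ≤
      C * wE D.s D.c D.R e 3 x

end PD

end Crest.Agent.R240.Pot
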