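import Mathlib
import Crest.Agent.R240.PotSt
import Crest.Agent.R240.PotBd

/-!
# Row 240, Part P: bounds of the potential `u` (for helper657; helper369)
-/

set_option autoImplicit false
set_option maxSynthPendingDepth 3
open scoped ContDiff
open MeasureTheory Metric Crest.Agent.R240.En

namespace Crest.Agent.R240.Pot

/-! ### the rescaled mollifier -/

section rho

variable {ρ : E4 → ℝ} {e : ℝ}

lemma rhoU_contDiff (h : ContDiff ℝ ∞ ρ) (e : ℝ) : ContDiff ℝ ∞ (rhoE ρ e) := by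
  unfold rhoE
  exact contDiff_const.mul (h.comp (contDiff_const_smul _))

lemma rhoU_nonneg (h : ∀ z, 0 ≤ ρ z) (he : 0 < e) (z : E4) : 0 ≤ rhoE ρ e z := by
  unfold rhoE
  exact mul_nonneg (by positivity) (h _)

lemma rhoU_zero (h : ∀ z, 1 ≤ ‖z‖ → ρ z = 0) (he : 0 < e) : ∀ z, e < ‖z‖ → rhoE ρ e z = 0 := by
  intro z hz
  unfold rhoE
  rw [h, mul_zero]
  rw [norm_smul, norm_inv, Real.norm_of_nonneg he.le, inv_mul_eq_div, one_le_div he]
  exact hz.le

lemma rhoU_integral (h1 : ∫ z, ρ z = 1) (he : 0 < e) : ∫ z, rhoE ρ e z = 1 := by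
  unfold rhoE
  rw [integral_const_mul, Measure.integral_comp_inv_smul, h1]
  have : Module.finrank ℝ E4 = 4 := by simp
  rw [this, abs_of_pos (by positivity), smul_eq_mul, mul_one, inv_mul_cancel₀ (by positivity)]

lemma rho_compact (h : ∀ z, 1 ≤ ‖z‖ → ρ z = 0) : HasCompactSupport ρ := by
  refine HasCompactSupport.intro (isCompact_closedBall (0 : E4) 1) fun z hz => h z ?_
  rw [mem_closedBall, dist_zero_right, not_le] at hz
  exact hz.le

/-- the derivative of the rescaled mollifier. -/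
lemma rhoU_fderiv (h : ContDiff ℝ ∞ ρ) (he : 0 < e) (z : E4) :
    fderiv ℝ (rhoE ρ e) z = (e ^ 5)⁻¹ • fderiv ℝ ρ (e⁻¹ • z) := by
  have h1 : HasFDerivAt ρ (fderiv ℝ ρ (e⁻¹ • z)) (e⁻¹ • z) :=
    ((h.differentiable (by simp)) _).hasFDerivAt
  have h2 : HasFDerivAt (fun z : E4 => e⁻¹ • z) (e⁻¹ • ContinuousLinearMap.id ℝ E4) z :=
    (hasFDerivAt_id z).const_smul e⁻¹
  have h3 := (h1.comp z h2).const_mul ((e ^ 4)⁻¹)
  have h4 : HasFDerivAt (rhoE ρ e) ((e ^ 4)⁻¹ • (fderiv ℝ ρ (e⁻¹ • z)).comp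
      (e⁻¹ • ContinuousLinearMap.id ℝ E4)) z := h3
  rw [h4.fderiv]
  ext v
  simp only [smul_apply, ContinuousLinearMap.comp_apply, ContinuousLinearMap.id_apply,
    smul_eq_mul, map_smul]
  field_simp

/-- bounds of the mollifier and of its derivative. -/
lemma exists_rho_bd (h : ContDiff ℝ ∞ ρ) (h0 : ∀ z, 1 ≤ ‖z‖ → ρ z = 0) :
    ∃ B : ℝ, 0 < B ∧ (∀ z, |ρ z| ≤ B) ∧ ∀ z, ‖fderiv ℝ ρ z‖ ≤ B := by
  have hc := rho_compact h0
  obtain ⟨B1, hB1⟩ := hc.exists_bound_of_continuous h.continuous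
  obtain ⟨B2, hB2⟩ := (hc.fderiv (𝕜 := ℝ)).exists_bound_of_continuous
    (fd_contDiff h).continuous
  refine ⟨max (max B1 B2) 1, by positivity, fun z => ?_, fun z => ?_⟩
  · exact (hB1 z).trans ((le_max_left _ _).trans (le_max_left _ _))
  · exact (hB2 z).trans ((le_max_right _ _).trans (le_max_left _ _))

lemma rhoE_bd {B : ℝ} (hB : ∀ z, |ρ z| ≤ B) (he : 0 < e) (z : E4) : |rhoE ρ e z| ≤ B / e ^ 4 := by
  unfold rhoE
  rw [abs_mul, abs_of_pos (by positivity), div_eq_inv_mul]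
  exact mul_le_mul_of_nonneg_left (hB _) (by positivity)

lemma ddv_rhoE_bd {B : ℝ} (h : ContDiff ℝ ∞ ρ) (hB : ∀ z, ‖fderiv ℝ ρ z‖ ≤ B) (he : 0 < e)
    (v z : E4) : |ddv (rhoE ρ e) v z| ≤ B * ‖v‖ / e ^ 5 := by
  unfold ddv
  rw [rhoU_fderiv h he, smul_apply, smul_eq_mul, abs_mul, abs_of_pos (by positivity),
    div_eq_inv_mul]
  apply mul_le_mul_of_nonneg_left _ (by positivity)
  have h1 := (fderiv ℝ ρ (e⁻¹ • z)).le_opNorm v
  rw [Real.norm_eq_abs] at h1
  exact h1.trans (mul_le_mul_of_nonneg_right (hB _) (norm_nonneg _))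

lemma ddv_integral {σ : E4 → ℝ} (hσ : ContDiff ℝ ∞ σ) (hc : HasCompactSupport σ) (v : E4) :
    ∫ z, ddv σ v z = 0 := by
  unfold ddv
  exact integral_fderiv_zero (hσ.of_le (by exact_mod_cast le_top)) hc v

end rho

namespace PD

variable (D : PD)

section
variable {V : Type*} [NormedAddCommGroup V] [NormedSpace ℝ V] [FiniteDimensional ℝ V]

/-- the inner integrals are integrable in `y`. -/
theorem GF_fub_integrable {r e : ℝ} {θ : E4 → V →ₗ[ℝ] ℝ} (hθ : ∀ v, MB D.c D.R fun y => θ y v)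
    {f : E4 → V} (hf : Continuous f) (hf0 : ∀ z, e < ‖z‖ → f z = 0) {x : E4}
    (hx : D.Adm r e x) :
    Integrable (fun y => ∫ ζ, kk (D.k y • D.g y) (D.g y) ζ * θ y (f (x - y - ζ))) D.s := by
  have := D.fin
  have hint := D.GF_int (r := r) hθ hf (compact_of_zero hf0) x
  unfold muP at hint
  have h0 := hint.integral_prod_left
  refine h0.congr (Filter.Eventually.of_forall fun y => ?_)
  simp only [TT, pP, LinearMap.smul_apply, smul_eq_mul]
  by_cases hy : y ∈ closedBall D.c D.R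
  · have h1 : ∀ ζ, ζ ∉ closedBall (0 : E4) r →
        kk (D.k y • D.g y) (D.g y) ζ * θ y (f (x - y - ζ)) = 0 := by
      intro ζ hζ
      have h2 : e < ‖x - y - ζ‖ := by
        have h3 : r < ‖ζ‖ := by simpa using hζ
        have h4 := hx y hy
        have h5 : ‖ζ‖ ≤ ‖x - y - ζ‖ + ‖x - y‖ := by
          calc ‖ζ‖ = ‖(x - y) - (x - y - ζ)‖ := by congr 1; abel
            _ ≤ ‖x - y‖ + ‖x - y - ζ‖ := norm_sub_le _ _
            _ = _ := by ring
        linarith
      rw [hf0 _ h2, map_zero, mul_zero]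
    have h3 : ∫ ζ in closedBall (0 : E4) r, kk (D.k y • D.g y) (D.g y) ζ * θ y (f (x - y - ζ)) =
        ∫ ζ, kk (D.k y • D.g y) (D.g y) ζ * θ y (f (x - y - ζ)) :=
      setIntegral_eq_integral_of_forall_compl_eq_zero h1
    rw [← h3]
    refine integral_congr_ae (Filter.Eventually.of_forall fun ζ => ?_)
    simp only
    rw [show x - (y + ζ) = x - y - ζ by abel]
  · have h2 : ∀ ζ, kk (D.k y • D.g y) (D.g y) ζ = 0 := by intro ζ; simp [kk, D.k0 y hy]
    simp [h2]

end

lemma adm {e : ℝ} (he : e ≤ D.R / 8) {x : E4} (hx : x ∈ ball D.c (5 / 8 * D.R)) :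
    D.Adm (3 * D.R) e x := by
  intro y hy
  have hR := D.hR
  rw [mem_ball, dist_eq_norm] at hx
  rw [mem_closedBall, dist_eq_norm] at hy
  have h : ‖x - y‖ ≤ ‖x - D.c‖ + ‖y - D.c‖ := by
    calc ‖x - y‖ = ‖(x - D.c) - (y - D.c)‖ := by congr 1; abel
      _ ≤ _ := norm_sub_le _ _
  linarith

/-- the kernel constant: uniform bounds for the kernels `kk (k y • g y) (g y)`. -/
lemma exists_ker_const : ∃ A1 : ℝ, 0 < A1 ∧
    ∀ y ∈ closedBall D.c D.R, ∀ (e B : ℝ) (σ : E4 → ℝ), 0 < e → 0 ≤ B → Continuous σ →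
      (∀ z, e < ‖z‖ → σ z = 0) →
      ((∀ z, |σ z| ≤ B / e ^ 4) → ∀ z,
        |∫ ζ, σ (z - ζ) * kk (D.k y • D.g y) (D.g y) ζ| ≤ A1 * B / (‖z‖ + e) ^ 2) ∧
      ((∀ z, |σ z| ≤ B / e ^ 5) → ∫ z, σ z = 0 → ∀ z,
        |∫ ζ, σ (z - ζ) * kk (D.k y • D.g y) (D.g y) ζ| ≤ A1 * B / (‖z‖ + e) ^ 3) := by
  obtain ⟨lam, hl, hlow⟩ := exists_lower D.smg.continuous D.gpos D.c D.R
  obtain ⟨L1, hL1, hup1⟩ := exists_upper D.smg.continuous D.c D.R
  obtain ⟨L2, hL2, hup2⟩ := exists_upper (D.smk.continuous.smul D.smg.continuous) D.c D.R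
  obtain ⟨C, hC, hCb⟩ := kerbd
  obtain ⟨A, hA, hAb⟩ := mkbd (lam := lam) (Lam := max L1 L2) hl
  refine ⟨C * A + 1, by positivity, ?_⟩
  intro y hy e B σ he hB hσ hs
  obtain ⟨h1, h2, h3⟩ := hAb (D.k y • D.g y) (D.g y) (hlow y hy)
    ((hup1 y hy).trans (le_max_left _ _)) ((hup2 y hy).trans (le_max_right _ _))
  obtain ⟨h4, h5⟩ := hCb _ A h1 hA h2 h3 e B σ he hB hσ hs
  constructor
  · intro hb z
    refine (h4 hb z).trans ?_
    have hn : 0 < ‖z‖ + e := by positivity
    gcongr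
    linarith
  · intro hb hi z
    refine (h5 hb hi z).trans ?_
    have hn : 0 < ‖z‖ + e := by positivity
    gcongr
    linarith

lemma wE_integrable (k : ℕ) {e : ℝ} (he : 0 < e) (x : E4) :
    Integrable (fun y => 1 / (‖x - y‖ + e) ^ k) D.s := by
  have := D.fin
  have hm : Measurable fun y : E4 => 1 / (‖x - y‖ + e) ^ k := by fun_prop
  refine Integrable.of_bound hm.aestronglyMeasurable ((e ^ k)⁻¹) ?_
  refine ae_of_all _ fun y => ?_
  have h0 : 0 < ‖x - y‖ + e := by positivity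
  rw [Real.norm_of_nonneg (by positivity), one_div]
  apply inv_anti₀ (by positivity)
  have : e ≤ ‖x - y‖ + e := by have := norm_nonneg (x - y); linarith
  exact pow_le_pow_left₀ he.le this k

lemma wE_nn (k : ℕ) {e : ℝ} (he : 0 < e) (x : E4) : 0 ≤ wE D.s D.c D.R e k x := by
  unfold wE
  apply integral_nonneg
  intro y
  show 0 ≤ 1 / (‖x - y‖ + e) ^ k
  positivity

/-- from a pointwise bound of the inner integrals to `wE`. -/
lemma int_le_wE {F : E4 → ℝ} {k : ℕ} {e C : ℝ} (he : 0 < e) (x : E4)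
    (h0 : ∀ y, y ∉ closedBall D.c D.R → F y = 0)
    (h : ∀ y ∈ closedBall D.c D.R, |F y| ≤ C / (‖x - y‖ + e) ^ k) :
    |∫ y, F y ∂D.s| ≤ C * wE D.s D.c D.R e k x := by
  rw [← setIntegral_eq_integral_of_forall_compl_eq_zero (s := closedBall D.c D.R) h0]
  unfold wE
  rw [← integral_const_mul]
  have h1 : Integrable (fun y => C * (1 / (‖x - y‖ + e) ^ k)) (D.s.restrict (closedBall D.c D.R)) :=
    ((D.wE_integrable k he x).const_mul C).integrableOn
  have := norm_integral_le_of_norm_le h1 (f := F) ?_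
  · rwa [Real.norm_eq_abs] at this
  · filter_upwards [ae_restrict_mem measurableSet_closedBall] with y hy
    rw [Real.norm_eq_abs]
    refine (h y hy).trans (le_of_eq ?_)
    ring

/-- **(U)** bounds for the potential. -/
theorem uBd (c0 : ℝ) (χ ρ : E4 → ℝ) : D.UBd c0 χ ρ := by
  intro hc0 hχ hρ τ hτ htr
  have hfin := D.fin
  have hR := D.hR
  obtain ⟨A1, hA1, hker⟩ := D.exists_ker_const
  obtain ⟨B, hB, hB1, hB2⟩ := exists_rho_bd hρ.sm hρ.sup
  obtain ⟨hmtr, T, hT0, hT⟩ := D.MBtr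
  -- lower bound data
  obtain ⟨lam, hl, hlow⟩ := exists_lower D.smg.continuous D.gpos D.c D.R
  obtain ⟨L1, hL1, hup1⟩ := exists_upper D.smg.continuous D.c D.R
  obtain ⟨c1, hc1, hkl⟩ := kerlow (lam := lam) (Lam := L1) hl
  obtain ⟨κ, hκ, hκl⟩ : ∃ κ : ℝ, 0 < κ ∧ ∀ y ∈ closedBall D.c D.R, κ ≤ kap c0 (D.g y) := by
    have hcont : Continuous fun y => kap c0 (D.g y) :=
      (kap_contDiff c0 D.smg D.gsymm D.gpos).continuous
    obtain ⟨y0, _, hy0⟩ := (isCompact_closedBall D.c D.R).exists_isMinOn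
      ⟨D.c, mem_closedBall_self hR.le⟩ hcont.continuousOn
    exact ⟨kap c0 (D.g y0), kap_pos hc0 (D.gsymm y0) (D.gpos y0), fun y hy => hy0 hy⟩
  have hθ : ∀ v : ℝ, MB D.c D.R fun y => (D.tr y • (LinearMap.id : ℝ →ₗ[ℝ] ℝ)) v := by
    intro v
    have := D.MBtr.mul (MB.const (c := D.c) (R := D.R) v)
    simpa [LinearMap.smul_apply] using this
  -- the constant
  set C1 : ℝ := T * (A1 * B) with hC1
  have hC1n : 0 ≤ C1 := by positivity
  set c2 : ℝ := τ * κ * c1 with hc2
  have hc2p : 0 < c2 := by positivity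
  set M : ℝ := c2 * (64 / D.R ^ 2 * D.s.real Set.univ) with hM
  have hMn : 0 ≤ M := by positivity
  refine ⟨C1 + 1 / c2 + M + 1, by positivity, ?_⟩
  intro e he he8 x hx
  have hadm := D.adm he8 hx
  have hσs := rhoU_contDiff hρ.sm e
  have hσ0 := rhoU_zero hρ.sup he
  have hσc := compact_of_zero hσ0
  have hw2 := D.wE_nn 2 he x
  have hw3 := D.wE_nn 3 he x
  -- formula for `u`
  have hu : D.uu (rhoE ρ e) x =
      ∫ y, (∫ ζ, kk (D.k y • D.g y) (D.g y) ζ * (D.tr y * rhoE ρ e (x - y - ζ))) ∂D.s := by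
    unfold uu
    rw [D.GF_fub hθ hσs.continuous hσ0 hadm]
    simp only [LinearMap.smul_apply, LinearMap.id_apply, smul_eq_mul]
  have hui : Integrable (fun y => ∫ ζ, kk (D.k y • D.g y) (D.g y) ζ *
      (D.tr y * rhoE ρ e (x - y - ζ))) D.s := by
    have := D.GF_fub_integrable hθ hσs.continuous hσ0 hadm
    simpa only [LinearMap.smul_apply, LinearMap.id_apply, smul_eq_mul] using this
  have hinner : ∀ (σ : E4 → ℝ) (y : E4), ∫ ζ, kk (D.k y • D.g y) (D.g y) ζ *
      (D.tr y * σ (x - y - ζ)) =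
      D.tr y * ∫ ζ, σ (x - y - ζ) * kk (D.k y • D.g y) (D.g y) ζ := by
    intro σ y
    rw [← integral_const_mul]
    refine integral_congr_ae (Filter.Eventually.of_forall fun ζ => ?_)
    simp only
    ring
  have hkk0 : ∀ (σ : E4 → ℝ) (y : E4), y ∉ closedBall D.c D.R →
      ∫ ζ, kk (D.k y • D.g y) (D.g y) ζ * (D.tr y * σ (x - y - ζ)) = 0 := by
    intro σ y hy
    have h2 : ∀ ζ, kk (D.k y • D.g y) (D.g y) ζ = 0 := by intro ζ; simp [kk, D.k0 y hy]
    simp [h2]
  -- upper bound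
  have hupper : |D.uu (rhoE ρ e) x| ≤ C1 * wE D.s D.c D.R e 2 x := by
    rw [hu]
    refine D.int_le_wE he x (hkk0 _) fun y hy => ?_
    rw [hinner, abs_mul]
    have h1 := (hker y hy e B (rhoE ρ e) he hB.le hσs.continuous hσ0).1
      (fun z => rhoE_bd hB1 he z) (x - y)
    calc |D.tr y| * |∫ ζ, rhoE ρ e (x - y - ζ) * kk (D.k y • D.g y) (D.g y) ζ|
        ≤ T * (A1 * B / (‖x - y‖ + e) ^ 2) :=
          mul_le_mul (hT y hy) h1 (abs_nonneg _) hT0
      _ = _ := by rw [hC1]; ring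
  refine ⟨?_, ?_, ?_⟩
  · -- lower bound
    have hsplit : wE D.s D.c D.R e 2 x ≤
        (∫ y in closedBall D.c (3 / 4 * D.R), 1 / (‖x - y‖ + e) ^ 2 ∂D.s) +
          64 / D.R ^ 2 * D.s.real Set.univ := by
      unfold wE
      have hsub : closedBall D.c (3 / 4 * D.R) ⊆ closedBall D.c D.R :=
        closedBall_subset_closedBall (by linarith)
      have hun : closedBall D.c D.R =
          closedBall D.c (3 / 4 * D.R) ∪ (closedBall D.c D.R \ closedBall D.c (3 / 4 * D.R)) :=
        (Set.union_sdiff_cancel hsub).symm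
      have hi := D.wE_integrable 2 he x
      rw [hun, setIntegral_union Set.disjoint_sdiff_right
        (measurableSet_closedBall.diff measurableSet_closedBall) hi.integrableOn hi.integrableOn]
      gcongr
      have hb : ∀ y ∈ closedBall D.c D.R \ closedBall D.c (3 / 4 * D.R),
          ‖1 / (‖x - y‖ + e) ^ 2‖ ≤ 64 / D.R ^ 2 := by
        intro y hy
        have hy2 : 3 / 4 * D.R < ‖y - D.c‖ := by
          have := hy.2
          rw [mem_closedBall, dist_eq_norm, not_le] at this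
          exact this
        have hx2 : ‖x - D.c‖ < 5 / 8 * D.R := by
          rw [mem_ball, dist_eq_norm] at hx; exact hx
        have h3 : D.R / 8 ≤ ‖x - y‖ := by
          have h4 : ‖y - D.c‖ ≤ ‖x - D.c‖ + ‖x - y‖ := by
            calc ‖y - D.c‖ = ‖(x - D.c) - (x - y)‖ := by congr 1; abel
              _ ≤ _ := norm_sub_le _ _
          linarith
        rw [Real.norm_of_nonneg (by positivity)]
        have h5 : (D.R / 8) ^ 2 ≤ (‖x - y‖ + e) ^ 2 :=
          pow_le_pow_left₀ (by positivity) (by linarith) 2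
        calc 1 / (‖x - y‖ + e) ^ 2 ≤ 1 / (D.R / 8) ^ 2 :=
              one_div_le_one_div_of_le (by positivity) h5
          _ = 64 / D.R ^ 2 := by field_simp; norm_num
      have h6 := norm_setIntegral_le_of_norm_le_const
        (measure_lt_top D.s (closedBall D.c D.R \ closedBall D.c (3 / 4 * D.R))) hb
      rw [Real.norm_eq_abs] at h6
      have h7 : D.s.real (closedBall D.c D.R \ closedBall D.c (3 / 4 * D.R)) ≤
          D.s.real Set.univ := measureReal_mono (Set.subset_univ _) (measure_ne_top _ _)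
      exact (le_abs_self _).trans (h6.trans (mul_le_mul_of_nonneg_left h7 (by positivity)))
    have hlowb : c2 * (∫ y in closedBall D.c (3 / 4 * D.R), 1 / (‖x - y‖ + e) ^ 2 ∂D.s) ≤
        - D.uu (rhoE ρ e) x := by
      rw [hu, ← integral_neg, ← integral_const_mul, ← integral_indicator measurableSet_closedBall]
      have hnn : ∀ y ∈ closedBall D.c D.R, ∀ z : E4,
          c1 / (‖z‖ + e) ^ 2 ≤ ∫ ζ, rhoE ρ e (z - ζ) / D.g y ζ ζ := fun y hy z =>
        hkl (D.g y) (hlow y hy) (hup1 y hy) e (rhoE ρ e) he hσs.continuous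
          (fun z => rhoU_nonneg hρ.nn he z) hσ0 (rhoU_integral hρ.one he) z
      have hform : ∀ y ∈ closedBall D.c D.R,
          -(∫ ζ, kk (D.k y • D.g y) (D.g y) ζ * (D.tr y * rhoE ρ e (x - y - ζ))) =
          D.tr y * (χ y * kap c0 (D.g y)) * ∫ ζ, rhoE ρ e (x - y - ζ) / D.g y ζ ζ := by
        intro y hy
        rw [← integral_neg, ← integral_const_mul]
        refine integral_congr_ae (Filter.Eventually.of_forall fun ζ => ?_)
        simp only [kk_of_smul]
        rw [hχ.kk y]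
        ring
      apply integral_mono_of_nonneg
      · refine Filter.Eventually.of_forall fun y => ?_
        apply Set.indicator_nonneg
        intro z _
        positivity
      · exact hui.neg
      · refine Filter.Eventually.of_forall fun y => ?_
        show (closedBall D.c (3 / 4 * D.R)).indicator
            (fun y => c2 * (1 / (‖x - y‖ + e) ^ 2)) y ≤
          -(∫ ζ, kk (D.k y • D.g y) (D.g y) ζ * (D.tr y * rhoE ρ e (x - y - ζ)))
        by_cases hy : y ∈ closedBall D.c D.R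
        · rw [hform y hy]
          have h7 := hnn y hy (x - y)
          have h8 : 0 < c1 / (‖x - y‖ + e) ^ 2 := by positivity
          have hκy := hκl y hy
          have hty := htr y hy
          by_cases hy2 : y ∈ closedBall D.c (3 / 4 * D.R)
          · rw [Set.indicator_of_mem hy2, hχ.one y hy2, one_mul]
            calc c2 * (1 / (‖x - y‖ + e) ^ 2) = τ * κ * (c1 / (‖x - y‖ + e) ^ 2) := by
                  rw [hc2]; ring
              _ ≤ D.tr y * kap c0 (D.g y) * ∫ ζ, rhoE ρ e (x - y - ζ) / D.g y ζ ζ := by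
                  apply mul_le_mul _ h7 h8.le
                  · have : 0 < kap c0 (D.g y) := hκ.trans_le hκy
                    have : 0 < D.tr y := hτ.trans_le hty
                    positivity
                  · exact mul_le_mul hty hκy hκ.le (hτ.le.trans hty)
          · rw [Set.indicator_of_notMem hy2]
            have h9 : 0 < kap c0 (D.g y) := hκ.trans_le hκy
            have h10 : 0 < D.tr y := hτ.trans_le hty
            have h11 := hχ.nn y
            have h12 : 0 ≤ ∫ ζ, rhoE ρ e (x - y - ζ) / D.g y ζ ζ := h8.le.trans h7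
            positivity
        · rw [hkk0 _ y hy, neg_zero]
          rw [Set.indicator_of_notMem]
          intro h
          exact hy (closedBall_subset_closedBall (by linarith) h)
    have hfinal : c2 * wE D.s D.c D.R e 2 x - M ≤ - D.uu (rhoE ρ e) x := by
      have := mul_le_mul_of_nonneg_left hsplit hc2p.le
      rw [mul_add] at this
      rw [hM]
      linarith
    refine le_trans ?_ hfinal
    have hCpos : 0 < C1 + 1 / c2 + M + 1 := by positivity
    have h13 : wE D.s D.c D.R e 2 x / (C1 + 1 / c2 + M + 1) ≤ c2 * wE D.s D.c D.R e 2 x := by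
      rw [div_le_iff₀ hCpos]
      have h14 : 1 ≤ c2 * (C1 + 1 / c2 + M + 1) := by
        have h15 : c2 * (C1 + 1 / c2 + M + 1) = 1 + c2 * (C1 + M + 1) := by
          field_simp
          ring
        rw [h15]
        have : 0 ≤ c2 * (C1 + M + 1) := by positivity
        linarith
      calc wE D.s D.c D.R e 2 x = 1 * wE D.s D.c D.R e 2 x := (one_mul _).symm
        _ ≤ (c2 * (C1 + 1 / c2 + M + 1)) * wE D.s D.c D.R e 2 x :=
            mul_le_mul_of_nonneg_right h14 hw2
        _ = _ := by ring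
    have h16 : 0 < 1 / c2 := by positivity
    linarith
  · refine (neg_le_abs _).trans (hupper.trans ?_)
    apply mul_le_mul_of_nonneg_right _ hw2
    have : 0 < 1 / c2 := by positivity
    linarith
  · -- gradient
    have hCpos : 0 ≤ C1 + 1 / c2 + M + 1 := by positivity
    refine ContinuousLinearMap.opNorm_le_bound _ (by positivity) fun v => ?_
    have hfd : fderiv ℝ (D.uu (rhoE ρ e)) x v =
        ∫ y, (∫ ζ, kk (D.k y • D.g y) (D.g y) ζ * (D.tr y * ddv (rhoE ρ e) v (x - y - ζ))) ∂D.s := by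
      unfold uu
      rw [D.GF_fderiv hθ hσs hσc]
      have hz : ∀ z, e < ‖z‖ → ddv (rhoE ρ e) v z = 0 := by
        intro z hz
        unfold ddv
        rw [fderiv_zero_of_zero hσ0 z hz]
        rfl
      rw [D.GF_fub hθ (ddv_contDiff hσs v).continuous hz hadm]
      simp only [LinearMap.smul_apply, LinearMap.id_apply, smul_eq_mul]
    have hz : ∀ z, e < ‖z‖ → ddv (rhoE ρ e) v z = 0 := by
      intro z hz
      unfold ddv
      rw [fderiv_zero_of_zero hσ0 z hz]
      rfl
    rw [hfd, Real.norm_eq_abs]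
    have h1 : |∫ y, (∫ ζ, kk (D.k y • D.g y) (D.g y) ζ *
        (D.tr y * ddv (rhoE ρ e) v (x - y - ζ))) ∂D.s| ≤
        (C1 * ‖v‖) * wE D.s D.c D.R e 3 x := by
      refine D.int_le_wE he x (hkk0 _) fun y hy => ?_
      rw [hinner, abs_mul]
      have h2 := (hker y hy e (B * ‖v‖) (ddv (rhoE ρ e) v) he (by positivity)
        (ddv_contDiff hσs v).continuous hz).2
        (fun z => ddv_rhoE_bd hρ.sm hB2 he v z) (ddv_integral hσs hσc v) (x - y)
      calc |D.tr y| * |∫ ζ, ddv (rhoE ρ e) v (x - y - ζ) * kk (D.k y • D.g y) (D.g y) ζ|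
          ≤ T * (A1 * (B * ‖v‖) / (‖x - y‖ + e) ^ 3) :=
            mul_le_mul (hT y hy) h2 (abs_nonneg _) hT0
        _ = _ := by rw [hC1]; ring
    refine h1.trans ?_
    have h3 : C1 ≤ C1 + 1 / c2 + M + 1 := by
      have : 0 < 1 / c2 := by positivity
      linarith
    calc C1 * ‖v‖ * wE D.s D.c D.R e 3 x ≤
        (C1 + 1 / c2 + M + 1) * ‖v‖ * wE D.s D.c D.R e 3 x := by gcongr
      _ = _ := by ring

end PD

end Crest.Agent.R240.Pot
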