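import Mathlib
import Crest.Agent.R240.PotU

/-!
# Row 240, Part P: bound of `a1 = b1 - J^c du` (helper369)
-/

set_option autoImplicit false
set_option maxSynthPendingDepth 3
open scoped ContDiff
open MeasureTheory Metric Crest.Agent.R240.En

namespace Crest.Agent.R240.Pot.PD

variable (D : PD)

/-- Lipschitz bound of `J` on a ball. -/
lemma exists_lip_J : ∃ L : ℝ, 0 < L ∧ ∀ x ∈ closedBall D.c D.R, ∀ y ∈ closedBall D.c D.R,
    ‖D.J x - D.J y‖ ≤ L * ‖x - y‖ := by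
  obtain ⟨L, hL, hLb⟩ := exists_upper (fd_contDiff D.smJ).continuous D.c D.R
  refine ⟨L, hL, fun x hx y hy => ?_⟩
  have := (convex_closedBall D.c D.R).norm_image_sub_le_of_norm_fderiv_le (𝕜 := ℝ) (f := D.J)
    (fun z _ => (D.smJ.differentiable (by simp)) z) (fun z hz => hLb z hz) hy hx
  exact this

/-- **(A1)** -/
theorem a1Bd (ρ : E4 → ℝ) : D.A1Bd ρ := by
  intro hρ
  have hfin := D.fin
  have hR := D.hR
  obtain ⟨A1, hA1, hker⟩ := D.exists_ker_const
  obtain ⟨B, hB, hB1, hB2⟩ := exists_rho_bd hρ.sm hρ.sup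
  obtain ⟨hmtr, T, hT0, hT⟩ := D.MBtr
  obtain ⟨L, hL, hLb⟩ := D.exists_lip_J
  have hθ : ∀ v : ℝ, MB D.c D.R fun y => (D.tr y • (LinearMap.id : ℝ →ₗ[ℝ] ℝ)) v := by
    intro v
    have := D.MBtr.mul (MB.const (c := D.c) (R := D.R) v)
    simpa [LinearMap.smul_apply] using this
  refine ⟨T * (A1 * B) * L + 1, by positivity, ?_⟩
  intro e he he8 x hx
  have hadm := D.adm he8 hx
  have hσs := rhoU_contDiff hρ.sm e
  have hσ0 := rhoU_zero hρ.sup he
  have hσc := compact_of_zero hσ0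
  have hw2 := D.wE_nn 2 he x
  have hxR : x ∈ closedBall D.c D.R := by
    rw [mem_ball] at hx; rw [mem_closedBall]; linarith
  have hfd0 : ∀ z, e < ‖z‖ → fderiv ℝ (rhoE ρ e) z = 0 := fderiv_zero_of_zero hσ0
  have hfds := fd_contDiff hσs
  refine ContinuousLinearMap.opNorm_le_bound _ (by positivity) fun w => ?_
  have hz : ∀ v z, e < ‖z‖ → ddv (rhoE ρ e) v z = 0 := by
    intro v z hz
    unfold ddv
    rw [hfd0 z hz]
    rfl
  -- first term
  have e1 : D.b1 (3 * D.R) (rhoE ρ e) x w =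
      ∫ y, (∫ ζ, kk (D.k y • D.g y) (D.g y) ζ *
        (D.t1 y w (fderiv ℝ (rhoE ρ e) (x - y - ζ)))) ∂D.s := by
    rw [b1, D.CV_apply D.MB1 D.t1_add D.t1_smul hσs hσc,
      D.GF_fub (D.MB1 w) hfds.continuous hfd0 hadm]
  have i1 := D.GF_fub_integrable (D.MB1 w) hfds.continuous hfd0 hadm
  -- second term
  have e2 : fderiv ℝ (D.uu (rhoE ρ e)) x (D.J x w) =
      ∫ y, (∫ ζ, kk (D.k y • D.g y) (D.g y) ζ *
        (D.tr y * ddv (rhoE ρ e) (D.J x w) (x - y - ζ))) ∂D.s := by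
    unfold uu
    rw [D.GF_fderiv hθ hσs hσc, D.GF_fub hθ (ddv_contDiff hσs _).continuous (hz _) hadm]
    simp only [LinearMap.smul_apply, LinearMap.id_apply, smul_eq_mul]
  have i2 : Integrable (fun y => ∫ ζ, kk (D.k y • D.g y) (D.g y) ζ *
      (D.tr y * ddv (rhoE ρ e) (D.J x w) (x - y - ζ))) D.s := by
    have := D.GF_fub_integrable hθ (ddv_contDiff hσs (D.J x w)).continuous (hz _) hadm
    simpa only [LinearMap.smul_apply, LinearMap.id_apply, smul_eq_mul] using this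
  have hkk0 : ∀ (f : E4 → E4 → ℝ) (y : E4), y ∉ closedBall D.c D.R →
      ∫ ζ, kk (D.k y • D.g y) (D.g y) ζ * f y ζ = 0 := by
    intro σ y hy
    have h2 : ∀ ζ, kk (D.k y • D.g y) (D.g y) ζ = 0 := by intro ζ; simp [kk, D.k0 y hy]
    simp [h2]
  -- integrability of the kernels against continuous functions vanishing far away
  have hki : ∀ y ∈ closedBall D.c D.R, ∀ (σ : E4 → ℝ), Continuous σ →
      (∀ z, e < ‖z‖ → σ z = 0) → ∀ z,
      Integrable fun ζ => σ (z - ζ) * kk (D.k y • D.g y) (D.g y) ζ := by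
    intro y hy σ hσ hs z
    obtain ⟨lam, hl, hlow⟩ := exists_lower D.smg.continuous D.gpos D.c D.R
    have hm : Measurable (kk (D.k y • D.g y) (D.g y)) :=
      (continuous_quad _).measurable.div ((continuous_quad _).measurable.pow_const 2)
    have hb : ∀ ζ, ζ ≠ 0 → |kk (D.k y • D.g y) (D.g y) ζ| ≤
        (‖D.k y • D.g y‖ / lam ^ 2) / ‖ζ‖ ^ 2 := by
      intro ζ _
      have := kk_bd hl (hlow y hy) (le_refl ‖D.k y • D.g y‖) ζ
      refine this.trans (le_of_eq ?_)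
      ring
    exact int_conv hσ hs z (intOn_ker hm hb)
  have hinner : ∀ y ∈ closedBall D.c D.R,
      (∫ ζ, kk (D.k y • D.g y) (D.g y) ζ * (D.t1 y w (fderiv ℝ (rhoE ρ e) (x - y - ζ)))) +
      (∫ ζ, kk (D.k y • D.g y) (D.g y) ζ *
        (D.tr y * ddv (rhoE ρ e) (D.J x w) (x - y - ζ))) =
      D.tr y * ∫ ζ, ddv (rhoE ρ e) ((D.J x - D.J y) w) (x - y - ζ) *
        kk (D.k y • D.g y) (D.g y) ζ := by
    intro y hy
    have j1 : Integrable fun ζ => kk (D.k y • D.g y) (D.g y) ζ *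
        (D.t1 y w (fderiv ℝ (rhoE ρ e) (x - y - ζ))) := by
      have := (hki y hy _ (ddv_contDiff hσs (D.J y w)).continuous (hz _) (x - y)).const_mul
        (-D.tr y)
      refine this.congr (Filter.Eventually.of_forall fun ζ => ?_)
      simp only [t1, th1, LinearMap.coe_mk, AddHom.coe_mk, ddv]
      ring
    have j2 : Integrable fun ζ => kk (D.k y • D.g y) (D.g y) ζ *
        (D.tr y * ddv (rhoE ρ e) (D.J x w) (x - y - ζ)) := by
      have := (hki y hy _ (ddv_contDiff hσs (D.J x w)).continuous (hz _) (x - y)).const_mul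
        (D.tr y)
      refine this.congr (Filter.Eventually.of_forall fun ζ => ?_)
      simp only
      ring
    rw [← integral_add j1 j2, ← integral_const_mul]
    refine integral_congr_ae (Filter.Eventually.of_forall fun ζ => ?_)
    simp only [t1, th1, LinearMap.coe_mk, AddHom.coe_mk, ddv, sub_apply, map_sub]
    ring
  have hval : (D.b1 (3 * D.R) (rhoE ρ e) x -
      Jc (D.J x) (fderiv ℝ (D.uu (rhoE ρ e)) x)) w =
      ∫ y, ((∫ ζ, kk (D.k y • D.g y) (D.g y) ζ *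
        (D.t1 y w (fderiv ℝ (rhoE ρ e) (x - y - ζ)))) +
      (∫ ζ, kk (D.k y • D.g y) (D.g y) ζ *
        (D.tr y * ddv (rhoE ρ e) (D.J x w) (x - y - ζ)))) ∂D.s := by
    rw [integral_add i1 i2, ← e1, ← e2]
    rw [sub_apply]
    have : Jc (D.J x) (fderiv ℝ (D.uu (rhoE ρ e)) x) w =
        - fderiv ℝ (D.uu (rhoE ρ e)) x (D.J x w) := by simp
    rw [this, sub_neg_eq_add]
  rw [hval, Real.norm_eq_abs]
  have h1 := D.int_le_wE (k := 2) (C := T * (A1 * B) * L * ‖w‖) he x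
    (F := fun y => (∫ ζ, kk (D.k y • D.g y) (D.g y) ζ *
        (D.t1 y w (fderiv ℝ (rhoE ρ e) (x - y - ζ)))) +
      (∫ ζ, kk (D.k y • D.g y) (D.g y) ζ *
        (D.tr y * ddv (rhoE ρ e) (D.J x w) (x - y - ζ))))
    (fun y hy => by
      rw [hkk0 (fun y ζ => D.t1 y w (fderiv ℝ (rhoE ρ e) (x - y - ζ))) y hy,
        hkk0 (fun y ζ => D.tr y * ddv (rhoE ρ e) (D.J x w) (x - y - ζ)) y hy, add_zero])
    (fun y hy => ?_)
  · refine h1.trans ?_
    calc T * (A1 * B) * L * ‖w‖ * wE D.s D.c D.R e 2 x ≤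
        (T * (A1 * B) * L + 1) * ‖w‖ * wE D.s D.c D.R e 2 x := by
          gcongr; linarith
      _ = _ := by ring
  · rw [hinner y hy, abs_mul]
    set v := (D.J x - D.J y) w with hv
    have hvn : ‖v‖ ≤ L * ‖x - y‖ * ‖w‖ :=
      ((D.J x - D.J y).le_opNorm w).trans
        (mul_le_mul_of_nonneg_right (hLb x hxR y hy) (norm_nonneg _))
    have h2 := (hker y hy e (B * ‖v‖) (ddv (rhoE ρ e) v) he (by positivity)
      (ddv_contDiff hσs v).continuous (hz _)).2
      (fun z => ddv_rhoE_bd hρ.sm hB2 he v z) (ddv_integral hσs hσc v) (x - y)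
    have hn : 0 < ‖x - y‖ + e := by positivity
    calc |D.tr y| * |∫ ζ, ddv (rhoE ρ e) v (x - y - ζ) * kk (D.k y • D.g y) (D.g y) ζ|
        ≤ T * (A1 * (B * ‖v‖) / (‖x - y‖ + e) ^ 3) :=
          mul_le_mul (hT y hy) h2 (abs_nonneg _) hT0
      _ ≤ T * (A1 * (B * (L * ‖x - y‖ * ‖w‖)) / (‖x - y‖ + e) ^ 3) := by gcongr
      _ ≤ T * (A1 * (B * (L * (‖x - y‖ + e) * ‖w‖)) / (‖x - y‖ + e) ^ 3) := by
          gcongr; linarith
      _ = T * (A1 * B) * L * ‖w‖ / (‖x - y‖ + e) ^ 2 := by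
          field_simp

end Crest.Agent.R240.Pot.PD
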