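import Mathlib
import Crest.Agent.R240.Lin1
import Crest.Agent.R240.En1
import Crest.Agent.R240.PotAlg
import Crest.Agent.R240.PotS

/-!
Row 240 (S0371), Part P (helper365): integration by parts against a closed measure-valued 2-form
on an open subset of `R^4`, and closedness of its mollification.
-/

set_option autoImplicit false
set_option maxSynthPendingDepth 3
open scoped ContDiff
open MeasureTheory

namespace Crest.Agent.R240.Pot

/-- the covector `x ↦ det (u, v, w, x)` -/
noncomputable def cov3 (u v w : E4) : En.Cov :=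
  (-(u 1 * (v 2 * w 3 - v 3 * w 2) - u 2 * (v 1 * w 3 - v 3 * w 1)
      + u 3 * (v 1 * w 2 - v 2 * w 1))) • (EuclideanSpace.proj 0 : E4 →L[ℝ] ℝ)
  + (u 0 * (v 2 * w 3 - v 3 * w 2) - u 2 * (v 0 * w 3 - v 3 * w 0)
      + u 3 * (v 0 * w 2 - v 2 * w 0)) • (EuclideanSpace.proj 1 : E4 →L[ℝ] ℝ)
  + (-(u 0 * (v 1 * w 3 - v 3 * w 1) - u 1 * (v 0 * w 3 - v 3 * w 0)
      + u 3 * (v 0 * w 1 - v 1 * w 0))) • (EuclideanSpace.proj 2 : E4 →L[ℝ] ℝ)
  + (u 0 * (v 1 * w 2 - v 2 * w 1) - u 1 * (v 0 * w 2 - v 2 * w 0)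
      + u 2 * (v 0 * w 1 - v 1 * w 0)) • (EuclideanSpace.proj 3 : E4 →L[ℝ] ℝ)

theorem cov_expand (ξ : En.Cov) (u : E4) : ξ u = u 0 * ξ (ee 0) + u 1 * ξ (ee 1)
    + u 2 * ξ (ee 2) + u 3 * ξ (ee 3) := by
  conv_lhs => rw [sum_ee u]
  simp only [map_add, map_smul, smul_eq_mul]

/-- every component of `ξ ∧ A` is a wedge of `A` with `ξ ∧ η` for a constant covector `η` -/
theorem wed3_eq_W {A : Bil} (hA : Alt A) (ξ : En.Cov) (u v w : E4) :
    wed3 ξ (fun a b => A a b) u v w = W A (wed ξ (cov3 u v w)) := by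
  have h0 : wed3 ξ (fun a b => A a b) u v w = ξ u * A v w - ξ v * A u w + ξ w * A u v := rfl
  rw [h0]
  unfold W
  rw [alt_expand hA v w, alt_expand hA u w, alt_expand hA u v, cov_expand ξ u, cov_expand ξ v,
    cov_expand ξ w]
  simp only [ent, wed_apply, cov3]
  simp [ee]
  ring

variable {s : Measure E4} [IsFiniteMeasure s] {phi : E4 → Bil} {A : ℝ} {U : Set E4}

lemma phi_apply_measurable (hm : Measurable phi) (a b : E4) : Measurable fun y => phi y a b := by
  have h1 : Measurable fun y => phi y a := by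
    exact (ContinuousLinearMap.measurable_apply a).comp hm
  exact (ContinuousLinearMap.measurable_apply b).comp h1

lemma phi_apply_bound (hA : ∀ y, ‖phi y‖ ≤ A) (a b : E4) (y : E4) :
    ‖phi y a b‖ ≤ A * ‖a‖ * ‖b‖ := by
  refine ((phi y).le_opNorm₂ a b).trans ?_
  gcongr
  exact hA y

lemma phi_apply_integrable (hm : Measurable phi) (hA : ∀ y, ‖phi y‖ ≤ A) (a b : E4) :
    Integrable (fun y => phi y a b) s :=
  Integrable.of_bound (phi_apply_measurable hm a b).aestronglyMeasurable (A * ‖a‖ * ‖b‖)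
    (Filter.Eventually.of_forall fun y => phi_apply_bound hA a b y)

/-- `g * (phi a b)` is integrable for `g` continuous with compact support -/
lemma mul_phi_integrable (hm : Measurable phi) (hA : ∀ y, ‖phi y‖ ≤ A) {g : E4 → ℝ}
    (hg : Continuous g) (hc : HasCompactSupport g) (a b : E4) :
    Integrable (fun y => g y * phi y a b) s := by
  obtain ⟨C, hC0, hC⟩ := exists_bd hg hc
  exact (phi_apply_integrable hm hA a b).bdd_mul hg.aestronglyMeasurable
    (Filter.Eventually.of_forall fun y => hC y)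

/-- `wed3 (X y) (phi y) u v w` is integrable if `X` is a continuous compactly supported covector
field -/
lemma wed3_integrable (hm : Measurable phi) (hA : ∀ y, ‖phi y‖ ≤ A) {X : E4 → En.Cov}
    (hX : Continuous X) (hc : HasCompactSupport X) (u v w : E4) :
    Integrable (fun y => wed3 (X y) (fun a b => phi y a b) u v w) s := by
  have h : ∀ a : E4, Continuous (fun y => X y a) ∧ HasCompactSupport (fun y => X y a) := by
    intro a
    refine ⟨hX.clm_apply continuous_const, ?_⟩
    exact hc.comp_left (g := fun T : En.Cov => T a) (by simp)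
  unfold wed3
  exact ((mul_phi_integrable hm hA (h u).1 (h u).2 v w).sub
    (mul_phi_integrable hm hA (h v).1 (h v).2 u w)).add
    (mul_phi_integrable hm hA (h w).1 (h w).2 u v)

omit [IsFiniteMeasure s] in
/-- (I1), (I1') -/
theorem wed3_zero (halt : ∀ y, Alt (phi y))
    (hcl : ∀ ψ : E4 → En.Cov, ContDiff ℝ ∞ ψ → HasCompactSupport ψ → tsupport ψ ⊆ U →
      ∫ y, W (phi y) (En.d1 ψ y) ∂s = 0)
    {h : E4 → ℝ} (hh : ContDiff ℝ ∞ h) (hc : HasCompactSupport h) (hU : tsupport h ⊆ U)
    (u v w : E4) :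
    ∫ y, wed3 (fderiv ℝ h y) (fun a b => phi y a b) u v w ∂s = 0 := by
  have hψ : ContDiff ℝ ∞ (fun y => h y • cov3 u v w) := hh.smul contDiff_const
  have hψc : HasCompactSupport (fun y => h y • cov3 u v w) := hc.smul_right
  have hψU : tsupport (fun y => h y • cov3 u v w) ⊆ U :=
    (closure_mono (Function.support_smul_subset_left h fun _ => cov3 u v w)).trans hU
  rw [← hcl _ hψ hψc hψU]
  refine integral_congr_ae (Filter.Eventually.of_forall fun y => ?_)
  simp only
  rw [wed3_eq_W (halt y)]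
  congr 1
  rw [En.d1_smul (hh.differentiable (by simp) y) (differentiableAt_const _)]
  have : En.d1 (fun _ : E4 => cov3 u v w) y = 0 := by
    ext a b
    simp [En.d1]
  rw [this]
  simp

lemma fderiv_sub_left (σ : E4 → ℝ) (hσ : Differentiable ℝ σ) (x y : E4) :
    fderiv ℝ (fun y => σ (x - y)) y = - fderiv ℝ σ (x - y) := by
  have h1 : HasFDerivAt (fun y : E4 => x - y) (-(ContinuousLinearMap.id ℝ E4)) y := by
    simpa using (hasFDerivAt_id (𝕜 := ℝ) y).const_sub x
  have h2 : HasFDerivAt σ (fderiv ℝ σ (x - y)) (x - y) := (hσ _).hasFDerivAt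
  have h3 : HasFDerivAt (fun y => σ (x - y))
      ((fderiv ℝ σ (x - y)).comp (-(ContinuousLinearMap.id ℝ E4))) y := h2.comp y h1
  rw [h3.fderiv]
  ext a
  simp

lemma fderiv_mul_kernel {f σ : E4 → ℝ} (hf : Differentiable ℝ f) (hσ : Differentiable ℝ σ)
    (x y : E4) : fderiv ℝ (fun y => f y * σ (x - y)) y
      = σ (x - y) • fderiv ℝ f y - f y • fderiv ℝ σ (x - y) := by
  have h0 : DifferentiableAt ℝ (fun y => σ (x - y)) y :=
    (hσ (x - y)).comp y ((differentiableAt_const x).sub differentiableAt_id)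
  have h1 := fderiv_fun_mul (hf y) h0
  rw [h1, fderiv_sub_left σ hσ, smul_neg, neg_add_eq_sub]

lemma w3_smul (c : ℝ) (ξ : En.Cov) (A : E4 → E4 → ℝ) (u v w : E4) :
    wed3 (⇑(c • ξ)) A u v w = c * wed3 ξ A u v w := by
  have h : ∀ a, (c • ξ) a = c * ξ a := fun a => rfl
  simp only [wed3, h]
  ring

lemma w3_sub (ξ η : En.Cov) (A : E4 → E4 → ℝ) (u v w : E4) :
    wed3 (⇑(ξ - η)) A u v w = wed3 ξ A u v w - wed3 η A u v w := by
  have h : ∀ a, (ξ - η) a = ξ a - η a := fun a => rfl
  simp only [wed3, h]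
  ring

/-- (I2) -/
theorem ibp (hm : Measurable phi) (hA : ∀ y, ‖phi y‖ ≤ A) (halt : ∀ y, Alt (phi y))
    (hcl : ∀ ψ : E4 → En.Cov, ContDiff ℝ ∞ ψ → HasCompactSupport ψ → tsupport ψ ⊆ U →
      ∫ y, W (phi y) (En.d1 ψ y) ∂s = 0)
    {f σ : E4 → ℝ} (hf : ContDiff ℝ ∞ f) (hσ : ContDiff ℝ ∞ σ) (hc : HasCompactSupport f)
    (hU : tsupport f ⊆ U) (x u v w : E4) :
    ∫ y, f y * wed3 (fderiv ℝ σ (x - y)) (fun a b => phi y a b) u v w ∂s
      = ∫ y, σ (x - y) * wed3 (fderiv ℝ f y) (fun a b => phi y a b) u v w ∂s := by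
  have hτ : ContDiff ℝ ∞ (fun y => σ (x - y)) := hσ.comp (contDiff_const.sub contDiff_id)
  have hh : ContDiff ℝ ∞ (fun y => f y * σ (x - y)) := hf.mul hτ
  have hhc : HasCompactSupport (fun y => f y * σ (x - y)) := hc.mul_right
  have hhU : tsupport (fun y => f y * σ (x - y)) ⊆ U :=
    (closure_mono (Function.support_mul_subset_left f fun y => σ (x - y))).trans hU
  have h0 := wed3_zero halt hcl hh hhc hhU u v w
  have hX1c : Continuous (fun y => σ (x - y) • fderiv ℝ f y) :=
    hτ.continuous.smul (hf.continuous_fderiv (by simp))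
  have hX1s : HasCompactSupport (fun y => σ (x - y) • fderiv ℝ f y) :=
    HasCompactSupport.smul_left (f := fun y => σ (x - y)) (hc.fderiv (𝕜 := ℝ))
  have hX2c' : Continuous (fun y => fderiv ℝ σ (x - y)) :=
    (hσ.continuous_fderiv (by simp)).comp (continuous_const.sub continuous_id)
  have hX2c : Continuous (fun y => f y • fderiv ℝ σ (x - y)) := hf.continuous.smul hX2c'
  have hX2s : HasCompactSupport (fun y => f y • fderiv ℝ σ (x - y)) := by
    refine hc.mono fun y hy => ?_
    intro h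
    exact hy (by simp only [h, zero_smul])
  have i1 := wed3_integrable (s := s) hm hA hX1c hX1s u v w
  have i2 := wed3_integrable (s := s) hm hA hX2c hX2s u v w
  have h2 := integral_sub i1 i2
  have h3 : ∫ y, wed3 (fderiv ℝ (fun y => f y * σ (x - y)) y) (fun a b => phi y a b) u v w ∂s
      = ∫ y, (wed3 (⇑(σ (x - y) • fderiv ℝ f y)) (fun a b => phi y a b) u v w
        - wed3 (⇑(f y • fderiv ℝ σ (x - y))) (fun a b => phi y a b) u v w) ∂s := by
    refine integral_congr_ae (Filter.Eventually.of_forall fun y => ?_)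
    simp only
    rw [fderiv_mul_kernel (hf.differentiable (by simp)) (hσ.differentiable (by simp)), w3_sub]
  rw [h0] at h3
  rw [← h3] at h2
  simp only [w3_smul] at h2
  linarith

/-- mollification of the measure-valued 2-form `phi s` -/
noncomputable def moll (s : Measure E4) (phi : E4 → Bil) (σ : E4 → ℝ) (x : E4) : Bil :=
  ∫ y, σ (x - y) • phi y ∂s

section moll

variable {σ : E4 → ℝ}

lemma moll_integrable (hm : Measurable phi) (hA : ∀ y, ‖phi y‖ ≤ A) (hσ : Continuous σ)
    (hc : HasCompactSupport σ) (x : E4) : Integrable (fun y => σ (x - y) • phi y) s := by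
  obtain ⟨C, hC0, hC⟩ := exists_bd hσ hc
  refine Integrable.of_bound (C := C * A) ?_ ?_
  · exact ((hσ.comp (continuous_const.sub continuous_id)).measurable.smul hm).aestronglyMeasurable
  · refine Filter.Eventually.of_forall fun y => ?_
    rw [norm_smul]
    exact mul_le_mul (hC _) (hA y) (norm_nonneg _) hC0

lemma moll_apply (hm : Measurable phi) (hA : ∀ y, ‖phi y‖ ≤ A) (hσ : Continuous σ)
    (hc : HasCompactSupport σ) (x a b : E4) :
    moll s phi σ x a b = ∫ y, σ (x - y) * phi y a b ∂s := by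
  have h := moll_integrable (s := s) hm hA hσ hc x
  unfold moll
  rw [ContinuousLinearMap.integral_apply h, ContinuousLinearMap.integral_apply
    (h.apply_continuousLinearMap a)]
  rfl

lemma moll_eq_SS (hm : Measurable phi) (hA : ∀ y, ‖phi y‖ ≤ A) (hσ : Continuous σ)
    (hc : HasCompactSupport σ) (a b : E4) :
    (fun x => moll s phi σ x a b) = SS s id (fun y => phi y a b) σ := by
  funext x
  rw [moll_apply hm hA hσ hc]
  unfold SS
  refine integral_congr_ae (Filter.Eventually.of_forall fun y => ?_)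
  simp only [id]
  ring

theorem moll_contDiff (hm : Measurable phi) (hA : ∀ y, ‖phi y‖ ≤ A) (hσ : ContDiff ℝ ∞ σ)
    (hc : HasCompactSupport σ) : ContDiff ℝ ∞ (moll s phi σ) := by
  rw [contDiff_clm_apply_iff]
  intro a
  rw [contDiff_clm_apply_iff]
  intro b
  rw [moll_eq_SS hm hA hσ.continuous hc]
  exact SS_contDiff (phi_apply_integrable hm hA a b) measurable_id hσ hc

theorem moll_alt (hm : Measurable phi) (hA : ∀ y, ‖phi y‖ ≤ A) (halt : ∀ y, Alt (phi y))
    (hσ : Continuous σ) (hc : HasCompactSupport σ) (x : E4) : Alt (moll s phi σ x) := by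
  intro v
  rw [moll_apply hm hA hσ hc]
  have : ∀ y, σ (x - y) * phi y v v = 0 := fun y => by rw [halt y v, mul_zero]
  simp [this]

/-- derivative of the mollification -/
theorem moll_fderiv (hm : Measurable phi) (hA : ∀ y, ‖phi y‖ ≤ A) (hσ : ContDiff ℝ ∞ σ)
    (hc : HasCompactSupport σ) (x u a b : E4) :
    fderiv ℝ (moll s phi σ) x u a b = ∫ y, fderiv ℝ σ (x - y) u * phi y a b ∂s := by
  have hd : DifferentiableAt ℝ (moll s phi σ) x :=
    (moll_contDiff hm hA hσ hc).differentiable (by simp) x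
  have h1 : fderiv ℝ (moll s phi σ) x u a b
      = fderiv ℝ (fun x => moll s phi σ x a b) x u := by
    have e1 : HasFDerivAt (fun x => moll s phi σ x a)
        ((ContinuousLinearMap.apply ℝ (E4 →L[ℝ] ℝ) a).comp (fderiv ℝ (moll s phi σ) x)) x :=
      (ContinuousLinearMap.apply ℝ (E4 →L[ℝ] ℝ) a).hasFDerivAt.comp x hd.hasFDerivAt
    have e2 : HasFDerivAt (fun x => moll s phi σ x a b)
        ((ContinuousLinearMap.apply ℝ ℝ b).comp
          ((ContinuousLinearMap.apply ℝ (E4 →L[ℝ] ℝ) a).comp (fderiv ℝ (moll s phi σ) x))) x :=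
      (ContinuousLinearMap.apply ℝ ℝ b).hasFDerivAt.comp x e1
    rw [e2.fderiv]
    rfl
  rw [h1, moll_eq_SS hm hA hσ.continuous hc,
    SS_fderiv (phi_apply_integrable hm hA a b) measurable_id hσ hc]
  unfold SS dd
  refine integral_congr_ae (Filter.Eventually.of_forall fun y => ?_)
  simp only [id]
  ring

/-- (I3): closedness of the mollification, general form -/
theorem moll_closed (hm : Measurable phi) (hA : ∀ y, ‖phi y‖ ≤ A) (halt : ∀ y, Alt (phi y))
    (hcl : ∀ ψ : E4 → En.Cov, ContDiff ℝ ∞ ψ → HasCompactSupport ψ → tsupport ψ ⊆ U →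
      ∫ y, W (phi y) (En.d1 ψ y) ∂s = 0)
    (hσ : ContDiff ℝ ∞ σ) (hc : HasCompactSupport σ) {x : E4}
    (hx : tsupport (fun y => σ (x - y)) ⊆ U) : En.Cl (moll s phi σ) x := by
  intro u v w
  have hτ : ContDiff ℝ ∞ (fun y => σ (x - y)) := hσ.comp (contDiff_const.sub contDiff_id)
  have hτc : HasCompactSupport (fun y => σ (x - y)) := by
    have := hc.comp_homeomorph (Homeomorph.subLeft x)
    exact this
  have h0 := wed3_zero halt hcl hτ hτc hx u v w
  rw [moll_fderiv hm hA hσ hc, moll_fderiv hm hA hσ hc, moll_fderiv hm hA hσ hc]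
  have hdc : ∀ a : E4, Continuous (fun y => fderiv ℝ σ (x - y) a) ∧
      HasCompactSupport (fun y => fderiv ℝ σ (x - y) a) := by
    intro a
    refine ⟨((hσ.continuous_fderiv (by simp)).comp
      (continuous_const.sub continuous_id)).clm_apply continuous_const, ?_⟩
    have h1 : HasCompactSupport (fun z => fderiv ℝ σ z a) := hc.fderiv_apply (𝕜 := ℝ) a
    have := h1.comp_homeomorph (Homeomorph.subLeft x)
    exact this
  have i1 := mul_phi_integrable (s := s) hm hA (hdc u).1 (hdc u).2 v w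
  have i2 := mul_phi_integrable (s := s) hm hA (hdc v).1 (hdc v).2 w u
  have i3 := mul_phi_integrable (s := s) hm hA (hdc w).1 (hdc w).2 u v
  have e12 : ∫ y, (fderiv ℝ σ (x - y) u * phi y v w + fderiv ℝ σ (x - y) v * phi y w u) ∂s
      = ∫ y, fderiv ℝ σ (x - y) u * phi y v w ∂s + ∫ y, fderiv ℝ σ (x - y) v * phi y w u ∂s :=
    integral_add i1 i2
  have e123 : ∫ y, ((fderiv ℝ σ (x - y) u * phi y v w + fderiv ℝ σ (x - y) v * phi y w u)
      + fderiv ℝ σ (x - y) w * phi y u v) ∂s
      = ∫ y, (fderiv ℝ σ (x - y) u * phi y v w + fderiv ℝ σ (x - y) v * phi y w u) ∂s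
        + ∫ y, fderiv ℝ σ (x - y) w * phi y u v ∂s :=
    integral_add (i1.add i2) i3
  rw [← e12, ← e123]
  rw [← neg_eq_zero, ← integral_neg, ← h0]
  refine integral_congr_ae (Filter.Eventually.of_forall fun y => ?_)
  simp only
  rw [fderiv_sub_left σ (hσ.differentiable (by simp)), (halt y).swap w u]
  simp only [wed3, neg_apply]
  ring

/-- (I3) for kernels supported in a ball -/
theorem moll_closed_ball (hm : Measurable phi) (hA : ∀ y, ‖phi y‖ ≤ A)
    (halt : ∀ y, Alt (phi y))
    (hcl : ∀ ψ : E4 → En.Cov, ContDiff ℝ ∞ ψ → HasCompactSupport ψ → tsupport ψ ⊆ U →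
      ∫ y, W (phi y) (En.d1 ψ y) ∂s = 0)
    (hσ : ContDiff ℝ ∞ σ) {e : ℝ} (hs : ∀ z, e < ‖z‖ → σ z = 0) {x : E4}
    (hx : Metric.closedBall x e ⊆ U) : En.Cl (moll s phi σ) x := by
  have hc : HasCompactSupport σ := by
    refine HasCompactSupport.of_support_subset_isCompact (isCompact_closedBall (0 : E4) e) ?_
    intro z hz
    rw [mem_closedBall_zero_iff]
    by_contra h
    exact hz (hs z (not_le.1 h))
  refine moll_closed hm hA halt hcl hσ hc (subset_trans ?_ hx)
  refine closure_minimal ?_ Metric.isClosed_closedBall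
  intro y hy
  rw [mem_closedBall_iff_norm']
  by_contra h
  exact hy (hs _ (not_le.1 h))

end moll

end Crest.Agent.R240.Pot
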