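import Mathlib
import Crest.Agent.R240.PotSt
import Crest.Agent.R240.PotIBP
import Crest.Agent.R240.PotBd

/-!
Row 240 (S0371), Part P (helper365): the estimates (B2) and (PS), i.e. `PD.b2Bd` and `PD.psiBd`:
integration by parts in `y` against the closed current, with the frozen kernels.
-/

set_option autoImplicit false
set_option maxSynthPendingDepth 3
open scoped ContDiff
open MeasureTheory Metric Crest.Agent.R240.En

namespace Crest.Agent.R240.Pot

/-! ### derivative of the quotient -/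

/-- numerator of the derivative of `b / g` in the direction `v` -/
noncomputable def qd (b : E4 → ℝ) (g : E4 → Bil) (v y : E4) : Bil :=
  (fderiv ℝ b y v) • g y - b y • (fderiv ℝ g y v)

lemma qd_cont {b : E4 → ℝ} {g : E4 → Bil} (hb : ContDiff ℝ ∞ b) (hg : ContDiff ℝ ∞ g) (v : E4) :
    Continuous (qd b g v) := by
  have h1 : Continuous fun y => fderiv ℝ b y v := (dd_contDiff hb v).continuous
  have h2 : Continuous fun y => fderiv ℝ g y v :=
    ((hg.fderiv_right (m := ∞) le_rfl).clm_apply contDiff_const).continuous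
  exact (h1.smul hg.continuous).sub (hb.continuous.smul h2)

lemma qd_zero {b : E4 → ℝ} {g : E4 → Bil} {v y : E4} (hy : y ∉ tsupport b) : qd b g v y = 0 := by
  have h1 : b y = 0 := image_eq_zero_of_notMem_tsupport hy
  have h2 : fderiv ℝ b y = 0 := by
    have : y ∉ tsupport (fderiv ℝ b) := fun h => hy (tsupport_fderiv_subset ℝ h)
    exact image_eq_zero_of_notMem_tsupport this
  unfold qd
  rw [h1, h2]
  simp

lemma quot_fderiv {b G : E4 → ℝ} {b' G' : Cov} {y : E4} (hb : HasFDerivAt b b' y)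
    (hG : HasFDerivAt G G' y) (h0 : G y ≠ 0) (v : E4) :
    fderiv ℝ (fun y => b y / G y) y v = (b' v * G y - b y * G' v) / (G y) ^ 2 := by
  have h1 : HasFDerivAt (fun y => (G y)⁻¹) ((-((G y) ^ 2)⁻¹) • G') y :=
    (hasDerivAt_inv h0).comp_hasFDerivAt y hG
  have h2 : HasFDerivAt (fun y => b y * (G y)⁻¹) (b y • ((-((G y) ^ 2)⁻¹) • G') + (G y)⁻¹ • b') y :=
    hb.mul h1
  have h3 : (fun y => b y / G y) = fun y => b y * (G y)⁻¹ := by
    funext y; exact div_eq_mul_inv _ _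
  rw [h3, h2.fderiv]
  simp only [add_apply, smul_apply, smul_eq_mul]
  field_simp
  ring

lemma quad_hasFDerivAt {g : E4 → Bil} (hg : ContDiff ℝ ∞ g) (y ζ : E4) :
    HasFDerivAt (fun y => g y ζ ζ) ((ContinuousLinearMap.apply ℝ ℝ ζ).comp
      ((ContinuousLinearMap.apply ℝ (E4 →L[ℝ] ℝ) ζ).comp (fderiv ℝ g y))) y := by
  have e1 : HasFDerivAt (fun x => g x ζ)
      ((ContinuousLinearMap.apply ℝ (E4 →L[ℝ] ℝ) ζ).comp (fderiv ℝ g y)) y :=
    (ContinuousLinearMap.apply ℝ (E4 →L[ℝ] ℝ) ζ).hasFDerivAt.comp y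
      ((hg.differentiable (by simp)) y).hasFDerivAt
  exact (ContinuousLinearMap.apply ℝ ℝ ζ).hasFDerivAt.comp y e1

lemma kk_fderiv {b : E4 → ℝ} {g : E4 → Bil} (hb : ContDiff ℝ ∞ b) (hg : ContDiff ℝ ∞ g)
    {y ζ : E4} (h0 : g y ζ ζ ≠ 0) (v : E4) :
    fderiv ℝ (fun y => b y / g y ζ ζ) y v = kk (qd b g v y) (g y) ζ := by
  rw [quot_fderiv ((hb.differentiable (by simp)) y).hasFDerivAt (quad_hasFDerivAt hg y ζ) h0]
  rfl

lemma kk_zero_right (q g : Bil) : kk q g 0 = 0 := by simp [kk]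

/-! ### the kernel predicate -/

/-- bound of order `p` for the mollification with `σ` of kernels of size `|ζ|^{-2}` -/
def KB (p : ℕ) (e B : ℝ) (σ : E4 → ℝ) : Prop :=
  ∀ (m : E4 → ℝ) (A : ℝ), Measurable m → 0 ≤ A → (∀ ζ, ζ ≠ 0 → |m ζ| ≤ A / ‖ζ‖ ^ 2) →
    (∀ z ζ : E4, z ≠ 0 → ‖ζ - z‖ ≤ ‖z‖ / 2 → |m ζ - m z| ≤ A * ‖ζ - z‖ / ‖z‖ ^ 3) →
    ∀ z, |∫ ζ, σ (z - ζ) * m ζ| ≤ B * A / (‖z‖ + e) ^ p

namespace PD

variable (D : PD)

/-- left hand side -/
noncomputable def L3 (r : ℝ) (a σ : E4 → ℝ) (u v w x : E4) : ℝ :=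
  ∫ t, kk (D.k t.1 • D.g t.1) (D.g t.1) t.2 *
    (a t.1 * wed3 (fderiv ℝ σ (x - pP t)) (fb (D.φ t.1)) u v w) ∂(muP D.s r)

/-- right hand side -/
noncomputable def R3 (r : ℝ) (a σ : E4 → ℝ) (u v w x : E4) : ℝ :=
  ∫ t, σ (x - pP t) * wed3 (fun z => kk (qd (fun y => D.k y * a y) D.g z t.1) (D.g t.1) t.2)
    (fb (D.φ t.1)) u v w ∂(muP D.s r)

section

variable {D}
variable {a : E4 → ℝ} (ha : ContDiff ℝ ∞ a)

include ha in
lemma smb : ContDiff ℝ ∞ fun y => D.k y * a y := D.smk.mul ha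

lemma tsb : tsupport (fun y => D.k y * a y) ⊆ ball D.c D.R :=
  (closure_mono (Function.support_mul_subset_left D.k a)).trans D.hk

lemma b0 {y : E4} (hy : y ∉ closedBall D.c D.R) : (fun y => D.k y * a y) y = 0 := by
  simp only [D.k0 y hy, zero_mul]

lemma q0 (v : E4) {y : E4} (hy : y ∉ closedBall D.c D.R) :
    qd (fun y => D.k y * a y) D.g v y = 0 :=
  qd_zero fun h => hy (ball_subset_closedBall (tsb h))

lemma kk_b (y ζ : E4) : kk ((D.k y * a y) • D.g y) (D.g y) ζ =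
    a y * kk (D.k y • D.g y) (D.g y) ζ := by
  rw [kk_of_smul, kk_of_smul]; ring

/-- integrability of one term -/
lemma term_int {q : E4 → Bil} (hq : Continuous q) (hq0 : ∀ y, y ∉ closedBall D.c D.R → q y = 0)
    {h : E4 → ℝ} (hh : MB D.c D.R h) {σ : E4 → ℝ} (hσ : Continuous σ) (hc : HasCompactSupport σ)
    (r : ℝ) (x : E4) : Integrable (fun t => wq D.g q h t * σ (x - pP t)) (muP D.s r) := by
  have := D.fin
  obtain ⟨hm, B, _, hB⟩ := hh
  exact SS_integrable (wq_int D.smg.continuous D.gpos hq hq0 hm hB) pP_meas hσ hc x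

include ha in
lemma L3_int {σ : E4 → ℝ} (hσ : ContDiff ℝ ∞ σ) (hc : HasCompactSupport σ) (r : ℝ)
    (u v w x : E4) : Integrable (fun t => kk (D.k t.1 • D.g t.1) (D.g t.1) t.2 *
    (a t.1 * wed3 (fderiv ℝ σ (x - pP t)) (fb (D.φ t.1)) u v w)) (muP D.s r) := by
  have hq : Continuous fun y => (D.k y * a y) • D.g y := (smb ha).continuous.smul D.smg.continuous
  have hq0 : ∀ y, y ∉ closedBall D.c D.R → (D.k y * a y) • D.g y = 0 := fun y hy => by
    rw [D.k0 y hy, zero_mul, zero_smul]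
  have T : ∀ (v w u : E4), Integrable (fun t => wq D.g (fun y => (D.k y * a y) • D.g y)
      (fun y => D.φ y v w) t * dd σ u (x - pP t)) (muP D.s r) := fun v w u =>
    term_int hq hq0 (MB_phi D.mφ D.bA v w) (dd_contDiff hσ u).continuous (dd_compact hc u) r x
  refine (((T v w u).sub (T u w v)).add (T u v w)).congr (Filter.Eventually.of_forall fun t => ?_)
  simp only [Pi.add_apply, Pi.sub_apply, wq, kk_b, dd, wed3]
  ring

include ha in
lemma R3_int {σ : E4 → ℝ} (hσ : Continuous σ) (hc : HasCompactSupport σ) (r : ℝ)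
    (u v w x : E4) : Integrable (fun t => σ (x - pP t) *
      wed3 (fun z => kk (qd (fun y => D.k y * a y) D.g z t.1) (D.g t.1) t.2)
        (fb (D.φ t.1)) u v w) (muP D.s r) := by
  have T : ∀ (v w u : E4), Integrable (fun t => wq D.g (qd (fun y => D.k y * a y) D.g u)
      (fun y => D.φ y v w) t * σ (x - pP t)) (muP D.s r) := fun v w u =>
    term_int (qd_cont (smb ha) D.smg u) (fun y hy => q0 u hy) (MB_phi D.mφ D.bA v w) hσ hc r x
  refine (((T v w u).sub (T u w v)).add (T u v w)).congr (Filter.Eventually.of_forall fun t => ?_)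
  simp only [Pi.add_apply, Pi.sub_apply, wq, wed3]
  ring

include ha in
/-- integration by parts -/
theorem L3_eq_R3 (hcl : D.ClosedCur) {σ : E4 → ℝ} (hσ : ContDiff ℝ ∞ σ)
    (hc : HasCompactSupport σ) (r : ℝ) (u v w x : E4) :
    D.L3 r a σ u v w x = D.R3 r a σ u v w x := by
  have := D.fin
  have i1 := L3_int (D := D) ha hσ hc r u v w x
  have i2 := R3_int (D := D) ha hσ.continuous hc r u v w x
  unfold L3 R3
  unfold muP at i1 i2 ⊢
  rw [integral_prod_symm _ i1, integral_prod_symm _ i2]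
  refine integral_congr_ae (Filter.Eventually.of_forall fun ζ => ?_)
  simp only [pP]
  by_cases hζ : ζ = 0
  · subst hζ
    simp only [kk_zero_right, wed3]
    simp
  have hf : ContDiff ℝ ∞ fun y => (D.k y * a y) / D.g y ζ ζ :=
    (smb ha).div (entry_contDiff D.smg ζ ζ) fun y => (D.gpos y ζ hζ).ne'
  have hts : tsupport (fun y => (D.k y * a y) / D.g y ζ ζ) ⊆ ball D.c D.R := by
    refine (closure_mono ?_).trans (tsb (D := D) (a := a))
    intro y hy
    simp only [Function.mem_support, ne_eq] at hy ⊢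
    intro h
    exact hy (by rw [h, zero_div])
  have hfc : HasCompactSupport fun y => (D.k y * a y) / D.g y ζ ζ := by
    refine HasCompactSupport.of_support_subset_isCompact (isCompact_closedBall D.c D.R) ?_
    exact (subset_tsupport _).trans (hts.trans ball_subset_closedBall)
  have h := ibp (s := D.s) D.mφ D.bA (fun y => (D.pos y).alt) hcl hf hσ hfc hts (x - ζ) u v w
  have e1 : ∀ y, kk (D.k y • D.g y) (D.g y) ζ *
      (a y * wed3 (fderiv ℝ σ (x - (y + ζ))) (fb (D.φ y)) u v w) =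
      (D.k y * a y) / D.g y ζ ζ *
        wed3 (fderiv ℝ σ (x - ζ - y)) (fun a b => D.φ y a b) u v w := by
    intro y
    rw [kk_of_smul, show x - (y + ζ) = x - ζ - y by abel]
    ring
  have e2 : ∀ y, σ (x - (y + ζ)) * wed3 (fun z => kk (qd (fun y => D.k y * a y) D.g z y) (D.g y) ζ)
        (fb (D.φ y)) u v w = σ (x - ζ - y) *
        wed3 (fderiv ℝ (fun y => (D.k y * a y) / D.g y ζ ζ) y) (fun a b => D.φ y a b) u v w := by
    intro y
    rw [show x - (y + ζ) = x - ζ - y by abel]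
    simp only [wed3]
    rw [kk_fderiv (smb ha) D.smg (D.gpos y ζ hζ).ne', kk_fderiv (smb ha) D.smg (D.gpos y ζ hζ).ne',
      kk_fderiv (smb ha) D.smg (D.gpos y ζ hζ).ne']
  simp only [e1, e2]
  exact h

end

/-! ### bounds -/

lemma wE_nonneg {e : ℝ} (he : 0 < e) (p : ℕ) (x : E4) : 0 ≤ wE D.s D.c D.R e p x := by
  unfold wE
  refine integral_nonneg fun y => ?_
  have : 0 < ‖x - y‖ + e := by positivity
  positivity

/-- bound of one term -/
theorem term_bd {q : E4 → Bil} (hq : Continuous q) (hq0 : ∀ y, y ∉ closedBall D.c D.R → q y = 0)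
    {h : E4 → ℝ} (hh : MB D.c D.R h) :
    ∃ C : ℝ, 0 ≤ C ∧ ∀ (p : ℕ) (e B r : ℝ) (σ : E4 → ℝ) (x : E4), 0 < e → 0 ≤ B → Continuous σ →
      (∀ z, e < ‖z‖ → σ z = 0) → KB p e B σ → D.Adm r e x →
      |∫ t, wq D.g q h t * σ (x - pP t) ∂(muP D.s r)| ≤ C * B * wE D.s D.c D.R e p x := by
  have := D.fin
  obtain ⟨lam, hlam, hlow⟩ := exists_lower D.smg.continuous D.gpos D.c D.R
  obtain ⟨Lg, _, hLg⟩ := exists_upper D.smg.continuous D.c D.R
  obtain ⟨Lq, _, hLq⟩ := exists_upper hq D.c D.R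
  obtain ⟨A, hA0, hA⟩ := mkbd (lam := lam) (Lam := max Lg Lq) hlam
  obtain ⟨hm, Bh, hBh0, hBh⟩ := hh
  refine ⟨Bh * A, mul_nonneg hBh0 hA0, ?_⟩
  intro p e B r σ x he hB hσ hσ0 hKB hx
  rw [wq_fub D.smg.continuous D.gpos hq hq0 hm hBh hσ hσ0 hx]
  set f : E4 → ℝ := fun y => (Bh * A * B) * (1 / (‖x - y‖ + e) ^ p) with hf
  have hfm : Measurable f := by
    rw [hf]
    fun_prop
  have hfi : Integrable f D.s := by
    refine Integrable.of_bound (C := Bh * A * B * (1 / e ^ p)) hfm.aestronglyMeasurable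
      (Filter.Eventually.of_forall fun y => ?_)
    rw [Real.norm_eq_abs, abs_of_nonneg (by positivity)]
    have h1 : e ^ p ≤ (‖x - y‖ + e) ^ p := by
      have := norm_nonneg (x - y)
      gcongr
      linarith
    rw [hf]
    simp only
    gcongr
  have h1 : ∀ y, ‖h y * ∫ ζ, σ (x - y - ζ) * kk (q y) (D.g y) ζ‖ ≤
      (closedBall D.c D.R).indicator f y := by
    intro y
    by_cases hy : y ∈ closedBall D.c D.R
    · rw [Set.indicator_of_mem hy, Real.norm_eq_abs, abs_mul]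
      obtain ⟨k1, k2, k3⟩ := hA (q y) (D.g y) (hlow y hy) ((hLg y hy).trans (le_max_left _ _))
        ((hLq y hy).trans (le_max_right _ _))
      have h2 := hKB _ A k1 hA0 k2 k3 (x - y)
      have h3 : |∫ ζ, σ (x - y - ζ) * kk (q y) (D.g y) ζ| ≤ B * A / (‖x - y‖ + e) ^ p := h2
      calc |h y| * |∫ ζ, σ (x - y - ζ) * kk (q y) (D.g y) ζ| ≤
          Bh * (B * A / (‖x - y‖ + e) ^ p) := mul_le_mul (hBh y hy) h3 (abs_nonneg _) hBh0
        _ = f y := by rw [hf]; ring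
    · rw [Set.indicator_of_notMem hy]
      have h2 : ∀ ζ, kk (q y) (D.g y) ζ = 0 := by intro ζ; simp [kk, hq0 y hy]
      simp [h2]
  have h2 := norm_integral_le_of_norm_le (hfi.indicator measurableSet_closedBall)
    (Filter.Eventually.of_forall h1)
  rw [Real.norm_eq_abs] at h2
  refine h2.trans (le_of_eq ?_)
  rw [integral_indicator measurableSet_closedBall, hf, integral_const_mul]
  rfl

/-- bound of the right hand side -/
theorem R3_bd {a : E4 → ℝ} (ha : ContDiff ℝ ∞ a) (u v w : E4) :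
    ∃ C : ℝ, 0 ≤ C ∧ ∀ (p : ℕ) (e B r : ℝ) (σ : E4 → ℝ) (x : E4), 0 < e → 0 ≤ B → Continuous σ →
      (∀ z, e < ‖z‖ → σ z = 0) → KB p e B σ → D.Adm r e x →
      |D.R3 r a σ u v w x| ≤ C * B * wE D.s D.c D.R e p x := by
  have T : ∀ (v w u : E4), ∃ C : ℝ, 0 ≤ C ∧ ∀ (p : ℕ) (e B r : ℝ) (σ : E4 → ℝ) (x : E4), 0 < e →
      0 ≤ B → Continuous σ → (∀ z, e < ‖z‖ → σ z = 0) → KB p e B σ → D.Adm r e x →
      |∫ t, wq D.g (qd (fun y => D.k y * a y) D.g u) (fun y => D.φ y v w) t * σ (x - pP t)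
        ∂(muP D.s r)| ≤ C * B * wE D.s D.c D.R e p x := fun v w u =>
    D.term_bd (qd_cont (smb ha) D.smg u) (fun y hy => q0 u hy) (MB_phi D.mφ D.bA v w)
  obtain ⟨C1, hC1, h1⟩ := T v w u
  obtain ⟨C2, hC2, h2⟩ := T u w v
  obtain ⟨C3, hC3, h3⟩ := T u v w
  refine ⟨C1 + C2 + C3, by positivity, ?_⟩
  intro p e B r σ x he hB hσ hσ0 hKB hx
  have hc : HasCompactSupport σ := compact_of_zero hσ0
  have I : ∀ (v w u : E4), Integrable (fun t => wq D.g (qd (fun y => D.k y * a y) D.g u)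
      (fun y => D.φ y v w) t * σ (x - pP t)) (muP D.s r) := fun v w u =>
    term_int (qd_cont (smb ha) D.smg u) (fun y hy => q0 u hy) (MB_phi D.mφ D.bA v w) hσ hc r x
  have e1 : D.R3 r a σ u v w x =
      (∫ t, wq D.g (qd (fun y => D.k y * a y) D.g u) (fun y => D.φ y v w) t * σ (x - pP t)
        ∂(muP D.s r)
      - ∫ t, wq D.g (qd (fun y => D.k y * a y) D.g v) (fun y => D.φ y u w) t * σ (x - pP t)
        ∂(muP D.s r))
      + ∫ t, wq D.g (qd (fun y => D.k y * a y) D.g w) (fun y => D.φ y u v) t * σ (x - pP t)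
        ∂(muP D.s r) := by
    rw [← integral_sub (I v w u) (I u w v)]
    have I12 : Integrable (fun t => wq D.g (qd (fun y => D.k y * a y) D.g u) (fun y => D.φ y v w) t
        * σ (x - pP t) - wq D.g (qd (fun y => D.k y * a y) D.g v) (fun y => D.φ y u w) t
        * σ (x - pP t)) (muP D.s r) := (I v w u).sub (I u w v)
    rw [← integral_add I12 (I u v w)]
    unfold R3
    refine integral_congr_ae (Filter.Eventually.of_forall fun t => ?_)
    simp only [wq, wed3]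
    ring
  rw [e1]
  have k1 := h1 p e B r σ x he hB hσ hσ0 hKB hx
  have k2 := h2 p e B r σ x he hB hσ hσ0 hKB hx
  have k3 := h3 p e B r σ x he hB hσ hσ0 hKB hx
  refine (abs_add_le _ _).trans ?_
  have k4 := abs_sub
    (∫ t, wq D.g (qd (fun y => D.k y * a y) D.g u) (fun y => D.φ y v w) t * σ (x - pP t)
        ∂(muP D.s r))
    (∫ t, wq D.g (qd (fun y => D.k y * a y) D.g v) (fun y => D.φ y u w) t * σ (x - pP t)
        ∂(muP D.s r))
  linarith

/-! ### the mollifiers -/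

section moll

variable {ρ : E4 → ℝ}

lemma rhoE_contDiff (hρ : Moll ρ) (e : ℝ) : ContDiff ℝ ∞ (rhoE ρ e) := by
  unfold rhoE
  exact contDiff_const.mul (hρ.sm.comp (contDiff_id.const_smul e⁻¹))

lemma rhoE_zero (hρ : Moll ρ) {e : ℝ} (he : 0 < e) (z : E4) (hz : e < ‖z‖) : rhoE ρ e z = 0 := by
  unfold rhoE
  rw [hρ.sup, mul_zero]
  rw [norm_smul, norm_inv, Real.norm_eq_abs, abs_of_pos he, inv_mul_eq_div, one_le_div he]
  exact hz.le

lemma moll_compact (hρ : Moll ρ) : HasCompactSupport ρ := by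
  refine HasCompactSupport.intro (isCompact_closedBall (0 : E4) 1) fun z hz => hρ.sup z ?_
  rw [mem_closedBall_zero_iff, not_le] at hz
  exact hz.le

lemma rhoE_dd (hρ : Moll ρ) (e : ℝ) (v z : E4) :
    dd (rhoE ρ e) v z = (e ^ 4)⁻¹ * (e⁻¹ * dd ρ v (e⁻¹ • z)) := by
  unfold dd rhoE
  have h1 : HasFDerivAt (fun z : E4 => e⁻¹ • z) (e⁻¹ • ContinuousLinearMap.id ℝ E4) z :=
    (hasFDerivAt_id z).const_smul e⁻¹
  have h2 : HasFDerivAt (fun z => ρ (e⁻¹ • z))
      ((fderiv ℝ ρ (e⁻¹ • z)).comp (e⁻¹ • ContinuousLinearMap.id ℝ E4)) z :=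
    ((hρ.sm.differentiable (by simp)) _).hasFDerivAt.comp z h1
  rw [(h2.const_mul ((e ^ 4)⁻¹)).fderiv]
  simp [smul_apply]

/-- (a) -/
theorem KB_rho (hρ : Moll ρ) : ∃ B : ℝ, 0 ≤ B ∧ ∀ e : ℝ, 0 < e → KB 2 e B (rhoE ρ e) := by
  obtain ⟨C, hC, h⟩ := kerbd
  obtain ⟨B, hB0, hB⟩ := exists_bd hρ.sm.continuous (moll_compact hρ)
  refine ⟨C * B, by positivity, fun e he m A hm hA hb hd z => ?_⟩
  have h1 := (h m A hm hA hb hd e B (rhoE ρ e) he hB0 (rhoE_contDiff hρ e).continuous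
    (rhoE_zero hρ he)).1 ?_ z
  · refine h1.trans (le_of_eq ?_)
    ring
  · intro z
    unfold rhoE
    rw [abs_mul, abs_of_pos (by positivity)]
    have := hB (e⁻¹ • z)
    rw [Real.norm_eq_abs] at this
    rw [div_eq_inv_mul]
    gcongr

/-- (b) -/
theorem KB_drho (hρ : Moll ρ) (v : E4) :
    ∃ B : ℝ, 0 ≤ B ∧ ∀ e : ℝ, 0 < e → KB 3 e B (dd (rhoE ρ e) v) := by
  obtain ⟨C, hC, h⟩ := kerbd
  obtain ⟨B, hB0, hB⟩ := exists_bd (dd_contDiff hρ.sm v).continuous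
    (dd_compact (moll_compact hρ) v)
  refine ⟨C * B, by positivity, fun e he m A hm hA hb hd z => ?_⟩
  have hz : ∀ z, e < ‖z‖ → dd (rhoE ρ e) v z = 0 := fun z hz => by
    unfold dd
    rw [fderiv_zero_of_zero (rhoE_zero hρ he) z hz]
    rfl
  have h1 := (h m A hm hA hb hd e B (dd (rhoE ρ e) v) he hB0
    (dd_contDiff (rhoE_contDiff hρ e) v).continuous hz).2 ?_ ?_ z
  · refine h1.trans (le_of_eq ?_)
    ring
  · intro z
    rw [rhoE_dd hρ, abs_mul, abs_mul, abs_of_pos (by positivity : (0 : ℝ) < (e ^ 4)⁻¹),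
      abs_of_pos (by positivity : (0 : ℝ) < e⁻¹)]
    have := hB (e⁻¹ • z)
    rw [Real.norm_eq_abs] at this
    calc (e ^ 4)⁻¹ * (e⁻¹ * |dd ρ v (e⁻¹ • z)|) ≤ (e ^ 4)⁻¹ * (e⁻¹ * B) := by gcongr
      _ = B / e ^ 5 := by field_simp
  · exact integral_fderiv_zero ((rhoE_contDiff hρ e).of_le (by simp))
      (compact_of_zero (rhoE_zero hρ he)) v

end moll

/-! ### assembly -/

lemma adm_of {e : ℝ} (he : e ≤ D.R / 8) {x : E4} (hx : x ∈ ball D.c (5 / 8 * D.R)) :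
    D.Adm (3 * D.R) e x := by
  intro y hy
  have h1 : dist x D.c < 5 / 8 * D.R := hx
  have h2 : dist y D.c ≤ D.R := hy
  have h3 : dist x y ≤ dist x D.c + dist y D.c := dist_triangle_right x y D.c
  rw [dist_eq_norm] at h3
  have := D.hR
  linarith

lemma wed3_expand (ξ : E4 →L[ℝ] ℝ) (A : Bil) (u v w : E4) :
    wed3 ξ (fb A) u v w = ∑ k, ∑ l, v k * w l * wed3 ξ (fb A) u (ee k) (ee l) := by
  have h1 : A v w = ∑ k, ∑ l, v k * w l * A (ee k) (ee l) := bil_expand A v w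
  have h2 : ξ v = ∑ k, v k * ξ (ee k) := by
    conv_lhs => rw [sum_ee v]
    simp only [Fin.sum_univ_four, map_add, map_smul, smul_eq_mul]
  have h3 : ξ w = ∑ l, w l * ξ (ee l) := by
    conv_lhs => rw [sum_ee w]
    simp only [Fin.sum_univ_four, map_add, map_smul, smul_eq_mul]
  have h4 : A u w = ∑ l, w l * A u (ee l) := by
    conv_lhs => rw [sum_ee w]
    simp only [Fin.sum_univ_four, map_add, map_smul, smul_eq_mul]
  have h5 : A u v = ∑ k, v k * A u (ee k) := by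
    conv_lhs => rw [sum_ee v]
    simp only [Fin.sum_univ_four, map_add, map_smul, smul_eq_mul]
  have h0 : wed3 ξ (fb A) u v w = ξ u * A v w - ξ v * A u w + ξ w * A u v := rfl
  have h0' : ∀ k l, wed3 ξ (fb A) u (ee k) (ee l) =
      ξ u * A (ee k) (ee l) - ξ (ee k) * A u (ee l) + ξ (ee l) * A u (ee k) := fun _ _ => rfl
  simp only [h0, h0']
  rw [h1, h2, h3, h4, h5, Finset.mul_sum, Finset.sum_mul_sum, Finset.sum_mul_sum]
  rw [Finset.sum_comm (f := fun i j => w i * ξ (ee i) * (v j * A u (ee j)))]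
  rw [← Finset.sum_sub_distrib, ← Finset.sum_add_distrib]
  refine Finset.sum_congr rfl fun k _ => ?_
  rw [Finset.mul_sum, ← Finset.sum_sub_distrib, ← Finset.sum_add_distrib]
  refine Finset.sum_congr rfl fun l _ => ?_
  ring

/-- coefficients of `t2` -/
noncomputable def aC (w : E4) (i k l : Fin 4) (y : E4) : ℝ :=
  (1 / 2) * ∑ j, D.G y i j * (D.J y (ee j)) k * (D.J y w) l

lemma coord_contDiff {f : E4 → E4} (hf : ContDiff ℝ ∞ f) (i : Fin 4) :
    ContDiff ℝ ∞ fun y => (f y) i :=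
  (EuclideanSpace.proj i : E4 →L[ℝ] ℝ).contDiff.comp hf

lemma aC_contDiff (w : E4) (i k l : Fin 4) : ContDiff ℝ ∞ (D.aC w i k l) := by
  unfold aC
  have hJ : ∀ v : E4, ContDiff ℝ ∞ fun y => D.J y v := fun v => D.smJ.clm_apply contDiff_const
  refine contDiff_const.mul (ContDiff.sum fun j _ => ?_)
  exact ((D.smG i j).mul (coord_contDiff (hJ _) k)).mul (coord_contDiff (hJ _) l)

lemma t2_expand (y w : E4) (ξ : Cov) : D.t2 y w ξ =
    ∑ i, ∑ k, ∑ l, D.aC w i k l y * wed3 ξ (fb (D.φ y)) (ee i) (ee k) (ee l) := by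
  have h0 : D.t2 y w ξ = (1 / 2) * ∑ i, ∑ j, D.G y i j *
      wed3 ξ (fb (D.φ y)) (ee i) (D.J y (ee j)) (D.J y w) := rfl
  rw [h0, Finset.mul_sum]
  refine Finset.sum_congr rfl fun i _ => ?_
  simp only [wed3_expand ξ (D.φ y) (ee i) (D.J y (ee _)) (D.J y w)]
  simp only [aC, Finset.mul_sum, Finset.sum_mul]
  rw [Finset.sum_comm]
  refine Finset.sum_congr rfl fun k _ => ?_
  rw [Finset.sum_comm]
  refine Finset.sum_congr rfl fun l _ => Finset.sum_congr rfl fun j _ => ?_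
  ring

lemma GF_t2 {σ : E4 → ℝ} (hσ : ContDiff ℝ ∞ σ) (hc : HasCompactSupport σ) (r : ℝ) (w x : E4) :
    D.GF r (fun y => D.t2 y w) (fderiv ℝ σ) x =
      ∑ i, ∑ k, ∑ l, D.L3 r (D.aC w i k l) σ (ee i) (ee k) (ee l) x := by
  have I := fun i k l => L3_int (D := D) (D.aC_contDiff w i k l) hσ hc r (ee i) (ee k) (ee l) x
  unfold GF GG L3
  have h3 : ∀ i k, (∑ l, ∫ t, kk (D.k t.1 • D.g t.1) (D.g t.1) t.2 *
      (D.aC w i k l t.1 * wed3 (fderiv ℝ σ (x - pP t)) (fb (D.φ t.1)) (ee i) (ee k) (ee l))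
        ∂(muP D.s r)) = ∫ t, ∑ l, kk (D.k t.1 • D.g t.1) (D.g t.1) t.2 *
      (D.aC w i k l t.1 * wed3 (fderiv ℝ σ (x - pP t)) (fb (D.φ t.1)) (ee i) (ee k) (ee l))
        ∂(muP D.s r) := fun i k => (integral_finsetSum _ fun l _ => I i k l).symm
  have h2 : ∀ i, (∑ k, ∫ t, ∑ l, kk (D.k t.1 • D.g t.1) (D.g t.1) t.2 *
      (D.aC w i k l t.1 * wed3 (fderiv ℝ σ (x - pP t)) (fb (D.φ t.1)) (ee i) (ee k) (ee l))
        ∂(muP D.s r)) = ∫ t, ∑ k, ∑ l, kk (D.k t.1 • D.g t.1) (D.g t.1) t.2 *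
      (D.aC w i k l t.1 * wed3 (fderiv ℝ σ (x - pP t)) (fb (D.φ t.1)) (ee i) (ee k) (ee l))
        ∂(muP D.s r) := fun i =>
    (integral_finsetSum _ fun k _ => integrable_finsetSum _ fun l _ => I i k l).symm
  simp only [h3, h2]
  rw [← integral_finsetSum _ fun i _ => integrable_finsetSum _ fun k _ =>
    integrable_finsetSum _ fun l _ => I i k l]
  refine integral_congr_ae (Filter.Eventually.of_forall fun t => ?_)
  simp only [TT, LinearMap.smul_apply, smul_eq_mul, t2_expand, Finset.mul_sum]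

lemma t3_expand (v w y : E4) (H : Bil) : D.t3 v w y H =
    ∑ i, ∑ j, D.G y i j * wed3 (H (ee i)) (fb (D.φ y)) (ee j) v w := rfl

lemma fd_dd {σ : E4 → ℝ} (hσ : ContDiff ℝ ∞ σ) (z v : E4) :
    fderiv ℝ (fderiv ℝ σ) z v = fderiv ℝ (dd σ v) z := by
  ext a
  have h1 : fderiv ℝ (dd σ v) z a = fderiv ℝ (fderiv ℝ σ) z a v :=
    (fderiv_apply_comm (((fd_contDiff hσ).differentiable (by simp)) z) a v).symm
  rw [h1, fd2_symm hσ]

lemma GF_t3 {σ : E4 → ℝ} (hσ : ContDiff ℝ ∞ σ) (hc : HasCompactSupport σ) (r : ℝ) (v w x : E4) :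
    D.GF r (D.t3 v w) (fderiv ℝ (fderiv ℝ σ)) x =
      ∑ i, ∑ j, D.L3 r (fun y => D.G y i j) (dd σ (ee i)) (ee j) v w x := by
  have I := fun i j => L3_int (D := D) (D.smG i j) (dd_contDiff hσ (ee i)) (dd_compact hc (ee i))
    r (ee j) v w x
  unfold GF GG L3
  have h2 : ∀ i, (∑ j, ∫ t, kk (D.k t.1 • D.g t.1) (D.g t.1) t.2 *
      (D.G t.1 i j * wed3 (fderiv ℝ (dd σ (ee i)) (x - pP t)) (fb (D.φ t.1)) (ee j) v w)
        ∂(muP D.s r)) = ∫ t, ∑ j, kk (D.k t.1 • D.g t.1) (D.g t.1) t.2 *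
      (D.G t.1 i j * wed3 (fderiv ℝ (dd σ (ee i)) (x - pP t)) (fb (D.φ t.1)) (ee j) v w)
        ∂(muP D.s r) := fun i => (integral_finsetSum _ fun j _ => I i j).symm
  simp only [h2]
  rw [← integral_finsetSum _ fun i _ => integrable_finsetSum _ fun j _ => I i j]
  refine integral_congr_ae (Filter.Eventually.of_forall fun t => ?_)
  simp only [TT, LinearMap.smul_apply, smul_eq_mul, t3_expand, Finset.mul_sum, fd_dd hσ]

/-- bound for `L3` -/
theorem L3_bd (hcl : D.ClosedCur) {a : E4 → ℝ} (ha : ContDiff ℝ ∞ a) (u v w : E4) :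
    ∃ C : ℝ, 0 ≤ C ∧ ∀ (p : ℕ) (e B r : ℝ) (σ : E4 → ℝ) (x : E4), 0 < e → 0 ≤ B →
      ContDiff ℝ ∞ σ → (∀ z, e < ‖z‖ → σ z = 0) → KB p e B σ → D.Adm r e x →
      |D.L3 r a σ u v w x| ≤ C * B * wE D.s D.c D.R e p x := by
  obtain ⟨C, hC, h⟩ := D.R3_bd ha u v w
  refine ⟨C, hC, fun p e B r σ x he hB hσ hσ0 hKB hx => ?_⟩
  rw [L3_eq_R3 ha hcl hσ (compact_of_zero hσ0)]
  exact h p e B r σ x he hB hσ.continuous hσ0 hKB hx

lemma sum_abs_le {ι : Type*} [Fintype ι] {f g : ι → ℝ} (h : ∀ i, |f i| ≤ g i) :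
    |∑ i, f i| ≤ ∑ i, g i :=
  (Finset.abs_sum_le_sum_abs _ _).trans (Finset.sum_le_sum fun i _ => h i)

lemma ee_norm (i : Fin 4) : ‖ee i‖ = 1 := by simp [ee]

lemma cov_norm_le (ξ : Cov) : ‖ξ‖ ≤ ∑ l, |ξ (ee l)| := by
  refine ContinuousLinearMap.opNorm_le_bound _ (Finset.sum_nonneg fun l _ => abs_nonneg _)
    fun v => ?_
  rw [cov_expand]
  have h : ∀ i, |v i| ≤ ‖v‖ := fun i => by
    have := EuclideanSpace.norm_eq v
    have h2 := PiLp.norm_apply_le v i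
    rwa [Real.norm_eq_abs] at h2
  rw [Real.norm_eq_abs, Fin.sum_univ_four]
  have hb : ∀ i, |v i * ξ (ee i)| ≤ |ξ (ee i)| * ‖v‖ := fun i => by
    rw [abs_mul, mul_comm]
    exact mul_le_mul_of_nonneg_left (h i) (abs_nonneg _)
  have a1 := abs_add_le (v 0 * ξ (ee 0) + v 1 * ξ (ee 1) + v 2 * ξ (ee 2)) (v 3 * ξ (ee 3))
  have a2 := abs_add_le (v 0 * ξ (ee 0) + v 1 * ξ (ee 1)) (v 2 * ξ (ee 2))
  have a3 := abs_add_le (v 0 * ξ (ee 0)) (v 1 * ξ (ee 1))
  have b0 := hb 0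
  have b1 := hb 1
  have b2 := hb 2
  have b3 := hb 3
  linarith

/-- (B2) -/
theorem b2Bd (ρ : E4 → ℝ) : D.B2Bd ρ := by
  intro hρ hcl
  obtain ⟨B, hB0, hB⟩ := KB_rho hρ
  choose C hC h using fun (w i k l : Fin 4) =>
    D.L3_bd hcl (D.aC_contDiff (ee w) i k l) (ee i) (ee k) (ee l)
  refine ⟨(∑ w, ∑ i, ∑ k, ∑ l, C w i k l * B) + 1, ?_, ?_⟩
  · have : 0 ≤ ∑ w, ∑ i, ∑ k, ∑ l, C w i k l * B :=
      Finset.sum_nonneg fun w _ => Finset.sum_nonneg fun i _ => Finset.sum_nonneg fun k _ =>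
        Finset.sum_nonneg fun l _ => mul_nonneg (hC w i k l) hB0
    linarith
  intro e he hle x hx
  have hw := D.wE_nonneg he 2 x
  have hσ := rhoE_contDiff hρ e
  have hσ0 := rhoE_zero hρ he
  have hc := compact_of_zero hσ0
  refine (cov_norm_le _).trans ?_
  have h1 : ∀ w, |D.b2 (3 * D.R) (rhoE ρ e) x (ee w)| ≤
      ∑ i, ∑ k, ∑ l, C w i k l * B * wE D.s D.c D.R e 2 x := by
    intro w
    unfold b2
    rw [D.CV_apply D.MB2 D.t2_add D.t2_smul hσ hc, D.GF_t2 hσ hc]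
    exact sum_abs_le fun i => sum_abs_le fun k => sum_abs_le fun l =>
      h w i k l 2 e B (3 * D.R) (rhoE ρ e) x he hB0 hσ hσ0 (hB e he) (D.adm_of hle hx)
  refine (Finset.sum_le_sum fun w _ => h1 w).trans ?_
  rw [add_mul, one_mul]
  simp only [Finset.sum_mul]
  linarith

/-- (PS) -/
theorem psiBd (ρ : E4 → ℝ) : D.PsiBd ρ := by
  intro hρ hcl
  choose B hB0 hB using fun i : Fin 4 => KB_drho hρ (ee i)
  choose C hC h using fun (v w i j : Fin 4) =>
    D.L3_bd hcl (D.smG i j) (ee j) (ee v) (ee w)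
  have hnn : ∀ v w i j, 0 ≤ C v w i j * B i := fun v w i j => mul_nonneg (hC v w i j) (hB0 i)
  refine ⟨(∑ v, ∑ w, ∑ i, ∑ j, C v w i j * B i) + 1, ?_, ?_⟩
  · have : 0 ≤ ∑ v, ∑ w, ∑ i, ∑ j, C v w i j * B i :=
      Finset.sum_nonneg fun v _ => Finset.sum_nonneg fun w _ => Finset.sum_nonneg fun i _ =>
        Finset.sum_nonneg fun j _ => hnn v w i j
    linarith
  intro e he hle x hx v w
  have hw := D.wE_nonneg he 3 x
  have hσ := rhoE_contDiff hρ e
  have hσ0 := rhoE_zero hρ he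
  have hc := compact_of_zero hσ0
  have hd0 : ∀ i z, e < ‖z‖ → dd (rhoE ρ e) (ee i) z = 0 := fun i z hz => by
    unfold dd
    rw [fderiv_zero_of_zero hσ0 z hz]
    rfl
  rw [D.GF_t3 hσ hc]
  have h1 : |∑ i, ∑ j, D.L3 (3 * D.R) (fun y => D.G y i j) (dd (rhoE ρ e) (ee i)) (ee j) (ee v)
      (ee w) x| ≤ ∑ i, ∑ j, C v w i j * B i * wE D.s D.c D.R e 3 x :=
    sum_abs_le fun i => sum_abs_le fun j =>
      h v w i j 3 e (B i) (3 * D.R) (dd (rhoE ρ e) (ee i)) x he (hB0 i)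
        (dd_contDiff hσ (ee i)) (hd0 i) (hB i e he) (D.adm_of hle hx)
  refine h1.trans ?_
  have h2 : ∑ i, ∑ j, C v w i j * B i ≤ ∑ v, ∑ w, ∑ i, ∑ j, C v w i j * B i := by
    have k1 : ∑ i, ∑ j, C v w i j * B i ≤ ∑ w, ∑ i, ∑ j, C v w i j * B i :=
      Finset.single_le_sum (f := fun w => ∑ i, ∑ j, C v w i j * B i)
        (fun w _ => Finset.sum_nonneg fun i _ => Finset.sum_nonneg fun j _ => hnn v w i j)
        (Finset.mem_univ w)
    have k2 : ∑ w, ∑ i, ∑ j, C v w i j * B i ≤ ∑ v, ∑ w, ∑ i, ∑ j, C v w i j * B i :=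
      Finset.single_le_sum (f := fun v => ∑ w, ∑ i, ∑ j, C v w i j * B i)
        (fun v _ => Finset.sum_nonneg fun w _ => Finset.sum_nonneg fun i _ =>
          Finset.sum_nonneg fun j _ => hnn v w i j) (Finset.mem_univ v)
    exact k1.trans k2
  have h3 := mul_le_mul_of_nonneg_right h2 hw
  have h4 : ∑ i, ∑ j, C v w i j * B i * wE D.s D.c D.R e 3 x =
      (∑ i, ∑ j, C v w i j * B i) * wE D.s D.c D.R e 3 x := by
    simp only [Finset.sum_mul]
  rw [h4, add_mul, one_mul]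
  linarith

end PD

end Crest.Agent.R240.Pot
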