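import Mathlib
import Crest.Agent.R240.Lin1
import Crest.Agent.R240.En1
import Crest.Agent.R240.Kern
import Crest.Agent.R240.PotPoinc2

/-!
Row 240 (S0371), helper838: Poincaré lemma for closed two-forms on balls of `ℝ⁴` with kernel bound.

* `poinc` : smooth closed `Ψ`, `d1 α = Ψ` on the ball, `|α(x)| ≤ C ∫ |x-z|⁻³ |Ψ(z)| dz`;
* `poinc_on` : the same for `Ψ` smooth on a larger ball;
* `poinc_we`, `poinc_we_on` : `|Ψ(z)| ≤ K (∫ (|z-y|+ε)⁻³ ds(y) + 1)` implies
  `|α(x)| ≤ C K (∫ (|x-y|+ε)⁻² ds(y) + 1)`.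
-/

set_option autoImplicit false
set_option maxSynthPendingDepth 3

open MeasureTheory Set Filter Topology Metric
open scoped ContDiff ENNReal NNReal
open Crest.Agent.R240.En Crest.Agent.R240.Kern

namespace Crest.Agent.R240.PotPoinc

noncomputable section

lemma enorm_avg_le {φ : E4 → ℝ} {Ψ : E4 → Bil} (hΨ : Continuous Ψ) {c : E4} {r : ℝ} (hr : 0 < r)
    (hsupp : ∀ a, a ∉ ball c r → φ a = 0) {B : ℝ≥0∞} (hB : B ≠ ⊤) (hφB : ∀ a, ‖φ a‖ₑ ≤ B)
    {x : E4} (hx : x ∈ ball c r) :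
    ‖avg volume φ Ψ x‖ₑ ≤ B * ENNReal.ofReal (16 / 3 * r ^ 4) *
      ∫⁻ z in ball c r, ker 3 (dist x z) * ‖Ψ z‖ₑ := by
  have hg : Measurable (fun z => ‖Ψ z‖ₑ) := hΨ.enorm.measurable
  calc ‖avg volume φ Ψ x‖ₑ ≤ ∫⁻ a, ‖φ a • hom Ψ a x‖ₑ := enorm_integral_le_lintegral_enorm _
    _ ≤ ∫⁻ a in ball c r, B * (ENNReal.ofReal (2 * r) *
          ∫⁻ t in Ioo (0:ℝ) 1, ‖Ψ (a + t • (x - a))‖ₑ) := by
        rw [← lintegral_indicator measurableSet_ball]
        refine lintegral_mono fun a => ?_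
        by_cases ha : a ∈ ball c r
        · rw [indicator_of_mem ha, enorm_smul]
          refine mul_le_mul' (hφB a) ((enorm_hom_le Ψ a x).trans (mul_le_mul' ?_ le_rfl))
          rw [← ofReal_norm]
          refine ENNReal.ofReal_le_ofReal ?_
          rw [← dist_eq_norm]
          have h3 := dist_triangle_right x a c
          have h4 : dist x c < r := hx
          have h5 : dist a c < r := ha
          linarith
        · rw [indicator_of_notMem ha, hsupp a ha]
          simp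
    _ = B * (ENNReal.ofReal (2 * r) * ∫⁻ a in ball c r,
          ∫⁻ t in Ioo (0:ℝ) 1, ‖Ψ (a + t • (x - a))‖ₑ) := by
        rw [lintegral_const_mul' _ _ hB, lintegral_const_mul' _ _ ENNReal.ofReal_ne_top]
    _ ≤ B * (ENNReal.ofReal (2 * r) * (ENNReal.ofReal (8 / 3 * r ^ 3) *
          ∫⁻ z in ball c r, (‖x - z‖ₑ ^ 3)⁻¹ * ‖Ψ z‖ₑ)) := by
        gcongr
        exact kernel_bound hg c hr hx
    _ = B * ENNReal.ofReal (16 / 3 * r ^ 4) *
      ∫⁻ z in ball c r, ker 3 (dist x z) * ‖Ψ z‖ₑ := by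
        have e1 : ENNReal.ofReal (16 / 3 * r ^ 4)
            = ENNReal.ofReal (2 * r) * ENNReal.ofReal (8 / 3 * r ^ 3) := by
          rw [← ENNReal.ofReal_mul (by positivity)]
          congr 1
          ring
        have e2 : ∀ z, ker 3 (dist x z) = (‖x - z‖ₑ ^ 3)⁻¹ := by
          intro z
          rw [Kern.ker, dist_eq_norm, ofReal_norm]
        simp_rw [e2]
        rw [e1]
        ring

/-- universal constant. -/
def CP : ℝ≥0 := (4096 / 3 / (volume : Measure E4).real (closedBall 0 1)).toNNReal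

theorem poinc (c : E4) {r : ℝ} (hr : 0 < r) {Ψ : E4 → Bil} (hΨ : ContDiff ℝ ∞ Ψ)
    (halt : ∀ y ∈ ball c r, Alt (Ψ y)) (hcl : ∀ y ∈ ball c r, Cl Ψ y) :
    ∃ α : E4 → Cov, ContDiff ℝ ∞ α ∧ (∀ x ∈ ball c r, d1 α x = Ψ x) ∧
      ∀ x ∈ ball c r, ‖α x‖ₑ ≤ (CP : ℝ≥0∞) * ∫⁻ z in ball c r, ker 3 (dist x z) * ‖Ψ z‖ₑ := by
  let f : ContDiffBump c := ⟨r / 4, r / 2, by positivity, by linarith⟩
  have hsupp : tsupport (f.normed volume) = closedBall c (r / 2) := f.tsupport_normed_eq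
  have halt' : ∀ y ∈ ball c r, ∀ u v, Ψ y u v = - Ψ y v u := by
    intro y hy u v
    have h1 := halt y hy (u + v)
    have h2 := halt y hy u
    have h3 := halt y hy v
    simp only [map_add, add_apply, h2, h3] at h1
    linarith
  refine ⟨avg volume (f.normed volume) Ψ, ?_, ?_, ?_⟩
  · exact contDiff_avg f.contDiff_normed f.hasCompactSupport_normed hΨ
  · intro x hx
    ext u v
    rw [d1_apply]
    refine avg_antisymm f.contDiff_normed f.hasCompactSupport_normed f.integral_normed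
      isOpen_ball (convex_ball c r) ?_ hΨ halt' hcl hx u v
    rw [hsupp]
    exact closedBall_subset_ball (by linarith)
  · intro x hx
    have hV : 0 < (volume : Measure E4).real (closedBall 0 1) :=
      ENNReal.toReal_pos (measure_closedBall_pos _ _ one_pos).ne' measure_closedBall_lt_top.ne
    have hB : ∀ a, ‖f.normed volume a‖ₑ
        ≤ ENNReal.ofReal (256 / (r ^ 4 * (volume : Measure E4).real (closedBall 0 1))) := by
      intro a
      rw [Real.enorm_eq_ofReal (f.nonneg_normed a)]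
      refine ENNReal.ofReal_le_ofReal ((f.normed_le_div_measure_closedBall_rIn volume a).trans ?_)
      have e1 : (volume : Measure E4).real (closedBall c (r / 4))
          = (r / 4) ^ 4 * (volume : Measure E4).real (closedBall 0 1) := by
        rw [Measure.addHaar_real_closedBall' volume c (by positivity : 0 ≤ r / 4),
          finrank_euclideanSpace_fin]
      change 1 / (volume : Measure E4).real (closedBall c (r / 4)) ≤ _
      rw [e1]
      apply le_of_eq
      field_simp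
      norm_num
    have h1 := enorm_avg_le hΨ.continuous hr (φ := f.normed volume) (c := c) (fun a ha => by
      have : a ∉ tsupport (f.normed volume) := by
        rw [hsupp]
        intro h
        exact ha (closedBall_subset_ball (by linarith) h)
      exact image_eq_zero_of_notMem_tsupport this) ENNReal.ofReal_ne_top hB hx
    refine h1.trans (le_of_eq ?_)
    congr 1
    rw [← ENNReal.ofReal_mul (by positivity), CP, ENNReal.ofNNReal_toNNReal]
    congr 1
    field_simp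
    norm_num

lemma Cl_congr {Ψ Ψ' : E4 → Bil} {x : E4} (h : Ψ =ᶠ[𝓝 x] Ψ') (hcl : Cl Ψ x) : Cl Ψ' x := by
  intro u v w
  have := hcl u v w
  rw [h.fderiv_eq] at this
  exact this

/-- smooth extension of a form by a cut-off. -/
lemma exists_smooth_ext (c : E4) {r R : ℝ} (hr : 0 < r) (hR : r < R) {V : Type*}
    [NormedAddCommGroup V] [NormedSpace ℝ V] {Ψ : E4 → V}
    (hΨ : ContDiffOn ℝ ∞ Ψ (ball c R)) :
    ∃ Ψ' : E4 → V, ContDiff ℝ ∞ Ψ' ∧ ∀ x ∈ ball c r, Ψ' x = Ψ x := by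
  let f : ContDiffBump c := ⟨r, (r + R) / 2, hr, by linarith⟩
  refine ⟨fun x => f x • Ψ x, ?_, ?_⟩
  · rw [contDiff_iff_contDiffAt]
    intro x
    by_cases hx : x ∈ ball c R
    · exact (f.contDiff.contDiffAt).smul (hΨ.contDiffAt (isOpen_ball.mem_nhds hx))
    · have h1 : x ∉ tsupport f := by
        rw [f.tsupport_eq]
        intro h
        apply hx
        have h2 : dist x c ≤ (r + R) / 2 := h
        have : dist x c < R := by linarith
        exact this
      have h2 : (fun x => f x • Ψ x) =ᶠ[𝓝 x] fun _ => (0 : V) := by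
        have := (isClosed_tsupport f).isOpen_compl.mem_nhds h1
        filter_upwards [this] with y hy
        rw [image_eq_zero_of_notMem_tsupport hy, zero_smul]
      exact contDiffAt_const.congr_of_eventuallyEq h2
  · intro x hx
    have : f x = 1 := f.one_of_mem_closedBall (ball_subset_closedBall hx)
    simp [this]

theorem poinc_on (c : E4) {r R : ℝ} (hr : 0 < r) (hR : r < R) {Ψ : E4 → Bil}
    (hΨ : ContDiffOn ℝ ∞ Ψ (ball c R))
    (halt : ∀ y ∈ ball c r, Alt (Ψ y)) (hcl : ∀ y ∈ ball c r, Cl Ψ y) :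
    ∃ α : E4 → Cov, ContDiff ℝ ∞ α ∧ (∀ x ∈ ball c r, d1 α x = Ψ x) ∧
      ∀ x ∈ ball c r, ‖α x‖ₑ ≤ (CP : ℝ≥0∞) * ∫⁻ z in ball c r, ker 3 (dist x z) * ‖Ψ z‖ₑ := by
  obtain ⟨Ψ', h1, h2⟩ := exists_smooth_ext c hr hR hΨ
  have h3 : ∀ x ∈ ball c r, Ψ =ᶠ[𝓝 x] Ψ' := by
    intro x hx
    filter_upwards [isOpen_ball.mem_nhds hx] with y hy
    exact (h2 y hy).symm
  obtain ⟨α, ha, hb, hc⟩ := poinc c hr h1 (fun y hy => by rw [h2 y hy]; exact halt y hy)
    (fun y hy => Cl_congr (h3 y hy) (hcl y hy))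
  refine ⟨α, ha, fun x hx => (hb x hx).trans (h2 x hx), fun x hx => (hc x hx).trans (le_of_eq ?_)⟩
  congr 1
  refine setLIntegral_congr_fun measurableSet_ball fun z hz => ?_
  simp only [h2 z hz]

/-- volume growth constant. -/
def AV : ℝ := (volume : Measure E4).real (ball 0 1)

lemma AV_pos : 0 < AV :=
  ENNReal.toReal_pos (measure_ball_pos _ _ one_pos).ne' measure_ball_lt_top.ne

lemma volume_ball_le (x : E4) (r : ℝ) (hr : 0 < r) :
    (volume : Measure E4) (ball x r) ≤ ENNReal.ofReal (AV * r ^ 4) := by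
  rw [Measure.addHaar_ball volume x hr.le, finrank_euclideanSpace_fin, mul_comm AV,
    ENNReal.ofReal_mul (by positivity), AV, measureReal_def,
    ENNReal.ofReal_toReal measure_ball_lt_top.ne]

/-- universal constant. -/
def CW : ℝ≥0 := CP * (2 ^ 22 * AV).toNNReal + CP * (32 * AV).toNNReal

lemma kernel_we (c : E4) {r : ℝ} (hr : 0 < r) (hr1 : r ≤ 1) (s : Measure E4) [SFinite s]
    {ε : ℝ} (hε : 0 ≤ ε) (K : ℝ≥0∞) {g : E4 → ℝ≥0∞}
    (hg : ∀ z ∈ ball c r, g z ≤ K * (∫⁻ y, ker 3 (dist z y + ε) ∂s + 1))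
    {x : E4} (hx : x ∈ ball c r) :
    (CP : ℝ≥0∞) * ∫⁻ z in ball c r, ker 3 (dist x z) * g z ≤ CW * K * (we s ε x + 1) := by
  have hm1 : Measurable (fun z => ker 3 (dist x z)) := (measurable_ker 3).comp (by fun_prop)
  have hm2 : Measurable (Function.uncurry fun z y : E4 => ker 3 (dist z y + ε)) :=
    (measurable_ker 3).comp (by fun_prop)
  have hm3 : Measurable (Function.uncurry fun z y : E4 => ker 3 (dist x z) *
      ker 3 (dist z y + ε)) := (hm1.comp measurable_fst).mul hm2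
  have e1 : ∫⁻ z in ball c r, ker 3 (dist x z) * g z
      ≤ K * ((∫⁻ z, ∫⁻ y, ker 3 (dist x z) * ker 3 (dist z y + ε) ∂s)
        + ∫⁻ z in ball x (2 * r), ker 3 (dist x z)) := by
    calc ∫⁻ z in ball c r, ker 3 (dist x z) * g z
        ≤ ∫⁻ z in ball c r, K * ((∫⁻ y, ker 3 (dist x z) * ker 3 (dist z y + ε) ∂s)
            + ker 3 (dist x z)) := by
          refine setLIntegral_mono' measurableSet_ball fun z hz => ?_
          refine (mul_le_mul' le_rfl (hg z hz)).trans (le_of_eq ?_)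
          rw [lintegral_const_mul _ hm2.of_uncurry_left]
          ring
      _ ≤ ∫⁻ z in ball x (2 * r), K * ((∫⁻ y, ker 3 (dist x z) * ker 3 (dist z y + ε) ∂s)
            + ker 3 (dist x z)) := by
          refine lintegral_mono_set ?_
          intro z hz
          have h3 := dist_triangle_right z x c
          have h4 : dist x c < r := hx
          have h5 : dist z c < r := hz
          have : dist z x < 2 * r := by linarith
          exact this
      _ = K * ((∫⁻ z in ball x (2 * r), ∫⁻ y, ker 3 (dist x z) * ker 3 (dist z y + ε) ∂s)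
            + ∫⁻ z in ball x (2 * r), ker 3 (dist x z)) := by
          rw [← lintegral_add_right _ hm1, ← lintegral_const_mul]
          exact (hm3.lintegral_prod_right').add hm1
      _ ≤ _ := by
          gcongr
          exact Measure.restrict_le_self
  have e2 : ∫⁻ z, ∫⁻ y, ker 3 (dist x z) * ker 3 (dist z y + ε) ∂s
      ≤ ENNReal.ofReal (2 ^ 22 * AV) * we s ε x := by
    rw [lintegral_lintegral_swap hm3.aemeasurable, we, ← lintegral_const_mul]
    · exact lintegral_mono fun y => comp_ker_three volume AV_pos volume_ball_le x y hε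
    · exact (measurable_ker 2).comp (by fun_prop)
  have e3 : ∫⁻ z in ball x (2 * r), ker 3 (dist x z) ≤ ENNReal.ofReal (32 * AV) := by
    refine (setLIntegral_ker volume x (b := 3) (c := 1) le_rfl
      (fun ρ hρ => volume_ball_le x ρ hρ) AV_pos.le (by positivity : 0 < 2 * r)).trans ?_
    refine ENNReal.ofReal_le_ofReal ?_
    have h1 := mul_nonneg AV_pos.le (sub_nonneg.2 hr1)
    have h2 : 2 ^ (3 + 1) * AV * (2 * r) ^ 1 = 32 * (AV * r) := by ring
    rw [h2]
    linarith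
  calc (CP : ℝ≥0∞) * ∫⁻ z in ball c r, ker 3 (dist x z) * g z
      ≤ CP * (K * (ENNReal.ofReal (2 ^ 22 * AV) * we s ε x + ENNReal.ofReal (32 * AV))) := by
        refine mul_le_mul' le_rfl (e1.trans ?_)
        gcongr
    _ = K * ((CP * ENNReal.ofReal (2 ^ 22 * AV)) * we s ε x + CP * ENNReal.ofReal (32 * AV)) := by
        ring
    _ ≤ K * (CW * we s ε x + CW) := by
        have h1 : (CP : ℝ≥0∞) * ENNReal.ofReal (2 ^ 22 * AV) ≤ CW := by
          rw [CW, ENNReal.coe_add, ENNReal.coe_mul]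
          exact le_self_add
        have h2 : (CP : ℝ≥0∞) * ENNReal.ofReal (32 * AV) ≤ CW := by
          rw [CW, ENNReal.coe_add, ENNReal.coe_mul, ENNReal.coe_mul]
          exact le_add_self
        gcongr
    _ = CW * K * (we s ε x + 1) := by ring

theorem poinc_we (c : E4) {r : ℝ} (hr : 0 < r) (hr1 : r ≤ 1) {Ψ : E4 → Bil}
    (hΨ : ContDiff ℝ ∞ Ψ)
    (halt : ∀ y ∈ ball c r, Alt (Ψ y)) (hcl : ∀ y ∈ ball c r, Cl Ψ y)
    (s : Measure E4) [SFinite s] {ε : ℝ} (hε : 0 ≤ ε) (K : ℝ≥0∞)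
    (hK : ∀ z ∈ ball c r, ‖Ψ z‖ₑ ≤ K * (∫⁻ y, ker 3 (dist z y + ε) ∂s + 1)) :
    ∃ α : E4 → Cov, ContDiff ℝ ∞ α ∧ (∀ x ∈ ball c r, d1 α x = Ψ x) ∧
      ∀ x ∈ ball c r, ‖α x‖ₑ ≤ CW * K * (we s ε x + 1) := by
  obtain ⟨α, ha, hb, hc⟩ := poinc c hr hΨ halt hcl
  exact ⟨α, ha, hb, fun x hx => (hc x hx).trans (kernel_we c hr hr1 s hε K hK hx)⟩

theorem poinc_we_on (c : E4) {r R : ℝ} (hr : 0 < r) (hr1 : r ≤ 1) (hR : r < R) {Ψ : E4 → Bil}
    (hΨ : ContDiffOn ℝ ∞ Ψ (ball c R))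
    (halt : ∀ y ∈ ball c r, Alt (Ψ y)) (hcl : ∀ y ∈ ball c r, Cl Ψ y)
    (s : Measure E4) [SFinite s] {ε : ℝ} (hε : 0 ≤ ε) (K : ℝ≥0∞)
    (hK : ∀ z ∈ ball c r, ‖Ψ z‖ₑ ≤ K * (∫⁻ y, ker 3 (dist z y + ε) ∂s + 1)) :
    ∃ α : E4 → Cov, ContDiff ℝ ∞ α ∧ (∀ x ∈ ball c r, d1 α x = Ψ x) ∧
      ∀ x ∈ ball c r, ‖α x‖ₑ ≤ CW * K * (we s ε x + 1) := by
  obtain ⟨α, ha, hb, hc⟩ := poinc_on c hr hR hΨ halt hcl
  exact ⟨α, ha, hb, fun x hx => (hc x hx).trans (kernel_we c hr hr1 s hε K hK hx)⟩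

end

end Crest.Agent.R240.PotPoinc
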