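import Mathlib
import Crest.Agent.R240.Lin1
import Crest.Agent.R240.En1
import Crest.Agent.R240.Kern
import Crest.Agent.R240.PotDefs
import Crest.Agent.R240.PotPoinc3

/-!
Row 240 (S0371), helper838: Poincaré lemma with the bounds of `P4` (real-valued version with `wE`).
-/

set_option autoImplicit false
set_option maxSynthPendingDepth 3

open MeasureTheory Set Filter Topology Metric
open scoped ContDiff ENNReal NNReal
open Crest.Agent.R240.En Crest.Agent.R240.Kern Crest.Agent.R240.Pot

namespace Crest.Agent.R240.PotPoinc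

noncomputable section

/-- real and extended forms of the truncated potentials. -/
lemma wE_ofReal (s : Measure E4) [IsFiniteMeasure s] (c : E4) (R : ℝ) {e : ℝ} (he : 0 < e) (k : ℕ)
    (x : E4) :
    ∫⁻ y, ker k (dist x y + e) ∂(s.restrict (closedBall c R))
      = ENNReal.ofReal (wE s c R e k x) := by
  have h0 : ∀ y, 0 < ‖x - y‖ + e := fun y => by positivity
  have hm : Measurable fun y => 1 / (‖x - y‖ + e) ^ k := by fun_prop
  rw [wE, ofReal_integral_eq_lintegral_ofReal]
  · refine lintegral_congr fun y => ?_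
    rw [dist_eq_norm, ker_of_pos k (h0 y), one_div]
  · refine Integrable.of_bound hm.aestronglyMeasurable ((e ^ k)⁻¹) ?_
    refine ae_of_all _ fun y => ?_
    rw [Real.norm_of_nonneg (by positivity), one_div]
    apply inv_anti₀ (by positivity)
    exact pow_le_pow_left₀ he.le (by linarith [norm_nonneg (x - y)]) k
  · exact ae_of_all _ fun y => by positivity

lemma wE_nonneg (s : Measure E4) (c : E4) (R : ℝ) {e : ℝ} (he : 0 < e) (k : ℕ) (x : E4) :
    0 ≤ wE s c R e k x := by
  refine integral_nonneg fun y => ?_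
  positivity

/-- constant of the Poincaré lemma on a ball of radius `r`. -/
def CR (r : ℝ) : ℝ := CP * (2 ^ 22 * AV) + CP * (32 * AV * r)

lemma CR_nonneg {r : ℝ} (hr : 0 ≤ r) : 0 ≤ CR r := by
  have := AV_pos
  unfold CR
  positivity

lemma kernel_we' (c : E4) {r : ℝ} (hr : 0 < r) (s : Measure E4) [SFinite s]
    {ε : ℝ} (hε : 0 ≤ ε) (K : ℝ≥0∞) {g : E4 → ℝ≥0∞}
    (hg : ∀ z ∈ ball c r, g z ≤ K * (∫⁻ y, ker 3 (dist z y + ε) ∂s + 1))
    {x : E4} (hx : x ∈ ball c r) :
    (CP : ℝ≥0∞) * ∫⁻ z in ball c r, ker 3 (dist x z) * g z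
      ≤ ENNReal.ofReal (CR r) * K * (we s ε x + 1) := by
  have hm1 : Measurable (fun z => ker 3 (dist x z)) := (measurable_ker 3).comp (by fun_prop)
  have hm2 : Measurable (Function.uncurry fun z y : E4 => ker 3 (dist z y + ε)) :=
    (measurable_ker 3).comp (by fun_prop)
  have hm3 : Measurable (Function.uncurry fun z y : E4 => ker 3 (dist x z) *
      ker 3 (dist z y + ε)) := (hm1.comp measurable_fst).mul hm2
  have e1 : ∫⁻ z in ball c r, ker 3 (dist x z) * g z
      ≤ K * ((∫⁻ z, ∫⁻ y, ker 3 (dist x z) * ker 3 (dist z y + ε) ∂s)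
        + ∫⁻ z in ball x (2 * r), ker 3 (dist x z)) := by
    calc ∫⁻ z in ball c r, ker 3 (dist x z) * g z
        ≤ ∫⁻ z in ball c r, K * ((∫⁻ y, ker 3 (dist x z) * ker 3 (dist z y + ε) ∂s)
            + ker 3 (dist x z)) := by
          refine setLIntegral_mono' measurableSet_ball fun z hz => ?_
          refine (mul_le_mul' le_rfl (hg z hz)).trans (le_of_eq ?_)
          rw [lintegral_const_mul _ hm2.of_uncurry_left]
          ring
      _ ≤ ∫⁻ z in ball x (2 * r), K * ((∫⁻ y, ker 3 (dist x z) * ker 3 (dist z y + ε) ∂s)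
            + ker 3 (dist x z)) := by
          refine lintegral_mono_set ?_
          intro z hz
          have h3 := dist_triangle_right z x c
          have h4 : dist x c < r := hx
          have h5 : dist z c < r := hz
          have : dist z x < 2 * r := by linarith
          exact this
      _ = K * ((∫⁻ z in ball x (2 * r), ∫⁻ y, ker 3 (dist x z) * ker 3 (dist z y + ε) ∂s)
            + ∫⁻ z in ball x (2 * r), ker 3 (dist x z)) := by
          rw [← lintegral_add_right _ hm1, ← lintegral_const_mul]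
          exact (hm3.lintegral_prod_right').add hm1
      _ ≤ _ := by
          gcongr
          exact Measure.restrict_le_self
  have e2 : ∫⁻ z, ∫⁻ y, ker 3 (dist x z) * ker 3 (dist z y + ε) ∂s
      ≤ ENNReal.ofReal (2 ^ 22 * AV) * we s ε x := by
    rw [lintegral_lintegral_swap hm3.aemeasurable, we, ← lintegral_const_mul]
    · exact lintegral_mono fun y => comp_ker_three volume AV_pos volume_ball_le x y hε
    · exact (measurable_ker 2).comp (by fun_prop)
  have e3 : ∫⁻ z in ball x (2 * r), ker 3 (dist x z) ≤ ENNReal.ofReal (32 * AV * r) := by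
    refine (setLIntegral_ker volume x (b := 3) (c := 1) le_rfl
      (fun ρ hρ => volume_ball_le x ρ hρ) AV_pos.le (by positivity : 0 < 2 * r)).trans ?_
    refine ENNReal.ofReal_le_ofReal (le_of_eq ?_)
    ring
  have hA := AV_pos
  have hC : ENNReal.ofReal (CR r) = CP * ENNReal.ofReal (2 ^ 22 * AV)
      + CP * ENNReal.ofReal (32 * AV * r) := by
    rw [CR, ENNReal.ofReal_add (by positivity) (by positivity),
      ENNReal.ofReal_mul (p := (CP : ℝ)) (by positivity),
      ENNReal.ofReal_mul (p := (CP : ℝ)) (by positivity), ENNReal.ofReal_coe_nnreal]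
  calc (CP : ℝ≥0∞) * ∫⁻ z in ball c r, ker 3 (dist x z) * g z
      ≤ CP * (K * (ENNReal.ofReal (2 ^ 22 * AV) * we s ε x + ENNReal.ofReal (32 * AV * r))) := by
        refine mul_le_mul' le_rfl (e1.trans ?_)
        gcongr
    _ = K * ((CP * ENNReal.ofReal (2 ^ 22 * AV)) * we s ε x
          + CP * ENNReal.ofReal (32 * AV * r)) := by
        ring
    _ ≤ K * (ENNReal.ofReal (CR r) * we s ε x + ENNReal.ofReal (CR r)) := by
        have h1 : (CP : ℝ≥0∞) * ENNReal.ofReal (2 ^ 22 * AV) ≤ ENNReal.ofReal (CR r) := by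
          rw [hC]
          exact le_self_add
        have h2 : (CP : ℝ≥0∞) * ENNReal.ofReal (32 * AV * r) ≤ ENNReal.ofReal (CR r) := by
          rw [hC]
          exact le_add_self
        gcongr
    _ = ENNReal.ofReal (CR r) * K * (we s ε x + 1) := by ring

/-- Poincaré lemma with the bounds of `P4`. -/
theorem poinc_wE (c : E4) {r R' : ℝ} (hr : 0 < r) (hR : r < R') {Ψ : E4 → Bil}
    (hΨ : ContDiffOn ℝ ∞ Ψ (ball c R'))
    (halt : ∀ y ∈ ball c r, Alt (Ψ y)) (hcl : ∀ y ∈ ball c r, Cl Ψ y)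
    (s : Measure E4) [IsFiniteMeasure s] (c0 : E4) (R : ℝ) {e : ℝ} (he : 0 < e) {K : ℝ}
    (hK0 : 0 ≤ K) (hK : ∀ z ∈ ball c r, ‖Ψ z‖ ≤ K * (wE s c0 R e 3 z + 1)) :
    ∃ α : E4 → Cov, ContDiff ℝ ∞ α ∧ (∀ x ∈ ball c r, d1 α x = Ψ x) ∧
      ∀ x ∈ ball c r, ‖α x‖ ≤ CR r * K * (wE s c0 R e 2 x + 1) := by
  obtain ⟨α, ha, hb, hc⟩ := poinc_on c hr hR hΨ halt hcl
  refine ⟨α, ha, hb, fun x hx => ?_⟩
  have h1 := (hc x hx).trans (kernel_we' c hr (s.restrict (closedBall c0 R)) he.le
    (ENNReal.ofReal K) (fun z hz => by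
      rw [wE_ofReal s c0 R he 3 z, ← ENNReal.ofReal_one, ← ENNReal.ofReal_add (wE_nonneg s c0 R he 3 z)
        zero_le_one, ← ENNReal.ofReal_mul hK0, ← ofReal_norm]
      exact ENNReal.ofReal_le_ofReal (hK z hz)) hx)
  rw [we, wE_ofReal s c0 R he 2 x, ← ENNReal.ofReal_one,
    ← ENNReal.ofReal_add (wE_nonneg s c0 R he 2 x) zero_le_one,
    ← ENNReal.ofReal_mul (CR_nonneg hr.le),
    ← ENNReal.ofReal_mul (mul_nonneg (CR_nonneg hr.le) hK0), ← ofReal_norm] at h1
  refine (ENNReal.ofReal_le_ofReal_iff ?_).1 h1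
  exact mul_nonneg (mul_nonneg (CR_nonneg hr.le) hK0)
    (by have := wE_nonneg s c0 R he 2 x; linarith)

end

end Crest.Agent.R240.PotPoinc
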