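import Mathlib
import Crest.Agent.R240.Lin3
import Crest.Agent.R240.En1
import Crest.Agent.R240.PotAlg
import Crest.Agent.R240.PotGeo
import Crest.Agent.R240.PotDefs

/-!
Row 240 (S0371), Part P (helper838 for helper657): trace identity, `d∘d = 0`, smoothness of `J du`,
Lipschitz bound for `J`, bounds for the rescaled mollifier.
-/

set_option autoImplicit false
set_option maxSynthPendingDepth 3
open scoped ContDiff
open MeasureTheory Metric Crest.Agent.R240.En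

namespace Crest.Agent.R240.Pot

/-! ### (TR) trace -/

/-- the inverse Gram matrix in terms of an orthonormal frame. -/
lemma gI_frame {g : Bil} {A : E4 ≃L[ℝ] E4}
    (h : ∀ k l, g (A (ee k)) (A (ee l)) = if k = l then 1 else 0) (i j : Fin 4) :
    gI g i j = ∑ k, (A (ee k)) i * (A (ee k)) j := by
  set a : Matrix (Fin 4) (Fin 4) ℝ := Matrix.of fun i k => (A (ee k)) i with ha
  have h1 : a.transpose * gM g * a = 1 := by
    ext k l
    rw [Matrix.mul_apply, Matrix.one_apply, ← h k l, bil_sum]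
    simp only [Matrix.mul_apply, Matrix.transpose_apply, ha, Matrix.of_apply, gM_apply,
      Finset.sum_mul]
    rw [Finset.sum_comm]
    refine Finset.sum_congr rfl fun i _ => Finset.sum_congr rfl fun j _ => ?_
    ring
  have h2 : a * (a.transpose * gM g) = 1 := mul_eq_one_comm.1 h1
  have h3 : (gM g)⁻¹ = a * a.transpose := by
    apply Matrix.inv_eq_left_inv
    rw [Matrix.mul_assoc]
    exact h2
  unfold gI
  rw [h3, Matrix.mul_apply]
  rfl

/-- traces in terms of an orthonormal frame. -/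
lemma tr_frame {g : Bil} {A : E4 ≃L[ℝ] E4}
    (h : ∀ k l, g (A (ee k)) (A (ee l)) = if k = l then 1 else 0) (B : Bil) :
    ∑ i, ∑ j, gI g i j * B (ee i) (ee j) = ∑ k, B (A (ee k)) (A (ee k)) := by
  simp only [gI_frame h, Finset.sum_mul]
  calc ∑ i, ∑ j, ∑ k, (A (ee k)) i * (A (ee k)) j * B (ee i) (ee j)
      = ∑ i, ∑ k, ∑ j, (A (ee k)) i * (A (ee k)) j * B (ee i) (ee j) := by
        refine Finset.sum_congr rfl fun i _ => Finset.sum_comm
    _ = ∑ k, ∑ i, ∑ j, (A (ee k)) i * (A (ee k)) j * B (ee i) (ee j) := Finset.sum_comm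
    _ = _ := by
        refine Finset.sum_congr rfl fun k _ => ?_
        rw [bil_sum B]

section trace

variable {J : E4 →L[ℝ] E4} {F P : Bil} {A : E4 ≃L[ℝ] E4}

lemma gm_frame (hA : IsFrame J F A) (k l : Fin 4) :
    gm J F (A (ee k)) (A (ee l)) = if k = l then 1 else 0 := by
  rw [gm_apply, hA.cplx, hA.form, om0_apply]
  fin_cases k <;> fin_cases l <;> simp

/-- `tr P` in an adapted frame. -/
lemma trJ_frame (hA : IsFrame J F A) (hP : Alt P) :
    trJ (gI (gm J F)) J (fun a b => P a b)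
      = ent (pull (A : E4 →L[ℝ] E4) P) 0 1 + ent (pull (A : E4 →L[ℝ] E4) P) 2 3 := by
  have h1 : trJ (gI (gm J F)) J (fun a b => P a b)
      = (1 / 2) * ∑ i, ∑ j, gI (gm J F) i j * ((P.flip.comp J).flip) (ee i) (ee j) := rfl
  rw [h1, tr_frame (gm_frame hA)]
  have h2 : ∀ v, ((P.flip.comp J).flip) v v = P v (J v) := fun v => rfl
  simp only [h2, hA.cplx, Fin.sum_univ_four, J0_ee0, J0_ee1, J0_ee2, J0_ee3, map_neg]
  have h3 := hP.swap (A (ee 1)) (A (ee 0))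
  have h4 := hP.swap (A (ee 3)) (A (ee 2))
  have h5 : ent (pull (A : E4 →L[ℝ] E4) P) 0 1 = P (A (ee 0)) (A (ee 1)) := by
    unfold ent; rw [pull_apply]; rfl
  have h6 : ent (pull (A : E4 →L[ℝ] E4) P) 2 3 = P (A (ee 2)) (A (ee 3)) := by
    unfold ent; rw [pull_apply]; rfl
  rw [h5, h6, h3, h4]
  ring

theorem W_ne_zero (hJ : ∀ v, J (J v) = -v) (hF : SPos J F) : W F F ≠ 0 := by
  obtain ⟨A, hA⟩ := exists_frame hJ hF
  exact hA.W_ne hF.alt

lemma W_om0_right (β : Bil) : W β om0 = ent β 0 1 + ent β 2 3 := by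
  have h : ∀ i j, ent om0 i j = om0 (ee i) (ee j) := fun i j => rfl
  unfold W
  simp only [h, om0_apply, ee_apply]
  simp

/-- **(TR)** -/
theorem tr_eq (hJ : ∀ v, J (J v) = -v) (hF : SPos J F) (hP : Alt P) :
    trJ (gI (gm J F)) J (fun a b => P a b) * W F F = 2 * W P F := by
  obtain ⟨A, hA⟩ := exists_frame hJ hF
  have hW := hA.W_ne hF.alt
  have h1 := hA.q_eq hF.alt hP hF.alt
  rw [hA.pull_form, W_om0_right, ← trJ_frame hA hP] at h1
  unfold q at h1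
  field_simp at h1
  linarith

/-- **(TRpos)** -/
theorem tr_nonneg (hJ : ∀ v, J (J v) = -v) (hF : SPos J F) (hP : Pos J P) :
    0 ≤ trJ (gI (gm J F)) J (fun a b => P a b) := by
  obtain ⟨A, hA⟩ := exists_frame hJ hF
  rw [trJ_frame hA hP.alt]
  have h1 := pos0_ent (P := pull (A : E4 →L[ℝ] E4) P) (hP.alt.pull _) (hA.pull_inv hP.inv) (by
    intro v
    rw [pull_apply]
    have := hP.nonneg (A v)
    rw [hA.cplx] at this
    exact this)
  exact add_nonneg h1.1 h1.2.1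

theorem tr_lower (hJ : ∀ v, J (J v) = -v) (hF : SPos J F) (hP : Pos J P) {τ0 : ℝ}
    (hτ : τ0 ≤ |W P F|) :
    2 * τ0 / |W F F| ≤ trJ (gI (gm J F)) J (fun a b => P a b) := by
  have hW := W_ne_zero hJ hF
  have h0 := tr_nonneg hJ hF hP
  have h1 := tr_eq hJ hF hP.alt
  have h2 : trJ (gI (gm J F)) J (fun a b => P a b) * |W F F| = 2 * |W P F| := by
    have := congrArg abs h1
    rwa [abs_mul, abs_mul, abs_of_nonneg h0, abs_of_pos (by norm_num : (0:ℝ) < 2)] at this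
  rw [div_le_iff₀ (abs_pos.2 hW), h2]
  linarith

end trace

/-! ### (D1) -/

lemma contDiff_d1 {b : E4 → Cov} (hb : ContDiff ℝ ∞ b) : ContDiff ℝ ∞ (d1 b) := by
  have h1 : ContDiff ℝ ∞ (fderiv ℝ b) := hb.fderiv_right (m := ∞) le_rfl
  exact h1.sub ((ContinuousLinearMap.flipₗᵢ ℝ E4 E4 ℝ).toContinuousLinearEquiv.contDiff.comp h1)

lemma fderiv_bil_apply {c : E4 → Bil} {x : E4} (hc : DifferentiableAt ℝ c x) (u v w : E4) :
    fderiv ℝ c x u v w = fderiv ℝ (fun z => c z v w) x u := by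
  have h1 : HasFDerivAt (fun z => c z v w) ((ContinuousLinearMap.apply ℝ ℝ w).comp
      ((ContinuousLinearMap.apply ℝ Cov v).comp (fderiv ℝ c x))) x :=
    (ContinuousLinearMap.apply ℝ ℝ w).hasFDerivAt.comp x
      ((ContinuousLinearMap.apply ℝ Cov v).hasFDerivAt.comp x hc.hasFDerivAt)
  rw [h1.fderiv]
  rfl

lemma Cl_d1 {b : E4 → Cov} (hb : ContDiff ℝ ∞ b) (x : E4) : Cl (d1 b) x := by
  have hd : DifferentiableAt ℝ (d1 b) x := (contDiff_d1 hb).differentiable (by simp) x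
  have h1 : ContDiff ℝ ∞ (fderiv ℝ b) := hb.fderiv_right (m := ∞) le_rfl
  have hd1 : DifferentiableAt ℝ (fderiv ℝ b) x := h1.differentiable (by simp) x
  have hsym : ∀ u v w : E4, fderiv ℝ (fderiv ℝ b) x u v w = fderiv ℝ (fderiv ℝ b) x v u w := by
    intro u v w
    have hs : IsSymmSndFDerivAt ℝ b x :=
      (hb.contDiffAt).isSymmSndFDerivAt (by
        rw [minSmoothness_of_isRCLikeNormedField]
        exact WithTop.coe_le_coe.2 le_top)
    rw [hs.eq u v]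
  have key : ∀ u v w : E4, fderiv ℝ (d1 b) x u v w
      = fderiv ℝ (fderiv ℝ b) x u v w - fderiv ℝ (fderiv ℝ b) x u w v := by
    intro u v w
    rw [fderiv_bil_apply hd]
    have e1 : (fun z => d1 b z v w) = fun z => fderiv ℝ b z v w - fderiv ℝ b z w v := by
      funext z; exact d1_apply b z v w
    have e2 : ∀ v w : E4, HasFDerivAt (fun z => fderiv ℝ b z v w)
        ((ContinuousLinearMap.apply ℝ ℝ w).comp
          ((ContinuousLinearMap.apply ℝ Cov v).comp (fderiv ℝ (fderiv ℝ b) x))) x := fun v w =>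
      (ContinuousLinearMap.apply ℝ ℝ w).hasFDerivAt.comp x
        ((ContinuousLinearMap.apply ℝ Cov v).hasFDerivAt.comp x hd1.hasFDerivAt)
    rw [e1, ((e2 v w).fun_sub (e2 w v)).fderiv]
    rfl
  intro u v w
  rw [key, key, key, hsym u v w, hsym u w v, hsym v w u]
  ring

lemma Cl_add {b c : E4 → Bil} {x : E4} (hb : DifferentiableAt ℝ b x)
    (hc : DifferentiableAt ℝ c x) (h1 : Cl b x) (h2 : Cl c x) : Cl (fun z => b z + c z) x := by
  intro u v w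
  have e : fderiv ℝ (fun z => b z + c z) x = fderiv ℝ b x + fderiv ℝ c x := fderiv_fun_add hb hc
  rw [e]
  have := h1 u v w
  have := h2 u v w
  simp only [add_apply]
  linarith

lemma Cl_sub {b c : E4 → Bil} {x : E4} (hb : DifferentiableAt ℝ b x)
    (hc : DifferentiableAt ℝ c x) (h1 : Cl b x) (h2 : Cl c x) : Cl (fun z => b z - c z) x := by
  intro u v w
  have e : fderiv ℝ (fun z => b z - c z) x = fderiv ℝ b x - fderiv ℝ c x := fderiv_fun_sub hb hc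
  rw [e]
  have := h1 u v w
  have := h2 u v w
  simp only [sub_apply]
  linarith

lemma d1_add {b c : E4 → Cov} {x : E4} (hb : DifferentiableAt ℝ b x)
    (hc : DifferentiableAt ℝ c x) : d1 (fun z => b z + c z) x = d1 b x + d1 c x := by
  ext v w
  have e : fderiv ℝ (fun z => b z + c z) x = fderiv ℝ b x + fderiv ℝ c x := fderiv_fun_add hb hc
  simp only [d1_apply, e, add_apply]
  ring

lemma d1_sub {b c : E4 → Cov} {x : E4} (hb : DifferentiableAt ℝ b x)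
    (hc : DifferentiableAt ℝ c x) : d1 (fun z => b z - c z) x = d1 b x - d1 c x := by
  ext v w
  have e : fderiv ℝ (fun z => b z - c z) x = fderiv ℝ b x - fderiv ℝ c x := fderiv_fun_sub hb hc
  simp only [d1_apply, e, sub_apply]
  ring

/-! ### (JC) -/

lemma contDiff_Jc {J : E4 → E4 →L[ℝ] E4} (hJ : ContDiff ℝ ∞ J) {u : E4 → ℝ}
    (hu : ContDiff ℝ ∞ u) : ContDiff ℝ ∞ fun z => Jc (J z) (fderiv ℝ u z) := by
  have h1 : ContDiff ℝ ∞ (fderiv ℝ u) := hu.fderiv_right (m := ∞) le_rfl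
  exact (h1.clm_comp hJ).neg

/-! ### (LIP) -/

lemma exists_lip {V : Type*} [NormedAddCommGroup V] [NormedSpace ℝ V] {J : E4 → V}
    (hJ : ContDiff ℝ ∞ J) (c : E4) (R : ℝ) :
    ∃ L : ℝ, 0 ≤ L ∧ ∀ x ∈ closedBall c R, ∀ y ∈ closedBall c R,
      ‖J x - J y‖ ≤ L * ‖x - y‖ := by
  have h1 : Continuous (fderiv ℝ J) := hJ.continuous_fderiv (by simp)
  obtain ⟨C, hC⟩ := (isCompact_closedBall c R).exists_bound_of_continuousOn h1.continuousOn
  refine ⟨max C 0, le_max_right _ _, fun x hx y hy => ?_⟩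
  exact (convex_closedBall c R).norm_image_sub_le_of_norm_fderiv_le
    (fun z _ => hJ.differentiable (by simp) z) (fun z hz => (hC z hz).trans (le_max_left _ _)) hy hx

/-! ### (MOL) the rescaled mollifier -/

section mol

variable {ρ : E4 → ℝ}

lemma rhoE_contDiff (hρ : ContDiff ℝ ∞ ρ) (e : ℝ) : ContDiff ℝ ∞ (rhoE ρ e) :=
  contDiff_const.mul (hρ.comp (contDiff_const_smul e⁻¹))

lemma rhoE_nonneg (h0 : ∀ z, 0 ≤ ρ z) (e : ℝ) (z : E4) : 0 ≤ rhoE ρ e z :=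
  mul_nonneg (by positivity) (h0 _)

lemma rhoE_zero (h1 : ∀ z, 1 ≤ ‖z‖ → ρ z = 0) {e : ℝ} (he : 0 < e) {z : E4} (hz : e ≤ ‖z‖) :
    rhoE ρ e z = 0 := by
  unfold rhoE
  rw [h1, mul_zero]
  rw [norm_smul, norm_inv, Real.norm_of_nonneg he.le, ← div_eq_inv_mul, le_div_iff₀ he, one_mul]
  exact hz

lemma rhoE_hasCompactSupport (h1 : ∀ z, 1 ≤ ‖z‖ → ρ z = 0) {e : ℝ} (he : 0 < e) :
    HasCompactSupport (rhoE ρ e) := by
  refine HasCompactSupport.intro (isCompact_closedBall (0 : E4) e) fun z hz => ?_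
  refine rhoE_zero h1 he ?_
  rw [mem_closedBall, dist_zero_right, not_le] at hz
  exact hz.le

lemma rhoE_tsupport (h1 : ∀ z, 1 ≤ ‖z‖ → ρ z = 0) {e : ℝ} (he : 0 < e) :
    tsupport (rhoE ρ e) ⊆ closedBall 0 e := by
  refine closure_minimal ?_ isClosed_closedBall
  intro z hz
  by_contra h
  rw [mem_closedBall, dist_zero_right, not_le] at h
  exact hz (rhoE_zero h1 he h.le)

lemma rhoE_integral (hi : ∫ z, ρ z = 1) {e : ℝ} (he : 0 < e) : ∫ z, rhoE ρ e z = 1 := by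
  unfold rhoE
  rw [integral_const_mul, Measure.integral_comp_inv_smul_of_nonneg volume ρ he.le, hi,
    finrank_euclideanSpace_fin, smul_eq_mul, mul_one, inv_mul_cancel₀ (by positivity)]

lemma fderiv_rhoE (hρ : ContDiff ℝ ∞ ρ) (e : ℝ) (z v : E4) :
    fderiv ℝ (rhoE ρ e) z v = (e ^ 4)⁻¹ * (e⁻¹ * fderiv ℝ ρ (e⁻¹ • z) v) := by
  have h1 : HasFDerivAt (fun z : E4 => e⁻¹ • z) (e⁻¹ • ContinuousLinearMap.id ℝ E4) z :=
    (hasFDerivAt_id z).const_smul e⁻¹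
  have h2 : HasFDerivAt ρ (fderiv ℝ ρ (e⁻¹ • z)) (e⁻¹ • z) :=
    (hρ.differentiable (by simp) _).hasFDerivAt
  have h3 : HasFDerivAt (rhoE ρ e)
      ((e ^ 4)⁻¹ • ((fderiv ℝ ρ (e⁻¹ • z)).comp (e⁻¹ • ContinuousLinearMap.id ℝ E4))) z :=
    (h2.comp z h1).const_mul _
  rw [h3.fderiv]
  simp

lemma fderiv2_rhoE (hρ : ContDiff ℝ ∞ ρ) (e : ℝ) (z v w : E4) :
    fderiv ℝ (fun z => fderiv ℝ (rhoE ρ e) z w) z v
      = (e ^ 4)⁻¹ * (e⁻¹ * (e⁻¹ * fderiv ℝ (fderiv ℝ ρ) (e⁻¹ • z) v w)) := by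
  have h0 : (fun z => fderiv ℝ (rhoE ρ e) z w)
      = fun z => (e ^ 4)⁻¹ * (e⁻¹ * fderiv ℝ ρ (e⁻¹ • z) w) := by
    funext z; exact fderiv_rhoE hρ e z w
  have h1 : HasFDerivAt (fun z : E4 => e⁻¹ • z) (e⁻¹ • ContinuousLinearMap.id ℝ E4) z :=
    (hasFDerivAt_id z).const_smul e⁻¹
  have hd : ContDiff ℝ ∞ (fderiv ℝ ρ) := hρ.fderiv_right (m := ∞) le_rfl
  have h2 : HasFDerivAt (fderiv ℝ ρ) (fderiv ℝ (fderiv ℝ ρ) (e⁻¹ • z)) (e⁻¹ • z) :=
    (hd.differentiable (by simp) _).hasFDerivAt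
  have h3 : HasFDerivAt (fun z => fderiv ℝ ρ (e⁻¹ • z) w) ((ContinuousLinearMap.apply ℝ ℝ w).comp
      ((fderiv ℝ (fderiv ℝ ρ) (e⁻¹ • z)).comp (e⁻¹ • ContinuousLinearMap.id ℝ E4))) z :=
    (ContinuousLinearMap.apply ℝ ℝ w).hasFDerivAt.comp z (h2.comp z h1)
  rw [h0, ((h3.const_mul e⁻¹).const_mul (e ^ 4)⁻¹).fderiv]
  simp

lemma hasCompactSupport_rho (h1 : ∀ z, 1 ≤ ‖z‖ → ρ z = 0) : HasCompactSupport ρ := by
  refine HasCompactSupport.intro (isCompact_closedBall (0 : E4) 1) fun z hz => ?_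
  refine h1 z ?_
  rw [mem_closedBall, dist_zero_right, not_le] at hz
  exact hz.le

/-- **(MOL)** bounds -/
theorem rhoE_bounds (hρ : ContDiff ℝ ∞ ρ) (h1 : ∀ z, 1 ≤ ‖z‖ → ρ z = 0) :
    ∃ B : ℝ, 0 ≤ B ∧ ∀ e : ℝ, 0 < e → ∀ z : E4, |rhoE ρ e z| ≤ B / e ^ 4 ∧
      (∀ v, |fderiv ℝ (rhoE ρ e) z v| ≤ B * ‖v‖ / e ^ 5) ∧
      (∀ v w, |fderiv ℝ (fun z => fderiv ℝ (rhoE ρ e) z w) z v| ≤ B * ‖v‖ * ‖w‖ / e ^ 6) := by
  have hc := hasCompactSupport_rho h1
  have hd : ContDiff ℝ ∞ (fderiv ℝ ρ) := hρ.fderiv_right (m := ∞) le_rfl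
  obtain ⟨B0, hB0⟩ := hc.exists_bound_of_continuous hρ.continuous
  obtain ⟨B1, hB1⟩ := (hc.fderiv (𝕜 := ℝ)).exists_bound_of_continuous hd.continuous
  obtain ⟨B2, hB2⟩ := ((hc.fderiv (𝕜 := ℝ)).fderiv (𝕜 := ℝ)).exists_bound_of_continuous
    (hd.continuous_fderiv (by simp))
  refine ⟨max (max B0 B1) (max B2 0), le_max_of_le_right (le_max_right _ _), fun e he z => ?_⟩
  set B := max (max B0 B1) (max B2 0) with hB
  have hb0 : B0 ≤ B := (le_max_left _ _).trans (le_max_left _ _)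
  have hb1 : B1 ≤ B := (le_max_right _ _).trans (le_max_left _ _)
  have hb2 : B2 ≤ B := (le_max_left _ _).trans (le_max_right _ _)
  refine ⟨?_, fun v => ?_, fun v w => ?_⟩
  · unfold rhoE
    rw [abs_mul, abs_of_nonneg (by positivity), div_eq_inv_mul]
    exact mul_le_mul_of_nonneg_left ((hB0 _).trans hb0) (by positivity)
  · rw [fderiv_rhoE hρ]
    have h2 : |fderiv ℝ ρ (e⁻¹ • z) v| ≤ B * ‖v‖ :=
      (ContinuousLinearMap.le_opNorm _ _).trans
        (mul_le_mul_of_nonneg_right ((hB1 _).trans hb1) (norm_nonneg _))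
    rw [abs_mul, abs_mul, abs_of_nonneg (by positivity : 0 ≤ (e ^ 4)⁻¹),
      abs_of_nonneg (by positivity : 0 ≤ e⁻¹)]
    calc (e ^ 4)⁻¹ * (e⁻¹ * |fderiv ℝ ρ (e⁻¹ • z) v|)
        ≤ (e ^ 4)⁻¹ * (e⁻¹ * (B * ‖v‖)) := by gcongr
      _ = B * ‖v‖ / e ^ 5 := by field_simp
  · rw [fderiv2_rhoE hρ]
    have h2 : |fderiv ℝ (fderiv ℝ ρ) (e⁻¹ • z) v w| ≤ B * ‖v‖ * ‖w‖ :=
      (ContinuousLinearMap.le_opNorm₂ _ _ _).trans
        (mul_le_mul_of_nonneg_right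
          (mul_le_mul_of_nonneg_right ((hB2 _).trans hb2) (norm_nonneg _)) (norm_nonneg _))
    rw [abs_mul, abs_mul, abs_mul, abs_of_nonneg (by positivity : 0 ≤ (e ^ 4)⁻¹),
      abs_of_nonneg (by positivity : 0 ≤ e⁻¹)]
    calc (e ^ 4)⁻¹ * (e⁻¹ * (e⁻¹ * |fderiv ℝ (fderiv ℝ ρ) (e⁻¹ • z) v w|))
        ≤ (e ^ 4)⁻¹ * (e⁻¹ * (e⁻¹ * (B * ‖v‖ * ‖w‖))) := by gcongr
      _ = B * ‖v‖ * ‖w‖ / e ^ 6 := by field_simp

lemma integral_fderiv_rhoE (hρ : ContDiff ℝ ∞ ρ) (h1 : ∀ z, 1 ≤ ‖z‖ → ρ z = 0) {e : ℝ}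
    (he : 0 < e) (v : E4) : ∫ z, fderiv ℝ (rhoE ρ e) z v = 0 :=
  integral_fderiv_zero ((rhoE_contDiff hρ e).of_le (by simp)) (rhoE_hasCompactSupport h1 he) v

end mol

end Crest.Agent.R240.Pot
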