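import Mathlib
import Crest.Agent.R240.PotSt
import Crest.Agent.R240.PotTr
import Crest.Agent.R240.PotPoinc4

/-!
Row 240 (S0371), Part P: assembly of Lemma P (`P4`) from the estimates.
-/

set_option autoImplicit false
set_option maxSynthPendingDepth 3
open scoped ContDiff
open MeasureTheory Metric Crest.Agent.R240.En Crest.Agent.R240.PotPoinc

namespace Crest.Agent.R240.Pot

lemma bil_norm_le (B : Bil) : ‖B‖ ≤ ∑ i, ∑ j, |B (ee i) (ee j)| := by
  have h0 : 0 ≤ ∑ i, ∑ j, |B (ee i) (ee j)| :=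
    Finset.sum_nonneg fun i _ => Finset.sum_nonneg fun j _ => abs_nonneg _
  refine B.opNorm_le_bound₂ h0 fun u v => ?_
  rw [bil_expand B u v, Real.norm_eq_abs]
  have hc : ∀ (w : E4) (i : Fin 4), |w i| ≤ ‖w‖ := fun w i => by
    have := EuclideanSpace.norm_eq w
    have h2 := PiLp.norm_apply_le w i
    simpa using h2
  calc |∑ i, ∑ j, u i * v j * ent B i j| ≤ ∑ i, |∑ j, u i * v j * ent B i j| :=
        Finset.abs_sum_le_sum_abs _ _
    _ ≤ ∑ i, ∑ j, |u i * v j * ent B i j| :=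
        Finset.sum_le_sum fun i _ => Finset.abs_sum_le_sum_abs _ _
    _ ≤ ∑ i, ∑ j, ‖u‖ * ‖v‖ * |B (ee i) (ee j)| := by
        refine Finset.sum_le_sum fun i _ => Finset.sum_le_sum fun j _ => ?_
        rw [abs_mul, abs_mul]
        have h1 := hc u i
        have h2 := hc v j
        unfold ent
        gcongr
    _ = (∑ i, ∑ j, |B (ee i) (ee j)|) * ‖u‖ * ‖v‖ := by
        rw [Finset.sum_mul, Finset.sum_mul]
        refine Finset.sum_congr rfl fun i _ => ?_
        rw [Finset.sum_mul, Finset.sum_mul]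
        refine Finset.sum_congr rfl fun j _ => ?_
        ring

/-- facts about the mollified current, to be supplied by `PotIBP` -/
def MolFacts : Prop :=
  ∀ (s : Measure E4), IsFiniteMeasure s → ∀ (φ : E4 → Bil), Measurable φ → ∀ A : ℝ,
    (∀ y, ‖φ y‖ ≤ A) → (∀ y, Alt (φ y)) → ∀ U : Set E4,
    (∀ S : E4 → Cov, ContDiff ℝ ∞ S → HasCompactSupport S → tsupport S ⊆ U →
      ∫ y, W (φ y) (d1 S y) ∂s = 0) →
    ∀ ρ : E4 → ℝ, Moll ρ → ∀ e : ℝ, 0 < e →
      ContDiff ℝ ∞ (mol ρ e s φ) ∧ (∀ x, Alt (mol ρ e s φ x)) ∧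
        ∀ x, closedBall x e ⊆ U → Cl (mol ρ e s φ) x

theorem p4_of (hU : ∀ (D : PD) (c0 : ℝ) (χ ρ : E4 → ℝ), D.UBd c0 χ ρ)
    (hA1 : ∀ (D : PD) (ρ : E4 → ℝ), D.A1Bd ρ) (hB2 : ∀ (D : PD) (ρ : E4 → ℝ), D.B2Bd ρ)
    (hPs : ∀ (D : PD) (ρ : E4 → ℝ), D.PsiBd ρ) (hM : MolFacts) : P4 := by
  intro J F smJ smF sq sp c R hR s fin φ mφ A τ0 bA hτ0 pos hτ hcl ρ smρ nnρ supρ oneρ
  obtain ⟨c0, hc0, hF⟩ := PD.exists_FSc
  -- cut-off
  let χb : ContDiffBump c := ⟨3 / 4 * R, 7 / 8 * R, by positivity, by linarith⟩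
  have hχsm : ContDiff ℝ ∞ (χb : E4 → ℝ) := χb.contDiff
  have hgsm : ContDiff ℝ ∞ fun y => gm (J y) (F y) := gm_contDiff smJ smF
  have hgs : ∀ y v w, gm (J y) (F y) v w = gm (J y) (F y) w v := fun y v w => gm_symm (sq y) (sp y) v w
  have hgp : ∀ y v, v ≠ 0 → 0 < gm (J y) (F y) v v := fun y v hv => gm_pos (sp y) hv
  have hksm : ContDiff ℝ ∞ fun y => kap c0 (gm (J y) (F y)) := kap_contDiff c0 hgsm hgs hgp
  have hts : tsupport (fun y => -((χb y) * kap c0 (gm (J y) (F y)))) ⊆ ball c R := by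
    have h1 : tsupport (fun y => -((χb y) * kap c0 (gm (J y) (F y)))) ⊆ tsupport (χb : E4 → ℝ) := by
      refine closure_mono fun y hy => ?_
      simp only [Function.mem_support, ne_eq, neg_eq_zero, mul_eq_zero, not_or] at hy ⊢
      exact hy.1
    refine h1.trans ?_
    rw [χb.tsupport_eq]
    exact closedBall_subset_ball (by show 7 / 8 * R < R; linarith)
  let D : PD :=
    { J := J, F := F, smJ := smJ, smF := smF, sq := sq, sp := sp, c := c, R := R, hR := hR, s := s,
      fin := fin, φ := φ, mφ := mφ, A := A, bA := bA, pos := pos,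
      k := fun y => -((χb y) * kap c0 (gm (J y) (F y))),
      smk := (hχsm.mul hksm).neg, hk := hts }
  have hCut : D.Cut c0 (χb : E4 → ℝ) :=
    { sm := hχsm
      nn := fun y => χb.nonneg
      le := fun y => χb.le_one
      one := fun y hy => χb.one_of_mem_closedBall hy
      kk := fun y => rfl }
  have hMoll : Moll ρ := ⟨smρ, nnρ, supρ, oneρ⟩
  have halt : ∀ y, Alt (φ y) := fun y => (pos y).alt
  -- trace lower bound
  have hWc : Continuous fun y => W (F y) (F y) := by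
    have he : ∀ i j, Continuous fun y => ent (F y) i j := fun i j =>
      (entry_contDiff smF _ _).continuous
    unfold W
    exact ((((((he 0 1).mul (he 2 3)).sub ((he 0 2).mul (he 1 3))).add
      ((he 0 3).mul (he 1 2))).add ((he 1 2).mul (he 0 3))).sub ((he 1 3).mul (he 0 2))).add
      ((he 2 3).mul (he 0 1))
  obtain ⟨M, hM0, hMb⟩ := exists_upper hWc c R
  have htr : ∀ y ∈ closedBall D.c D.R, 2 * τ0 / M ≤ D.tr y := by
    intro y hy
    have h1 := tr_lower (sq y) (sp y) (pos y) (hτ y)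
    have h2 := hMb y hy
    rw [Real.norm_eq_abs] at h2
    have h3 : 0 < |W (F y) (F y)| := abs_pos.2 (W_ne_zero (sq y) (sp y))
    refine le_trans ?_ h1
    gcongr
  obtain ⟨CU, hCU, hUb⟩ := hU D c0 χb ρ hc0 hCut hMoll (2 * τ0 / M) (by positivity) htr
  obtain ⟨CA, hCA, hAb⟩ := hA1 D ρ hMoll
  have hcur : D.ClosedCur := hcl
  obtain ⟨CB, hCB, hBb⟩ := hB2 D ρ hMoll hcur
  obtain ⟨CP, hCP, hPb⟩ := hPs D ρ hMoll hcur
  set K : ℝ := 16 * CP with hK
  refine ⟨CU + CA + CB + CR (R / 2) * K + 1, R / 8, ?_, by positivity, ?_⟩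
  · have := CR_nonneg (r := R / 2) (by positivity)
    positivity
  intro e he heR
  set σ := rhoE ρ e with hσdef
  have hσsm : ContDiff ℝ ∞ σ := rhoE_contDiff smρ e
  have hσ0 : ∀ z, e < ‖z‖ → σ z = 0 := fun z hz => rhoE_zero supρ he hz.le
  have hσc : HasCompactSupport σ := compact_of_zero hσ0
  have hb1 : ContDiff ℝ ∞ (D.b1 (3 * R) σ) := D.CV_contDiff D.MB1 hσsm hσc
  have hb2 : ContDiff ℝ ∞ (D.b2 (3 * R) σ) := D.CV_contDiff D.MB2 hσsm hσc
  have hu : ContDiff ℝ ∞ (D.uu σ) := by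
    refine D.GF_contDiff (fun v => ?_) hσsm hσc
    simp only [LinearMap.smul_apply, LinearMap.id_apply, smul_eq_mul]
    exact D.MBtr.mul (MB.const v)
  have hJu : ContDiff ℝ ∞ fun z => Jc (D.J z) (fderiv ℝ (D.uu σ) z) := contDiff_Jc smJ hu
  obtain ⟨hmsm, hmalt, hmcl⟩ := hM s fin φ mφ A bA halt (ball c R) hcl ρ hMoll e he
  -- the closed remainder
  set Ψ : E4 → Bil := fun x => mol ρ e s φ x - d1 (D.b1 (3 * R) σ) x - d1 (D.b2 (3 * R) σ) x with hΨ
  have hΨsm : ContDiff ℝ ∞ Ψ := (hmsm.sub (contDiff_d1 hb1)).sub (contDiff_d1 hb2)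
  have hadm : ∀ x ∈ ball c R, D.Adm (3 * R) e x := by
    intro x hx y hy
    have h1 : ‖x - y‖ ≤ 2 * R := by
      rw [← dist_eq_norm]
      have h2 : dist x c < R := hx
      have h3 : dist y c ≤ R := hy
      calc dist x y ≤ dist x c + dist c y := dist_triangle _ _ _
        _ ≤ R + R := by rw [dist_comm c y]; linarith
        _ = 2 * R := by ring
    linarith
  have hmolTh : ∀ x ∈ ball c (5 / 8 * R), ∀ v w, mol ρ e s φ x v w =
      ∫ y, χb y * (φ y v w * σ (x - y)) ∂s := by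
    intro x hx v w
    have h1 : mol ρ e s φ x = D.Th χb σ x := by
      unfold mol PD.Th
      refine integral_congr_ae (Filter.Eventually.of_forall fun y => ?_)
      simp only
      by_cases hy : e < ‖x - y‖
      · rw [hσ0 _ hy]
        have : rhoE ρ e (x - y) = 0 := hσ0 _ hy
        rw [this]; simp
      · have h2 : y ∈ closedBall c (3 / 4 * R) := by
          have h3 : dist x c < 5 / 8 * R := hx
          have h4 : dist y x ≤ e := by
            rw [dist_comm, dist_eq_norm]; exact not_lt.1 hy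
          show dist y c ≤ 3 / 4 * R
          calc dist y c ≤ dist y x + dist x c := dist_triangle _ _ _
            _ ≤ 3 / 4 * R := by linarith
        have h5 : χb y = 1 := hCut.one y h2
        rw [h5, one_mul]
    rw [h1]
    exact D.Th_apply hχsm.continuous (fun y => by
      rw [abs_of_nonneg χb.nonneg]; exact χb.le_one) hσsm.continuous hσc x v w
  have hΨeq : ∀ x ∈ ball c (5 / 8 * R), ∀ v w, Ψ x v w =
      D.GF (3 * R) (D.t3 v w) (fderiv ℝ (fderiv ℝ σ)) x := by
    intro x hx v w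
    have hx' : x ∈ ball c R := ball_subset_ball (by linarith) hx
    have h1 := D.ident (r := 3 * R) hσsm hσc x v w
    have h2 := D.fsI hF (χ := χb) (fun y => rfl) hσsm hσ0 (hadm x hx') v w
    have h3 := hmolTh x hx v w
    simp only [hΨ, sub_apply]
    rw [h3]
    linarith [h1, h2]
  obtain ⟨a3, ha3sm, ha3, ha3b⟩ := poinc_wE c (r := R / 2) (R' := 5 / 8 * R) (by positivity)
    (by linarith) (Ψ := Ψ) hΨsm.contDiffOn
    (fun y _ => by
      intro v
      simp only [hΨ, sub_apply]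
      rw [hmalt y v, alt_d1 _ y v, alt_d1 _ y v]; ring)
    (fun y hy => by
      have hy' : closedBall y e ⊆ ball c R := by
        intro z hz
        have h1 : dist y c < R / 2 := hy
        have h2 : dist z y ≤ e := hz
        show dist z c < R
        calc dist z c ≤ dist z y + dist y c := dist_triangle _ _ _
          _ < R := by linarith
      have d1' : DifferentiableAt ℝ (mol ρ e s φ) y := (hmsm.differentiable (by simp)) y
      have d2' : DifferentiableAt ℝ (d1 (D.b1 (3 * R) σ)) y :=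
        ((contDiff_d1 hb1).differentiable (by simp)) y
      have d3' : DifferentiableAt ℝ (d1 (D.b2 (3 * R) σ)) y :=
        ((contDiff_d1 hb2).differentiable (by simp)) y
      exact Cl_sub (d1'.sub d2') d3' (Cl_sub d1' d2' (hmcl y hy') (Cl_d1 hb1 y)) (Cl_d1 hb2 y))
    s c R he (K := K) (by positivity)
    (fun z hz => by
      have hz' : z ∈ ball c (5 / 8 * R) := ball_subset_ball (by linarith) hz
      refine (bil_norm_le _).trans ?_
      have h1 : ∀ i j, |Ψ z (ee i) (ee j)| ≤ CP * wE s c R e 3 z := by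
        intro i j
        rw [hΨeq z hz']
        exact hPb e he heR z hz' i j
      have h2 : ∑ i : Fin 4, ∑ j : Fin 4, |Ψ z (ee i) (ee j)| ≤
          ∑ i : Fin 4, ∑ j : Fin 4, CP * wE s c R e 3 z :=
        Finset.sum_le_sum fun i _ => Finset.sum_le_sum fun j _ => h1 i j
      refine h2.trans ?_
      simp only [Finset.sum_const, Finset.card_univ, Fintype.card_fin, nsmul_eq_mul]
      push_cast
      rw [hK]
      nlinarith [hCP.le])
  refine ⟨D.uu σ, fun x => (D.b1 (3 * R) σ x - Jc (D.J x) (fderiv ℝ (D.uu σ) x))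
    + D.b2 (3 * R) σ x + a3 x, hu, ((hb1.sub hJu).add hb2).add ha3sm, ?_⟩
  intro x hx
  have hx5 : x ∈ ball c (5 / 8 * R) := ball_subset_ball (by linarith) hx
  obtain ⟨u1, u2, u3⟩ := hUb e he heR x hx5
  have a1b := hAb e he heR x hx5
  have b2b := hBb e he heR x hx5
  have a3b := ha3b x hx
  have w2 : 0 ≤ wE s c R e 2 x := wE_nonneg s c R he 2 x
  have w3 : 0 ≤ wE s c R e 3 x := wE_nonneg s c R he 3 x
  have hCR : 0 ≤ CR (R / 2) * K := mul_nonneg (CR_nonneg (by positivity)) (by positivity)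
  set Ct : ℝ := CU + CA + CB + CR (R / 2) * K + 1 with hCt
  have hCt1 : CU ≤ Ct := by linarith
  have hCt0 : 0 < Ct := by linarith
  refine ⟨?_, ?_, ?_, ?_, ?_⟩
  · -- the identity
    have e1 : d1 a3 x = Ψ x := ha3 x hx
    have hdb1 : DifferentiableAt ℝ (D.b1 (3 * R) σ) x := (hb1.differentiable (by simp)) x
    have hdb2 : DifferentiableAt ℝ (D.b2 (3 * R) σ) x := (hb2.differentiable (by simp)) x
    have hdJ : DifferentiableAt ℝ (fun z => Jc (D.J z) (fderiv ℝ (D.uu σ) z)) x :=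
      (hJu.differentiable (by simp)) x
    have hda3 : DifferentiableAt ℝ a3 x := (ha3sm.differentiable (by simp)) x
    have e2 : d1 (fun x => (D.b1 (3 * R) σ x - Jc (D.J x) (fderiv ℝ (D.uu σ) x))
        + D.b2 (3 * R) σ x + a3 x) x = (d1 (D.b1 (3 * R) σ) x
        - d1 (fun z => Jc (D.J z) (fderiv ℝ (D.uu σ) z)) x) + d1 (D.b2 (3 * R) σ) x + d1 a3 x := by
      have hdf : DifferentiableAt ℝ (fun x => D.b1 (3 * R) σ x -
          Jc (D.J x) (fderiv ℝ (D.uu σ) x)) x := hdb1.sub hdJ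
      have hdg : DifferentiableAt ℝ (fun x => (D.b1 (3 * R) σ x -
          Jc (D.J x) (fderiv ℝ (D.uu σ) x)) + D.b2 (3 * R) σ x) x := hdf.add hdb2
      have q1 := d1_add hdg hda3
      have q2 := d1_add hdf hdb2
      have q3 : d1 (fun x => D.b1 (3 * R) σ x - Jc (D.J x) (fderiv ℝ (D.uu σ) x)) x =
        d1 (D.b1 (3 * R) σ) x - d1 (fun z => Jc (D.J z) (fderiv ℝ (D.uu σ) z)) x :=
        d1_sub hdb1 hdJ
      rw [q1, q2, q3]
    rw [e2, e1]
    simp only [hΨ]
    show mol ρ e s φ x = d1 (fun z => Jc (J z) (fderiv ℝ (D.uu σ) z)) x + _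
    abel
  · -- lower bound
    refine le_trans ?_ u1
    have h1 : wE s c R e 2 x / Ct ≤ wE s c R e 2 x / CU := by gcongr
    show wE s c R e 2 x / Ct - Ct ≤ wE s c R e 2 x / CU - CU
    linarith
  · refine u2.trans ?_
    show CU * wE s c R e 2 x ≤ Ct * (1 + wE s c R e 2 x)
    nlinarith
  · have h1 : ‖(D.b1 (3 * R) σ x - Jc (D.J x) (fderiv ℝ (D.uu σ) x)) + D.b2 (3 * R) σ x + a3 x‖ ≤
        CA * wE s c R e 2 x + CB * wE s c R e 2 x + CR (R / 2) * K * (wE s c R e 2 x + 1) :=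
      (norm_add_le _ _).trans (add_le_add ((norm_add_le _ _).trans (add_le_add a1b b2b)) a3b)
    refine h1.trans ?_
    rw [hCt]
    nlinarith [mul_nonneg hCU.le w2]
  · refine u3.trans ?_
    show CU * wE s c R e 3 x ≤ Ct * wE s c R e 3 x
    gcongr

end Crest.Agent.R240.Pot
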