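import Mathlib
import Crest.Agent.R240.PotMain
import Crest.Agent.R240.PotIBP

/-!
Row 240 (S0371), Part P: the facts about the mollified current used in `PotMain`.
-/

set_option autoImplicit false
set_option maxSynthPendingDepth 3
open scoped ContDiff
open MeasureTheory Metric Crest.Agent.R240.En

namespace Crest.Agent.R240.Pot

theorem molFacts : MolFacts := by
  intro s hs φ hm A hA halt U hcl ρ hρ e he
  have hsm : ContDiff ℝ ∞ (rhoE ρ e) := rhoE_contDiff hρ.sm e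
  have h0 : ∀ z, e < ‖z‖ → rhoE ρ e z = 0 := fun z hz => rhoE_zero hρ.sup he hz.le
  have hc : HasCompactSupport (rhoE ρ e) := rhoE_hasCompactSupport hρ.sup he
  have hmol : mol ρ e s φ = moll s φ (rhoE ρ e) := rfl
  rw [hmol]
  refine ⟨moll_contDiff hm hA hsm hc, fun x => moll_alt hm hA halt hsm.continuous hc x, ?_⟩
  intro x hx
  exact moll_closed_ball hm hA halt hcl hsm h0 hx

theorem p4_of' (hU : ∀ (D : PD) (c0 : ℝ) (χ ρ : E4 → ℝ), D.UBd c0 χ ρ)
    (hA1 : ∀ (D : PD) (ρ : E4 → ℝ), D.A1Bd ρ) (hB2 : ∀ (D : PD) (ρ : E4 → ℝ), D.B2Bd ρ)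
    (hPs : ∀ (D : PD) (ρ : E4 → ℝ), D.PsiBd ρ) : P4 :=
  p4_of hU hA1 hB2 hPs molFacts

end Crest.Agent.R240.Pot
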