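import Mathlib
import Crest.Agent.R240.PotMol
import Crest.Agent.R240.PotU
import Crest.Agent.R240.PotA1
import Crest.Agent.R240.PotB2

/-!
Row 240 (S0371), Part P: Lemma P.
-/

set_option autoImplicit false

namespace Crest.Agent.R240.Pot

theorem p4 : P4 :=
  p4_of (fun D c0 χ ρ => D.uBd c0 χ ρ) (fun D ρ => D.a1Bd ρ) (fun D ρ => D.b2Bd ρ)
    (fun D ρ => D.psiBd ρ) molFacts

end Crest.Agent.R240.Pot
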