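import Mathlib
import Crest.Agent.R240.PotP4
import Crest.Agent.R240.Loc5E

/-!
Row 240 (S0371): `LocalPoles`, unconditional.
-/

set_option autoImplicit false

namespace Crest.Agent.R240

theorem Loc5.localPoles : LocalPoles := Loc5.localPoles_of_P4 Pot.p4

end Crest.Agent.R240
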