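import Mathlib
import Crest.Agent.R240.Kern

/-!
# Row 240, node N7: densities, Vitali, `θ_ε`

For finite Borel measures on a second countable metric space (`M` with a bi-Lipschitz metric, or
a chart).

`th s x r = s (ball x r) / ofReal (r^2)`.

* `tendsto_th_of_w`     : `w s x < ⊤ → th s x r → 0`
* `vitali_null`         : `s_T(B_r) ≤ C r²`, density of `s_0` is `0` on `G`, `s_0(Gᶜ) = 0`
                          ⟹ density of `s_0` is `0` `s_T`-a.e.
* `tendsto_lintegral_th`: `∫ θ_ε dν → 0`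
* `lintegral_meas_ball_sq_le`: `∫ s(B_r)² dμ ≤ A r⁴ ∫ s(B_{2r}) ds`
* `tendsto_sq`          : `∫ (s_0(B_{Kε})/ε³)² dμ → 0`
-/

namespace Crest.Agent.R240.MeasDens

open MeasureTheory Metric Set Filter Topology ENNReal Crest.Agent.R240.Kern
open Crest.Agent.R240.Kern (ker)

variable {X : Type*} [PseudoMetricSpace X] [MeasurableSpace X]

/-- The density quotient `s(B_r(x))/r²`. -/
noncomputable def th (s : Measure X) (x : X) (r : ℝ) : ℝ≥0∞ :=
  s (ball x r) / ENNReal.ofReal (r ^ 2)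

theorem th_eq_ker (s : Measure X) (x : X) {r : ℝ} (hr : 0 < r) :
    th s x r = ker 2 r * s (ball x r) := by
  unfold th
  rw [ker_of_pos 2 hr, ENNReal.div_eq_inv_mul, ENNReal.ofReal_inv_of_pos (by positivity)]

theorem w_eq_edist (s : Measure X) (x : X) :
    w s x = ∫⁻ y, (edist x y ^ 2)⁻¹ ∂s := by
  unfold w Kern.ker
  simp_rw [edist_dist]

theorem th_mono {s s' : Measure X} (h : s ≤ s') (x : X) (r : ℝ) : th s x r ≤ th s' x r := by
  unfold th
  gcongr

theorem w_mono {s s' : Measure X} (h : s ≤ s') (x : X) : w s x ≤ w s' x := by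
  unfold w
  exact lintegral_mono' h le_rfl

theorem th_le_of_growth (s : Measure X) (x : X) {C : ℝ}
    (hs : ∀ r : ℝ, 0 < r → s (ball x r) ≤ ENNReal.ofReal (C * r ^ 2)) {r : ℝ} (hr : 0 < r) :
    th s x r ≤ ENNReal.ofReal C := by
  unfold th
  apply ENNReal.div_le_of_le_mul
  rw [← ENNReal.ofReal_mul' (by positivity)]
  exact hs r hr

theorem th_le_setLIntegral [OpensMeasurableSpace X] (s : Measure X) (x : X) {r : ℝ} (hr : 0 < r) :
    th s x r ≤ ∫⁻ y in ball x r, ker 2 (dist x y) ∂s := by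
  rw [th_eq_ker s x hr, ← setLIntegral_const]
  apply setLIntegral_mono' measurableSet_ball
  intro y hy
  apply ker_anti
  rw [mem_ball, dist_comm] at hy
  exact hy.le

/-- If `w(x) < ∞` then `r^{-2} s(B_r(x)) → 0`. -/
theorem tendsto_th_of_w [OpensMeasurableSpace X] (s : Measure X) (x : X) (hx : w s x < ⊤) :
    Tendsto (fun r => th s x r) (𝓝[>] (0 : ℝ)) (𝓝 0) := by
  -- first `s (ball x r) → 0`
  have h1 : Tendsto (fun r : ℝ => s (ball x r)) (𝓝[>] (0 : ℝ)) (𝓝 0) := by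
    have hup : Tendsto (fun r : ℝ => ENNReal.ofReal (r ^ 2) * w s x) (𝓝[>] (0 : ℝ)) (𝓝 0) := by
      have h2 : Tendsto (fun r : ℝ => ENNReal.ofReal (r ^ 2)) (𝓝[>] (0 : ℝ)) (𝓝 0) := by
        have : Tendsto (fun r : ℝ => r ^ 2) (𝓝[>] (0 : ℝ)) (𝓝 0) := by
          have h3 : Tendsto (fun r : ℝ => r ^ 2) (𝓝 0) (𝓝 (0 ^ 2)) :=
            (continuous_pow 2).tendsto 0
          rw [zero_pow two_ne_zero] at h3
          exact h3.mono_left nhdsWithin_le_nhds
        simpa using ENNReal.tendsto_ofReal this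
      have h4 := ENNReal.Tendsto.mul_const h2 (Or.inr hx.ne)
      rwa [zero_mul] at h4
    refine tendsto_of_tendsto_of_tendsto_of_le_of_le' tendsto_const_nhds hup
      (Eventually.of_forall fun _ => zero_le) ?_
    filter_upwards [self_mem_nhdsWithin] with r hr
    have hr' : (0 : ℝ) < r := hr
    have h5 : th s x r ≤ w s x := (th_le_setLIntegral s x hr').trans (setLIntegral_le_lintegral _ _)
    unfold th at h5
    rw [ENNReal.div_le_iff_le_mul] at h5
    · rwa [mul_comm] at h5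
    · left; simp only [ne_eq, ENNReal.ofReal_eq_zero, not_le]; positivity
    · left; exact ENNReal.ofReal_ne_top
  have h2 : Tendsto (fun r : ℝ => ∫⁻ y in ball x r, ker 2 (dist x y) ∂s) (𝓝[>] (0 : ℝ)) (𝓝 0) :=
    tendsto_setLIntegral_zero hx.ne h1
  refine tendsto_of_tendsto_of_tendsto_of_le_of_le' tendsto_const_nhds h2
    (Eventually.of_forall fun _ => zero_le) ?_
  filter_upwards [self_mem_nhdsWithin] with r hr
  exact th_le_setLIntegral s x hr

/-- The restricted measure `s_0 = s⌊{w < ∞}` has zero density at every point of `{w < ∞}`. -/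
theorem tendsto_th_restrict [OpensMeasurableSpace X] (s : Measure X) (E : Set X) (x : X)
    (hx : w s x < ⊤) :
    Tendsto (fun r => th (s.restrict E) x r) (𝓝[>] (0 : ℝ)) (𝓝 0) :=
  tendsto_th_of_w _ x ((w_mono Measure.restrict_le_self x).trans_lt hx)

section vitali

variable [SecondCountableTopology X] [BorelSpace X]

/-- One Vitali step: the set where the upper density of `s₀` is `> t` is `s_T`-null. -/
theorem vitali_step (s₀ sT : Measure X) [IsFiniteMeasure s₀] {C : ℝ} (hC : 0 ≤ C)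
    (hT : ∀ (x : X) (r : ℝ), 0 < r → sT (ball x r) ≤ ENNReal.ofReal (C * r ^ 2))
    {t : ℝ} (ht : 0 < t) {A : Set X}
    (hA : ∀ x ∈ A, ∃ᶠ r in 𝓝[>] (0 : ℝ), ENNReal.ofReal t < th s₀ x r) (hA0 : s₀ A = 0) :
    sT A = 0 := by
  -- for each `δ`
  have key : ∀ δ : ℝ, 0 < δ → sT A ≤ ENNReal.ofReal (36 * C / t * δ) := by
    intro δ hδ
    obtain ⟨U, hAU, hUo, hU⟩ : ∃ U ⊇ A, IsOpen U ∧ s₀ U < ENNReal.ofReal δ :=
      A.exists_isOpen_lt_of_lt (μ := s₀) (ENNReal.ofReal δ)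
        (by rw [hA0]; exact ENNReal.ofReal_pos.mpr hδ)
    -- the family of admissible balls
    set T : Set (X × ℝ) := {p | 0 < p.2 ∧ p.2 ≤ 1 ∧ closedBall p.1 p.2 ⊆ U ∧
      ENNReal.ofReal (t * p.2 ^ 2) ≤ s₀ (closedBall p.1 p.2)} with hTdef
    have hcov : ∀ x ∈ A, ∃ r, (x, r) ∈ T := by
      intro x hx
      have hxU : U ∈ 𝓝 x := hUo.mem_nhds (hAU hx)
      obtain ⟨ρ, hρ, hρU⟩ := Metric.nhds_basis_closedBall.mem_iff.mp hxU
      have hev : ∀ᶠ r in 𝓝[>] (0 : ℝ), r < min ρ 1 ∧ 0 < r := by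
        filter_upwards [Ioo_mem_nhdsGT (show (0 : ℝ) < min ρ 1 by positivity)] with r hr
        exact ⟨hr.2, hr.1⟩
      obtain ⟨r, hr1, hr2, hr3⟩ := ((hA x hx).and_eventually hev).exists
      refine ⟨r, hr3, (hr2.trans_le (min_le_right _ _)).le,
        (closedBall_subset_closedBall (hr2.trans_le (min_le_left _ _)).le).trans hρU, ?_⟩
      unfold th at hr1
      have h1 : ENNReal.ofReal t * ENNReal.ofReal (r ^ 2) < s₀ (ball x r) := by
        rw [ENNReal.lt_div_iff_mul_lt] at hr1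
        · exact hr1
        · left; simp only [ne_eq, ENNReal.ofReal_eq_zero, not_le]; positivity
        · left; exact ENNReal.ofReal_ne_top
      rw [← ENNReal.ofReal_mul ht.le] at h1
      exact h1.le.trans (measure_mono ball_subset_closedBall)
    obtain ⟨u, huT, hdisj, hu⟩ :=
      Vitali.exists_disjoint_subfamily_covering_enlargement_closedBall T
        (fun p : X × ℝ => p.1) (fun p => p.2) 1 (fun p hp => hp.2.1) 5 (by norm_num)
    have hucount : u.Countable := by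
      refine hdisj.countable_of_nonempty_interior fun p hp => ?_
      exact ⟨p.1, mem_interior.mpr ⟨ball p.1 p.2, ball_subset_closedBall, isOpen_ball,
        mem_ball_self (huT hp).1⟩⟩
    have hsub : A ⊆ ⋃ p ∈ u, ball p.1 (6 * p.2) := by
      intro x hx
      obtain ⟨r, hr⟩ := hcov x hx
      obtain ⟨b, hb, hsb⟩ := hu (x, r) hr
      have hb0 := (huT hb).1
      simp only [mem_iUnion, exists_prop]
      refine ⟨b, hb, ?_⟩
      have : x ∈ closedBall b.1 (5 * b.2) := hsb (mem_closedBall_self hr.1.le)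
      rw [mem_closedBall] at this
      rw [mem_ball]
      linarith
    have : Countable u := hucount.to_subtype
    calc sT A ≤ sT (⋃ p ∈ u, ball p.1 (6 * p.2)) := measure_mono hsub
      _ ≤ ∑' p : u, sT (ball p.1.1 (6 * p.1.2)) := measure_biUnion_le _ hucount _
      _ ≤ ∑' p : u, ENNReal.ofReal (36 * C / t) * s₀ (closedBall p.1.1 p.1.2) := by
          apply ENNReal.tsum_le_tsum
          intro p
          have hp := huT p.2
          calc sT (ball p.1.1 (6 * p.1.2))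
              ≤ ENNReal.ofReal (C * (6 * p.1.2) ^ 2) := hT _ _ (by have := hp.1; linarith)
            _ = ENNReal.ofReal (36 * C / t) * ENNReal.ofReal (t * p.1.2 ^ 2) := by
                rw [← ENNReal.ofReal_mul (by positivity)]
                congr 1
                field_simp
                ring
            _ ≤ _ := by gcongr; exact hp.2.2.2
      _ = ENNReal.ofReal (36 * C / t) * ∑' p : u, s₀ (closedBall p.1.1 p.1.2) :=
          ENNReal.tsum_mul_left
      _ ≤ ENNReal.ofReal (36 * C / t) * s₀ U := by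
          gcongr
          rw [← measure_biUnion (f := fun p : X × ℝ => closedBall p.1 p.2) hucount hdisj
            (fun p _ => isClosed_closedBall.measurableSet)]
          apply measure_mono
          simp only [iUnion_subset_iff]
          exact fun p hp => (huT hp).2.2.1
      _ ≤ ENNReal.ofReal (36 * C / t) * ENNReal.ofReal δ := by gcongr
      _ = ENNReal.ofReal (36 * C / t * δ) := by rw [ENNReal.ofReal_mul (by positivity)]
  -- let `δ → 0`
  have hlim : Tendsto (fun δ : ℝ => ENNReal.ofReal (36 * C / t * δ)) (𝓝[>] 0) (𝓝 0) := by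
    have h1 : Tendsto (fun δ : ℝ => 36 * C / t * δ) (𝓝[>] 0) (𝓝 0) := by
      have : Tendsto (fun δ : ℝ => 36 * C / t * δ) (𝓝 0) (𝓝 (36 * C / t * 0)) := by
        apply Continuous.tendsto; fun_prop
      rw [mul_zero] at this
      exact this.mono_left nhdsWithin_le_nhds
    simpa using ENNReal.tendsto_ofReal h1
  refine le_antisymm (ge_of_tendsto hlim ?_) bot_le
  filter_upwards [self_mem_nhdsWithin] with δ hδ
  exact key δ hδ

/-- **N7, first half.** -/
theorem vitali_null (s₀ sT : Measure X) [IsFiniteMeasure s₀] {C : ℝ}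
    (hT : ∀ (x : X) (r : ℝ), 0 < r → sT (ball x r) ≤ ENNReal.ofReal (C * r ^ 2))
    {G : Set X} (hG : s₀ Gᶜ = 0)
    (hd : ∀ x ∈ G, Tendsto (fun r => th s₀ x r) (𝓝[>] (0 : ℝ)) (𝓝 0)) :
    ∀ᵐ x ∂sT, Tendsto (fun r => th s₀ x r) (𝓝[>] (0 : ℝ)) (𝓝 0) := by
  have hT' : ∀ (x : X) (r : ℝ), 0 < r → sT (ball x r) ≤ ENNReal.ofReal (max C 0 * r ^ 2) := by
    intro x r hr
    refine (hT x r hr).trans (ENNReal.ofReal_le_ofReal ?_)
    gcongr
    exact le_max_left _ _
  have h1 : ∀ n : ℕ, ∀ᵐ x ∂sT,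
      ¬ ∃ᶠ r in 𝓝[>] (0 : ℝ), ENNReal.ofReal (1 / ((n : ℝ) + 1)) < th s₀ x r := by
    intro n
    rw [ae_iff]
    simp only [not_not]
    have htn : (0 : ℝ) < 1 / ((n : ℝ) + 1) := by positivity
    refine vitali_step s₀ sT (le_max_right C 0) hT' htn (fun x hx => hx) ?_
    refine measure_mono_null ?_ hG
    intro x hx hxG
    apply hx
    have := (tendsto_order.mp (hd x hxG)).2 (ENNReal.ofReal (1 / ((n : ℝ) + 1)))
      (ENNReal.ofReal_pos.mpr htn)
    filter_upwards [this] with r hr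
    exact not_lt.mpr hr.le
  rw [← ae_all_iff] at h1
  filter_upwards [h1] with x hx
  rw [tendsto_order]
  refine ⟨fun b hb => absurd hb (by simp), fun b hb => ?_⟩
  obtain ⟨n, hn⟩ : ∃ n : ℕ, ENNReal.ofReal (1 / ((n : ℝ) + 1)) < b := by
    have hl : Tendsto (fun n : ℕ => ENNReal.ofReal (1 / ((n : ℝ) + 1))) atTop (𝓝 0) := by
      simpa using ENNReal.tendsto_ofReal
        (tendsto_one_div_add_atTop_nhds_zero_nat (𝕜 := ℝ))
    exact ((tendsto_order.mp hl).2 b hb).exists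
  have h2 := hx n
  rw [not_frequently] at h2
  filter_upwards [h2] with r hr
  exact (not_lt.mp hr).trans_lt hn

end vitali

section theta

variable [SecondCountableTopology X] [BorelSpace X]

theorem measurable_meas_ball (s : Measure X) [SFinite s] (r : ℝ) :
    Measurable fun x => s (ball x r) := by
  have hE : MeasurableSet {q : X × X | dist q.2 q.1 < r} :=
    measurableSet_lt (measurable_snd.dist measurable_fst) measurable_const
  exact measurable_measure_prodMk_left hE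

/-- `θ_{K,ε}(x) = s(B_{Kε}(x))/ε²`. -/
noncomputable def tht (s : Measure X) (K ε : ℝ) (x : X) : ℝ≥0∞ :=
  s (ball x (K * ε)) / ENNReal.ofReal (ε ^ 2)

omit [SecondCountableTopology X] [BorelSpace X] in
theorem tht_eq (s : Measure X) {K ε : ℝ} (hK : 0 < K) (hε : 0 < ε) (x : X) :
    tht s K ε x = ENNReal.ofReal (K ^ 2) * th s x (K * ε) := by
  unfold tht th
  rw [mul_pow, ENNReal.ofReal_mul (by positivity), ENNReal.div_eq_inv_mul, ENNReal.div_eq_inv_mul,
    ENNReal.mul_inv (Or.inr ENNReal.ofReal_ne_top) (Or.inl ENNReal.ofReal_ne_top), mul_assoc,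
    ← mul_assoc (ENNReal.ofReal (K ^ 2)), ENNReal.mul_inv_cancel, one_mul]
  · simp only [ne_eq, ENNReal.ofReal_eq_zero, not_le]; positivity
  · exact ENNReal.ofReal_ne_top

theorem measurable_tht (s : Measure X) [SFinite s] (K ε : ℝ) : Measurable (tht s K ε) := by
  unfold tht
  exact (measurable_meas_ball s _).div_const _

omit [SecondCountableTopology X] [BorelSpace X] in
theorem tht_le (s : Measure X) {C : ℝ} (x : X)
    (hs : ∀ r : ℝ, 0 < r → s (ball x r) ≤ ENNReal.ofReal (C * r ^ 2))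
    {K ε : ℝ} (hK : 0 < K) (hε : 0 < ε) : tht s K ε x ≤ ENNReal.ofReal (K ^ 2 * C) := by
  rw [tht_eq s hK hε, ENNReal.ofReal_mul (by positivity)]
  gcongr
  exact th_le_of_growth s x hs (by positivity)

omit [SecondCountableTopology X] [BorelSpace X] in
theorem tendsto_tht (s : Measure X) {K : ℝ} (hK : 0 < K) (x : X)
    (h : Tendsto (fun r => th s x r) (𝓝[>] (0 : ℝ)) (𝓝 0)) :
    Tendsto (fun ε => tht s K ε x) (𝓝[>] (0 : ℝ)) (𝓝 0) := by
  have h1 : Tendsto (fun ε : ℝ => K * ε) (𝓝[>] (0 : ℝ)) (𝓝[>] (0 : ℝ)) := by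
    refine tendsto_nhdsWithin_iff.mpr ⟨?_, ?_⟩
    · have : Tendsto (fun ε : ℝ => K * ε) (𝓝 0) (𝓝 (K * 0)) := by
        apply Continuous.tendsto; fun_prop
      rw [mul_zero] at this
      exact this.mono_left nhdsWithin_le_nhds
    · filter_upwards [self_mem_nhdsWithin] with ε hε
      have : (0 : ℝ) < ε := hε
      exact mul_pos hK this
  have h2 := ENNReal.Tendsto.const_mul (h.comp h1) (Or.inr (ENNReal.ofReal_ne_top (r := K ^ 2)))
  rw [mul_zero] at h2
  refine h2.congr' ?_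
  filter_upwards [self_mem_nhdsWithin] with ε hε
  exact (tht_eq s hK hε x).symm

/-- **N7, second half.** `∫ θ_{K,ε} dν → 0` for a finite measure `ν` such that the density of
`s₀` vanishes `ν`-a.e. -/
theorem tendsto_lintegral_tht (s₀ ν : Measure X) [IsFiniteMeasure s₀] [IsFiniteMeasure ν] {C : ℝ}
    (hs : ∀ (x : X) (r : ℝ), 0 < r → s₀ (ball x r) ≤ ENNReal.ofReal (C * r ^ 2))
    (hd : ∀ᵐ x ∂ν, Tendsto (fun r => th s₀ x r) (𝓝[>] (0 : ℝ)) (𝓝 0)) {K : ℝ} (hK : 0 < K) :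
    Tendsto (fun ε => ∫⁻ x, tht s₀ K ε x ∂ν) (𝓝[>] (0 : ℝ)) (𝓝 0) := by
  have := tendsto_lintegral_filter_of_dominated_convergence (μ := ν) (l := 𝓝[>] (0 : ℝ))
    (F := fun ε x => tht s₀ K ε x) (f := fun _ => 0) (fun _ => ENNReal.ofReal (K ^ 2 * C))
    (Eventually.of_forall fun ε => measurable_tht s₀ K ε) ?_ ?_ ?_
  · simpa using this
  · filter_upwards [self_mem_nhdsWithin] with ε hε
    exact ae_of_all _ fun x => tht_le s₀ x (hs x) hK hε
  · rw [lintegral_const]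
    exact ENNReal.mul_ne_top ENNReal.ofReal_ne_top (measure_ne_top _ _)
  · filter_upwards [hd] with x hx
    exact tendsto_tht s₀ hK x hx

/-- `∫ s(B_r)² dμ ≤ A r^a ∫ s(B_{2r}) ds`, for `μ(B_r) ≤ A r^a`. -/
theorem lintegral_meas_ball_sq_le (μ s : Measure X) [SFinite μ] [SFinite s] {a : ℕ} {A : ℝ}
    {r : ℝ} (hr : 0 < r)
    (hμ : ∀ x : X, μ (ball x r) ≤ ENNReal.ofReal (A * r ^ a)) :
    ∫⁻ x, s (ball x r) ^ 2 ∂μ ≤
      ENNReal.ofReal (A * r ^ a) * ∫⁻ y, s (ball y (2 * r)) ∂s := by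
  have h1 : ∀ x, s (ball x r) ^ 2 = s (ball x r) * s (ball x r) := fun x => sq _
  simp_rw [h1]
  rw [lintegral_mul_meas_ball μ s (measurable_meas_ball s r) r,
    ← lintegral_const_mul _ (measurable_meas_ball s (2 * r))]
  apply lintegral_mono
  intro y
  calc ∫⁻ z in ball y r, s (ball z r) ∂μ ≤ ∫⁻ _ in ball y r, s (ball y (2 * r)) ∂μ := by
        apply setLIntegral_mono' measurableSet_ball
        intro z hz
        apply measure_mono
        apply ball_subset_ball'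
        rw [mem_ball] at hz
        linarith
    _ = s (ball y (2 * r)) * μ (ball y r) := by rw [setLIntegral_const]
    _ ≤ s (ball y (2 * r)) * ENNReal.ofReal (A * r ^ a) := by gcongr; exact hμ y
    _ = _ := mul_comm _ _

/-- Mass of the mollified density: `∫ s(B_r) dμ ≤ A r^a s(X)`. -/
theorem lintegral_meas_ball_le (μ s : Measure X) [SFinite μ] [SFinite s] {a : ℕ} {A : ℝ} {r : ℝ}
    (hμ : ∀ x : X, μ (ball x r) ≤ ENNReal.ofReal (A * r ^ a)) :
    ∫⁻ x, s (ball x r) ∂μ ≤ ENNReal.ofReal (A * r ^ a) * s univ := by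
  have := lintegral_mul_meas_ball μ s (f := fun _ => 1) measurable_const r
  simp only [one_mul, setLIntegral_one] at this
  rw [this]
  calc ∫⁻ y, μ (ball y r) ∂s ≤ ∫⁻ _, ENNReal.ofReal (A * r ^ a) ∂s := lintegral_mono hμ
    _ = _ := by rw [lintegral_const]

/-- `∫ (s₀(B_{Kε})/ε³)² dμ ≤ A K⁴ ∫ θ_{2K,ε} ds₀`. -/
theorem lintegral_sq_le (μ s₀ : Measure X) [SFinite μ] [SFinite s₀] {A K ε : ℝ}
    (hA : 0 ≤ A) (hK : 0 < K) (hε : 0 < ε)
    (hμ : ∀ (x : X) (r : ℝ), 0 < r → μ (ball x r) ≤ ENNReal.ofReal (A * r ^ 4)) :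
    ∫⁻ x, (s₀ (ball x (K * ε)) / ENNReal.ofReal (ε ^ 3)) ^ 2 ∂μ ≤
      ENNReal.ofReal (A * K ^ 4) * ∫⁻ y, tht s₀ (2 * K) ε y ∂s₀ := by
  have e : ∀ x, (s₀ (ball x (K * ε)) / ENNReal.ofReal (ε ^ 3)) ^ 2 =
      (ENNReal.ofReal ((ε ^ 6)⁻¹)) * s₀ (ball x (K * ε)) ^ 2 := by
    intro x
    rw [ENNReal.div_eq_inv_mul, mul_pow, ← ENNReal.ofReal_inv_of_pos (by positivity),
      ← ENNReal.ofReal_pow (by positivity)]
    congr 2
    rw [inv_pow, ← pow_mul]
  simp_rw [e]
  rw [lintegral_const_mul _ ((measurable_meas_ball s₀ _).pow_const 2)]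
  calc ENNReal.ofReal ((ε ^ 6)⁻¹) * ∫⁻ x, s₀ (ball x (K * ε)) ^ 2 ∂μ
      ≤ ENNReal.ofReal ((ε ^ 6)⁻¹) * (ENNReal.ofReal (A * (K * ε) ^ 4) *
          ∫⁻ y, s₀ (ball y (2 * (K * ε))) ∂s₀) := by
        gcongr
        exact lintegral_meas_ball_sq_le μ s₀ (by positivity) fun x => hμ x _ (by positivity)
    _ = ENNReal.ofReal (A * K ^ 4) * (ENNReal.ofReal ((ε ^ 2)⁻¹) *
          ∫⁻ y, s₀ (ball y (2 * (K * ε))) ∂s₀) := by
        rw [← mul_assoc (ENNReal.ofReal ((ε ^ 6)⁻¹)), ← mul_assoc (ENNReal.ofReal (A * K ^ 4)),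
          ← ENNReal.ofReal_mul (by positivity), ← ENNReal.ofReal_mul (by positivity)]
        congr 2
        field_simp
    _ = _ := by
        rw [← lintegral_const_mul _ (measurable_meas_ball s₀ _)]
        congr 1
        apply lintegral_congr
        intro y
        unfold tht
        rw [ENNReal.div_eq_inv_mul, ← ENNReal.ofReal_inv_of_pos (by positivity)]
        congr 3
        ring

/-- **L² smallness** used in Step 6: `∫ (s₀(B_{Kε})/ε³)² dμ → 0`. -/
theorem tendsto_lintegral_sq (μ s₀ : Measure X) [SFinite μ] [IsFiniteMeasure s₀] {A C : ℝ}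
    (hA : 0 ≤ A)
    (hμ : ∀ (x : X) (r : ℝ), 0 < r → μ (ball x r) ≤ ENNReal.ofReal (A * r ^ 4))
    (hs : ∀ (x : X) (r : ℝ), 0 < r → s₀ (ball x r) ≤ ENNReal.ofReal (C * r ^ 2))
    (hd : ∀ᵐ x ∂s₀, Tendsto (fun r => th s₀ x r) (𝓝[>] (0 : ℝ)) (𝓝 0)) {K : ℝ} (hK : 0 < K) :
    Tendsto (fun ε => ∫⁻ x, (s₀ (ball x (K * ε)) / ENNReal.ofReal (ε ^ 3)) ^ 2 ∂μ)
      (𝓝[>] (0 : ℝ)) (𝓝 0) := by
  have h1 := ENNReal.Tendsto.const_mul (tendsto_lintegral_tht s₀ s₀ hs hd (K := 2 * K)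
    (by positivity)) (Or.inr (ENNReal.ofReal_ne_top (r := A * K ^ 4)))
  rw [mul_zero] at h1
  refine tendsto_of_tendsto_of_tendsto_of_le_of_le' tendsto_const_nhds h1
    (Eventually.of_forall fun _ => zero_le) ?_
  filter_upwards [self_mem_nhdsWithin] with ε hε
  exact lintegral_sq_le μ s₀ hA hK hε hμ

/-- Step 4: `∫ (s(B_{Kε})/ε³)² dμ ≤ A K⁴ s(X) S` if `s(B_{2Kε}(y)) ≤ S ε²` for all `y`. -/
theorem lintegral_sq_le_sup (μ s : Measure X) [SFinite μ] [SFinite s] {A K ε : ℝ}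
    (hA : 0 ≤ A) (hK : 0 < K) (hε : 0 < ε)
    (hμ : ∀ (x : X) (r : ℝ), 0 < r → μ (ball x r) ≤ ENNReal.ofReal (A * r ^ 4))
    {S : ℝ≥0∞} (hS : ∀ y, s (ball y (2 * K * ε)) ≤ S * ENNReal.ofReal (ε ^ 2)) :
    ∫⁻ x, (s (ball x (K * ε)) / ENNReal.ofReal (ε ^ 3)) ^ 2 ∂μ ≤
      ENNReal.ofReal (A * K ^ 4) * (S * s univ) := by
  refine (lintegral_sq_le μ s hA hK hε hμ).trans ?_
  gcongr
  calc ∫⁻ y, tht s (2 * K) ε y ∂s ≤ ∫⁻ _, S ∂s := by
        apply lintegral_mono
        intro y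
        unfold tht
        exact ENNReal.div_le_of_le_mul (hS y)
    _ = S * s univ := by rw [lintegral_const]

end theta

section growth

/-- Growth for all radii from growth for small radii, for finite measures. -/
theorem growth_all (s : Measure X) [IsFiniteMeasure s] {a : ℕ} {C r₀ : ℝ} (hC : 0 ≤ C)
    (hr₀ : 0 < r₀)
    (hs : ∀ (x : X) (r : ℝ), 0 < r → r < r₀ → s (ball x r) ≤ ENNReal.ofReal (C * r ^ a)) :
    ∃ C' : ℝ, 0 ≤ C' ∧ C ≤ C' ∧
      ∀ (x : X) (r : ℝ), 0 < r → s (ball x r) ≤ ENNReal.ofReal (C' * r ^ a) := by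
  refine ⟨C + s.real univ / r₀ ^ a, by positivity, by
    have : 0 ≤ s.real univ / r₀ ^ a := by positivity
    linarith, fun x r hr => ?_⟩
  by_cases h : r < r₀
  · refine (hs x r hr h).trans (ENNReal.ofReal_le_ofReal ?_)
    have : 0 ≤ s.real univ / r₀ ^ a := by positivity
    gcongr
    linarith
  · rw [not_lt] at h
    calc s (ball x r) ≤ s univ := measure_mono (subset_univ _)
      _ = ENNReal.ofReal (s.real univ) := (ofReal_measureReal).symm
      _ ≤ _ := by
        apply ENNReal.ofReal_le_ofReal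
        have h1 : r₀ ^ a ≤ r ^ a := pow_le_pow_left₀ hr₀.le h a
        have h2 : 0 ≤ s.real univ := measureReal_nonneg
        have h3 : s.real univ ≤ s.real univ / r₀ ^ a * r ^ a := by
          rw [div_mul_eq_mul_div, le_div_iff₀ (by positivity)]
          exact mul_le_mul_of_nonneg_left h1 h2
        have h4 : 0 ≤ C * r ^ a := by positivity
        nlinarith

/-- Growth at all centres from growth at centres in a set carrying the measure. -/
theorem growth_centres (s : Measure X) {K : Set X} (hK : s Kᶜ = 0) {a : ℕ} {C : ℝ}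
    (hs : ∀ x ∈ K, ∀ r : ℝ, 0 < r → s (ball x r) ≤ ENNReal.ofReal (C * r ^ a)) :
    ∀ (x : X) (r : ℝ), 0 < r → s (ball x r) ≤ ENNReal.ofReal (2 ^ a * C * r ^ a) := by
  intro x r hr
  by_cases h : (ball x r ∩ K).Nonempty
  · obtain ⟨y, hy, hyK⟩ := h
    have hsub : ball x r ⊆ ball y (2 * r) := by
      apply ball_subset_ball'
      rw [mem_ball, dist_comm] at hy
      linarith
    refine (measure_mono hsub).trans ((hs y hyK (2 * r) (by positivity)).trans (le_of_eq ?_))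
    congr 1
    rw [mul_pow]; ring
  · rw [not_nonempty_iff_eq_empty] at h
    have hsub : ball x r ⊆ Kᶜ := by
      intro y hy hyK
      have : y ∈ ball x r ∩ K := ⟨hy, hyK⟩
      rw [h] at this
      exact this
    rw [measure_mono_null hsub hK]
    exact bot_le

end growth

section final

variable [SecondCountableTopology X] [BorelSpace X]

/-- **Node N7**, complete: for `s₀` finite with `s₀(B_r) ≤ C r²`, zero density on `G`,
`s₀(Gᶜ) = 0`; `s_T` finite with `s_T(B_r) ≤ C' r²`; `μ(B_r) ≤ A r⁴`. -/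
theorem node_N7 (μ s₀ sT : Measure X) [SFinite μ] [IsFiniteMeasure s₀] [IsFiniteMeasure sT]
    {A C C' : ℝ} (hA : 0 ≤ A)
    (hμ : ∀ (x : X) (r : ℝ), 0 < r → μ (ball x r) ≤ ENNReal.ofReal (A * r ^ 4))
    (hs : ∀ (x : X) (r : ℝ), 0 < r → s₀ (ball x r) ≤ ENNReal.ofReal (C * r ^ 2))
    (hT : ∀ (x : X) (r : ℝ), 0 < r → sT (ball x r) ≤ ENNReal.ofReal (C' * r ^ 2))
    {G : Set X} (hG : s₀ Gᶜ = 0)
    (hd : ∀ x ∈ G, Tendsto (fun r => s₀ (ball x r) / ENNReal.ofReal (r ^ 2)) (𝓝[>] (0 : ℝ)) (𝓝 0))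
    {K : ℝ} (hK : 0 < K) :
    Tendsto (fun ε => ∫⁻ x, s₀ (ball x (K * ε)) / ENNReal.ofReal (ε ^ 2) ∂s₀) (𝓝[>] (0 : ℝ)) (𝓝 0) ∧
    Tendsto (fun ε => ∫⁻ x, s₀ (ball x (K * ε)) / ENNReal.ofReal (ε ^ 2) ∂sT) (𝓝[>] (0 : ℝ)) (𝓝 0) ∧
    Tendsto (fun ε => ∫⁻ x, (s₀ (ball x (K * ε)) / ENNReal.ofReal (ε ^ 3)) ^ 2 ∂μ)
      (𝓝[>] (0 : ℝ)) (𝓝 0) := by
  have h0 : ∀ᵐ x ∂s₀, Tendsto (fun r => th s₀ x r) (𝓝[>] (0 : ℝ)) (𝓝 0) := by
    rw [ae_iff]
    refine measure_mono_null ?_ hG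
    intro x hx hxG
    exact hx (hd x hxG)
  have h1 := vitali_null s₀ sT hT hG hd
  exact ⟨tendsto_lintegral_tht s₀ s₀ hs h0 hK, tendsto_lintegral_tht s₀ sT hs h1 hK,
    tendsto_lintegral_sq μ s₀ hA hμ hs h0 hK⟩

/-- Real-valued form: `∫ s₀(B_{Kε}(x))/ε² dν(x) → 0` (Bochner integrals). -/
theorem tendsto_integral_of_lintegral {ν s₀ : Measure X} [IsFiniteMeasure s₀] {K : ℝ}
    (h : Tendsto (fun ε => ∫⁻ x, s₀ (ball x (K * ε)) / ENNReal.ofReal (ε ^ 2) ∂ν)
      (𝓝[>] (0 : ℝ)) (𝓝 0)) :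
    Tendsto (fun ε => ∫ x, s₀.real (ball x (K * ε)) / ε ^ 2 ∂ν) (𝓝[>] (0 : ℝ)) (𝓝 0) := by
  have h2 := (ENNReal.tendsto_toReal ENNReal.zero_ne_top).comp h
  rw [ENNReal.toReal_zero] at h2
  refine h2.congr' ?_
  filter_upwards [self_mem_nhdsWithin] with ε hε
  have hε' : (0 : ℝ) < ε := hε
  simp only [Function.comp]
  rw [integral_eq_lintegral_of_nonneg_ae]
  · congr 1
    apply lintegral_congr
    intro x
    rw [ENNReal.ofReal_div_of_pos (by positivity), Measure.real, ENNReal.ofReal_toReal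
      (measure_ne_top _ _)]
  · exact ae_of_all _ fun x => by positivity
  · exact ((measurable_meas_ball s₀ (K * ε)).ennreal_toReal.div_const _).aestronglyMeasurable

end final

end Crest.Agent.R240.MeasDens
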