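import Mathlib
import Crest.Agent.R240.Lin1
import Crest.Agent.R240.En1

/-!
Row 240 (S0371), MONO local: definitions and the frozen pointwise statement `PW`.
-/

set_option autoImplicit false
open MeasureTheory Metric

namespace Crest.Agent.R240.Mono

noncomputable section

/-- `q F₀ - dq ∧ λ`, with `q(z) = F₀(z, J₀ z)` and `λ = F₀(z, ·)/2`. -/
def thet (J0 : E4 →L[ℝ] E4) (F0 : Bil) (z : E4) : Bil :=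
  (F0 z (J0 z)) • F0 - wed ((F0 z).comp J0) (F0 z)

/-- `r² F₀ + thet`. -/
def Om (J0 : E4 →L[ℝ] E4) (F0 : Bil) (r : ℝ) (z : E4) : Bil := r ^ 2 • F0 + thet J0 F0 z

/-- `q + r²`. -/
def DD (J0 : E4 →L[ℝ] E4) (F0 : Bil) (r : ℝ) (z : E4) : ℝ := F0 z (J0 z) + r ^ 2

/-- the pointwise inequality (node of helper615). -/
def PW : Prop := ∀ m L A R : ℝ, 0 < m → ∃ c C : ℝ, 0 < c ∧ 0 ≤ C ∧
  ∀ (J0 J1 : E4 →L[ℝ] E4) (F0 F1 : Bil) (s : ℝ) (z : E4) (t b : Bil) (p ε r : ℝ),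
    (∀ v, J0 (J0 v) = -v) → (∀ v, J1 (J1 v) = -v) → SPos J0 F0 → SPos J1 F1 →
    (∀ v, m * ‖v‖ ^ 2 ≤ F0 v (J0 v)) → (∀ v, m * ‖v‖ ^ 2 ≤ F1 v (J1 v)) →
    ‖F0‖ ≤ L → ‖F1‖ ≤ L → ‖J0‖ ≤ L → ‖J1‖ ≤ L → ‖J1 - J0‖ ≤ L * ‖z‖ →
    (s = 1 ∨ s = -1) → 0 < s * W F1 F1 → Alt t → Alt b → ‖t‖ ≤ p →
    ‖antip J1 t‖ ≤ A * ε * p → Pos J1 (invp J1 t + (A * ε ^ 2 * p) • F1) →
    0 < ε → ε ≤ r → r ≤ R → z ≠ 0 → ‖z‖ ≤ R →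
    c * (r ^ 2 / DD J0 F0 r z ^ 2) * (s * W (invp J1 t + (A * ε ^ 2 * p) • F1) F1)
        - C * p - C * ‖invp J1 b‖ / (r * ‖z‖) - C * ‖b‖ / ‖z‖
      ≤ s * W (t + b) ((1 / DD J0 F0 r z ^ 2) • Om J0 F0 r z)

/-- geometry on a ball. -/
structure Geo (y0 : E4) (r0 m L : ℝ) (J : E4 → E4 →L[ℝ] E4) (F : E4 → Bil) : Prop where
  contJ : ContinuousOn J (ball y0 r0)
  contF : ContinuousOn F (ball y0 r0)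
  sq : ∀ x ∈ ball y0 r0, ∀ v, J x (J x v) = -v
  spos : ∀ x ∈ ball y0 r0, SPos (J x) (F x)
  low : ∀ x ∈ ball y0 r0, ∀ v, m * ‖v‖ ^ 2 ≤ F x v (J x v)
  bdF : ∀ x ∈ ball y0 r0, ‖F x‖ ≤ L
  bdJ : ∀ x ∈ ball y0 r0, ‖J x‖ ≤ L
  lip : ∀ x ∈ ball y0 r0, ‖J x - J y0‖ ≤ L * ‖x - y0‖

/-- **MONO local** (one-shot monotonicity). -/
def MonoLocal : Prop := ∀ m L A r0 : ℝ, 0 < m → 0 < r0 → ∃ C : ℝ, 0 ≤ C ∧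
  ∀ (y0 : E4) (J : E4 → E4 →L[ℝ] E4) (F : E4 → Bil) (s : ℝ) (t b : E4 → Bil) (p : E4 → ℝ)
    (ε r : ℝ), Geo y0 r0 m L J F → (s = 1 ∨ s = -1) →
    (∀ x ∈ ball y0 r0, 0 < s * W (F x) (F x)) →
    ContDiffOn ℝ 1 (fun x => t x + b x) (ball y0 r0) →
    (∀ x ∈ ball y0 r0, En.Cl (fun x => t x + b x) x) →
    ContinuousOn b (ball y0 r0) →
    (∀ x ∈ ball y0 r0, Alt (t x)) → (∀ x ∈ ball y0 r0, Alt (b x)) →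
    IntegrableOn p (ball y0 r0) → IntegrableOn (fun x => ‖b x‖ ^ 2) (ball y0 r0) →
    (∀ x ∈ ball y0 r0, ‖t x‖ ≤ p x) →
    (∀ x ∈ ball y0 r0, ‖antip (J x) (t x)‖ ≤ A * ε * p x) →
    (∀ x ∈ ball y0 r0, Pos (J x) (invp (J x) (t x) + (A * ε ^ 2 * p x) • F x)) →
    0 < ε → ε ≤ r → r ≤ r0 / 2 →
    ∫ x in ball y0 r, s * W (invp (J x) (t x) + (A * ε ^ 2 * p x) • F x) (F x) ≤
      C * r ^ 2 * ((∫ x in ball y0 r0, p x) + √(∫ x in ball y0 r0, ‖b x‖ ^ 2)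
        + √(∫ x in ball y0 r0, ‖invp (J x) (b x)‖ ^ 2) / r)

end

end Crest.Agent.R240.Mono
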