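import Mathlib
import Crest.Agent.R240.MonoDefs

/-!
Row 240 (S0371), MONO local, analytic part 1: the test form, its exterior derivative, local Stokes.
-/

set_option autoImplicit false
set_option maxSynthPendingDepth 3
open MeasureTheory Metric Set Filter Topology
open scoped ContDiff

namespace Crest.Agent.R240.Mono

noncomputable section

open En

/-! ### crude bounds -/

lemma norm_ee (i : Fin 4) : ‖ee i‖ = 1 := by
  simp [ee]

lemma abs_ent_le (b : Bil) (i j : Fin 4) : |ent b i j| ≤ ‖b‖ := by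
  have h := b.le_opNorm₂ (ee i) (ee j)
  rw [norm_ee, norm_ee, mul_one, mul_one, Real.norm_eq_abs] at h
  exact h

lemma abs_W_le (b c : Bil) : |W b c| ≤ 6 * (‖b‖ * ‖c‖) := by
  have hb := abs_ent_le b
  have hc := abs_ent_le c
  have key : ∀ i j k l : Fin 4, |ent b i j * ent c k l| ≤ ‖b‖ * ‖c‖ := by
    intro i j k l
    rw [abs_mul]
    exact mul_le_mul (hb i j) (hc k l) (abs_nonneg _) (norm_nonneg _)
  have h1 := key 0 1 2 3
  have h2 := key 0 2 1 3
  have h3 := key 0 3 1 2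
  have h4 := key 1 2 0 3
  have h5 := key 1 3 0 2
  have h6 := key 2 3 0 1
  rw [abs_le] at *
  unfold W
  constructor <;> linarith [h1.1, h1.2, h2.1, h2.2, h3.1, h3.2, h4.1, h4.2, h5.1, h5.2, h6.1, h6.2]

lemma norm_pull_le (A : E4 →L[ℝ] E4) (b : Bil) : ‖pull A b‖ ≤ ‖A‖ ^ 2 * ‖b‖ := by
  refine ContinuousLinearMap.opNorm_le_bound₂ _ (by positivity) ?_
  intro u v
  rw [pull_apply]
  calc ‖b (A u) (A v)‖ ≤ ‖b‖ * ‖A u‖ * ‖A v‖ := b.le_opNorm₂ _ _
    _ ≤ ‖b‖ * (‖A‖ * ‖u‖) * (‖A‖ * ‖v‖) := by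
        gcongr
        · exact A.le_opNorm u
        · exact A.le_opNorm v
    _ = ‖A‖ ^ 2 * ‖b‖ * ‖u‖ * ‖v‖ := by ring

lemma norm_invp_le (A : E4 →L[ℝ] E4) (b : Bil) : ‖invp A b‖ ≤ (1 + ‖A‖ ^ 2) * ‖b‖ := by
  unfold invp
  rw [norm_smul]
  have h : ‖b + pull A b‖ ≤ ‖b‖ + ‖A‖ ^ 2 * ‖b‖ :=
    (norm_add_le _ _).trans (add_le_add le_rfl (norm_pull_le A b))
  have h0 : (0 : ℝ) ≤ (1 + ‖A‖ ^ 2) * ‖b‖ := by positivity
  have h2 : ‖(1 / 2 : ℝ)‖ = 1 / 2 := by norm_num
  rw [h2]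
  nlinarith

lemma norm_wed_le1 (ξ η : Cov) : ‖wed ξ η‖ ≤ 2 * (‖ξ‖ * ‖η‖) := by
  refine ContinuousLinearMap.opNorm_le_bound₂ _ (by positivity) ?_
  intro u v
  rw [wed_apply]
  have h1 := ξ.le_opNorm u
  have h2 := η.le_opNorm v
  have h3 := η.le_opNorm u
  have h4 := ξ.le_opNorm v
  rw [Real.norm_eq_abs] at *
  have h5 : |ξ u * η v| ≤ ‖ξ‖ * ‖u‖ * (‖η‖ * ‖v‖) := by
    rw [abs_mul]; exact mul_le_mul h1 h2 (abs_nonneg _) (by positivity)
  have h6 : |η u * ξ v| ≤ ‖η‖ * ‖u‖ * (‖ξ‖ * ‖v‖) := by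
    rw [abs_mul]; exact mul_le_mul h3 h4 (abs_nonneg _) (by positivity)
  calc |ξ u * η v - η u * ξ v| ≤ |ξ u * η v| + |η u * ξ v| := abs_sub _ _
    _ ≤ _ := add_le_add h5 h6
    _ = 2 * (‖ξ‖ * ‖η‖) * ‖u‖ * ‖v‖ := by ring

/-! ### continuity -/

lemma ContOn_ent {b : E4 → Bil} {s : Set E4} (hb : ContinuousOn b s) (i j : Fin 4) :
    ContinuousOn (fun x => ent (b x) i j) s :=
  (hb.clm_apply continuousOn_const).clm_apply continuousOn_const

lemma ContOn_W {b c : E4 → Bil} {s : Set E4} (hb : ContinuousOn b s) (hc : ContinuousOn c s) :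
    ContinuousOn (fun x => W (b x) (c x)) s := by
  have h1 := ContOn_ent hb
  have h2 := ContOn_ent hc
  unfold W
  exact ((((((h1 0 1).mul (h2 2 3)).sub ((h1 0 2).mul (h2 1 3))).add ((h1 0 3).mul (h2 1 2))).add
    ((h1 1 2).mul (h2 0 3))).sub ((h1 1 3).mul (h2 0 2))).add ((h1 2 3).mul (h2 0 1))

lemma ContOn_pull {J : E4 → E4 →L[ℝ] E4} {b : E4 → Bil} {s : Set E4} (hJ : ContinuousOn J s)
    (hb : ContinuousOn b s) : ContinuousOn (fun x => pull (J x) (b x)) s := by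
  unfold pull
  refine ContinuousOn.clm_comp ?_ (hb.clm_comp hJ)
  exact ((ContinuousLinearMap.compL ℝ E4 E4 ℝ).flip.continuous).comp_continuousOn hJ

lemma ContOn_invp {J : E4 → E4 →L[ℝ] E4} {b : E4 → Bil} {s : Set E4} (hJ : ContinuousOn J s)
    (hb : ContinuousOn b s) : ContinuousOn (fun x => invp (J x) (b x)) s := by
  unfold invp
  exact (hb.add (ContOn_pull hJ hb)).const_smul (1 / 2 : ℝ)

/-! ### measurability -/

lemma aesm_ent {b : E4 → Bil} {μ : Measure E4} (hb : AEStronglyMeasurable b μ) (i j : Fin 4) :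
    AEStronglyMeasurable (fun x => ent (b x) i j) μ := by
  have h : Continuous (fun c : Bil => ent c i j) :=
    (continuous_id.clm_apply continuous_const).clm_apply continuous_const
  exact h.comp_aestronglyMeasurable hb

lemma aesm_W {b c : E4 → Bil} {μ : Measure E4} (hb : AEStronglyMeasurable b μ)
    (hc : AEStronglyMeasurable c μ) : AEStronglyMeasurable (fun x => W (b x) (c x)) μ := by
  have h1 := aesm_ent hb
  have h2 := aesm_ent hc
  unfold W
  exact ((((((h1 0 1).mul (h2 2 3)).sub ((h1 0 2).mul (h2 1 3))).add ((h1 0 3).mul (h2 1 2))).add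
    ((h1 1 2).mul (h2 0 3))).sub ((h1 1 3).mul (h2 0 2))).add ((h1 2 3).mul (h2 0 1))

/-! ### local Stokes -/

/-- Stokes for a closed 2-form defined on an open set. -/
theorem stokes_loc {U : Set E4} (hU : IsOpen U) {b : E4 → Bil} (hb : ContDiffOn ℝ 1 b U)
    (halt : ∀ x ∈ U, Alt (b x)) {S : E4 → Cov} (hS : ContDiff ℝ 1 S) (hc : HasCompactSupport S)
    (hsub : tsupport S ⊆ U) (hcl : ∀ x ∈ U, Cl b x) :
    ∫ x, W (b x) (d1 S x) = 0 := by
  obtain ⟨K, hK, hSK, hKU⟩ := exists_compact_between hc hU hsub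
  obtain ⟨f, hf1, hf0, -⟩ := exists_contMDiffMap_one_nhds_of_subset_interior (n := 1)
    (modelWithCornersSelf ℝ E4) (isClosed_tsupport S) hSK
  have hfc : ContDiff ℝ 1 (f : E4 → ℝ) := f.contMDiff.contDiff
  set b' : E4 → Bil := fun x => f x • b x with hb'
  have h1 : ContDiff ℝ 1 b' := by
    rw [contDiff_iff_contDiffAt]
    intro x
    by_cases hx : x ∈ U
    · exact hfc.contDiffAt.smul (hb.contDiffAt (hU.mem_nhds hx))
    · have hxK : Kᶜ ∈ 𝓝 x := hK.isClosed.isOpen_compl.mem_nhds (fun h => hx (hKU h))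
      refine (contDiffAt_const (c := (0 : Bil))).congr_of_eventuallyEq ?_
      filter_upwards [hxK] with y hy
      simp [hb', hf0 y hy]
  have h2 : ∀ x, Alt (b' x) := by
    intro x v
    by_cases hx : x ∈ U
    · simp [hb', halt x hx v]
    · simp [hb', hf0 x (fun h => hx (hKU h))]
  have h3 : ∀ x ∈ tsupport S, Cl b' x := by
    intro x hx
    have he : b' =ᶠ[𝓝 x] b := by
      filter_upwards [hf1.filter_mono (nhds_le_nhdsSet hx)] with y hy
      simp [hb', hy]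
    have := hcl x (hsub hx)
    unfold Cl at this ⊢
    rw [he.fderiv_eq]
    exact this
  have h4 := stokes h1 h2 hS hc h3
  rw [← h4]
  congr 1
  funext x
  by_cases hx : x ∈ tsupport S
  · have h5 : f x = 1 := (hf1.filter_mono (nhds_le_nhdsSet hx)).self_of_nhds
    simp [hb', h5]
  · have h6 : d1 S x = 0 := by
      have h7 : S =ᶠ[𝓝 x] fun _ => 0 := by
        have : (tsupport S)ᶜ ∈ 𝓝 x := (isClosed_tsupport S).isOpen_compl.mem_nhds hx
        filter_upwards [this] with y hy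
        exact image_eq_zero_of_notMem_tsupport hy
      have h8 : fderiv ℝ S x = 0 := by rw [h7.fderiv_eq]; simp
      unfold d1
      rw [h8]
      ext v w
      simp
    rw [h6]
    simp [W, ent]

end

end Crest.Agent.R240.Mono
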