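import Mathlib
import Crest.Agent.R240.Mono1

/-!
Row 240 (S0371), MONO local, analytic part 2: the test form `χ λ / (q + r²)`.
-/

set_option autoImplicit false
set_option maxSynthPendingDepth 3
open MeasureTheory Metric Set Filter Topology
open scoped ContDiff

namespace Crest.Agent.R240.Mono

noncomputable section

open En

/-- `λ = F₀(x - y₀, ·)/2`. -/
def lam (F0 : Bil) (y0 x : E4) : Cov := (1 / 2 : ℝ) • F0 (x - y0)

lemma hasFDerivAt_lam (F0 : Bil) (y0 x : E4) :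
    HasFDerivAt (lam F0 y0) ((1 / 2 : ℝ) • F0) x := by
  have h1 : HasFDerivAt (fun x : E4 => x - y0) (ContinuousLinearMap.id ℝ E4) x :=
    (hasFDerivAt_id x).sub_const y0
  have h2 : HasFDerivAt (fun x : E4 => F0 (x - y0)) (F0.comp (ContinuousLinearMap.id ℝ E4)) x :=
    F0.hasFDerivAt.comp x h1
  have h3 := h2.const_smul (1 / 2 : ℝ)
  exact h3.congr_fderiv (by ext v w; simp)

lemma d1_lam {F0 : Bil} (hF : Alt F0) (y0 x : E4) : d1 (lam F0 y0) x = F0 := by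
  unfold d1
  rw [(hasFDerivAt_lam F0 y0 x).fderiv]
  ext v w
  have h := hF.swap v w
  simp
  linarith

lemma F0_symm {J0 : E4 →L[ℝ] E4} {F0 : Bil} (hJ : ∀ v, J0 (J0 v) = -v) (hF : Alt F0)
    (hinv : ∀ u v, F0 (J0 u) (J0 v) = F0 u v) (u v : E4) : F0 u (J0 v) = F0 v (J0 u) := by
  have h1 := hinv u (J0 v)
  rw [hJ] at h1
  rw [← h1, hF.swap]
  simp

lemma hasFDerivAt_DD {J0 : E4 →L[ℝ] E4} {F0 : Bil} (hJ : ∀ v, J0 (J0 v) = -v) (hF : Alt F0)
    (hinv : ∀ u v, F0 (J0 u) (J0 v) = F0 u v) (r : ℝ) (y0 x : E4) :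
    HasFDerivAt (fun x => DD J0 F0 r (x - y0)) ((2 : ℝ) • (F0 (x - y0)).comp J0) x := by
  have h1 : HasFDerivAt (fun x : E4 => x - y0) (ContinuousLinearMap.id ℝ E4) x :=
    (hasFDerivAt_id x).sub_const y0
  have h2 : HasFDerivAt (fun x : E4 => F0 (x - y0)) (F0.comp (ContinuousLinearMap.id ℝ E4)) x :=
    F0.hasFDerivAt.comp x h1
  have h3 : HasFDerivAt (fun x : E4 => J0 (x - y0)) (J0.comp (ContinuousLinearMap.id ℝ E4)) x :=
    J0.hasFDerivAt.comp x h1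
  have h4 := (h2.clm_apply h3).add_const (r ^ 2)
  have h5 : (fun x => DD J0 F0 r (x - y0)) = fun x => F0 (x - y0) (J0 (x - y0)) + r ^ 2 := rfl
  rw [h5]
  refine h4.congr_fderiv ?_
  ext v
  have h6 := F0_symm hJ hF hinv v (x - y0)
  simp only [add_apply, smul_apply, smul_eq_mul, ContinuousLinearMap.comp_apply,
    ContinuousLinearMap.flip_apply, ContinuousLinearMap.id_apply]
  linarith

/-- the test form. -/
def tS (J0 : E4 →L[ℝ] E4) (F0 : Bil) (r : ℝ) (y0 : E4) (χ : E4 → ℝ) (x : E4) : Cov :=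
  (χ x * (DD J0 F0 r (x - y0))⁻¹) • lam F0 y0 x

lemma d1_tS {J0 : E4 →L[ℝ] E4} {F0 : Bil} (hJ : ∀ v, J0 (J0 v) = -v) (hF : Alt F0)
    (hinv : ∀ u v, F0 (J0 u) (J0 v) = F0 u v) {r : ℝ} {y0 x : E4} {χ : E4 → ℝ}
    (hχ : DifferentiableAt ℝ χ x) (hD : DD J0 F0 r (x - y0) ≠ 0) :
    d1 (tS J0 F0 r y0 χ) x = (DD J0 F0 r (x - y0))⁻¹ • wed (fderiv ℝ χ x) (lam F0 y0 x)
      + χ x • ((1 / DD J0 F0 r (x - y0) ^ 2) • Om J0 F0 r (x - y0)) := by
  have h1 := hasFDerivAt_DD hJ hF hinv r y0 x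
  have h2 : HasFDerivAt (fun x => (DD J0 F0 r (x - y0))⁻¹)
      ((-(DD J0 F0 r (x - y0) ^ 2)⁻¹) • ((2 : ℝ) • (F0 (x - y0)).comp J0)) x := by
    exact (hasDerivAt_inv hD).comp_hasFDerivAt x h1
  have h3 := hχ.hasFDerivAt.mul h2
  have h4 : DifferentiableAt ℝ (fun x => χ x * (DD J0 F0 r (x - y0))⁻¹) x :=
    h3.differentiableAt
  have h5 : d1 (tS J0 F0 r y0 χ) x = _ := d1_smul h4 (hasFDerivAt_lam F0 y0 x).differentiableAt
  rw [h5, d1_lam hF]
  have h6 : fderiv ℝ (fun x => χ x * (DD J0 F0 r (x - y0))⁻¹) x = _ := h3.fderiv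
  rw [h6]
  set D := DD J0 F0 r (x - y0) with hDdef
  ext v w
  simp only [wed_apply, Om, thet, lam, add_apply, smul_apply, sub_apply, smul_eq_mul,
    ContinuousLinearMap.comp_apply]
  have hD' : F0 (x - y0) (J0 (x - y0)) = D - r ^ 2 := by rw [hDdef]; unfold DD; ring
  rw [hD']
  field_simp
  ring

end

end Crest.Agent.R240.Mono
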