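import Mathlib
import Crest.Agent.R240.Mono2

/-!
Row 240 (S0371), MONO local, analytic part 3: Cauchy-Schwarz and the weight `1/|z|`.
-/

set_option autoImplicit false
set_option maxSynthPendingDepth 3
open MeasureTheory Metric Set Filter Topology
open scoped ContDiff

namespace Crest.Agent.R240.Mono

noncomputable section

open En

/-- Cauchy-Schwarz with `√`. -/
lemma cs {μ : Measure E4} {g w : E4 → ℝ} (hg0 : 0 ≤ᵐ[μ] g) (hw0 : 0 ≤ᵐ[μ] w)
    (hgm : AEStronglyMeasurable g μ) (hwm : AEStronglyMeasurable w μ)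
    (hg : Integrable (fun x => g x ^ 2) μ) (hw : Integrable (fun x => w x ^ 2) μ) :
    Integrable (fun x => g x * w x) μ ∧
      ∫ x, g x * w x ∂μ ≤ √(∫ x, g x ^ 2 ∂μ) * √(∫ x, w x ^ 2 ∂μ) := by
  have h1 : MemLp g 2 μ := (memLp_two_iff_integrable_sq hgm).2 hg
  have h2 : MemLp w 2 μ := (memLp_two_iff_integrable_sq hwm).2 hw
  refine ⟨h1.integrable_mul h2, ?_⟩
  have h22 : ENNReal.ofReal (2 : ℝ) = 2 := by norm_num
  have h3 := integral_mul_le_Lp_mul_Lq_of_nonneg (p := 2) (q := 2) Real.HolderConjugate.two_two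
    hg0 hw0 (by rw [h22]; exact h1) (by rw [h22]; exact h2)
  rw [Real.sqrt_eq_rpow, Real.sqrt_eq_rpow]
  simpa using h3

/-- the weight. -/
def wt (y0 x : E4) : ℝ := ‖x - y0‖⁻¹

lemma wt_nonneg (y0 x : E4) : 0 ≤ wt y0 x := inv_nonneg.2 (norm_nonneg _)

lemma measurable_wt (y0 : E4) : Measurable (wt y0) := by
  unfold wt
  fun_prop

lemma integrableOn_wt0 (r0 : ℝ) : IntegrableOn (fun x : E4 => (‖x‖⁻¹) ^ 2) (ball 0 r0) := by
  refine integrableOn_ball_of_norm_le_rpow (C := 1) (α := 2) ?_ ?_ ?_ ?_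
  · simp
  · simp; norm_num
  · refine Filter.Eventually.of_forall fun x => ?_
    rw [Real.norm_of_nonneg (by positivity), one_mul, Real.rpow_neg (norm_nonneg _)]
    norm_num
  · exact (by fun_prop : Measurable fun x : E4 => (‖x‖⁻¹) ^ 2).aestronglyMeasurable

lemma ball_ind (y0 : E4) (r0 : ℝ) (g : E4 → ℝ) (x : E4) :
    (ball y0 r0).indicator (fun x => g (x - y0)) x = (ball 0 r0).indicator g (x - y0) := by
  by_cases hx : x ∈ ball y0 r0
  · have : x - y0 ∈ ball (0 : E4) r0 := by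
      rw [mem_ball_zero_iff, ← dist_eq_norm]; exact hx
    rw [indicator_of_mem hx, indicator_of_mem this]
  · have : x - y0 ∉ ball (0 : E4) r0 := by
      rw [mem_ball_zero_iff, ← dist_eq_norm]; exact hx
    rw [indicator_of_notMem hx, indicator_of_notMem this]

lemma integrableOn_wt (y0 : E4) (r0 : ℝ) : IntegrableOn (fun x => wt y0 x ^ 2) (ball y0 r0) := by
  rw [← integrable_indicator_iff measurableSet_ball]
  have h := (integrable_indicator_iff measurableSet_ball).2 (integrableOn_wt0 r0)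
  have h2 := h.comp_sub_right y0
  refine h2.congr (Filter.Eventually.of_forall fun x => ?_)
  exact (ball_ind y0 r0 (fun z => (‖z‖⁻¹) ^ 2) x).symm

lemma integral_wt (y0 : E4) (r0 : ℝ) : ∫ x in ball y0 r0, wt y0 x ^ 2 =
    ∫ x in ball (0 : E4) r0, (‖x‖⁻¹) ^ 2 := by
  rw [← integral_indicator measurableSet_ball, ← integral_indicator measurableSet_ball,
    ← integral_sub_right_eq_self ((ball (0 : E4) r0).indicator fun x => (‖x‖⁻¹) ^ 2) y0]
  refine integral_congr_ae (Filter.Eventually.of_forall fun x => ?_)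
  exact (ball_ind y0 r0 (fun z => (‖z‖⁻¹) ^ 2) x)

lemma volume_ball (y0 : E4) (r0 : ℝ) : volume.real (ball y0 r0) = volume.real (ball (0 : E4) r0) := by
  unfold Measure.real
  rw [Measure.addHaar_ball_center]

/-- the two Cauchy-Schwarz consequences used. -/
lemma cs_ball (r0 : ℝ) : ∃ K : ℝ, 0 ≤ K ∧ ∀ (y0 : E4) (g : E4 → ℝ), (∀ x, 0 ≤ g x) →
    AEStronglyMeasurable g (volume.restrict (ball y0 r0)) →
    IntegrableOn (fun x => g x ^ 2) (ball y0 r0) →
    IntegrableOn (fun x => g x * wt y0 x) (ball y0 r0) ∧ IntegrableOn g (ball y0 r0) ∧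
    ∫ x in ball y0 r0, g x * wt y0 x ≤ K * √(∫ x in ball y0 r0, g x ^ 2) ∧
    ∫ x in ball y0 r0, g x ≤ K * √(∫ x in ball y0 r0, g x ^ 2) := by
  refine ⟨√(∫ x in ball (0 : E4) r0, (‖x‖⁻¹) ^ 2) + √(volume.real (ball (0 : E4) r0)), by positivity, ?_⟩
  intro y0 g hg0 hgm hg
  have h1 := cs (μ := volume.restrict (ball y0 r0)) (g := g) (w := wt y0)
    (Filter.Eventually.of_forall hg0) (Filter.Eventually.of_forall (wt_nonneg y0)) hgm
    (measurable_wt y0).aestronglyMeasurable hg (integrableOn_wt y0 r0)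
  have h2 := cs (μ := volume.restrict (ball y0 r0)) (g := g) (w := fun _ => 1)
    (Filter.Eventually.of_forall hg0) (Filter.Eventually.of_forall fun _ => zero_le_one) hgm
    aestronglyMeasurable_const hg (by
      have : IsFiniteMeasure (volume.restrict (ball y0 r0)) :=
        ⟨by rw [Measure.restrict_apply_univ]; exact measure_ball_lt_top⟩
      simpa using integrable_const (1 : ℝ))
  rw [integral_wt] at h1
  simp only [mul_one, one_pow, integral_const, smul_eq_mul, MeasurableSet.univ,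
    measureReal_restrict_apply, univ_inter] at h2
  rw [volume_ball] at h2
  refine ⟨h1.1, h2.1, ?_, ?_⟩
  · refine h1.2.trans ?_
    rw [add_mul, mul_comm]
    have : 0 ≤ √(volume.real (ball (0 : E4) r0)) * √(∫ x in ball y0 r0, g x ^ 2) := by positivity
    linarith
  · refine h2.2.trans ?_
    rw [add_mul, mul_comm]
    have : 0 ≤ √(∫ x in ball (0 : E4) r0, (‖x‖⁻¹) ^ 2) * √(∫ x in ball y0 r0, g x ^ 2) := by positivity
    linarith

end

end Crest.Agent.R240.Mono
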