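import Mathlib
import Crest.Agent.R240.Mono3
import Crest.Agent.R240.Lin4

/-!
Row 240 (S0371), MONO local, analytic part 4: assembly `PW → MonoLocal`.
-/

set_option autoImplicit false
set_option maxSynthPendingDepth 3
open MeasureTheory Metric Set Filter Topology
open scoped ContDiff

namespace Crest.Agent.R240.Mono

noncomputable section

open En

section geo

variable {y0 : E4} {r0 m L : ℝ} {J : E4 → E4 →L[ℝ] E4} {F : E4 → Bil}

lemma Geo.up (h : Geo y0 r0 m L J F) {x : E4} (hx : x ∈ ball y0 r0) (v : E4) :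
    F x v (J x v) ≤ L ^ 2 * ‖v‖ ^ 2 := by
  have h1 := (F x).le_opNorm₂ v (J x v)
  have h2 := (J x).le_opNorm v
  have h3 := h.bdF x hx
  have h4 := h.bdJ x hx
  have hL : 0 ≤ L := (norm_nonneg _).trans h3
  calc F x v (J x v) ≤ ‖F x v (J x v)‖ := Real.le_norm_self _
    _ ≤ ‖F x‖ * ‖v‖ * ‖J x v‖ := h1
    _ ≤ L * ‖v‖ * (L * ‖v‖) := by
        gcongr
        exact h2.trans (by gcongr)
    _ = L ^ 2 * ‖v‖ ^ 2 := by ring

lemma Geo.bd (h : Geo y0 r0 m L J F) (hm : 0 < m) {x : E4} (hx : x ∈ ball y0 r0) :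
    Bd (J x) (F x) m (L ^ 2) where
  sq := h.sq x hx
  spos := h.spos x hx
  m_pos := hm
  lo := h.low x hx
  hi := fun v => h.up hx v

end geo

lemma sW_nonneg {J : E4 →L[ℝ] E4} {F P : Bil} {m M s : ℝ} (h : Bd J F m M) (hP : Pos J P)
    (hs : 0 < s * W F F) : 0 ≤ s * W P F := by
  have h1 : 0 ≤ q F P F := h.q_pos_pos hP ⟨h.spos.alt, h.spos.inv, fun v => by
    have := h.lo v
    have hm := h.m_pos
    have : 0 ≤ m * ‖v‖ ^ 2 := by positivity
    linarith⟩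
  have h2 : s * W P F = q F P F * (s * W F F) := by
    unfold q
    have := h.W_ne
    field_simp
  rw [h2]
  positivity

/-- the cut-off function. -/
lemma exists_cut {r0 : ℝ} (hr0 : 0 < r0) : ∃ (g : E4 → ℝ) (M : ℝ), 0 ≤ M ∧ ContDiff ℝ 1 g ∧
    (∀ z, 0 ≤ g z) ∧ (∀ z, g z ≤ 1) ∧ (∀ z, ‖z‖ ≤ r0 / 2 → g z = 1) ∧
    (∀ z, 3 * r0 / 4 ≤ ‖z‖ → g z = 0) ∧ (∀ z, ‖fderiv ℝ g z‖ ≤ M) ∧
    (∀ z, ‖z‖ < r0 / 2 → fderiv ℝ g z = 0) := by
  let f : ContDiffBump (0 : E4) := ⟨r0 / 2, 3 * r0 / 4, by positivity, by linarith⟩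
  have hfc : ContDiff ℝ 1 (f : E4 → ℝ) := f.contDiff
  have h1 : HasCompactSupport (fderiv ℝ (f : E4 → ℝ)) := f.hasCompactSupport.fderiv (𝕜 := ℝ)
  obtain ⟨M, hM⟩ := (hfc.continuous_fderiv one_ne_zero).bounded_above_of_compact_support h1
  refine ⟨f, M, (norm_nonneg _).trans (hM 0), hfc, fun z => f.nonneg, fun z => f.le_one, ?_, ?_, hM, ?_⟩
  · intro z hz
    exact f.one_of_mem_closedBall (by simpa using hz)
  · intro z hz
    exact f.zero_of_le_dist (by simpa using hz)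
  · intro z hz
    have h2 : (f : E4 → ℝ) =ᶠ[𝓝 z] 1 := f.eventuallyEq_one_of_mem_ball (by simpa using hz)
    rw [h2.fderiv_eq]
    simp

section S

variable {y0 : E4} {r0 m L r : ℝ} {J : E4 → E4 →L[ℝ] E4} {F : E4 → Bil}

lemma Geo.DD_ge (h : Geo y0 r0 m L J F) (hr0 : 0 < r0) (x : E4) :
    m * ‖x - y0‖ ^ 2 + r ^ 2 ≤ DD (J y0) (F y0) r (x - y0) := by
  have := h.low y0 (mem_ball_self hr0) (x - y0)
  unfold DD
  linarith

lemma Geo.DD_pos (h : Geo y0 r0 m L J F) (hr0 : 0 < r0) (hm : 0 < m) (hr : 0 < r) (x : E4) :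
    0 < DD (J y0) (F y0) r (x - y0) := by
  have h1 := h.DD_ge (r := r) hr0 x
  have h2 : 0 < m * ‖x - y0‖ ^ 2 + r ^ 2 := by positivity
  linarith

lemma contDiff_DD (J0 : E4 →L[ℝ] E4) (F0 : Bil) (r : ℝ) (y0 : E4) :
    ContDiff ℝ 1 (fun x => DD J0 F0 r (x - y0)) := by
  unfold DD
  have h0 : ContDiff ℝ 1 (fun x : E4 => x - y0) := contDiff_id.sub contDiff_const
  have h1 : ContDiff ℝ 1 (fun x : E4 => F0 (x - y0)) := F0.contDiff.comp h0
  have h2 : ContDiff ℝ 1 (fun x : E4 => J0 (x - y0)) := J0.contDiff.comp h0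
  exact (h1.clm_apply h2).add contDiff_const

lemma contDiff_tS (h : Geo y0 r0 m L J F) (hr0 : 0 < r0) (hm : 0 < m) (hr : 0 < r) {χ : E4 → ℝ}
    (hχ : ContDiff ℝ 1 χ) : ContDiff ℝ 1 (tS (J y0) (F y0) r y0 χ) := by
  unfold tS lam
  have h0 : ContDiff ℝ 1 (fun x : E4 => x - y0) := contDiff_id.sub contDiff_const
  have h1 : ContDiff ℝ 1 (fun x : E4 => F y0 (x - y0)) := (F y0).contDiff.comp h0
  have h2 : ContDiff ℝ 1 (fun x => (DD (J y0) (F y0) r (x - y0))⁻¹) :=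
    (contDiff_DD _ _ _ _).inv (fun x => (h.DD_pos hr0 hm hr x).ne')
  have h3 : ContDiff ℝ 1 (fun x : E4 => (1 / 2 : ℝ) • F y0 (x - y0)) := h1.const_smul (1 / 2 : ℝ)
  exact (hχ.mul h2).smul h3

lemma tsupport_tS (J0 : E4 →L[ℝ] E4) (F0 : Bil) (r : ℝ) (y0 : E4) {χ : E4 → ℝ} {ρ : ℝ}
    (hχ : ∀ x, ρ ≤ ‖x - y0‖ → χ x = 0) : tsupport (tS J0 F0 r y0 χ) ⊆ closedBall y0 ρ := by
  refine closure_minimal ?_ isClosed_closedBall
  intro x hx
  by_contra hc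
  apply hx
  have : ρ ≤ ‖x - y0‖ := by
    rw [mem_closedBall, not_le, dist_eq_norm] at hc
    exact hc.le
  simp [tS, hχ x this]

lemma continuous_d1 {S : E4 → Cov} (hS : ContDiff ℝ 1 S) : Continuous (d1 S) := by
  have h1 : Continuous (fderiv ℝ S) := hS.continuous_fderiv one_ne_zero
  exact h1.sub ((ContinuousLinearMap.flipₗᵢ ℝ E4 E4 ℝ).continuous.comp h1)

lemma d1_eq_zero {S : E4 → Cov} {x : E4} (hx : x ∉ tsupport S) : d1 S x = 0 := by
  have h7 : S =ᶠ[𝓝 x] fun _ => 0 := by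
    have : (tsupport S)ᶜ ∈ 𝓝 x := (isClosed_tsupport S).isOpen_compl.mem_nhds hx
    filter_upwards [this] with y hy
    exact image_eq_zero_of_notMem_tsupport hy
  have h8 : fderiv ℝ S x = 0 := by rw [h7.fderiv_eq]; simp
  unfold d1
  rw [h8]
  ext v w
  simp

lemma bounded_d1 {S : E4 → Cov} (hS : ContDiff ℝ 1 S) (hc : HasCompactSupport S) :
    ∃ M, 0 ≤ M ∧ ∀ x, ‖d1 S x‖ ≤ M := by
  have h1 : HasCompactSupport (d1 S) := by
    refine HasCompactSupport.intro hc ?_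
    intro x hx
    exact d1_eq_zero hx
  obtain ⟨M, hM⟩ := (continuous_d1 hS).bounded_above_of_compact_support h1
  exact ⟨M, (norm_nonneg _).trans (hM 0), hM⟩

end S

set_option maxHeartbeats 1000000 in
/-- pointwise lower bound. -/
lemma point_lower (m L A r0 c C1 : ℝ) (hm : 0 < m) (hr0 : 0 < r0) (hc : 0 < c) (hC1 : 0 ≤ C1)
    (g : E4 → ℝ) (Mf : ℝ) (hMf0 : 0 ≤ Mf) (hg : ContDiff ℝ 1 g) (hg0 : ∀ z, 0 ≤ g z)
    (hg1 : ∀ z, g z ≤ 1) (hgr : ∀ z, ‖z‖ ≤ r0 / 2 → g z = 1) (hMf : ∀ z, ‖fderiv ℝ g z‖ ≤ Mf)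
    (hf0 : ∀ z, ‖z‖ < r0 / 2 → fderiv ℝ g z = 0)
    (y0 : E4) (J : E4 → E4 →L[ℝ] E4) (F : E4 → Bil) (s ε r : ℝ) (h : Geo y0 r0 m L J F)
    (hs : s = 1 ∨ s = -1) (hr : 0 < r) (hrr : r ≤ r0 / 2) (x : E4) (hx : x ∈ ball y0 r0)
    (hxy : x ≠ y0) (t b : Bil) (p : ℝ) (hsW : 0 < s * W (F x) (F x)) (ht : ‖t‖ ≤ p)
    (hP : Pos (J x) (invp (J x) t + (A * ε ^ 2 * p) • F x))
    (hpw : c * (r ^ 2 / DD (J y0) (F y0) r (x - y0) ^ 2) *
          (s * W (invp (J x) t + (A * ε ^ 2 * p) • F x) (F x))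
        - C1 * p - C1 * ‖invp (J x) b‖ / (r * ‖x - y0‖) - C1 * ‖b‖ / ‖x - y0‖
      ≤ s * W (t + b) ((1 / DD (J y0) (F y0) r (x - y0) ^ 2) • Om (J y0) (F y0) r (x - y0))) :
    (ball y0 r).indicator (fun _ => c / ((L ^ 2 + 1) ^ 2 * r ^ 2) *
        (s * W (invp (J x) t + (A * ε ^ 2 * p) • F x) (F x))) x
      - (C1 + 12 * Mf * L / (m * r0)) * p - C1 / r * (‖invp (J x) b‖ * wt y0 x)
      - C1 * (‖b‖ * wt y0 x) - 12 * Mf * L / (m * r0) * ‖b‖
      ≤ s * W (t + b) (d1 (tS (J y0) (F y0) r y0 (fun x => g (x - y0))) x) := by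
  have hy0 := mem_ball_self (x := y0) hr0
  have hL : 0 ≤ L := (norm_nonneg _).trans (h.bdF y0 hy0)
  have hz : 0 < ‖x - y0‖ := norm_pos_iff.2 (sub_ne_zero.2 hxy)
  set z := x - y0 with hzdef
  have hD := h.DD_pos hr0 hm hr x
  have hDge := h.DD_ge (r := r) hr0 x
  rw [← hzdef] at hD hDge
  set D := DD (J y0) (F y0) r z with hDdef
  have hχd : HasFDerivAt (fun x => g (x - y0)) (fderiv ℝ g z) x := by
    have h1 : HasFDerivAt (fun x : E4 => x - y0) (ContinuousLinearMap.id ℝ E4) x :=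
      (hasFDerivAt_id x).sub_const y0
    have h2 : HasFDerivAt g (fderiv ℝ g z) (x - y0) :=
      ((hg.differentiable one_ne_zero) (x - y0)).hasFDerivAt
    exact (h2.comp x h1).congr_fderiv (by ext v; simp)
  have hp : 0 ≤ p := (norm_nonneg _).trans ht
  have key := d1_tS (h.sq y0 hy0) (h.spos y0 hy0).alt (h.spos y0 hy0).inv (r := r) (y0 := y0)
    (x := x) (χ := fun x => g (x - y0)) hχd.differentiableAt hD.ne'
  rw [hχd.fderiv, ← hzdef, ← hDdef] at key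
  rw [key, W_add_right, W_smul_right, W_smul_right]
  set Ω := W (t + b) ((1 / D ^ 2) • Om (J y0) (F y0) r z) with hΩ
  set H := s * W (invp (J x) t + (A * ε ^ 2 * p) • F x) (F x) with hH
  have hH0 : 0 ≤ H := sW_nonneg (h.bd hm hx) hP hsW
  -- the boundary term
  have hbdry : |W (t + b) (wed (fderiv ℝ g z) (lam (F y0) y0 x))| * D⁻¹ ≤
      12 * Mf * L / (m * r0) * (p + ‖b‖) := by
    by_cases hzr : ‖z‖ < r0 / 2
    · rw [hf0 z hzr]
      have : wed 0 (lam (F y0) y0 x) = 0 := by ext v w; simp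
      rw [this]
      have h0 : W (t + b) 0 = 0 := by simp [W, ent]
      rw [h0]
      simp
      positivity
    · push Not at hzr
      have h1 := abs_W_le (t + b) (wed (fderiv ℝ g z) (lam (F y0) y0 x))
      have h2 := norm_wed_le1 (fderiv ℝ g z) (lam (F y0) y0 x)
      have h3 : ‖lam (F y0) y0 x‖ ≤ 1 / 2 * (L * ‖z‖) := by
        unfold lam
        rw [norm_smul]
        have h4 := (F y0).le_opNorm z
        have h5 := h.bdF y0 hy0
        have h6 : ‖(1 / 2 : ℝ)‖ = 1 / 2 := by norm_num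
        rw [h6]
        have h7 : ‖F y0 z‖ ≤ L * ‖z‖ := h4.trans (by gcongr)
        linarith
      have h4 : ‖t + b‖ ≤ p + ‖b‖ := (norm_add_le _ _).trans (by linarith)
      have h5 : |W (t + b) (wed (fderiv ℝ g z) (lam (F y0) y0 x))| ≤
          6 * ((p + ‖b‖) * (2 * (Mf * (1 / 2 * (L * ‖z‖))))) := by
        refine h1.trans ?_
        gcongr
        exact h2.trans (by gcongr; exact hMf z)
      have h6 : D⁻¹ ≤ (m * ‖z‖ ^ 2)⁻¹ := by
        apply inv_anti₀ (by positivity)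
        nlinarith [sq_nonneg r]
      calc |W (t + b) (wed (fderiv ℝ g z) (lam (F y0) y0 x))| * D⁻¹
          ≤ (6 * ((p + ‖b‖) * (2 * (Mf * (1 / 2 * (L * ‖z‖)))))) * (m * ‖z‖ ^ 2)⁻¹ := by
            gcongr
        _ = 6 * Mf * L / m * (p + ‖b‖) * ‖z‖⁻¹ := by field_simp
        _ ≤ 6 * Mf * L / m * (p + ‖b‖) * (r0 / 2)⁻¹ := by
            gcongr
        _ = 12 * Mf * L / (m * r0) * (p + ‖b‖) := by field_simp; ring
  have hs1 : |s| = 1 := by rcases hs with h | h <;> rw [h] <;> norm_num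
  have hb1 : -(12 * Mf * L / (m * r0) * (p + ‖b‖)) ≤
      s * (D⁻¹ * W (t + b) (wed (fderiv ℝ g z) (lam (F y0) y0 x))) := by
    have h1 : |s * (D⁻¹ * W (t + b) (wed (fderiv ℝ g z) (lam (F y0) y0 x)))| ≤
        12 * Mf * L / (m * r0) * (p + ‖b‖) := by
      rw [abs_mul, hs1, one_mul, abs_mul, abs_of_pos (inv_pos.2 hD), mul_comm]
      exact hbdry
    exact (abs_le.1 h1).1
  -- the main term
  have hgz0 := hg0 z
  have hgz1 := hg1 z
  have hwt : wt y0 x = ‖z‖⁻¹ := rfl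
  have hmain : (ball y0 r).indicator (fun _ => c / ((L ^ 2 + 1) ^ 2 * r ^ 2) * H) x
      - C1 * p - C1 / r * (‖invp (J x) b‖ * wt y0 x) - C1 * (‖b‖ * wt y0 x)
      ≤ g z * (s * Ω) := by
    have h1 : g z * (c * (r ^ 2 / D ^ 2) * H
        - C1 * p - C1 * ‖invp (J x) b‖ / (r * ‖z‖) - C1 * ‖b‖ / ‖z‖) ≤ g z * (s * Ω) := by
      gcongr
    refine le_trans ?_ h1
    have e1 : C1 * ‖invp (J x) b‖ / (r * ‖z‖) = C1 / r * (‖invp (J x) b‖ * wt y0 x) := by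
      rw [hwt]; field_simp
    have e2 : C1 * ‖b‖ / ‖z‖ = C1 * (‖b‖ * wt y0 x) := by
      rw [hwt]; field_simp
    rw [e1, e2]
    have hw0 : 0 ≤ wt y0 x := wt_nonneg _ _
    have n1 : 0 ≤ C1 * p := by positivity
    have n2 : 0 ≤ C1 / r * (‖invp (J x) b‖ * wt y0 x) := by positivity
    have n3 : 0 ≤ C1 * (‖b‖ * wt y0 x) := by positivity
    have hind : (ball y0 r).indicator (fun _ => c / ((L ^ 2 + 1) ^ 2 * r ^ 2) * H) x ≤
        g z * (c * (r ^ 2 / D ^ 2) * H) := by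
      by_cases hxr : x ∈ ball y0 r
      · rw [indicator_of_mem hxr]
        have hzr : ‖z‖ < r := by rw [mem_ball, dist_eq_norm] at hxr; exact hxr
        rw [hgr z (by linarith), one_mul]
        have hDle : D ≤ (L ^ 2 + 1) * r ^ 2 := by
          have h2 := h.up hy0 z
          have h3 : ‖z‖ ^ 2 ≤ r ^ 2 := by gcongr
          have h4 : D = F y0 z (J y0 z) + r ^ 2 := rfl
          rw [h4]
          have h6 : L ^ 2 * ‖z‖ ^ 2 ≤ L ^ 2 * r ^ 2 := by gcongr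
          linarith
        have h5 : 1 / ((L ^ 2 + 1) ^ 2 * r ^ 2) ≤ r ^ 2 / D ^ 2 := by
          rw [div_le_div_iff₀ (by positivity) (by positivity)]
          have h6 : D ^ 2 ≤ ((L ^ 2 + 1) * r ^ 2) ^ 2 := by gcongr
          have h7 : ((L ^ 2 + 1) * r ^ 2) ^ 2 = r ^ 2 * ((L ^ 2 + 1) ^ 2 * r ^ 2) := by ring
          linarith
        calc c / ((L ^ 2 + 1) ^ 2 * r ^ 2) * H = c * (1 / ((L ^ 2 + 1) ^ 2 * r ^ 2)) * H := by ring
          _ ≤ c * (r ^ 2 / D ^ 2) * H := by gcongr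
      · rw [indicator_of_notMem hxr]
        positivity
    have m1 : g z * (C1 * p) ≤ C1 * p := mul_le_of_le_one_left n1 hgz1
    have m2 : g z * (C1 / r * (‖invp (J x) b‖ * wt y0 x)) ≤ C1 / r * (‖invp (J x) b‖ * wt y0 x) :=
      mul_le_of_le_one_left n2 hgz1
    have m3 : g z * (C1 * (‖b‖ * wt y0 x)) ≤ C1 * (‖b‖ * wt y0 x) :=
      mul_le_of_le_one_left n3 hgz1
    have e3 : g z * (c * (r ^ 2 / D ^ 2) * H - C1 * p - C1 / r * (‖invp (J x) b‖ * wt y0 x)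
        - C1 * (‖b‖ * wt y0 x)) = g z * (c * (r ^ 2 / D ^ 2) * H) - g z * (C1 * p)
        - g z * (C1 / r * (‖invp (J x) b‖ * wt y0 x)) - g z * (C1 * (‖b‖ * wt y0 x)) := by ring
    rw [e3]
    linarith
  have e4 : s * (D⁻¹ * W (t + b) (wed (fderiv ℝ g z) (lam (F y0) y0 x)) + g z * Ω) =
      s * (D⁻¹ * W (t + b) (wed (fderiv ℝ g z) (lam (F y0) y0 x))) + g z * (s * Ω) := by ring
  have e5 : (C1 + 12 * Mf * L / (m * r0)) * p = C1 * p + 12 * Mf * L / (m * r0) * p := by ring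
  have e6 : 12 * Mf * L / (m * r0) * (p + ‖b‖) = 12 * Mf * L / (m * r0) * p
      + 12 * Mf * L / (m * r0) * ‖b‖ := by ring
  rw [e4, e5]
  rw [e6] at hb1
  linarith

end

end Crest.Agent.R240.Mono
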