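import Mathlib
import Crest.Agent.R240.Mono4

/-!
Row 240 (S0371), MONO local: the theorem `mono_local : PW → MonoLocal`.
-/

set_option autoImplicit false
set_option maxSynthPendingDepth 3
open MeasureTheory Metric Set Filter Topology
open scoped ContDiff

namespace Crest.Agent.R240.Mono

noncomputable section

open En

lemma int5 {μ : Measure E4} {f1 f2 f3 f4 f5 : E4 → ℝ} (i1 : Integrable f1 μ)
    (i2 : Integrable f2 μ) (i3 : Integrable f3 μ) (i4 : Integrable f4 μ) (i5 : Integrable f5 μ) :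
    ∫ x, (f1 x - f2 x - f3 x - f4 x - f5 x) ∂μ =
      ∫ x, f1 x ∂μ - ∫ x, f2 x ∂μ - ∫ x, f3 x ∂μ - ∫ x, f4 x ∂μ - ∫ x, f5 x ∂μ := by
  have e1 : ∫ x, (f1 x - f2 x) ∂μ = ∫ x, f1 x ∂μ - ∫ x, f2 x ∂μ := integral_sub i1 i2
  have e2 : ∫ x, (f1 x - f2 x - f3 x) ∂μ = ∫ x, (f1 x - f2 x) ∂μ - ∫ x, f3 x ∂μ :=
    integral_sub (i1.sub i2) i3
  have e3 : ∫ x, (f1 x - f2 x - f3 x - f4 x) ∂μ = ∫ x, (f1 x - f2 x - f3 x) ∂μ - ∫ x, f4 x ∂μ :=
    integral_sub ((i1.sub i2).sub i3) i4
  have e4 : ∫ x, (f1 x - f2 x - f3 x - f4 x - f5 x) ∂μ =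
      ∫ x, (f1 x - f2 x - f3 x - f4 x) ∂μ - ∫ x, f5 x ∂μ :=
    integral_sub (((i1.sub i2).sub i3).sub i4) i5
  rw [e4, e3, e2, e1]

set_option maxHeartbeats 2000000 in
theorem mono_local (hPW : PW) : MonoLocal := by
  intro m L A r0 hm hr0
  obtain ⟨c, C1, hc, hC1, hpw⟩ := hPW m L A r0 hm
  obtain ⟨g, Mf, hMf0, hg, hg0, hg1, hgr, hgz, hMf, hf0⟩ := exists_cut hr0
  obtain ⟨K, hK0, hK⟩ := cs_ball r0
  refine ⟨max 0 ((C1 + 12 * Mf * L / (m * r0)) * (1 + K) * ((L ^ 2 + 1) ^ 2 / c)), le_max_left _ _, ?_⟩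
  intro y0 J F s t b p ε r h hs hsW hη hcl hbc htA hbA hpI hbI htp hta hPos hε hεr hrr
  have hr : 0 < r := hε.trans_le hεr
  have hy0 := mem_ball_self (x := y0) hr0
  have hL : 0 ≤ L := (norm_nonneg _).trans (h.bdF y0 hy0)
  set K1 := 12 * Mf * L / (m * r0) with hK1
  have hK10 : 0 ≤ K1 := by positivity
  set B := ball y0 r0 with hB
  have hBo : IsOpen B := isOpen_ball
  have hBm : MeasurableSet B := measurableSet_ball
  set χ : E4 → ℝ := fun x => g (x - y0) with hχ
  have hχc : ContDiff ℝ 1 χ := hg.comp (contDiff_id.sub contDiff_const)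
  set S := tS (J y0) (F y0) r y0 χ with hS
  have hSc : ContDiff ℝ 1 S := contDiff_tS h hr0 hm hr hχc
  have hSt : tsupport S ⊆ closedBall y0 (3 * r0 / 4) :=
    tsupport_tS _ _ _ _ (fun x hx => hgz _ hx)
  have hScs : HasCompactSupport S :=
    IsCompact.of_isClosed_subset (isCompact_closedBall _ _) (isClosed_tsupport S) hSt
  have hSB : tsupport S ⊆ B := hSt.trans (closedBall_subset_ball (by linarith))
  have hstokes := stokes_loc hBo hη (fun x hx => (htA x hx).add (hbA x hx)) hSc hScs hSB hcl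
  have hηc : ContinuousOn (fun x => t x + b x) B := hη.continuousOn
  have htc : ContinuousOn t B := by
    have := hηc.sub hbc
    refine this.congr (fun x _ => ?_)
    simp
  obtain ⟨M1, hM10, hM1⟩ := bounded_d1 hSc hScs
  -- integrability
  have hbint := hK y0 (fun x => ‖b x‖) (fun x => norm_nonneg _)
    (hbc.norm.aestronglyMeasurable hBm) hbI
  have hb'c : ContinuousOn (fun x => invp (J x) (b x)) B := ContOn_invp h.contJ hbc
  have hb'le : ∀ x ∈ B, ‖invp (J x) (b x)‖ ≤ (1 + L ^ 2) * ‖b x‖ := by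
    intro x hx
    refine (norm_invp_le _ _).trans ?_
    have := h.bdJ x hx
    gcongr
  have hb'I : IntegrableOn (fun x => ‖invp (J x) (b x)‖ ^ 2) B := by
    refine Integrable.mono' (hbI.const_mul ((1 + L ^ 2) ^ 2)) ?_ ?_
    · exact ((hb'c.norm).pow 2).aestronglyMeasurable hBm
    · refine (ae_restrict_iff' hBm).2 (Filter.Eventually.of_forall fun x hx => ?_)
      rw [Real.norm_of_nonneg (by positivity), ← mul_pow]
      have := hb'le x hx
      gcongr
  have hb'int := hK y0 (fun x => ‖invp (J x) (b x)‖) (fun x => norm_nonneg _)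
    (hb'c.norm.aestronglyMeasurable hBm) hb'I
  have hGint : IntegrableOn (fun x => s * W (t x + b x) (d1 S x)) B := by
    refine Integrable.mono' (g := fun x => 6 * M1 * (p x + ‖b x‖))
      ((hpI.add hbint.2.1).const_mul (6 * M1)) ?_ ?_
    · exact ((ContOn_W hηc (continuous_d1 hSc).continuousOn).aestronglyMeasurable hBm).const_mul s
    · refine (ae_restrict_iff' hBm).2 (Filter.Eventually.of_forall fun x hx => ?_)
      have hs1 : |s| = 1 := by rcases hs with h | h <;> rw [h] <;> norm_num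
      rw [Real.norm_eq_abs, abs_mul, hs1, one_mul]
      have h1 := abs_W_le (t x + b x) (d1 S x)
      have h2 : ‖t x + b x‖ ≤ p x + ‖b x‖ :=
        (norm_add_le _ _).trans (by have := htp x hx; linarith)
      have h3 := hM1 x
      have h4 : ‖t x + b x‖ * ‖d1 S x‖ ≤ (p x + ‖b x‖) * M1 :=
        mul_le_mul h2 h3 (norm_nonneg _) ((norm_nonneg _).trans h2)
      linarith
  -- the positive form
  set H : E4 → ℝ := fun x => s * W (invp (J x) (t x) + (A * ε ^ 2 * p x) • F x) (F x) with hH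
  have hHm : AEStronglyMeasurable H (volume.restrict B) := by
    have h1 : AEStronglyMeasurable (fun x => invp (J x) (t x)) (volume.restrict B) :=
      (ContOn_invp h.contJ htc).aestronglyMeasurable hBm
    have h2 : AEStronglyMeasurable F (volume.restrict B) := h.contF.aestronglyMeasurable hBm
    have h3 : AEStronglyMeasurable (fun x => (A * ε ^ 2 * p x)) (volume.restrict B) :=
      hpI.aestronglyMeasurable.const_mul _
    exact (aesm_W (h1.add (h3.smul h2)) h2).const_mul s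
  have hp0 : ∀ x ∈ B, 0 ≤ p x := fun x hx => (norm_nonneg _).trans (htp x hx)
  have hHI : IntegrableOn H B := by
    refine Integrable.mono' (hpI.const_mul (6 * (((1 + L ^ 2) + |A| * ε ^ 2 * L) * L))) hHm ?_
    refine (ae_restrict_iff' hBm).2 (Filter.Eventually.of_forall fun x hx => ?_)
    have hs1 : |s| = 1 := by rcases hs with h | h <;> rw [h] <;> norm_num
    rw [hH, Real.norm_eq_abs, abs_mul, hs1, one_mul]
    have h1 := abs_W_le (invp (J x) (t x) + (A * ε ^ 2 * p x) • F x) (F x)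
    have h2 : ‖invp (J x) (t x) + (A * ε ^ 2 * p x) • F x‖ ≤ ((1 + L ^ 2) + |A| * ε ^ 2 * L) * p x := by
      refine (norm_add_le _ _).trans ?_
      rw [norm_smul, Real.norm_eq_abs, abs_mul, abs_mul, abs_of_nonneg (hp0 x hx),
        abs_of_nonneg (sq_nonneg ε)]
      have h3 : ‖invp (J x) (t x)‖ ≤ (1 + L ^ 2) * p x := by
        refine (norm_invp_le _ _).trans ?_
        have := h.bdJ x hx
        have := htp x hx
        gcongr
      have h4 : |A| * ε ^ 2 * p x * ‖F x‖ ≤ |A| * ε ^ 2 * p x * L := by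
        have := h.bdF x hx
        have := hp0 x hx
        gcongr
      linarith
    have h3 := h.bdF x hx
    have h4 : ‖invp (J x) (t x) + (A * ε ^ 2 * p x) • F x‖ * ‖F x‖ ≤
        (((1 + L ^ 2) + |A| * ε ^ 2 * L) * p x) * L :=
      mul_le_mul h2 h3 (norm_nonneg _) ((norm_nonneg _).trans h2)
    linarith
  -- the integrated inequality
  set a := c / ((L ^ 2 + 1) ^ 2 * r ^ 2) with ha
  have hlow : ∀ x ∈ B, x ≠ y0 → (ball y0 r).indicator (fun x => a * H x) x
      - (C1 + K1) * p x - C1 / r * (‖invp (J x) (b x)‖ * wt y0 x)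
      - C1 * (‖b x‖ * wt y0 x) - K1 * ‖b x‖ ≤ s * W (t x + b x) (d1 S x) := by
    intro x hx hxy
    have hxn : ‖x - y0‖ < r0 := by rw [← dist_eq_norm]; exact hx
    have h1 := hpw (J y0) (J x) (F y0) (F x) s (x - y0) (t x) (b x) (p x) ε r (h.sq y0 hy0)
      (h.sq x hx) (h.spos y0 hy0) (h.spos x hx) (h.low y0 hy0) (h.low x hx) (h.bdF y0 hy0)
      (h.bdF x hx) (h.bdJ y0 hy0) (h.bdJ x hx) (h.lip x hx) hs (hsW x hx) (htA x hx) (hbA x hx)
      (htp x hx) (hta x hx) (hPos x hx) hε hεr (by linarith) (sub_ne_zero.2 hxy) hxn.le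
    have h2 := point_lower m L A r0 c C1 hm hr0 hc hC1 g Mf hMf0 hg hg0 hg1 hgr hMf hf0 y0 J F s ε r
      h hs hr hrr x hx hxy (t x) (b x) (p x) (hsW x hx) (htp x hx) (hPos x hx) h1
    refine le_trans (le_of_eq ?_) h2
    by_cases hxr : x ∈ ball y0 r
    · rw [indicator_of_mem hxr, indicator_of_mem hxr]
    · rw [indicator_of_notMem hxr, indicator_of_notMem hxr]
  have i1 : IntegrableOn ((ball y0 r).indicator fun x => a * H x) B :=
    (hHI.const_mul a).indicator measurableSet_ball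
  have i2 : IntegrableOn (fun x => (C1 + K1) * p x) B := hpI.const_mul _
  have i3 : IntegrableOn (fun x => C1 / r * (‖invp (J x) (b x)‖ * wt y0 x)) B :=
    hb'int.1.const_mul _
  have i4 : IntegrableOn (fun x => C1 * (‖b x‖ * wt y0 x)) B := hbint.1.const_mul _
  have i5 : IntegrableOn (fun x => K1 * ‖b x‖) B := hbint.2.1.const_mul _
  have hint : ∫ x in B, ((ball y0 r).indicator (fun x => a * H x) x
      - (C1 + K1) * p x - C1 / r * (‖invp (J x) (b x)‖ * wt y0 x)
      - C1 * (‖b x‖ * wt y0 x) - K1 * ‖b x‖) ≤ ∫ x in B, s * W (t x + b x) (d1 S x) := by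
    refine integral_mono_ae ((((i1.sub i2).sub i3).sub i4).sub i5) hGint ?_
    have h1 : ∀ᵐ x ∂(volume.restrict B), x ≠ y0 := by
      refine ae_restrict_of_ae ?_
      have : (volume : Measure E4) {y0} = 0 := measure_singleton y0
      exact measure_eq_zero_iff_ae_notMem.1 this
    filter_upwards [h1, ae_restrict_mem hBm] with x hx1 hx2
    exact hlow x hx2 hx1
  have hzero : ∫ x in B, s * W (t x + b x) (d1 S x) = 0 := by
    rw [integral_const_mul, setIntegral_eq_integral_of_forall_compl_eq_zero, hstokes, mul_zero]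
    intro x hx
    have : x ∉ tsupport S := fun h => hx (hSB h)
    rw [d1_eq_zero this]
    simp [W, ent]
  have hint2 := (int5 i1 i2 i3 i4 i5).symm.le.trans (hint.trans_eq hzero)
  rw [integral_const_mul, integral_const_mul,
    integral_const_mul, integral_const_mul, setIntegral_indicator measurableSet_ball,
    inter_eq_right.2 (ball_subset_ball (by linarith)), integral_const_mul] at hint2
  have j1 := hbint.2.2.1
  have j2 := hbint.2.2.2
  have j3 := hb'int.2.2.1
  set P0 := ∫ x in B, p x with hP0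
  set Q0 := √(∫ x in B, ‖b x‖ ^ 2) with hQ0
  set R0 := √(∫ x in B, ‖invp (J x) (b x)‖ ^ 2) with hR0
  set I0 := ∫ x in ball y0 r, H x with hI0
  have hP0n : 0 ≤ P0 := setIntegral_nonneg hBm hp0
  have hQ0n : 0 ≤ Q0 := Real.sqrt_nonneg _
  have hR0n : 0 ≤ R0 := Real.sqrt_nonneg _
  have k1 : a * I0 ≤ (C1 + K1) * (1 + K) * (P0 + Q0 + R0 / r) := by
    have e1 : C1 / r * (∫ x in B, ‖invp (J x) (b x)‖ * wt y0 x) ≤ C1 / r * (K * R0) := by gcongr
    have e2 : C1 * (∫ x in B, ‖b x‖ * wt y0 x) ≤ C1 * (K * Q0) := by gcongr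
    have e3 : K1 * (∫ x in B, ‖b x‖) ≤ K1 * (K * Q0) := by gcongr
    have e4 : C1 / r * (K * R0) = C1 * K * (R0 / r) := by ring
    have hRr : 0 ≤ R0 / r := by positivity
    have e5 : (C1 + K1) * P0 + C1 * K * (R0 / r) + C1 * (K * Q0) + K1 * (K * Q0) ≤
        (C1 + K1) * (1 + K) * (P0 + Q0 + R0 / r) := by
      have : (C1 + K1) * (1 + K) * (P0 + Q0 + R0 / r) - ((C1 + K1) * P0 + C1 * K * (R0 / r)
          + C1 * (K * Q0) + K1 * (K * Q0)) = (C1 + K1) * K * P0 + (C1 + K1) * Q0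
          + C1 * (R0 / r) + K1 * (1 + K) * (R0 / r) := by ring
      have h0 : 0 ≤ (C1 + K1) * K * P0 + (C1 + K1) * Q0
          + C1 * (R0 / r) + K1 * (1 + K) * (R0 / r) := by positivity
      linarith
    linarith
  have k2 : I0 = ((L ^ 2 + 1) ^ 2 * r ^ 2 / c) * (a * I0) := by
    rw [ha]; field_simp
  rw [k2]
  have hS0 : 0 ≤ P0 + Q0 + R0 / r := by positivity
  calc ((L ^ 2 + 1) ^ 2 * r ^ 2 / c) * (a * I0)
      ≤ ((L ^ 2 + 1) ^ 2 * r ^ 2 / c) * ((C1 + K1) * (1 + K) * (P0 + Q0 + R0 / r)) := by gcongr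
    _ = ((C1 + K1) * (1 + K) * ((L ^ 2 + 1) ^ 2 / c)) * r ^ 2 * (P0 + Q0 + R0 / r) := by
        field_simp
    _ ≤ max 0 ((C1 + K1) * (1 + K) * ((L ^ 2 + 1) ^ 2 / c)) * r ^ 2 * (P0 + Q0 + R0 / r) :=
        mul_le_mul_of_nonneg_right
          (mul_le_mul_of_nonneg_right (le_max_right _ _) (sq_nonneg r)) hS0

end

end Crest.Agent.R240.Mono
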