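import Mathlib
import Crest.Agent.R240.Mono5
import Crest.Agent.R240.MonoPw

/-!
Row 240 (S0371): **MONO local**, final statements.
-/

set_option autoImplicit false
set_option maxSynthPendingDepth 3
open MeasureTheory Metric Set

namespace Crest.Agent.R240.Mono

theorem monoLocal : MonoLocal := mono_local pw

end Crest.Agent.R240.Mono
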