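import Mathlib
import Crest.Agent.R240.Lin1
import Crest.Agent.R240.Ch2

/-!
Row 240, MonoM (helper551), part 1: finitely many round charts, uniform constants.
-/

set_option autoImplicit false

open Set Function Filter Metric
open scoped Manifold ContDiff Topology
open Crest.Agent.R240.Ch

namespace Crest.Agent.R240.MonoM

noncomputable section

variable {M : Type*} [TopologicalSpace M] [ChartedSpace E4 M]

/-- a finite family of charts with round balls: `x ∈ M` lies in the inner ball of one of them. -/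
structure Rnd (M : Type*) [TopologicalSpace M] [ChartedSpace E4 M] where
  I : Finset M
  R : ℝ
  Rpos : 0 < R
  rad : M → ℝ
  radge : ∀ p ∈ I, R ≤ rad p
  sub : ∀ p ∈ I, closedBall (chartAt E4 p p) (2 * rad p) ⊆ (chartAt E4 p).target
  cov : ∀ x : M, ∃ p ∈ I, x ∈ (chartAt E4 p).source ∧
    chartAt E4 p x ∈ ball (chartAt E4 p p) (rad p)

theorem Rnd.exists (M : Type*) [TopologicalSpace M] [CompactSpace M] [Nonempty M]
    [ChartedSpace E4 M] : Nonempty (Rnd M) := by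
  have h1 : ∀ p : M, ∃ r : ℝ, 0 < r ∧ closedBall (chartAt E4 p p) (2 * r) ⊆
      (chartAt E4 p).target := by
    intro p
    have ho : (chartAt E4 p).target ∈ 𝓝 (chartAt E4 p p) :=
      (chartAt E4 p).open_target.mem_nhds (mem_chart_target E4 p)
    obtain ⟨e, he, h⟩ := Metric.nhds_basis_closedBall.mem_iff.1 ho
    exact ⟨e / 2, by positivity, by simpa [mul_div_cancel₀] using h⟩
  choose r hr hsub using h1
  let U : M → Set M := fun p =>
    (chartAt E4 p).source ∩ (chartAt E4 p) ⁻¹' ball (chartAt E4 p p) (r p)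
  have hU : ∀ p, IsOpen (U p) := fun p =>
    (chartAt E4 p).isOpen_inter_preimage isOpen_ball
  have hUm : ∀ p, p ∈ U p := fun p => ⟨mem_chart_source E4 p, by simp [hr p]⟩
  obtain ⟨t, ht⟩ := isCompact_univ.elim_finite_subcover U hU
    (fun x _ => mem_iUnion.2 ⟨x, hUm x⟩)
  have hcov : ∀ x : M, ∃ p ∈ t, x ∈ U p := by
    intro x
    have := ht (mem_univ x)
    simpa using this
  have htne : t.Nonempty := by
    obtain ⟨p, hp, _⟩ := hcov (Classical.arbitrary M)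
    exact ⟨p, hp⟩
  obtain ⟨p0, hp0, hmin⟩ := t.exists_min_image r htne
  exact ⟨{ I := t, R := r p0, Rpos := hr p0, rad := r, radge := hmin, sub := fun p _ => hsub p,
           cov := hcov }⟩

/-- the outer closed ball of the chart `p`. -/
def Rnd.K (S : Rnd M) (p : M) : Set E4 := closedBall (chartAt E4 p p) (2 * S.rad p)

lemma Rnd.isCompact_K (S : Rnd M) (p : M) : IsCompact (S.K p) := isCompact_closedBall _ _

lemma Rnd.convex_K (S : Rnd M) (p : M) : Convex ℝ (S.K p) := convex_closedBall _ _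

lemma Rnd.K_sub (S : Rnd M) {p : M} (hp : p ∈ S.I) : S.K p ⊆ (chartAt E4 p).target :=
  S.sub p hp

lemma Rnd.ball_sub (S : Rnd M) {p : M} (hp : p ∈ S.I) {y : E4}
    (hy : y ∈ ball (chartAt E4 p p) (S.rad p)) : closedBall y S.R ⊆ S.K p := by
  intro z hz
  have h1 := S.radge p hp
  have h2 : dist z y ≤ S.R := hz
  have h3 : dist y (chartAt E4 p p) < S.rad p := hy
  have h4 := dist_triangle z y (chartAt E4 p p)
  show dist z _ ≤ _
  linarith

/-- uniform bound of finitely many continuous functions. -/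
lemma Rnd.bdd (S : Rnd M) (g : M → E4 → ℝ)
    (hg : ∀ p ∈ S.I, ContinuousOn (g p) (S.K p)) :
    ∃ C : ℝ, 0 < C ∧ ∀ p ∈ S.I, ∀ y ∈ S.K p, g p y ≤ C := by
  have h1 : ∀ p ∈ S.I, ∃ C : ℝ, ∀ y ∈ S.K p, g p y ≤ C := by
    intro p hp
    obtain ⟨C, hC⟩ := (S.isCompact_K p).bddAbove_image (hg p hp)
    exact ⟨C, fun y hy => hC ⟨y, hy, rfl⟩⟩
  classical
  have h2 : ∀ s : Finset M, s ⊆ S.I → ∃ C : ℝ, 0 < C ∧ ∀ p ∈ s, ∀ y ∈ S.K p, g p y ≤ C := by
    intro s
    induction s using Finset.induction_on with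
    | empty => intro _; exact ⟨1, one_pos, by simp⟩
    | insert a s ha ih =>
      intro hs
      obtain ⟨C, hC, h⟩ := ih ((Finset.subset_insert a s).trans hs)
      obtain ⟨C', h'⟩ := h1 a (hs (Finset.mem_insert_self a s))
      refine ⟨max C C', lt_max_of_lt_left hC, ?_⟩
      intro p hp y hy
      rcases Finset.mem_insert.1 hp with rfl | hp
      · exact (h' y hy).trans (le_max_right _ _)
      · exact (h p hp y hy).trans (le_max_left _ _)
  exact h2 S.I subset_rfl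

/-- uniform positive lower bound. -/
lemma Rnd.bdd_below (S : Rnd M) (g : M → E4 → ℝ)
    (hg : ∀ p ∈ S.I, ContinuousOn (g p) (S.K p)) (hpos : ∀ p ∈ S.I, ∀ y ∈ S.K p, 0 < g p y) :
    ∃ c : ℝ, 0 < c ∧ ∀ p ∈ S.I, ∀ y ∈ S.K p, c ≤ g p y := by
  obtain ⟨C, hC, h⟩ := S.bdd (fun p y => (g p y)⁻¹)
    (fun p hp => (hg p hp).inv₀ fun y hy => (hpos p hp y hy).ne')
  refine ⟨C⁻¹, inv_pos.2 hC, fun p hp y hy => ?_⟩
  have h1 := h p hp y hy
  have h2 := hpos p hp y hy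
  exact inv_le_of_inv_le₀ h2 h1

/-- the constants of a pair `(J, F)` in the round charts. -/
structure Rnd.Const (S : Rnd M) (J : M → E4 → (E4 →L[ℝ] E4)) (F : M → E4 → Bil)
    (c0 C0 : ℝ) : Prop where
  c0pos : 0 < c0
  C0pos : 0 < C0
  low : ∀ p ∈ S.I, ∀ y ∈ S.K p, ∀ v, c0 * ‖v‖ ^ 2 ≤ F p y v (J p y v)
  Fb : ∀ p ∈ S.I, ∀ y ∈ S.K p, ‖F p y‖ ≤ C0
  Jb : ∀ p ∈ S.I, ∀ y ∈ S.K p, ‖J p y‖ ≤ C0
  Jl : ∀ p ∈ S.I, ∀ y ∈ S.K p, ∀ z ∈ S.K p, ‖J p y - J p z‖ ≤ C0 * ‖y - z‖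
  Fl : ∀ p ∈ S.I, ∀ y ∈ S.K p, ∀ z ∈ S.K p, ‖F p y - F p z‖ ≤ C0 * ‖y - z‖
  Wl : ∀ p ∈ S.I, ∀ y ∈ S.K p, c0 ≤ |W (F p y) (F p y)|
  Wb : ∀ p ∈ S.I, ∀ y ∈ S.K p, |W (F p y) (F p y)| ≤ C0

lemma continuous_ent (i j : Fin 4) : Continuous fun b : Bil => ent b i j := by
  unfold ent
  fun_prop

lemma continuousOn_W {X : Type*} [TopologicalSpace X] {s : Set X} {b c : X → Bil}
    (hb : ContinuousOn b s) (hc : ContinuousOn c s) : ContinuousOn (fun x => W (b x) (c x)) s := by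
  have h1 : ∀ i j : Fin 4, ContinuousOn (fun x => ent (b x) i j) s :=
    fun i j => (continuous_ent i j).comp_continuousOn hb
  have h2 : ∀ i j : Fin 4, ContinuousOn (fun x => ent (c x) i j) s :=
    fun i j => (continuous_ent i j).comp_continuousOn hc
  unfold W
  exact ((((((h1 0 1).mul (h2 2 3)).sub ((h1 0 2).mul (h2 1 3))).add
    ((h1 0 3).mul (h2 1 2))).add ((h1 1 2).mul (h2 0 3))).sub
    ((h1 1 3).mul (h2 0 2))).add ((h1 2 3).mul (h2 0 1))

/-- minimum of a positive definite quadratic form on the unit sphere, uniform on compacts -/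
lemma quad_low {K : Set E4} (hK : IsCompact K) (G : E4 → E4 → ℝ)
    (hc : ContinuousOn (fun yv : E4 × E4 => G yv.1 yv.2) (K ×ˢ univ))
    (hs : ∀ y ∈ K, ∀ (a : ℝ) v, G y (a • v) = a ^ 2 * G y v)
    (hp : ∀ y ∈ K, ∀ v, v ≠ 0 → 0 < G y v) :
    ∃ c : ℝ, 0 < c ∧ ∀ y ∈ K, ∀ v, c * ‖v‖ ^ 2 ≤ G y v := by
  rcases K.eq_empty_or_nonempty with rfl | hne
  · exact ⟨1, one_pos, by simp⟩
  have hcomp : IsCompact (K ×ˢ sphere (0 : E4) 1) := hK.prod (isCompact_sphere _ _)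
  have hne' : (K ×ˢ sphere (0 : E4) 1).Nonempty := by
    obtain ⟨y, hy⟩ := hne
    exact ⟨(y, ee 0), hy, by simp [ee]⟩
  obtain ⟨yv, hyv, hmin⟩ := hcomp.exists_isMinOn hne'
    (hc.mono (prod_mono subset_rfl (subset_univ _)))
  have hv0 : yv.2 ≠ 0 := by
    intro h
    have := hyv.2
    rw [h] at this
    simp at this
  refine ⟨G yv.1 yv.2, hp _ hyv.1 _ hv0, ?_⟩
  intro y hy v
  rcases eq_or_ne v 0 with rfl | hv
  · have := hs y hy 0 (0 : E4)
    simp at this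
    simp [this]
  · have hn : ‖v‖ ≠ 0 := norm_ne_zero_iff.2 hv
    have hmem : ((y, ‖v‖⁻¹ • v) : E4 × E4) ∈ K ×ˢ sphere (0 : E4) 1 := by
      refine ⟨hy, ?_⟩
      simp [norm_smul, hn]
    have h1 : G yv.1 yv.2 ≤ G y (‖v‖⁻¹ • v) := hmin hmem
    have h2 := hs y hy ‖v‖ (‖v‖⁻¹ • v)
    rw [smul_smul, mul_inv_cancel₀ hn, one_smul] at h2
    rw [h2]
    nlinarith [sq_nonneg ‖v‖]

/-- uniform Lipschitz bound -/
lemma Rnd.lip {G : Type*} [NormedAddCommGroup G] [NormedSpace ℝ G] (S : Rnd M)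
    (g : M → E4 → G) (hg : ∀ p, ContDiffOn ℝ ∞ (g p) (chartAt E4 p).target) :
    ∃ C : ℝ, 0 < C ∧ ∀ p ∈ S.I, ∀ y ∈ S.K p, ∀ z ∈ S.K p, ‖g p y - g p z‖ ≤ C * ‖y - z‖ := by
  obtain ⟨C, hC, h⟩ := S.bdd (fun p y => ‖fderiv ℝ (g p) y‖) (by
    intro p hp
    have h1 : ContinuousOn (fderiv ℝ (g p)) (chartAt E4 p).target :=
      (hg p).continuousOn_fderiv_of_isOpen (chartAt E4 p).open_target (by simp)
    exact (h1.mono (S.K_sub hp)).norm)
  refine ⟨C, hC, fun p hp y hy z hz => ?_⟩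
  refine Convex.norm_image_sub_le_of_norm_fderiv_le (s := S.K p) (𝕜 := ℝ)
    (fun x hx => ?_) (fun x hx => h p hp x hx) (S.convex_K p) hz hy
  exact ((hg p).contDiffAt ((chartAt E4 p).open_target.mem_nhds (S.K_sub hp hx))).differentiableAt
    (by simp)

theorem Rnd.exists_const (S : Rnd M) (J : M → E4 → (E4 →L[ℝ] E4)) (F : M → E4 → Bil)
    (hJ : ∀ p, ContDiffOn ℝ ∞ (J p) (chartAt E4 p).target)
    (hF : ∀ p, ContDiffOn ℝ ∞ (F p) (chartAt E4 p).target)
    (hpos : ∀ p, ∀ y ∈ (chartAt E4 p).target, ∀ v, v ≠ 0 → 0 < F p y v (J p y v))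
    (hW : ∀ p, ∀ y ∈ (chartAt E4 p).target, W (F p y) (F p y) ≠ 0) :
    ∃ c0 C0 : ℝ, S.Const J F c0 C0 := by
  have cF : ∀ p ∈ S.I, ContinuousOn (F p) (S.K p) := fun p hp =>
    (hF p).continuousOn.mono (S.K_sub hp)
  have cJ : ∀ p ∈ S.I, ContinuousOn (J p) (S.K p) := fun p hp =>
    (hJ p).continuousOn.mono (S.K_sub hp)
  obtain ⟨C1, hC1, h1⟩ := S.bdd (fun p y => ‖F p y‖)
    (fun p hp => (continuous_norm (E := Bil)).comp_continuousOn (cF p hp))
  obtain ⟨C2, hC2, h2⟩ := S.bdd (fun p y => ‖J p y‖) (fun p hp => (cJ p hp).norm)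
  obtain ⟨C3, hC3, h3⟩ := S.lip J hJ
  obtain ⟨C4, hC4, h4⟩ := S.lip F hF
  have cW : ∀ p ∈ S.I, ContinuousOn (fun y => |W (F p y) (F p y)|) (S.K p) := fun p hp =>
    (continuousOn_W (cF p hp) (cF p hp)).abs
  obtain ⟨c5, hc5, h5⟩ := S.bdd_below (fun p y => |W (F p y) (F p y)|) cW
    (fun p hp y hy => abs_pos.2 (hW p y (S.K_sub hp hy)))
  obtain ⟨C6, hC6, h6⟩ := S.bdd (fun p y => |W (F p y) (F p y)|) cW
  -- the lower bound
  have h7 : ∀ p ∈ S.I, ∃ c : ℝ, 0 < c ∧ ∀ y ∈ S.K p, ∀ v, c * ‖v‖ ^ 2 ≤ F p y v (J p y v) := by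
    intro p hp
    apply quad_low (S.isCompact_K p) (fun y v => F p y v (J p y v))
    · have e1 : ContinuousOn (fun yv : E4 × E4 => F p yv.1) (S.K p ×ˢ univ) :=
        (cF p hp).comp continuousOn_fst (fun x hx => hx.1)
      have e2 : ContinuousOn (fun yv : E4 × E4 => J p yv.1) (S.K p ×ˢ univ) :=
        (cJ p hp).comp continuousOn_fst (fun x hx => hx.1)
      have e3 : ContinuousOn (fun yv : E4 × E4 => J p yv.1 yv.2) (S.K p ×ˢ univ) :=
        e2.clm_apply continuousOn_snd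
      exact (e1.clm_apply continuousOn_snd).clm_apply e3
    · intro y hy a v
      simp only [map_smul, smul_apply, smul_eq_mul]
      ring
    · intro y hy v hv
      exact hpos p y (S.K_sub hp hy) v hv
  have h8 : ∃ c : ℝ, 0 < c ∧ ∀ p ∈ S.I, ∀ y ∈ S.K p, ∀ v, c * ‖v‖ ^ 2 ≤ F p y v (J p y v) := by
    classical
    have : ∀ s : Finset M, s ⊆ S.I → ∃ c : ℝ, 0 < c ∧ ∀ p ∈ s, ∀ y ∈ S.K p, ∀ v,
        c * ‖v‖ ^ 2 ≤ F p y v (J p y v) := by
      intro s
      induction s using Finset.induction_on with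
      | empty => intro _; exact ⟨1, one_pos, by simp⟩
      | insert a s ha ih =>
        intro hs
        obtain ⟨c, hc, h⟩ := ih ((Finset.subset_insert a s).trans hs)
        obtain ⟨c', hc', h'⟩ := h7 a (hs (Finset.mem_insert_self a s))
        refine ⟨min c c', lt_min hc hc', ?_⟩
        intro p hp y hy v
        rcases Finset.mem_insert.1 hp with rfl | hp
        · refine le_trans ?_ (h' y hy v)
          gcongr
          exact min_le_right _ _
        · refine le_trans ?_ (h p hp y hy v)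
          gcongr
          exact min_le_left _ _
    exact this S.I subset_rfl
  obtain ⟨c8, hc8, h8⟩ := h8
  refine ⟨min c5 c8, C1 + C2 + C3 + C4 + C6, ?_⟩
  refine ⟨lt_min hc5 hc8, by positivity, ?_, ?_, ?_, ?_, ?_, ?_, ?_⟩
  · intro p hp y hy v
    refine le_trans ?_ (h8 p hp y hy v)
    gcongr
    exact min_le_right _ _
  · intro p hp y hy
    have := h1 p hp y hy
    linarith
  · intro p hp y hy
    have := h2 p hp y hy
    linarith
  · intro p hp y hy z hz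
    refine (h3 p hp y hy z hz).trans ?_
    gcongr
    linarith
  · intro p hp y hy z hz
    refine (h4 p hp y hy z hz).trans ?_
    gcongr
    linarith
  · intro p hp y hy
    exact (min_le_left _ _).trans (h5 p hp y hy)
  · intro p hp y hy
    have := h6 p hp y hy
    linarith

end

end Crest.Agent.R240.MonoM
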