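import Mathlib
import Crest.Agent.R240.MonoM1
import Crest.Agent.R240.MonoDefs
import Crest.Agent.R240.FormDefs
import Crest.Agent.R240.IntMu
import Crest.Agent.R240.Lin4

/-!
Row 240, MonoM (helper551), part 2: pointwise data in a chart.
-/

set_option autoImplicit false

open Set Function Filter Metric MeasureTheory
open scoped Manifold ContDiff Topology ENNReal
open Crest.Agent.R240.Ch Crest.Agent.R240.Int

namespace Crest.Agent.R240.MonoM

noncomputable section

variable {M : Type*} [TopologicalSpace M] [ChartedSpace E4 M] [IsManifold 𝓘(ℝ, E4) ∞ M]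

/-- the coordinate change at `symm y`. -/
abbrev TT (p : M) (y : E4) : E4 →L[ℝ] E4 :=
  tcc p ((chartAt E4 p).symm y) ((chartAt E4 p).symm y)

lemma rep_pull (p : M) (a : F2 E4 M) (y : E4) :
    rep p a y = pull (TT p y) (at2 a ((chartAt E4 p).symm y)) := rep_eq_pull p a y

lemma J_TT (J : EndF E4 M) {p : M} {y : E4} (hy : y ∈ (chartAt E4 p).target) (v : E4) :
    atJ J ((chartAt E4 p).symm y) (TT p y v) = TT p y (repJ p J y v) := by
  rw [repJ_apply, TT, tcc_cancel' (symm_mem hy)]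

lemma TT_inj {p : M} {y : E4} (hy : y ∈ (chartAt E4 p).target) {u v : E4}
    (h : TT p y u = TT p y v) : u = v := by
  have h1 := congrArg (tcc ((chartAt E4 p).symm y) p ((chartAt E4 p).symm y)) h
  have h2 : ∀ w : E4, tcc ((chartAt E4 p).symm y) p ((chartAt E4 p).symm y) (TT p y w) = w := by
    intro w
    rw [TT, tcc_comp (symm_mem hy) (mem_chart_source E4 _) (symm_mem hy), tcc_self (symm_mem hy)]
  rwa [h2, h2] at h1

lemma repJ_sq {J : EndF E4 M} (hJ : ∀ x v, atJ J x (atJ J x v) = -v) {p : M} {y : E4}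
    (hy : y ∈ (chartAt E4 p).target) (v : E4) : repJ p J y (repJ p J y v) = -v := by
  apply TT_inj hy
  rw [← J_TT J hy, ← J_TT J hy, hJ, map_neg]

lemma antip_rep (J : EndF E4 M) (a : F2 E4 M) {p : M} {y : E4}
    (hy : y ∈ (chartAt E4 p).target) :
    antip (repJ p J y) (rep p a y) = pull (TT p y) (antip (atJ J ((chartAt E4 p).symm y))
      (at2 a ((chartAt E4 p).symm y))) := by
  rw [rep_pull]
  ext u v
  rw [antip_apply, pull_apply, pull_apply, pull_apply, antip_apply, ← J_TT J hy, ← J_TT J hy]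

lemma invp_rep (J : EndF E4 M) (a : F2 E4 M) {p : M} {y : E4}
    (hy : y ∈ (chartAt E4 p).target) :
    invp (repJ p J y) (rep p a y) = pull (TT p y) (invp (atJ J ((chartAt E4 p).symm y))
      (at2 a ((chartAt E4 p).symm y))) := by
  rw [rep_pull]
  ext u v
  rw [invp_apply, pull_apply, pull_apply, pull_apply, invp_apply, ← J_TT J hy, ← J_TT J hy]

lemma Pos.pullTT (J : EndF E4 M) {p : M} {y : E4} (hy : y ∈ (chartAt E4 p).target) {P : Bil}
    (h : Pos (atJ J ((chartAt E4 p).symm y)) P) : Pos (repJ p J y) (pull (TT p y) P) where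
  alt := h.alt.pull _
  inv u v := by rw [pull_apply, pull_apply, ← J_TT J hy, ← J_TT J hy, h.inv]
  nonneg v := by rw [pull_apply, ← J_TT J hy]; exact h.nonneg _

lemma SPos.pullTT (J : EndF E4 M) {p : M} {y : E4} (hy : y ∈ (chartAt E4 p).target) {P : Bil}
    (h : SPos (atJ J ((chartAt E4 p).symm y)) P) : SPos (repJ p J y) (pull (TT p y) P) where
  alt := h.alt.pull _
  inv u v := by rw [pull_apply, pull_apply, ← J_TT J hy, ← J_TT J hy, h.inv]
  pos v hv := by
    rw [pull_apply, ← J_TT J hy]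
    apply h.pos
    intro h0
    apply hv
    apply TT_inj hy
    rw [h0, map_zero]

lemma pull_add' (A : E4 →L[ℝ] E4) (b c : Bil) : pull A (b + c) = pull A b + pull A c := by
  ext u v
  simp only [pull_apply, _root_.add_apply]

lemma pull_smul' (A : E4 →L[ℝ] E4) (r : ℝ) (b : Bil) : pull A (r • b) = r • pull A b := by
  ext u v
  simp only [pull_apply, _root_.smul_apply]

/-- pointwise bound of a two-form by `β`, measured with `F(·, J ·)`. -/
def NB (J : EndF E4 M) (F a : F2 E4 M) (β : M → ℝ) : Prop :=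
  ∀ x u v, |at2 a x u v| ≤ β x * (√(at2 F x u (atJ J x u)) * √(at2 F x v (atJ J x v)))

lemma norm_pull_le' {J : EndF E4 M} {F : F2 E4 M} {p : M} {y : E4}
    (hy : y ∈ (chartAt E4 p).target) {C0 : ℝ} (hF : ‖rep p F y‖ ≤ C0) (hJ : ‖repJ p J y‖ ≤ C0)
    {b : Bil} {β : ℝ} (hβ : 0 ≤ β)
    (hb : ∀ u v, |b u v| ≤ β * (√(at2 F ((chartAt E4 p).symm y) u
      (atJ J ((chartAt E4 p).symm y) u)) * √(at2 F ((chartAt E4 p).symm y) v
        (atJ J ((chartAt E4 p).symm y) v)))) :
    ‖pull (TT p y) b‖ ≤ C0 ^ 2 * β := by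
  have hC0 : 0 ≤ C0 := (norm_nonneg (rep p F y)).trans hF
  have key : ∀ u : E4, √(at2 F ((chartAt E4 p).symm y) (TT p y u)
      (atJ J ((chartAt E4 p).symm y) (TT p y u))) ≤ C0 * ‖u‖ := by
    intro u
    have h1 : at2 F ((chartAt E4 p).symm y) (TT p y u)
      (atJ J ((chartAt E4 p).symm y) (TT p y u)) = rep p F y u (repJ p J y u) := by
      rw [rep_pull, pull_apply, J_TT J hy]
    rw [h1]
    apply Real.sqrt_le_iff.2
    refine ⟨by positivity, ?_⟩
    calc rep p F y u (repJ p J y u) ≤ ‖rep p F y u (repJ p J y u)‖ := Real.le_norm_self _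
      _ ≤ ‖rep p F y‖ * ‖u‖ * ‖repJ p J y u‖ := ContinuousLinearMap.le_opNorm₂ _ _ _
      _ ≤ ‖rep p F y‖ * ‖u‖ * (‖repJ p J y‖ * ‖u‖) := by
          gcongr
          exact ContinuousLinearMap.le_opNorm _ _
      _ ≤ C0 * ‖u‖ * (C0 * ‖u‖) := by gcongr
      _ = (C0 * ‖u‖) ^ 2 := by ring
  refine ContinuousLinearMap.opNorm_le_bound₂ _ (by positivity) ?_
  intro u v
  rw [pull_apply, Real.norm_eq_abs]
  refine (hb _ _).trans ?_
  calc β * (√(at2 F ((chartAt E4 p).symm y) (TT p y u)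
      (atJ J ((chartAt E4 p).symm y) (TT p y u))) * √(at2 F ((chartAt E4 p).symm y) (TT p y v)
        (atJ J ((chartAt E4 p).symm y) (TT p y v)))) ≤ β * ((C0 * ‖u‖) * (C0 * ‖v‖)) := by
        gcongr
        · exact key u
        · exact key v
    _ = C0 ^ 2 * β * ‖u‖ * ‖v‖ := by ring

/-- the ratio `q` in a chart. -/
lemma W_rep_eq {F b : F2 E4 M} (hF : Vol F) (hb : ∀ x, Alt (at2 b x)) {p : M} {y : E4}
    (hy : y ∈ (chartAt E4 p).target) :
    W (rep p b y) (rep p F y) = qG F b F ((chartAt E4 p).symm y) *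
      W (rep p F y) (rep p F y) := by
  have h1 : q (rep p F y) (rep p b y) (rep p F y) = qG F b F ((chartAt E4 p).symm y) := by
    rw [rep_pull, rep_pull, qG]
    exact q_pull (hF.alt _) (hb _) (hF.alt _) (det_tcc_ne (symm_mem hy))
  rw [← h1, q, div_mul_cancel₀ _ (hF.rep_ne hy)]

lemma W_antip_eq_zero {J : E4 →L[ℝ] E4} {F b : Bil} (hJ : ∀ v, J (J v) = -v) (hF : SPos J F)
    (hb : Alt b) : W (antip J b) F = 0 := by
  obtain ⟨A, hA⟩ := exists_frame hJ hF
  have h1 := hA.q_eq hF.alt (hb.antip J) hF.alt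
  rw [W_comm (pull (A : E4 →L[ℝ] E4) (antip J b)),
    W_mixed0 ((hb.antip J).pull _) (hA.pull_inv hF.inv)
    (hA.pull_anti (antip_anti hJ b)), zero_div] at h1
  rw [q, div_eq_zero_iff] at h1
  rcases h1 with h1 | h1
  · exact h1
  · exact absurd h1 (hA.W_ne hF.alt)

/-- the pointwise lower bound used in the integral. -/
lemma W_lower {J : E4 →L[ℝ] E4} {F t : Bil} (hJ : ∀ v, J (J v) = -v) (hF : SPos J F)
    (ht : Alt t) {s lam : ℝ} (hs : 0 < s * W F F) (hlam : 0 ≤ lam) :
    s * W t F ≤ s * W (invp J t + lam • F) F := by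
  have h1 : W (invp J t) F = W t F := by
    conv_rhs => rw [← invp_add_antip J t, W_add_left, W_antip_eq_zero hJ hF ht, add_zero]
  rw [W_add_left, W_smul_left, h1]
  have : 0 ≤ lam * (s * W F F) := by positivity
  linarith

end

end Crest.Agent.R240.MonoM
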