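import Mathlib
import Crest.Agent.R240.MonoM2
import Crest.Agent.R240.TopDefs

/-!
Row 240, MonoM (helper551), part 3: transfer of integrals, transfer of balls.
-/

set_option autoImplicit false
set_option maxSynthPendingDepth 3

open Set Function Filter Metric MeasureTheory
open scoped Manifold ContDiff Topology ENNReal
open Crest.Agent.R240.Ch Crest.Agent.R240.Int

namespace Crest.Agent.R240.MonoM

noncomputable section

section Meas

variable {M : Type*} [TopologicalSpace M] [ChartedSpace E4 M] [IsManifold 𝓘(ℝ, E4) ∞ M]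
variable [MeasurableSpace M] [BorelSpace M]

omit [IsManifold 𝓘(ℝ, E4) ∞ M] in
lemma exists_meas_chart (p : M) : ∃ φ : M → E4, Measurable φ ∧
    ∀ x ∈ (chartAt E4 p).source, φ x = chartAt E4 p x := by
  classical
  refine ⟨(chartAt E4 p).source.piecewise (chartAt E4 p) (fun _ => 0), ?_, ?_⟩
  · exact (chartAt E4 p).continuousOn.measurable_piecewise continuousOn_const
      (chartAt E4 p).open_source.measurableSet
  · intro x hx
    exact piecewise_eq_of_mem _ _ _ hx

/-- integrals in a chart are bounded by integrals on `M`. -/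
lemma lintegral_chart_le {F : F2 E4 M} {μ : Measure M} (hv : IsVol F μ) {p : M} {S : Set E4}
    (hS : MeasurableSet S) (hSt : S ⊆ (chartAt E4 p).target) {c : ℝ} (hc : 0 < c)
    (hd : ∀ y ∈ S, c ≤ |W (rep p F y) (rep p F y)|) (f : M → ℝ≥0∞) :
    ∫⁻ y in S, f ((chartAt E4 p).symm y) ≤ ENNReal.ofReal c⁻¹ * ∫⁻ x, f x ∂μ := by
  obtain ⟨g', hg'm, hg'le, hg'eq⟩ := exists_measurable_le_lintegral_eq
    (volume : Measure E4) (S.indicator fun y => f ((chartAt E4 p).symm y))
  obtain ⟨φ, hφm, hφ⟩ := exists_meas_chart (M := M) p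
  set g : M → ℝ≥0∞ := (chartAt E4 p).source.indicator (fun x => g' (φ x)) with hg
  have hgm : Measurable g :=
    (hg'm.comp hφm).indicator (chartAt E4 p).open_source.measurableSet
  have hg0 : ∀ x ∉ (chartAt E4 p).source, g x = 0 := fun x hx => indicator_of_notMem hx _
  have hgle : ∀ x, g x ≤ f x := by
    intro x
    by_cases hx : x ∈ (chartAt E4 p).source
    · rw [hg, indicator_of_mem hx, hφ x hx]
      refine (hg'le _).trans ?_
      by_cases hy : chartAt E4 p x ∈ S
      · rw [indicator_of_mem hy, (chartAt E4 p).left_inv hx]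
      · rw [indicator_of_notMem hy]; exact zero_le
    · rw [hg0 x hx]; exact zero_le
  have h1 := hv p g hgm hg0
  have h2 : ENNReal.ofReal c * ∫⁻ y in S, f ((chartAt E4 p).symm y) ≤ ∫⁻ x, g x ∂μ := by
    rw [h1, ← lintegral_indicator hS, hg'eq]
    calc ENNReal.ofReal c * ∫⁻ y, g' y ≤ ∫⁻ y, ENNReal.ofReal c * g' y :=
          lintegral_const_mul_le _ _
      _ = ∫⁻ y in (chartAt E4 p).target, ENNReal.ofReal c * g' y := by
          rw [← lintegral_indicator (chartAt E4 p).open_target.measurableSet]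
          refine lintegral_congr fun y => ?_
          by_cases hy : y ∈ (chartAt E4 p).target
          · rw [indicator_of_mem hy]
          · rw [indicator_of_notMem hy]
            have h3 := hg'le y
            rw [indicator_of_notMem (fun h => hy (hSt h))] at h3
            have h4 : g' y = 0 := le_antisymm h3 zero_le
            rw [h4, mul_zero]
      _ ≤ ∫⁻ y in (chartAt E4 p).target, g ((chartAt E4 p).symm y) *
            ENNReal.ofReal |W (rep p F y) (rep p F y)| := by
          refine setLIntegral_mono' (chartAt E4 p).open_target.measurableSet fun y hy => ?_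
          have h5 : g ((chartAt E4 p).symm y) = g' y := by
            rw [hg, indicator_of_mem (symm_mem hy), hφ _ (symm_mem hy), (chartAt E4 p).right_inv hy]
          rw [h5, mul_comm]
          by_cases hyS : y ∈ S
          · gcongr
            exact hd y hyS
          · have h3 := hg'le y
            rw [indicator_of_notMem hyS] at h3
            have h4 : g' y = 0 := le_antisymm h3 zero_le
            rw [h4, zero_mul, zero_mul]
  have h3 : ENNReal.ofReal c * ∫⁻ y in S, f ((chartAt E4 p).symm y) ≤ ∫⁻ x, f x ∂μ :=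
    h2.trans (lintegral_mono hgle)
  calc ∫⁻ y in S, f ((chartAt E4 p).symm y)
      = ENNReal.ofReal c⁻¹ * (ENNReal.ofReal c * ∫⁻ y in S, f ((chartAt E4 p).symm y)) := by
        rw [← mul_assoc, ← ENNReal.ofReal_mul (by positivity), inv_mul_cancel₀ hc.ne',
          ENNReal.ofReal_one, one_mul]
    _ ≤ _ := by gcongr

/-- integrals over a small subset of `M` in a chart. -/
lemma lintegral_le_chart {F : F2 E4 M} {μ : Measure M} (hv : IsVol F μ) {p : M} {B : Set M}
    {S : Set E4} (hB : MeasurableSet B) (hS : MeasurableSet S) (hSt : S ⊆ (chartAt E4 p).target)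
    (hBs : B ⊆ (chartAt E4 p).source) (hBS : ∀ x ∈ B, chartAt E4 p x ∈ S) {f : M → ℝ≥0∞}
    (hf : Measurable f) :
    ∫⁻ x in B, f x ∂μ ≤ ∫⁻ y in S, f ((chartAt E4 p).symm y) *
      ENNReal.ofReal |W (rep p F y) (rep p F y)| := by
  have h1 := hv p (B.indicator f) (hf.indicator hB)
    (fun x hx => indicator_of_notMem (fun h => hx (hBs h)) _)
  rw [← lintegral_indicator hB, h1, ← lintegral_indicator hS,
    ← lintegral_indicator (chartAt E4 p).open_target.measurableSet]
  refine lintegral_mono fun y => ?_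
  by_cases hy : y ∈ (chartAt E4 p).target
  · rw [indicator_of_mem hy]
    by_cases hyB : (chartAt E4 p).symm y ∈ B
    · have h2 := hBS _ hyB
      rw [(chartAt E4 p).right_inv hy] at h2
      rw [indicator_of_mem hyB, indicator_of_mem h2]
    · rw [indicator_of_notMem hyB, zero_mul]; exact zero_le
  · rw [indicator_of_notMem hy]; exact zero_le

end Meas

section Balls

variable {M : Type*} [MetricSpace M] [ChartedSpace E4 M]

/-- small balls of `M` around points of the inner ball are contained in the chart ball. -/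
lemma Rnd.exists_ball (S : Rnd M) (hBL : Met.BiLip E4 M) :
    ∃ c δ : ℝ, 0 < c ∧ c ≤ 1 ∧ 0 < δ ∧ ∀ p ∈ S.I, ∀ x ∈ (chartAt E4 p).source,
      chartAt E4 p x ∈ ball (chartAt E4 p p) (S.rad p) → ∀ r ≤ δ, ∀ z ∈ ball x r,
        z ∈ (chartAt E4 p).source ∧ chartAt E4 p z ∈ ball (chartAt E4 p x) (r / c) := by
  have key : ∀ p ∈ S.I, ∃ c δ : ℝ, 0 < c ∧ c ≤ 1 ∧ 0 < δ ∧ ∀ x ∈ (chartAt E4 p).source,
      chartAt E4 p x ∈ ball (chartAt E4 p p) (S.rad p) → ∀ r ≤ δ, ∀ z ∈ ball x r,
        z ∈ (chartAt E4 p).source ∧ chartAt E4 p z ∈ ball (chartAt E4 p x) (r / c) := by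
    intro p hp
    obtain ⟨c, C, hc, hC, hcC⟩ := hBL p (S.K p) (S.isCompact_K p) (S.K_sub hp)
    have hrad : 0 < S.rad p := S.Rpos.trans_le (S.radge p hp)
    set K1 : Set M := (chartAt E4 p).symm '' closedBall (chartAt E4 p p) (S.rad p) with hK1
    set U : Set M := (chartAt E4 p).source ∩
      (chartAt E4 p) ⁻¹' ball (chartAt E4 p p) (2 * S.rad p) with hU
    have hUo : IsOpen U := (chartAt E4 p).isOpen_inter_preimage isOpen_ball
    have hsub1 : closedBall (chartAt E4 p p) (S.rad p) ⊆ (chartAt E4 p).target :=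
      (closedBall_subset_closedBall (by linarith)).trans (S.K_sub hp)
    have hK1c : IsCompact K1 := (isCompact_closedBall _ _).image_of_continuousOn
      ((chartAt E4 p).continuousOn_symm.mono hsub1)
    have hK1U : K1 ⊆ U := by
      rintro x ⟨y, hy, rfl⟩
      have hyt := hsub1 hy
      refine ⟨symm_mem hyt, ?_⟩
      rw [mem_preimage, (chartAt E4 p).right_inv hyt]
      exact closedBall_subset_ball (by linarith) hy
    obtain ⟨δ, hδ, hδU⟩ := hK1c.exists_thickening_subset_open hUo hK1U
    refine ⟨min c 1, δ, lt_min hc one_pos, min_le_right _ _, hδ, ?_⟩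
    intro x hx hxb r hr z hz
    have hxK1 : x ∈ K1 := ⟨chartAt E4 p x, ball_subset_closedBall hxb,
      (chartAt E4 p).left_inv hx⟩
    have hzU : z ∈ U := hδU (mem_thickening_iff.2 ⟨x, hxK1, (mem_ball.1 hz).trans_le hr⟩)
    refine ⟨hzU.1, ?_⟩
    have h1 := hcC (chartAt E4 p z) (ball_subset_closedBall hzU.2) (chartAt E4 p x)
      (closedBall_subset_closedBall (by linarith) (ball_subset_closedBall hxb))
    rw [(chartAt E4 p).left_inv hzU.1, (chartAt E4 p).left_inv hx] at h1
    have hm : 0 < min c 1 := lt_min hc one_pos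
    rw [mem_ball, dist_eq_norm, lt_div_iff₀ hm]
    calc ‖chartAt E4 p z - chartAt E4 p x‖ * min c 1
        ≤ ‖chartAt E4 p z - chartAt E4 p x‖ * c := by
          gcongr
          exact min_le_left _ _
      _ = c * ‖chartAt E4 p z - chartAt E4 p x‖ := mul_comm _ _
      _ ≤ dist z x := h1.1
      _ < r := hz
  classical
  have h2 : ∀ s : Finset M, s ⊆ S.I → ∃ c δ : ℝ, 0 < c ∧ c ≤ 1 ∧ 0 < δ ∧ ∀ p ∈ s,
      ∀ x ∈ (chartAt E4 p).source,
      chartAt E4 p x ∈ ball (chartAt E4 p p) (S.rad p) → ∀ r ≤ δ, ∀ z ∈ ball x r,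
        z ∈ (chartAt E4 p).source ∧ chartAt E4 p z ∈ ball (chartAt E4 p x) (r / c) := by
    intro s
    induction s using Finset.induction_on with
    | empty => intro _; exact ⟨1, 1, one_pos, le_rfl, one_pos, by simp⟩
    | insert a s ha ih =>
      intro hs
      obtain ⟨c, δ, hc, hc1, hδ, h⟩ := ih ((Finset.subset_insert a s).trans hs)
      obtain ⟨c', δ', hc', hc1', hδ', h'⟩ := key a (hs (Finset.mem_insert_self a s))
      refine ⟨min c c', min δ δ', lt_min hc hc', (min_le_left _ _).trans hc1, lt_min hδ hδ', ?_⟩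
      intro p hp x hx hxb r hr z hz
      have hr0 : 0 ≤ r := dist_nonneg.trans (mem_ball.1 hz).le
      have hmin : 0 < min c c' := lt_min hc hc'
      rcases Finset.mem_insert.1 hp with rfl | hp
      · obtain ⟨h3, h4⟩ := h' x hx hxb r (hr.trans (min_le_right _ _)) z hz
        refine ⟨h3, ball_subset_ball ?_ h4⟩
        gcongr
        exact min_le_right _ _
      · obtain ⟨h3, h4⟩ := h p hp x hx hxb r (hr.trans (min_le_left _ _)) z hz
        refine ⟨h3, ball_subset_ball ?_ h4⟩
        gcongr
        exact min_le_left _ _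
  exact h2 S.I subset_rfl

end Balls

/-- constant sign of a nonvanishing continuous function on a ball. -/
lemma exists_sign {y0 : E4} {R : ℝ} (hR : 0 < R) {g : E4 → ℝ} (hg : ContinuousOn g (ball y0 R))
    (h0 : ∀ y ∈ ball y0 R, g y ≠ 0) : ∃ s : ℝ, (s = 1 ∨ s = -1) ∧ ∀ y ∈ ball y0 R, 0 < s * g y := by
  have hc : IsPreconnected (ball y0 R) := (convex_ball y0 R).isPreconnected
  have hy0 : y0 ∈ ball y0 R := mem_ball_self hR
  rcases lt_or_gt_of_ne (h0 y0 hy0) with hneg | hpos
  · refine ⟨-1, Or.inr rfl, fun y hy => ?_⟩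
    by_contra hcon
    have hy' : 0 ≤ g y := by linarith
    obtain ⟨z, hz, hz0⟩ := hc.intermediate_value hy0 hy hg ⟨hneg.le, hy'⟩
    exact h0 z hz hz0
  · refine ⟨1, Or.inl rfl, fun y hy => ?_⟩
    by_contra hcon
    have hy' : g y ≤ 0 := by linarith
    obtain ⟨z, hz, hz0⟩ := hc.intermediate_value hy hy0 hg ⟨hy', hpos.le⟩
    exact h0 z hz hz0

end

end Crest.Agent.R240.MonoM
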