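import Mathlib
import Crest.Agent.R240.MonoM3
import Crest.Agent.R240.XDefs

/-!
Row 240, MonoM (helper551), part 4: local monotonicity on `M` (in terms of pointwise bounds `NB`).
-/

set_option autoImplicit false
set_option maxSynthPendingDepth 3

open Set Function Filter Metric MeasureTheory
open scoped Manifold ContDiff Topology ENNReal
open Crest.Agent.R240.Ch Crest.Agent.R240.Int

namespace Crest.Agent.R240.MonoM

noncomputable section

/-- closedness in the form of `En.Cl`. -/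
lemma cl_of_closed {M : Type*} [TopologicalSpace M] [ChartedSpace E4 M]
    [IsManifold 𝓘(ℝ, E4) ∞ M] {a : F2 E4 M} (ha : Smooth2 a) (hc : Closed2 a) {p : M} {y : E4}
    (hy : y ∈ (chartAt E4 p).target) : En.Cl (rep p a) y := by
  intro u v w
  have h := hc p y hy u v w
  have hd := ha.diff hy
  have h1 : fderiv ℝ (rep p a) y v u w = - fderiv ℝ (rep p a) y v w u := by
    have h2 := fderiv_pair (E := E4) (b := rep p a) (Y := fun _ => u) (Z := fun _ => w) hd
      (differentiableAt_const _) (differentiableAt_const _) v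
    have h3 := fderiv_pair (E := E4) (b := rep p a) (Y := fun _ => w) (Z := fun _ => u) hd
      (differentiableAt_const _) (differentiableAt_const _) v
    have h4 : (fun z => rep p a z u w) = fun z => - rep p a z w u := by
      funext z
      exact ha.antisymm_rep p z u w
    rw [h4, fderiv_fun_neg] at h2
    have e0 : fderiv ℝ (fun _ : E4 => w) y = 0 := by simp
    have e1 : fderiv ℝ (fun _ : E4 => u) y = 0 := by simp
    rw [e0, e1] at h2 h3
    have h5 : (-fderiv ℝ (fun z => rep p a z w u) y) v = - (fderiv ℝ (fun z => rep p a z w u) y v) :=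
      rfl
    rw [h5, h3] at h2
    simp only [ContinuousLinearMap.zero_apply, map_zero, add_zero, zero_apply] at h2
    linarith
  simp only [dd] at h
  linarith

section

variable {M : Type*} [TopologicalSpace M] [ChartedSpace E4 M] [IsManifold 𝓘(ℝ, E4) ∞ M]
variable [MeasurableSpace M] [BorelSpace M]

/-- real version of `lintegral_chart_le`. -/
lemma integral_chart_le {F : F2 E4 M} {μ : Measure M} (hv : IsVol F μ) {p : M} {S : Set E4}
    (hS : MeasurableSet S) (hSt : S ⊆ (chartAt E4 p).target) {c : ℝ} (hc : 0 < c)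
    (hd : ∀ y ∈ S, c ≤ |W (rep p F y) (rep p F y)|) {g : E4 → ℝ} {G : M → ℝ}
    (hg : IntegrableOn g S) (hg0 : ∀ y ∈ S, 0 ≤ g y) (hG : Integrable G μ) (hG0 : ∀ x, 0 ≤ G x)
    (hgG : ∀ y ∈ S, g y ≤ G ((chartAt E4 p).symm y)) :
    ∫ y in S, g y ≤ c⁻¹ * ∫ x, G x ∂μ := by
  have h0 : 0 ≤ c⁻¹ * ∫ x, G x ∂μ := mul_nonneg (inv_nonneg.2 hc.le) (integral_nonneg hG0)
  rw [← ENNReal.ofReal_le_ofReal_iff h0,
    ofReal_integral_eq_lintegral_ofReal hg ((ae_restrict_iff' hS).2 (Eventually.of_forall hg0)),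
    ENNReal.ofReal_mul (inv_nonneg.2 hc.le),
    ofReal_integral_eq_lintegral_ofReal hG (Eventually.of_forall hG0)]
  refine le_trans ?_ (lintegral_chart_le hv hS hSt hc hd (fun x => ENNReal.ofReal (G x)))
  refine setLIntegral_mono' hS fun y hy => ?_
  exact ENNReal.ofReal_le_ofReal (hgG y hy)

/-- real version of `lintegral_le_chart`. -/
lemma integral_le_chart {F : F2 E4 M} {μ : Measure M} (hv : IsVol F μ) {p : M} {B : Set M}
    {S : Set E4} (hB : MeasurableSet B) (hS : MeasurableSet S) (hSt : S ⊆ (chartAt E4 p).target)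
    (hBs : B ⊆ (chartAt E4 p).source) (hBS : ∀ x ∈ B, chartAt E4 p x ∈ S) {f : M → ℝ}
    (hf : Measurable f) (hfi : Integrable f μ) (hf0 : ∀ x, 0 ≤ f x) {g : E4 → ℝ}
    (hg : IntegrableOn g S) (hg0 : ∀ y ∈ S, 0 ≤ g y)
    (hfg : ∀ y ∈ S, f ((chartAt E4 p).symm y) * |W (rep p F y) (rep p F y)| ≤ g y) :
    ∫ x in B, f x ∂μ ≤ ∫ y in S, g y := by
  have h0 : 0 ≤ ∫ y in S, g y := setIntegral_nonneg hS hg0
  rw [← ENNReal.ofReal_le_ofReal_iff h0,
    ofReal_integral_eq_lintegral_ofReal hg ((ae_restrict_iff' hS).2 (Eventually.of_forall hg0)),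
    ofReal_integral_eq_lintegral_ofReal hfi.integrableOn (Eventually.of_forall hf0)]
  refine (lintegral_le_chart hv hB hS hSt hBs hBS hf.ennreal_ofReal).trans ?_
  refine setLIntegral_mono' hS fun y hy => ?_
  rw [← ENNReal.ofReal_mul (hf0 _)]
  exact ENNReal.ofReal_le_ofReal (hfg y hy)

end

/-- `Mono.MonoLocal` with the parentheses in the conclusion. -/
def ML : Prop := ∀ m L A r0 : ℝ, 0 < m → 0 < r0 → ∃ C : ℝ, 0 ≤ C ∧
  ∀ (y0 : E4) (J : E4 → E4 →L[ℝ] E4) (F : E4 → Bil) (s : ℝ) (t b : E4 → Bil) (p : E4 → ℝ)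
    (ε r : ℝ), Mono.Geo y0 r0 m L J F → (s = 1 ∨ s = -1) →
    (∀ x ∈ ball y0 r0, 0 < s * W (F x) (F x)) →
    ContDiffOn ℝ 1 (fun x => t x + b x) (ball y0 r0) →
    (∀ x ∈ ball y0 r0, En.Cl (fun x => t x + b x) x) →
    ContinuousOn b (ball y0 r0) →
    (∀ x ∈ ball y0 r0, Alt (t x)) → (∀ x ∈ ball y0 r0, Alt (b x)) →
    IntegrableOn p (ball y0 r0) → IntegrableOn (fun x => ‖b x‖ ^ 2) (ball y0 r0) →
    (∀ x ∈ ball y0 r0, ‖t x‖ ≤ p x) →
    (∀ x ∈ ball y0 r0, ‖antip (J x) (t x)‖ ≤ A * ε * p x) →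
    (∀ x ∈ ball y0 r0, Pos (J x) (invp (J x) (t x) + (A * ε ^ 2 * p x) • F x)) →
    0 < ε → ε ≤ r → r ≤ r0 / 2 →
    ∫ x in ball y0 r, s * W (invp (J x) (t x) + (A * ε ^ 2 * p x) • F x) (F x) ≤
      C * r ^ 2 * ((∫ x in ball y0 r0, p x) + √(∫ x in ball y0 r0, ‖b x‖ ^ 2)
        + √(∫ x in ball y0 r0, ‖invp (J x) (b x)‖ ^ 2) / r)

/-- integral of a function plus a nonnegative constant. -/
lemma int_add_const {y0 : E4} {r0 : ℝ} {p : E4 → ℝ} (hp : IntegrableOn p (ball y0 r0))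
    (hp0 : ∀ x ∈ ball y0 r0, 0 ≤ p x) {a b : ℝ} (ha : 0 ≤ a) (hb : 0 ≤ b) :
    ∫ x in ball y0 r0, (p x + a + b) ≤
      (1 + (volume : Measure E4).real (ball 0 r0)) * ((∫ x in ball y0 r0, p x) + a + b) := by
  have hfin : (volume : Measure E4) (ball y0 r0) ≠ ⊤ := measure_ball_lt_top.ne
  have hvol : (volume : Measure E4).real (ball y0 r0) = (volume : Measure E4).real (ball 0 r0) := by
    unfold Measure.real
    rw [Measure.addHaar_ball_center]
  have h1 : ∫ x in ball y0 r0, (p x + a + b) = (∫ x in ball y0 r0, p x) +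
      (volume : Measure E4).real (ball y0 r0) * (a + b) := by
    have h2 : ∀ x, p x + a + b = p x + (a + b) := fun x => by ring
    simp only [h2]
    rw [integral_add hp (integrableOn_const hfin)]
    simp
  have h3 : 0 ≤ ∫ x in ball y0 r0, p x := setIntegral_nonneg measurableSet_ball hp0
  have h4 : 0 ≤ (volume : Measure E4).real (ball 0 r0) := measureReal_nonneg
  rw [h1, hvol]
  nlinarith [mul_nonneg h4 h3]

theorem ml_of (h : Mono.MonoLocal) : ML := by
  first
  | exact h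
  | (intro m L A r0 hm hr0
     obtain ⟨C, hC, H⟩ := h m L A r0 hm hr0
     refine ⟨C * (1 + (volume : Measure E4).real (ball 0 r0)),
       mul_nonneg hC (by have : 0 ≤ (volume : Measure E4).real (ball 0 r0) := measureReal_nonneg
                         linarith), ?_⟩
     intro y0 J F s t b p ε r h1 h2 h3 h4 h5 h6 h7 h8 h9 h10 h11 h12 h13 h14 h15 h16
     refine (H y0 J F s t b p ε r h1 h2 h3 h4 h5 h6 h7 h8 h9 h10 h11 h12 h13 h14 h15 h16).trans ?_
     have hr : 0 < r := h14.trans_le h15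
     have hb := int_add_const h9 (fun x hx => (norm_nonneg (t x)).trans (h11 x hx))
       (a := √(∫ x in ball y0 r0, ‖b x‖ ^ 2))
       (b := √(∫ x in ball y0 r0, ‖invp (J x) (b x)‖ ^ 2) / r)
       (Real.sqrt_nonneg _) (div_nonneg (Real.sqrt_nonneg _) hr.le)
     have hCr : 0 ≤ C * r ^ 2 := by positivity
     refine (mul_le_mul_of_nonneg_left hb hCr).trans (le_of_eq ?_)
     ring)

set_option maxHeartbeats 1000000 in
/-- **local monotonicity on `M`**, with pointwise bounds. -/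
theorem mono_NB (hML : ML) {M : Type*} [MetricSpace M] [CompactSpace M]
    [ChartedSpace E4 M] [IsManifold 𝓘(ℝ, E4) ∞ M] [MeasurableSpace M] [BorelSpace M]
    (hBL : Met.BiLip E4 M) {J : EndF E4 M} (hJ : SmoothJ J)
    (hsq : ∀ x v, atJ J x (atJ J x v) = -v) {F : F2 E4 M} (hF : Smooth2 F) (hpos : SPosG J F)
    (hVol : Vol F) {μ : Measure M} (hv : IsVol F μ) {A : ℝ} (hA : 1 ≤ A) :
    ∃ C r0 : ℝ, 0 < C ∧ 0 < r0 ∧ ∀ (t b : F2 E4 M) (P β β' : M → ℝ) (ε : ℝ), 0 < ε →
      Smooth2 t → Smooth2 b → Closed2 (t + b) → Continuous P → (∀ x, 0 ≤ P x) →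
      (∀ x, 0 ≤ β x) → (∀ x, 0 ≤ β' x) → Integrable P μ → Integrable (fun x => β x ^ 2) μ →
      Integrable (fun x => β' x ^ 2) μ → NB J F t (fun x => A * P x) →
      NB J F (bpp J t) (fun x => A * ε * P x) →
      (∀ x v, -(A * ε ^ 2 * P x) * at2 F x v (atJ J x v) ≤ at2 t x v (atJ J x v)) →
      (∀ x, P x ≤ A * qG F t F x) → NB J F b β → NB J F (bp J b) β' →
      ∀ x r, ε ≤ r → r ≤ r0 → ∫ z in ball x r, P z ∂μ ≤
        C * r ^ 2 * (∫ z, P z ∂μ + √(∫ z, β z ^ 2 ∂μ) + √(∫ z, β' z ^ 2 ∂μ) / r) := by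
  rcases isEmpty_or_nonempty M with hM | hM
  · exact ⟨1, 1, one_pos, one_pos, fun _ _ _ _ _ _ _ _ _ _ _ _ _ _ _ _ _ _ _ _ _ _ _ x =>
      (hM.false x).elim⟩
  obtain ⟨S⟩ := Rnd.exists M
  obtain ⟨c0, C0, hCon⟩ := S.exists_const (fun p => repJ p J) (fun p => rep p F) hJ hF.2 (by
      intro p y hy v hv0
      have h := SPos.pullTT J hy (hpos ((chartAt E4 p).symm y))
      rw [← rep_pull] at h
      exact h.pos v hv0) (fun p y hy => hVol.rep_ne hy)
  obtain ⟨c, δ, hc, hc1, hδ, hball⟩ := S.exists_ball hBL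
  obtain ⟨CL, hCL0, hCL⟩ := hML c0 C0 A S.R hCon.c0pos S.Rpos
  have hR := S.Rpos
  have hc0 := hCon.c0pos
  have hC0 := hCon.C0pos
  set C1 : ℝ := A * C0 ^ 2 + 1 with hC1
  have hC1pos : 0 < C1 := by positivity
  set C2 : ℝ := C1 / c0 + √(C0 ^ 4 / c0) with hC2
  have hC2pos : 0 < C2 := by positivity
  refine ⟨A * (CL / c ^ 2 * C2) + 1, min δ (c * S.R / 2), by positivity, by positivity, ?_⟩
  intro t b P β β' ε hε ht hb hcl hPc hP0 hβ0 hβ'0 hPi hβi hβ'i ht1 ht2 ht3 ht4 hb1 hb2 x r hεr hr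
  obtain ⟨p, hp, hxs, hxb⟩ := S.cov x
  set y0 : E4 := chartAt E4 p x with hy0
  have hKt := S.K_sub hp
  have hBK : closedBall y0 S.R ⊆ S.K p := S.ball_sub hp hxb
  have hbK : ball y0 S.R ⊆ S.K p := ball_subset_closedBall.trans hBK
  have hbt : ball y0 S.R ⊆ (chartAt E4 p).target := hbK.trans hKt
  have hr0 : 0 < r := hε.trans_le hεr
  set r' : ℝ := r / c with hr'
  have hr'0 : 0 < r' := by positivity
  have hrr' : r ≤ r' := by
    rw [hr', le_div_iff₀ hc]
    nlinarith
  have hr'R : r' ≤ S.R / 2 := by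
    rw [hr', div_le_iff₀ hc]
    have := hr.trans (min_le_right _ _)
    linarith
  have hbr' : ball y0 r' ⊆ ball y0 S.R := ball_subset_ball (by linarith)
  -- geometry
  have hpos' : ∀ y ∈ (chartAt E4 p).target, SPos (repJ p J y) (rep p F y) := by
    intro y hy
    rw [rep_pull]
    exact SPos.pullTT J hy (hpos _)
  have cJ : ContinuousOn (repJ p J) (S.K p) := (hJ p).continuousOn.mono hKt
  have cF : ContinuousOn (rep p F) (S.K p) := (hF.2 p).continuousOn.mono hKt
  have ct : ContinuousOn (rep p t) (S.K p) := (ht.2 p).continuousOn.mono hKt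
  have cb : ContinuousOn (rep p b) (S.K p) := (hb.2 p).continuousOn.mono hKt
  have cP : ContinuousOn (fun y => P ((chartAt E4 p).symm y)) (S.K p) :=
    hPc.comp_continuousOn ((chartAt E4 p).continuousOn_symm.mono hKt)
  have hGeo : Mono.Geo y0 S.R c0 C0 (repJ p J) (rep p F) :=
    { contJ := cJ.mono hbK
      contF := cF.mono hbK
      sq := fun y hy v => repJ_sq hsq (hbt hy) v
      spos := fun y hy => hpos' y (hbt hy)
      low := fun y hy v => hCon.low p hp y (hbK hy) v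
      bdF := fun y hy => hCon.Fb p hp y (hbK hy)
      bdJ := fun y hy => hCon.Jb p hp y (hbK hy)
      lip := fun y hy => hCon.Jl p hp y (hbK hy) y0 (hBK (mem_closedBall_self hR.le)) }
  obtain ⟨s, hs1, hs2⟩ := exists_sign (y0 := y0) hR
    (g := fun y => W (rep p F y) (rep p F y)) (continuousOn_W (cF.mono hbK) (cF.mono hbK))
    (fun y hy => hVol.rep_ne (hbt hy))
  have hsabs : ∀ y ∈ ball y0 S.R, |W (rep p F y) (rep p F y)| = s * W (rep p F y) (rep p F y) := by
    intro y hy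
    have h1 := hs2 y hy
    rcases hs1 with rfl | rfl
    · rw [one_mul] at h1 ⊢
      exact abs_of_pos h1
    · rw [neg_one_mul] at h1 ⊢
      exact abs_of_neg (by linarith)
  have halt_t : ∀ z, Alt (at2 t z) := fun z v => ht.1 z v
  have halt_b : ∀ z, Alt (at2 b z) := fun z v => hb.1 z v
  have harep_t : ∀ y, Alt (rep p t y) := fun y => rep_alt halt_t p y
  have harep_b : ∀ y, Alt (rep p b y) := fun y => rep_alt halt_b p y
  -- pointwise bounds in the chart
  have ploc0 : ∀ y, 0 ≤ C1 * P ((chartAt E4 p).symm y) := fun y => mul_nonneg hC1pos.le (hP0 _)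
  have hC12 : A * C0 ^ 2 ≤ C1 := by rw [hC1]; linarith
  have hA0 : 0 < A := by linarith
  have n1 : ∀ y ∈ ball y0 S.R, ‖rep p t y‖ ≤ C1 * P ((chartAt E4 p).symm y) := by
    intro y hy
    rw [rep_pull]
    refine (norm_pull_le' (hbt hy) (hCon.Fb p hp y (hbK hy)) (hCon.Jb p hp y (hbK hy))
      (mul_nonneg hA0.le (hP0 _)) (ht1 _)).trans ?_
    calc C0 ^ 2 * (A * P ((chartAt E4 p).symm y)) = A * C0 ^ 2 * P ((chartAt E4 p).symm y) := by
          ring
      _ ≤ C1 * P ((chartAt E4 p).symm y) := mul_le_mul_of_nonneg_right hC12 (hP0 _)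
  have n2 : ∀ y ∈ ball y0 S.R, ‖antip (repJ p J y) (rep p t y)‖ ≤
      A * ε * (C1 * P ((chartAt E4 p).symm y)) := by
    intro y hy
    rw [antip_rep J t (hbt hy)]
    refine (norm_pull_le' (hbt hy) (hCon.Fb p hp y (hbK hy)) (hCon.Jb p hp y (hbK hy))
      (mul_nonneg (mul_nonneg hA0.le hε.le) (hP0 _)) (ht2 _)).trans ?_
    have h1 : C0 ^ 2 ≤ C1 := by
      rw [hC1]
      nlinarith [sq_nonneg C0]
    calc C0 ^ 2 * (A * ε * P ((chartAt E4 p).symm y))
        ≤ C1 * (A * ε * P ((chartAt E4 p).symm y)) :=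
          mul_le_mul_of_nonneg_right h1 (mul_nonneg (mul_nonneg hA0.le hε.le) (hP0 _))
      _ = A * ε * (C1 * P ((chartAt E4 p).symm y)) := by ring
  have n3 : ∀ y ∈ ball y0 S.R, Pos (repJ p J y) (invp (repJ p J y) (rep p t y) +
      (A * ε ^ 2 * (C1 * P ((chartAt E4 p).symm y))) • rep p F y) := by
    intro y hy
    have hJy : ∀ v, repJ p J y (repJ p J y v) = -v := repJ_sq hsq (hbt hy)
    have hFy := hpos' y (hbt hy)
    refine ⟨Alt.add ((harep_t y).invp _) (hFy.alt.smul _), fun u v => ?_, fun v => ?_⟩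
    · have e1 : ∀ u v, (invp (repJ p J y) (rep p t y) +
        (A * ε ^ 2 * (C1 * P ((chartAt E4 p).symm y))) • rep p F y) u v =
          invp (repJ p J y) (rep p t y) u v +
          (A * ε ^ 2 * (C1 * P ((chartAt E4 p).symm y))) * rep p F y u v := fun _ _ => rfl
      rw [e1, e1, invp_inv hJy, hFy.inv]
    · have e1 : (invp (repJ p J y) (rep p t y) +
        (A * ε ^ 2 * (C1 * P ((chartAt E4 p).symm y))) • rep p F y) v (repJ p J y v) =
          invp (repJ p J y) (rep p t y) v (repJ p J y v) +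
          (A * ε ^ 2 * (C1 * P ((chartAt E4 p).symm y))) * rep p F y v (repJ p J y v) := rfl
      rw [e1, invp_diag hJy (harep_t y)]
      have e2 := ht3 ((chartAt E4 p).symm y) (TT p y v)
      rw [J_TT J (hbt hy)] at e2
      have e3 : ∀ a : F2 E4 M, at2 a ((chartAt E4 p).symm y) (TT p y v)
          (TT p y (repJ p J y v)) = rep p a y v (repJ p J y v) := fun a => by
        rw [rep_pull, pull_apply]
      rw [e3, e3] at e2
      have e4 : 0 ≤ rep p F y v (repJ p J y v) := by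
        rcases eq_or_ne v 0 with rfl | hv0
        · simp
        · exact (hFy.pos v hv0).le
      have e5 : A * ε ^ 2 * P ((chartAt E4 p).symm y) ≤
          A * ε ^ 2 * (C1 * P ((chartAt E4 p).symm y)) := by
        have h1 : 1 ≤ C1 := by rw [hC1]; nlinarith [sq_nonneg C0]
        have h2 : P ((chartAt E4 p).symm y) ≤ C1 * P ((chartAt E4 p).symm y) := by
          have := mul_le_mul_of_nonneg_right h1 (hP0 ((chartAt E4 p).symm y))
          linarith
        exact mul_le_mul_of_nonneg_left h2 (by positivity)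
      have e6 := mul_le_mul_of_nonneg_right e5 e4
      linarith
  -- integrability
  have hcomp : IsCompact (closedBall y0 S.R) := isCompact_closedBall _ _
  have int_of_cont : ∀ {g : E4 → ℝ}, ContinuousOn g (S.K p) → IntegrableOn g (ball y0 S.R) := by
    intro g hg
    exact ((hg.mono hBK).integrableOn_compact hcomp).mono_set ball_subset_closedBall
  have i1 : IntegrableOn (fun y => C1 * P ((chartAt E4 p).symm y)) (ball y0 S.R) :=
    int_of_cont (continuousOn_const.mul cP)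
  have i2 : IntegrableOn (fun y => ‖rep p b y‖ ^ 2) (ball y0 S.R) :=
    int_of_cont (cb.norm.pow 2)
  have cpull : ∀ {a : F2 E4 M}, ContinuousOn (rep p a) (S.K p) →
      ContinuousOn (fun y => invp (repJ p J y) (rep p a y)) (S.K p) := by
    intro a ca
    have h1 : ContinuousOn (fun y => pull (repJ p J y) (rep p a y)) (S.K p) := by
      unfold pull
      have h2 : ContinuousOn (fun y => (ContinuousLinearMap.compL ℝ E4 E4 ℝ).flip (repJ p J y))
          (S.K p) := (ContinuousLinearMap.continuous _).comp_continuousOn cJ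
      exact h2.clm_comp (ca.clm_comp cJ)
    have h3 : ContinuousOn (fun y => rep p a y + pull (repJ p J y) (rep p a y)) (S.K p) :=
      ca.add h1
    have h4 : Continuous fun b : Bil => (1 / 2 : ℝ) • b := continuous_const_smul _
    exact h4.comp_continuousOn h3
  have i3 : IntegrableOn (fun y => ‖invp (repJ p J y) (rep p b y)‖ ^ 2) (ball y0 S.R) :=
    int_of_cont ((cpull cb).norm.pow 2)
  have cG : ContinuousOn (fun y => s * W (invp (repJ p J y) (rep p t y) +
      (A * ε ^ 2 * (C1 * P ((chartAt E4 p).symm y))) • rep p F y) (rep p F y)) (S.K p) := by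
    have h1 : ContinuousOn (fun y => (A * ε ^ 2 * (C1 * P ((chartAt E4 p).symm y)))) (S.K p) :=
      continuousOn_const.mul (continuousOn_const.mul cP)
    have h2 : ContinuousOn (fun y => (A * ε ^ 2 * (C1 * P ((chartAt E4 p).symm y))) • rep p F y)
      (S.K p) := h1.smul cF
    exact continuousOn_const.mul (continuousOn_W ((cpull ct).add h2) cF)
  -- apply the local statement
  have hloc := hCL y0 (repJ p J) (rep p F) s (rep p t) (rep p b)
    (fun y => C1 * P ((chartAt E4 p).symm y)) ε r' hGeo hs1 hs2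
    ((((ht.2 p).add (hb.2 p)).mono hbt).of_le (by simp))
    (fun y hy => by
      have h1 := cl_of_closed (ht.add hb) hcl (hbt hy)
      have h2 : rep p (t + b) = fun y => rep p t y + rep p b y := funext (rep_add p t b)
      rwa [h2] at h1)
    (cb.mono hbK) (fun y _ => harep_t y) (fun y _ => harep_b y) i1 i2 n1 n2 n3 hε
    (hεr.trans hrr') hr'R
  -- the left-hand side
  have hL : ∫ z in ball x r, P z ∂μ ≤ ∫ y in ball y0 r',
      A * (s * W (invp (repJ p J y) (rep p t y) +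
      (A * ε ^ 2 * (C1 * P ((chartAt E4 p).symm y))) • rep p F y) (rep p F y)) := by
    have hpt : ∀ y ∈ ball y0 r', P ((chartAt E4 p).symm y) * |W (rep p F y) (rep p F y)| ≤
        A * (s * W (invp (repJ p J y) (rep p t y) +
      (A * ε ^ 2 * (C1 * P ((chartAt E4 p).symm y))) • rep p F y) (rep p F y)) := by
      intro y hy
      have hyR := hbr' hy
      rw [hsabs y hyR]
      have h1 := W_rep_eq hVol halt_t (hbt hyR)
      have h2 := W_lower (repJ_sq hsq (hbt hyR)) (hpos' y (hbt hyR)) (harep_t y) (hs2 y hyR)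
        (lam := A * ε ^ 2 * (C1 * P ((chartAt E4 p).symm y)))
        (mul_nonneg (by positivity) (ploc0 y))
      have h3 := mul_le_mul_of_nonneg_right (ht4 ((chartAt E4 p).symm y)) (hs2 y hyR).le
      rw [h1] at h2
      have h4 := mul_le_mul_of_nonneg_left h2 hA0.le
      calc _ ≤ _ := h3
        _ = A * (s * (qG F t F ((chartAt E4 p).symm y) * W (rep p F y) (rep p F y))) := by ring
        _ ≤ _ := h4
    refine integral_le_chart hv measurableSet_ball measurableSet_ball (hbr'.trans hbt)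
      (fun z hz => (hball p hp x hxs hxb r (hr.trans (min_le_left _ _)) z hz).1)
      (fun z hz => (hball p hp x hxs hxb r (hr.trans (min_le_left _ _)) z hz).2)
      hPc.measurable hPi hP0 ?_ ?_ hpt
    · exact (int_of_cont (continuousOn_const.mul cG)).mono_set hbr'
    · intro y hy
      exact (mul_nonneg (hP0 _) (abs_nonneg _)).trans (hpt y hy)
  rw [integral_const_mul] at hL
  -- the right-hand side
  have hd : ∀ y ∈ ball y0 S.R, c0 ≤ |W (rep p F y) (rep p F y)| := fun y hy =>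
    hCon.Wl p hp y (hbK hy)
  have u1 : ∫ y in ball y0 S.R, C1 * P ((chartAt E4 p).symm y) ≤ C1 / c0 * ∫ z, P z ∂μ := by
    have h1 := integral_chart_le hv measurableSet_ball hbt hc0 hd i1 (fun y _ => ploc0 y)
      (G := fun x => C1 * P x) (hPi.const_mul C1) (fun x => mul_nonneg hC1pos.le (hP0 x))
      (fun y _ => le_rfl)
    refine h1.trans (le_of_eq ?_)
    rw [integral_const_mul]
    ring
  have gen : ∀ {g : E4 → ℝ} {γ : M → ℝ}, IntegrableOn (fun y => g y ^ 2) (ball y0 S.R) →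
      (∀ y, 0 ≤ g y) → Integrable (fun x => γ x ^ 2) μ → (∀ x, 0 ≤ γ x) →
      (∀ y ∈ ball y0 S.R, g y ≤ C0 ^ 2 * γ ((chartAt E4 p).symm y)) →
      √(∫ y in ball y0 S.R, g y ^ 2) ≤ √(C0 ^ 4 / c0) * √(∫ z, γ z ^ 2 ∂μ) := by
    intro g γ hg hg0 hγ hγ0 hgγ
    have h1 := integral_chart_le hv measurableSet_ball hbt hc0 hd hg (fun y _ => sq_nonneg _)
      (G := fun x => C0 ^ 4 * γ x ^ 2) (hγ.const_mul _) (fun x => by positivity)
      (fun y hy => by
        have h2 := hgγ y hy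
        calc g y ^ 2 ≤ (C0 ^ 2 * γ ((chartAt E4 p).symm y)) ^ 2 := by
              gcongr
              exact hg0 y
          _ = C0 ^ 4 * γ ((chartAt E4 p).symm y) ^ 2 := by ring)
    rw [← Real.sqrt_mul (by positivity)]
    refine Real.sqrt_le_sqrt (h1.trans (le_of_eq ?_))
    rw [integral_const_mul]
    ring
  have u2 := gen (g := fun y => ‖rep p b y‖) i2 (fun y => norm_nonneg (rep p b y)) hβi hβ0
    (fun y hy => by
      rw [rep_pull]
      exact norm_pull_le' (hbt hy) (hCon.Fb p hp y (hbK hy)) (hCon.Jb p hp y (hbK hy))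
        (hβ0 _) (hb1 _))
  have u3 := gen (g := fun y => ‖invp (repJ p J y) (rep p b y)‖) i3
    (fun y => norm_nonneg (invp (repJ p J y) (rep p b y))) hβ'i hβ'0
    (fun y hy => by
      rw [invp_rep J b (hbt hy)]
      exact norm_pull_le' (hbt hy) (hCon.Fb p hp y (hbK hy)) (hCon.Jb p hp y (hbK hy))
        (hβ'0 _) (hb2 _))
  have hq1 : C1 / c0 ≤ C2 := by rw [hC2]; linarith [Real.sqrt_nonneg (C0 ^ 4 / c0)]
  have hq2 : √(C0 ^ 4 / c0) ≤ C2 := by rw [hC2]; have : 0 < C1 / c0 := by positivity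
                                       linarith
  have hIP : 0 ≤ ∫ z, P z ∂μ := integral_nonneg hP0
  have v1 := u1.trans (mul_le_mul_of_nonneg_right hq1 hIP)
  have v2 := u2.trans (mul_le_mul_of_nonneg_right hq2 (Real.sqrt_nonneg _))
  have v3 := u3.trans (mul_le_mul_of_nonneg_right hq2 (Real.sqrt_nonneg _))
  have v4 : √(∫ y in ball y0 S.R, ‖invp (repJ p J y) (rep p b y)‖ ^ 2) / r' ≤
      C2 * √(∫ z, β' z ^ 2 ∂μ) / r := by
    have : 0 ≤ C2 * √(∫ z, β' z ^ 2 ∂μ) := mul_nonneg hC2pos.le (Real.sqrt_nonneg _)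
    exact div_le_div₀ this v3 hr0 hrr'
  have hsum : CL * r' ^ 2 * ((∫ y in ball y0 S.R, C1 * P ((chartAt E4 p).symm y))
        + √(∫ y in ball y0 S.R, ‖rep p b y‖ ^ 2)
        + √(∫ y in ball y0 S.R, ‖invp (repJ p J y) (rep p b y)‖ ^ 2) / r') ≤
      CL * r' ^ 2 * (C2 * (∫ z, P z ∂μ + √(∫ z, β z ^ 2 ∂μ) + √(∫ z, β' z ^ 2 ∂μ) / r)) := by
    apply mul_le_mul_of_nonneg_left _ (by positivity)
    have : C2 * (∫ z, P z ∂μ + √(∫ z, β z ^ 2 ∂μ) + √(∫ z, β' z ^ 2 ∂μ) / r) =
      C2 * ∫ z, P z ∂μ + C2 * √(∫ z, β z ^ 2 ∂μ) + C2 * √(∫ z, β' z ^ 2 ∂μ) / r := by ring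
    rw [this]
    exact add_le_add (add_le_add v1 v2) v4
  have hfin : ∫ z in ball x r, P z ∂μ ≤ A * (CL * r' ^ 2 * (C2 * (∫ z, P z ∂μ +
      √(∫ z, β z ^ 2 ∂μ) + √(∫ z, β' z ^ 2 ∂μ) / r))) :=
    hL.trans (mul_le_mul_of_nonneg_left (hloc.trans hsum) hA0.le)
  refine hfin.trans ?_
  have hX : 0 ≤ ∫ z, P z ∂μ + √(∫ z, β z ^ 2 ∂μ) + √(∫ z, β' z ^ 2 ∂μ) / r := by positivity
  have : A * (CL * r' ^ 2 * (C2 * (∫ z, P z ∂μ +
      √(∫ z, β z ^ 2 ∂μ) + √(∫ z, β' z ^ 2 ∂μ) / r))) = A * (CL / c ^ 2 * C2) * r ^ 2 *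
      (∫ z, P z ∂μ + √(∫ z, β z ^ 2 ∂μ) + √(∫ z, β' z ^ 2 ∂μ) / r) := by
    rw [hr']
    field_simp
  rw [this]
  gcongr
  linarith

end

end Crest.Agent.R240.MonoM
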