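import Mathlib
import Crest.Agent.R240.MonoM4
import Crest.Agent.R240.IfaceR
import Crest.Agent.R240.En4D
import Crest.Agent.R240.IntTop

/-!
Row 240, MonoM (helper551), part 5: the node N9 from the local monotonicity statement.
-/

set_option autoImplicit false
set_option maxSynthPendingDepth 3

open Set Function Filter Metric MeasureTheory
open scoped Manifold ContDiff Topology ENNReal
open Crest.Agent.R240.Ch Crest.Agent.R240.Int

namespace Crest.Agent.R240.MonoM

noncomputable section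

/-- the Hodge norm controls the values. -/
lemma abs_le_nr {J : E4 →L[ℝ] E4} {F b : Bil} (hJ : ∀ v, J (J v) = -v) (hF : SPos J F)
    (hb : Alt b) (u v : E4) : |b u v| ≤ √2 * nr J F b * (√(F u (J u)) * √(F v (J v))) := by
  obtain ⟨A, hA⟩ := exists_frame hJ hF
  have h1 : b u v = pull (A : E4 →L[ℝ] E4) b (A.symm u) (A.symm v) := by simp
  have h2 := alt_apply_sq_le (hb.pull (A : E4 →L[ℝ] E4)) (A.symm u) (A.symm v)
  have hn : ∀ w, F w (J w) = ‖A.symm w‖ ^ 2 := by
    intro w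
    have := hA.normsq (A.symm w)
    simpa using this
  have h3 : N0 (pull (A : E4 →L[ℝ] E4) b) = 2 * nsq J F b := by
    unfold nsq
    rw [En4.IsFrame.ip_eq hF.alt hA hb hb]
    unfold N0 En4.S6
    ring
  have h4 : 0 ≤ nsq J F b := En4.nsq_nonneg hJ hF hb
  rw [hn, hn, Real.sqrt_sq (norm_nonneg _), Real.sqrt_sq (norm_nonneg _)]
  have h5 : 0 ≤ nr J F b := Real.sqrt_nonneg _
  apply abs_le_of_sq_le_sq _ (by positivity)
  rw [h1]
  refine h2.trans (le_of_eq ?_)
  rw [h3]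
  have h6 : nr J F b ^ 2 = nsq J F b := Real.sq_sqrt h4
  have h7 : √2 ^ 2 = (2 : ℝ) := Real.sq_sqrt (by norm_num)
  rw [mul_pow, mul_pow, h6, h7]
  ring

variable {M : Type*} [MetricSpace M] [CompactSpace M] [ChartedSpace E4 M]
    [IsManifold 𝓘(ℝ, E4) ∞ M] [MeasurableSpace M] [BorelSpace M]

lemma NB_of_nr (D : Dat M) {b : F2 E4 M} (hb : ∀ x, Alt (at2 b x)) {β : M → ℝ}
    (h : ∀ x, D.nr b x ≤ β x) : NB D.J D.F b (fun x => √2 * β x) := by
  intro x u v
  refine (abs_le_nr (D.sq x) (dat_sposF D x) (hb x) u v).trans ?_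
  have h1 : nr (atJ D.J x) (at2 D.F x) (at2 b x) ≤ β x := h x
  have h2 : √2 * nr (atJ D.J x) (at2 D.F x) (at2 b x) ≤ √2 * β x :=
    mul_le_mul_of_nonneg_left h1 (Real.sqrt_nonneg _)
  exact mul_le_mul_of_nonneg_right h2 (mul_nonneg (Real.sqrt_nonneg _) (Real.sqrt_nonneg _))

/-- **N9**: the monotonicity inequality on `M`, from the local statement. -/
theorem n9 (hML : Mono.MonoLocal) (D : Dat M) : D.N9 := by
  intro A hA
  have hA0 : 0 < A := by linarith
  have hs2 : 0 < √(2 : ℝ) := Real.sqrt_pos.2 (by norm_num)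
  have hs1 : 1 ≤ √(2 : ℝ) := Real.one_le_sqrt.2 (by norm_num)
  have hsA : A ≤ √2 * A := by nlinarith
  obtain ⟨C, r0, hC, hr0, H⟩ := mono_NB (ml_of hML) D.bl D.smJ D.sq (dat_smF D) (dat_sposF D)
    (dat_volF D) (dat_isVol D) (A := √2 * A) (hA.trans hsA)
  refine ⟨C * √2, r0, by positivity, hr0, ?_⟩
  intro e he he1 t b p hp hp0 hcl ht1 ht2 ht3 ht4 x r her hr
  have hpc : Continuous p := En4.sF_continuous hp
  have cb : Continuous (D.nr (b : F2 E4 M)) := En4.cont_nr D b.2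
  have cb' : Continuous (D.nr (D.pi' b : F2 E4 M)) := En4.cont_nr D (D.pi' b).2
  have hnn : ∀ (c : F2 E4 M) (y : M), 0 ≤ √2 * D.nr c y := fun c y =>
    mul_nonneg hs2.le (En4.nr_nonneg D c y)
  have key := H (t : F2 E4 M) (b : F2 E4 M) p (fun y => √2 * D.nr (b : F2 E4 M) y)
    (fun y => √2 * D.nr (D.pi' b : F2 E4 M) y) e he t.2 b.2 hcl hpc hp0 (hnn _) (hnn _)
    (En4.integrable_cont D hpc) (En4.integrable_cont D ((continuous_const.mul cb).pow 2))
    (En4.integrable_cont D ((continuous_const.mul cb').pow 2))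
    (by
      have h := NB_of_nr D (b := (t : F2 E4 M)) t.2.1 ht1
      intro x u v
      refine (h x u v).trans (le_of_eq ?_)
      ring)
    (by
      have h := NB_of_nr D (b := (D.pi'' t : F2 E4 M)) (D.pi'' t).2.1 ht3
      intro x u v
      refine (h x u v).trans (le_of_eq ?_)
      ring)
    (by
      intro x v
      have h := ht2 x v
      have hF0 : 0 ≤ at2 D.F x v (atJ D.J x v) := by
        rcases eq_or_ne v 0 with rfl | hv
        · simp
        · exact ((dat_sposF D x).pos v hv).le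
      refine le_trans (mul_le_mul_of_nonneg_right ?_ hF0) h
      have : A * e ^ 2 * p x ≤ √2 * A * e ^ 2 * p x := by
        have := hp0 x
        gcongr
      linarith)
    (by
      intro x
      have h := ht4 x
      have h0 : 0 ≤ qG D.F (t : F2 E4 M) D.F x := by
        have := (hp0 x).trans h
        exact nonneg_of_mul_nonneg_right this hA0
      exact h.trans (mul_le_mul_of_nonneg_right hsA h0))
    (NB_of_nr D (b := (b : F2 E4 M)) b.2.1 (fun _ => le_rfl))
    (NB_of_nr D (b := (D.pi' b : F2 E4 M)) (D.pi' b).2.1 (fun _ => le_rfl)) x r her hr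
  have hn2 : ∀ c : X2 M, √(∫ z, (√2 * D.nr (c : F2 E4 M) z) ^ 2 ∂D.μ) =
      √2 * D.n2 (c : F2 E4 M) := by
    intro c
    have h1 : ∀ z, (√2 * D.nr (c : F2 E4 M) z) ^ 2 = 2 * nsqG D.J D.F (c : F2 E4 M) z := by
      intro z
      rw [mul_pow, En4.nr_sq D c.2.1 z, Real.sq_sqrt (by norm_num)]
    simp only [h1]
    rw [integral_const_mul, Real.sqrt_mul (by norm_num)]
    rfl
  rw [hn2 b, hn2 (D.pi' b)] at key
  refine key.trans ?_
  have hr' : 0 < r := he.trans_le her
  have hI : 0 ≤ ∫ z, p z ∂D.μ := integral_nonneg hp0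
  have h1 : ∫ z, p z ∂D.μ + √2 * D.n2 (b : F2 E4 M) + √2 * D.n2 (D.pi' b : F2 E4 M) / r ≤
      √2 * (∫ z, p z ∂D.μ + D.n2 (b : F2 E4 M) + D.n2 (D.pi' b : F2 E4 M) / r) := by
    have : ∫ z, p z ∂D.μ ≤ √2 * ∫ z, p z ∂D.μ := by nlinarith
    have h2 : √2 * (∫ z, p z ∂D.μ + D.n2 (b : F2 E4 M) + D.n2 (D.pi' b : F2 E4 M) / r) =
      √2 * ∫ z, p z ∂D.μ + √2 * D.n2 (b : F2 E4 M) + √2 * D.n2 (D.pi' b : F2 E4 M) / r := by ring
    rw [h2]
    linarith
  calc _ ≤ C * r ^ 2 * (√2 * (∫ z, p z ∂D.μ + D.n2 (b : F2 E4 M) +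
        D.n2 (D.pi' b : F2 E4 M) / r)) := mul_le_mul_of_nonneg_left h1 (by positivity)
    _ = _ := by ring

end

end Crest.Agent.R240.MonoM
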