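import Crest.Agent.R240.MonoM5
import Crest.Agent.R240.MonoFin

/-!
Row 240, helper551: the node N9 (MonoLocal: helper857, helper615).
-/

set_option autoImplicit false

open scoped Manifold ContDiff

namespace Crest.Agent.R240

/-- **N9** (unconditional). -/
theorem node_N9 {M : Type*} [MetricSpace M] [CompactSpace M] [ChartedSpace E4 M]
    [IsManifold 𝓘(ℝ, E4) ∞ M] [MeasurableSpace M] [BorelSpace M] (D : Dat M) : D.N9 :=
  MonoM.n9 Mono.monoLocal D

end Crest.Agent.R240
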