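import Mathlib
import Crest.Agent.R240.HB

/-!
Row 240 (S0371), Step 1 of note 10247 in abstract form (helper630).
`X` = smooth two-forms, `jp`, `jm` = invariant / anti-invariant part, `I` = the pairing
`I(b,c) = ∫ q(b,c) dμ`, `P` = semipositive invariant forms, `Ex` = exact forms,
`al` = the taming form, `F = jp al`.
-/

set_option autoImplicit false

namespace Crest.Agent.R240.St1

variable {X : Type*} [AddCommGroup X] [Module ℝ X]

/-- the a priori bound of Step 1. -/
theorem apriori (I : X →ₗ[ℝ] X →ₗ[ℝ] ℝ) (hsymm : ∀ b c, I b c = I c b)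
    (jp jm : X →ₗ[ℝ] X) (hadd : ∀ b, jp b + jm b = b)
    (hmix : ∀ b c, I (jp b) (jm c) = 0)
    (hanti : ∀ b, 0 ≤ I (jm b) (jm b))
    {al e : X} (hF : 0 < I (jp al) (jp al))
    (hale : I al e = 0) (hee : I e e = 0) {t : ℝ}
    (hpp : 0 ≤ I (jp (t • al + e)) (jp (t • al + e)))
    (hFp : 0 ≤ I (jp al) (jp (t • al + e))) :
    0 ≤ t ∧ I (jp al) (jp (t • al + e)) ≤
      (I al al + √(I al al) * √(I (jm al) (jm al))) * t := by
  set z : X := t • al + e with hz
  have hmix' : ∀ b c, I (jm b) (jp c) = 0 := fun b c => by rw [hsymm, hmix]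
  have hsplit : ∀ b c, I b c = I (jp b) (jp c) + I (jm b) (jm c) := by
    intro b c
    conv_lhs => rw [← hadd b, ← hadd c]
    simp only [map_add, LinearMap.add_apply, hmix, hmix']
    ring
  have haz : I al z = t * I al al := by
    rw [hz, map_add, map_smul, hale, smul_eq_mul, add_zero]
  have hea : I e al = 0 := by rw [hsymm, hale]
  have hzz : I z z = t ^ 2 * I al al := by
    have : I z z = t * I al z + I e z := by
      conv_lhs => rw [hz]
      rw [LinearMap.map_add₂, LinearMap.map_smul₂, smul_eq_mul]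
    rw [this, haz, hz, map_add, map_smul, hee, hea]
    simp
    ring
  -- Cauchy-Schwarz on the anti-invariant part
  have hcs : |I (jm al) (jm z)| ≤ √(I (jm al) (jm al)) * √(I (jm z) (jm z)) := by
    have hpos : ∀ s : ℝ, 0 ≤ I (jm z) (jm z) * (s * s) + (2 * I (jm al) (jm z)) * s
        + I (jm al) (jm al) := by
      intro s
      have h := hanti (al + s • z)
      simp only [map_add, map_smul, LinearMap.add_apply, LinearMap.smul_apply, smul_eq_mul] at h
      rw [hsymm (jm z) (jm al)] at h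
      linarith
    have hd := discrim_le_zero hpos
    unfold discrim at hd
    rw [← Real.sqrt_mul (hanti al)]
    apply Real.abs_le_sqrt
    nlinarith
  have hb : I (jm z) (jm z) ≤ t ^ 2 * I al al := by
    rw [← hzz, hsplit z z]
    linarith
  have hal : I al al = I (jp al) (jp al) + I (jm al) (jm al) := hsplit al al
  have hal0 : 0 < I al al := by have := hanti al; linarith
  have hsq : √(I (jm z) (jm z)) ≤ |t| * √(I al al) := by
    calc √(I (jm z) (jm z)) ≤ √(t ^ 2 * I al al) := Real.sqrt_le_sqrt hb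
      _ = |t| * √(I al al) := by rw [Real.sqrt_mul (sq_nonneg t), Real.sqrt_sq_eq_abs]
  have hmain : I (jp al) (jp z) ≤ t * I al al +
      |t| * (√(I al al) * √(I (jm al) (jm al))) := by
    have h1 : I (jp al) (jp z) = t * I al al - I (jm al) (jm z) := by
      have := hsplit al z
      rw [haz] at this
      linarith
    have h2 : -I (jm al) (jm z) ≤ √(I (jm al) (jm al)) * (|t| * √(I al al)) := by
      have h3 := (abs_le.1 hcs).1
      have h4 : √(I (jm al) (jm al)) * √(I (jm z) (jm z)) ≤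
        √(I (jm al) (jm al)) * (|t| * √(I al al)) :=
        mul_le_mul_of_nonneg_left hsq (Real.sqrt_nonneg _)
      linarith
    rw [h1]
    linarith
  have hlt : √(I al al) * √(I (jm al) (jm al)) < I al al := by
    have h1 : √(I (jm al) (jm al)) < √(I al al) :=
      Real.sqrt_lt_sqrt (hanti al) (by linarith)
    have h2 : 0 < √(I al al) := Real.sqrt_pos.2 hal0
    calc √(I al al) * √(I (jm al) (jm al)) < √(I al al) * √(I al al) :=
          mul_lt_mul_of_pos_left h1 h2
      _ = I al al := Real.mul_self_sqrt hal0.le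
  have ht : 0 ≤ t := by
    by_contra hneg
    push Not at hneg
    rw [abs_of_neg hneg] at hmain
    nlinarith
  refine ⟨ht, ?_⟩
  rw [abs_of_nonneg ht] at hmain
  linarith

/-- **Step 1** (abstract form). -/
theorem n1_abs (I : X →ₗ[ℝ] X →ₗ[ℝ] ℝ) (hsymm : ∀ b c, I b c = I c b)
    (jp jm : X →ₗ[ℝ] X) (hadd : ∀ b, jp b + jm b = b)
    (hpp : ∀ b, jp (jp b) = jp b) (hpm : ∀ b, jp (jm b) = 0)
    (hmix : ∀ b c, I (jp b) (jm c) = 0)
    (hanti : ∀ b, 0 ≤ I (jm b) (jm b))
    (P : Set X) (h0 : (0 : X) ∈ P) (hPadd : ∀ x ∈ P, ∀ y ∈ P, x + y ∈ P)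
    (hPsmul : ∀ c : ℝ, 0 < c → ∀ x ∈ P, c • x ∈ P)
    (hPinv : ∀ x ∈ P, jp x = x)
    (hPP : ∀ x ∈ P, 0 ≤ I x x)
    (al : X) (hFP : ∀ x ∈ P, 0 ≤ I (jp al) x)
    (hunit : ∀ x : X, ∃ t : ℝ, t • jp al - jp x ∈ P)
    (hpos : 0 < I (jp al) (jp al) ∨ ∀ b c, I b c = 0)
    (Ex : Submodule ℝ X) (hale : ∀ e ∈ Ex, I al e = 0) (hee : ∀ e ∈ Ex, I e e = 0) :
    ∃ Φ : X →ₗ[ℝ] ℝ, (∀ b, Φ b = Φ (jp b)) ∧ (∀ p ∈ P, I p (jp al) ≤ Φ p) ∧
      (∀ e ∈ Ex, Φ e = 0) := by
  obtain ⟨C, hC⟩ : ∃ C : ℝ, ∀ p : X, jp p ∈ P → ∀ t : ℝ, ∀ v ∈ Ex,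
      p = t • jp al + v → I (jp al) p ≤ C * t := by
    rcases hpos with hF | hI
    · refine ⟨I al al + √(I al al) * √(I (jm al) (jm al)), ?_⟩
      intro p hp t v hv hpe
      have hjp : jp p = jp (t • al + v) := by
        rw [hpe, map_add, map_add, map_smul, map_smul, hpp]
      have h1 : I (jp al) p = I (jp al) (jp (t • al + v)) := by
        conv_lhs => rw [← hadd p]
        rw [map_add, hmix, add_zero, hjp]
      rw [h1]
      rw [hjp] at hp
      exact (apriori I hsymm jp jm hadd hmix hanti hF (hale v hv) (hee v hv)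
        (hPP _ hp) (hFP _ hp)).2
    · exact ⟨0, fun p hp t v hv hpe => by rw [hI]; simp⟩
  obtain ⟨Φ, hΦ1, hΦ2, -⟩ := HB.hb1 (X := X) {x | jp x ∈ P} (by simpa using h0)
    (fun x hx y hy => by
      show jp (x + y) ∈ P
      rw [map_add]; exact hPadd _ hx _ hy)
    (fun c hc x hx => by
      show jp (c • x) ∈ P
      rw [map_smul]; exact hPsmul c hc _ hx)
    (jp al)
    (fun x => by
      obtain ⟨t, ht⟩ := hunit x
      refine ⟨t, ?_⟩
      show jp (t • jp al - x) ∈ P
      rwa [map_sub, map_smul, hpp])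
    Ex (I (jp al)) C (fun p hp t v hv hpe => hC p hp t v hv hpe)
  have hanti0 : ∀ g : X, jp g = 0 → Φ g = 0 := by
    intro g hg
    have hIg : I (jp al) g = 0 := by
      conv_lhs => rw [← hadd g]
      rw [map_add, hmix, hg, map_zero, add_zero]
    have h1 := hΦ1 g (by show jp g ∈ P; rw [hg]; exact h0)
    have h2 := hΦ1 (-g) (by show jp (-g) ∈ P; rw [map_neg, hg, neg_zero]; exact h0)
    rw [map_neg, map_neg, hIg] at h2
    rw [hIg] at h1
    linarith
  refine ⟨Φ, ?_, ?_, hΦ2⟩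
  · intro b
    have h := hanti0 (jm b) (hpm b)
    conv_lhs => rw [← hadd b]
    rw [map_add, h, add_zero]
  · intro p hp
    rw [hsymm]
    exact hΦ1 p (by show jp p ∈ P; rw [hPinv p hp]; exact hp)

end Crest.Agent.R240.St1
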