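import Mathlib
import Crest.Agent.R240.Iface
import Crest.Agent.R240.IntPair
import Crest.Agent.R240.En4L
import Crest.Agent.R240.St1
import Crest.Agent.R240.Ch7
import Crest.Agent.R240.IntTop

/-!
Row 240 (S0371), node N1 (helper630): the Kaehler current, from STOKES; and basic facts about
the data `D : Dat M` (positivity of `F`, `D.I` as a bilinear form on `X2 M`, order unit).
-/

set_option autoImplicit false
set_option maxSynthPendingDepth 3

open Set Function Filter MeasureTheory Metric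
open scoped Manifold ContDiff Topology ENNReal

namespace Crest.Agent.R240.St1

open Ch

open Crest.Agent.R240.Int

noncomputable section

variable {M : Type*} [MetricSpace M] [CompactSpace M] [ChartedSpace E4 M]
    [IsManifold 𝓘(ℝ, E4) ∞ M] [MeasurableSpace M] [BorelSpace M] (D : Dat M)

/-! ### pointwise facts -/

theorem at2_F (x : M) : at2 D.F x = invp (atJ D.J x) (at2 D.al x) := rfl

theorem sposF (x : M) : SPos (atJ D.J x) (at2 D.F x) where
  alt := Alt.invp (b := at2 D.al x) (fun v => D.sm_al.1 x v) _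
  inv := invp_inv (D.sq x) _
  pos := fun v hv => by
    rw [at2_F, invp_diag (D.sq x) (D.sm_al.1 x)]
    exact D.tames x v hv

theorem W_F_ne (x : M) : W (at2 D.F x) (at2 D.F x) ≠ 0 := by
  obtain ⟨A, hA⟩ := exists_frame (D.sq x) (sposF D x)
  exact hA.W_ne (sposF D x).alt

theorem smF : Smooth2 D.F := Smooth2.bp D.smJ D.sm_al

theorem volF : Int.Vol D.F where
  alt := fun x => (sposF D x).alt
  cont := fun p => ((smF D).2 p).continuousOn
  ne := W_F_ne D

variable {D}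

theorem cont_qG {b c : F2 E4 M} (hb : Smooth2 b) (hc : Smooth2 c) :
    Continuous (qG D.F b c) :=
  continuous_qG (volF D) (Smooth2.cont2 hb) (Smooth2.cont2 hc)

theorem integrable_cont {f : M → ℝ} (hf : Continuous f) : Integrable f D.μ := by
  have := D.fin
  obtain ⟨C, hC⟩ := isCompact_univ.exists_bound_of_continuousOn hf.continuousOn
  exact Integrable.of_bound hf.aestronglyMeasurable C
    (Filter.Eventually.of_forall fun x => hC x (mem_univ x))

theorem integrable_qG {b c : F2 E4 M} (hb : Smooth2 b) (hc : Smooth2 c) :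
    Integrable (qG D.F b c) D.μ := integrable_cont (cont_qG hb hc)

theorem I_comm (b c : F2 E4 M) : D.I b c = D.I c b := by
  unfold Dat.I IG
  exact integral_congr_ae (Filter.Eventually.of_forall fun x => qG_comm _ _ _ x)

theorem I_add_left {a b c : F2 E4 M} (ha : Smooth2 a) (hb : Smooth2 b) (hc : Smooth2 c) :
    D.I (a + b) c = D.I a c + D.I b c := by
  unfold Dat.I IG
  rw [← integral_add (integrable_qG ha hc) (integrable_qG hb hc)]
  exact integral_congr_ae (Filter.Eventually.of_forall fun x => qG_add_left _ _ _ _ x)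

theorem I_smul_left (r : ℝ) (b c : F2 E4 M) : D.I (r • b) c = r * D.I b c := by
  unfold Dat.I IG
  rw [← integral_const_mul]
  exact integral_congr_ae (Filter.Eventually.of_forall fun x => qG_smul_left _ _ _ _ x)

variable (D) in
/-- `D.I` as a bilinear form on `X2 M`. -/
def IX : X2 M →ₗ[ℝ] X2 M →ₗ[ℝ] ℝ :=
  LinearMap.mk₂ ℝ (fun b c => D.I b.1 c.1)
    (fun a b c => I_add_left a.2 b.2 c.2)
    (fun r b c => I_smul_left r b.1 c.1)
    (fun a b c => by
      rw [I_comm, I_comm a.1, I_comm a.1]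
      exact I_add_left b.2 c.2 a.2)
    (fun r b c => by
      rw [I_comm, I_comm b.1]
      exact I_smul_left r c.1 b.1)

@[simp] theorem IX_apply (b c : X2 M) : IX D b c = D.I b.1 c.1 := rfl

/-! ### the projections -/

theorem at2_pi' (b : X2 M) (x : M) :
    at2 (D.pi' b : X2 M).1 x = invp (atJ D.J x) (at2 b.1 x) := rfl

theorem at2_pi'' (b : X2 M) (x : M) :
    at2 (D.pi'' b : X2 M).1 x = antip (atJ D.J x) (at2 b.1 x) := rfl

theorem alt_at (b : X2 M) (x : M) : Alt (at2 b.1 x) := b.2.1 x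

theorem X2_ext {a b : X2 M} (h : ∀ x, at2 a.1 x = at2 b.1 x) : a = b :=
  Subtype.ext (funext h)

theorem pi_add (b : X2 M) : D.pi' b + D.pi'' b = b :=
  X2_ext fun x => invp_add_antip _ _

theorem pi'_pi' (b : X2 M) : D.pi' (D.pi' b) = D.pi' b :=
  X2_ext fun x => by
    rw [at2_pi', at2_pi', invp_of_inv (invp_inv (D.sq x) _)]

theorem pi'_pi'' (b : X2 M) : D.pi' (D.pi'' b) = 0 :=
  X2_ext fun x => by
    rw [at2_pi', at2_pi'', invp_of_anti (antip_anti (D.sq x) _)]; rfl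

theorem pi''_pi' (b : X2 M) : D.pi'' (D.pi' b) = 0 :=
  X2_ext fun x => by
    rw [at2_pi'', at2_pi', antip_of_inv (invp_inv (D.sq x) _)]; rfl

theorem pi''_pi'' (b : X2 M) : D.pi'' (D.pi'' b) = D.pi'' b :=
  X2_ext fun x => by
    rw [at2_pi'', at2_pi'', antip_of_anti (antip_anti (D.sq x) _)]

theorem pi'_of_mem_Pp {P : X2 M} (hP : P ∈ D.Pp) : D.pi' P = P :=
  X2_ext fun x => by
    rw [at2_pi', invp_of_inv (hP x).inv]

theorem mem_Pp {P : X2 M} : P ∈ D.Pp ↔ ∀ x, Pos (atJ D.J x) (at2 P.1 x) := Iff.rfl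

theorem zero_mem_Pp : (0 : X2 M) ∈ D.Pp := fun x =>
  ⟨fun v => rfl, fun u v => rfl, fun v => le_refl _⟩

theorem add_mem_Pp {P Q : X2 M} (hP : P ∈ D.Pp) (hQ : Q ∈ D.Pp) : P + Q ∈ D.Pp := fun x => by
  have h : at2 (P + Q : X2 M).1 x = at2 P.1 x + at2 Q.1 x := rfl
  refine ⟨alt_at _ x, fun u v => ?_, fun v => ?_⟩
  · rw [h, add_apply, add_apply, add_apply, add_apply, (hP x).inv, (hQ x).inv]
  · rw [h, add_apply, add_apply]
    exact add_nonneg ((hP x).nonneg v) ((hQ x).nonneg v)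

theorem smul_mem_Pp {P : X2 M} (hP : P ∈ D.Pp) {c : ℝ} (hc : 0 ≤ c) : c • P ∈ D.Pp := fun x => by
  have h : at2 (c • P : X2 M).1 x = c • at2 P.1 x := rfl
  refine ⟨alt_at _ x, fun u v => ?_, fun v => ?_⟩
  · rw [h, smul_apply, smul_apply, smul_apply, smul_apply, (hP x).inv]
  · rw [h, smul_apply, smul_apply]
    exact mul_nonneg hc ((hP x).nonneg v)

theorem coe_FX : (D.FX : X2 M).1 = D.F := rfl

theorem FX_mem : D.FX ∈ D.Pp := fun x =>
  ⟨(sposF D x).alt, (sposF D x).inv, fun v => by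
    rcases eq_or_ne v 0 with rfl | hv
    · simp
    · exact ((sposF D x).pos v hv).le⟩

theorem pi'_FX : D.pi' D.FX = D.FX := pi'_pi' _

theorem pi''_FX : D.pi'' D.FX = 0 := pi''_pi' _

/-! ### positivity of the pairing -/

theorem qG_mixed (b c : X2 M) (x : M) : qG D.F (D.pi' b : X2 M).1 (D.pi'' c : X2 M).1 x = 0 :=
  En4.q_inv_anti (D.sq x) (sposF D x) (alt_at _ x) (alt_at _ x)
    (invp_inv (D.sq x) _) (antip_anti (D.sq x) _)

theorem I_mixed (b c : X2 M) : D.I (D.pi' b : X2 M).1 (D.pi'' c : X2 M).1 = 0 := by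
  unfold Dat.I IG
  rw [integral_congr_ae (Filter.Eventually.of_forall fun x => qG_mixed b c x)]
  simp

theorem qG_anti_nonneg (b : X2 M) (x : M) :
    0 ≤ qG D.F (D.pi'' b : X2 M).1 (D.pi'' b : X2 M).1 x := by
  have h := En4.nsq_anti (D.sq x) (sposF D x) (b := at2 (D.pi'' b : X2 M).1 x) (alt_at _ x)
    (antip_anti (D.sq x) _)
  have h2 := En4.nsq_nonneg (D.sq x) (sposF D x) (b := at2 (D.pi'' b : X2 M).1 x) (alt_at _ x)
  rw [h] at h2
  exact h2

theorem I_anti_nonneg (b : X2 M) : 0 ≤ D.I (D.pi'' b : X2 M).1 (D.pi'' b : X2 M).1 :=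
  integral_nonneg fun x => qG_anti_nonneg b x

theorem qG_pos_nonneg {P : X2 M} (hP : P ∈ D.Pp) (x : M) :
    0 ≤ qG D.F P.1 D.F x ∧ 0 ≤ qG D.F P.1 P.1 x :=
  (En4.pos_iff (D.sq x) (sposF D x) (hP x).alt (hP x).inv).1 (hP x).nonneg

theorem I_PP_nonneg {P : X2 M} (hP : P ∈ D.Pp) : 0 ≤ D.I P.1 P.1 :=
  integral_nonneg fun x => (qG_pos_nonneg hP x).2

theorem I_PF_nonneg {P : X2 M} (hP : P ∈ D.Pp) : 0 ≤ D.I P.1 D.F :=
  integral_nonneg fun x => (qG_pos_nonneg hP x).1

theorem I_FF : D.I D.F D.F = D.μ.real univ := by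
  have h : ∀ x, qG D.F D.F D.F x = 1 := fun x => En4.q_F_F (D.sq x) (sposF D x)
  unfold Dat.I IG
  simp [h]

/-! ### the order unit -/

theorem exists_bound (f : M → ℝ) (hf : Continuous f) : ∃ C : ℝ, 0 ≤ C ∧ ∀ x, |f x| ≤ C := by
  obtain ⟨C, hC⟩ := isCompact_univ.exists_bound_of_continuousOn hf.continuousOn
  exact ⟨max C 0, le_max_right _ _, fun x => (hC x (mem_univ x)).trans (le_max_left _ _)⟩

theorem order_unit (b : X2 M) : ∃ t : ℝ, t • D.FX - D.pi' b ∈ D.Pp := by
  obtain ⟨C1, h1, hC1⟩ := exists_bound _ (cont_qG (D := D) b.2 (smF D))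
  obtain ⟨C2, h2, hC2⟩ := exists_bound _ (cont_qG (D := D) (D.pi' b).2 (D.pi' b).2)
  refine ⟨2 * C1 + C2 + 1, fun x => ?_⟩
  set t : ℝ := 2 * C1 + C2 + 1 with ht
  have hat : at2 (t • D.FX - D.pi' b : X2 M).1 x
      = t • at2 D.F x - at2 (D.pi' b : X2 M).1 x := rfl
  have halt : Alt (at2 (t • D.FX - D.pi' b : X2 M).1 x) := alt_at _ x
  have hinv : ∀ u v, at2 (t • D.FX - D.pi' b : X2 M).1 x (atJ D.J x u) (atJ D.J x v)
      = at2 (t • D.FX - D.pi' b : X2 M).1 x u v := by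
    intro u v
    rw [hat, sub_apply, sub_apply, smul_apply, smul_apply, sub_apply, sub_apply, smul_apply,
      smul_apply, (sposF D x).inv, at2_pi', invp_inv (D.sq x)]
  refine ⟨halt, hinv, ?_⟩
  rw [En4.pos_iff (D.sq x) (sposF D x) halt hinv, hat]
  have hFF := En4.q_F_F (D.sq x) (sposF D x)
  have hbF : q (at2 D.F x) (at2 (D.pi' b : X2 M).1 x) (at2 D.F x) = qG D.F b.1 D.F x :=
    En4.q_F_invp (D.sq x) (sposF D x) (alt_at b x)
  have hFb : q (at2 D.F x) (at2 D.F x) (at2 (D.pi' b : X2 M).1 x) = qG D.F b.1 D.F x := by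
    rw [q_comm, hbF]
  have hbb : q (at2 D.F x) (at2 (D.pi' b : X2 M).1 x) (at2 (D.pi' b : X2 M).1 x) =
    qG D.F (D.pi' b : X2 M).1 (D.pi' b : X2 M).1 x := rfl
  have e1 := abs_le.1 (hC1 x)
  have e2 := abs_le.1 (hC2 x)
  rw [q_sub_left, q_smul_left, hFF, hbF, q_sub_left, q_smul_left, q_sub_right, q_sub_right,
    q_smul_right, q_smul_right, hFF, hbF, hFb, hbb]
  constructor
  · nlinarith [e1.2]
  · nlinarith [e1.1, e1.2, e2.1, e2.2, mul_nonneg h1 h1, mul_nonneg h1 h2]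

/-! ### exact forms -/

variable (M) in
/-- the exact forms as a subspace of `X2 M`. -/
def ExS : Submodule ℝ (X2 M) where
  carrier := {b | IsEx (b : F2 E4 M)}
  zero_mem' := by
    show IsEx (0 : F2 E4 M)
    refine isEx_iff.2 ⟨0, smooth1_zero, ?_⟩
    have h := dG_smul (0 : ℝ) (smooth1_zero (E := E4) (M := M))
    simpa using h.symm
  add_mem' := by
    intro a b ha hb
    obtain ⟨s, hs, hsa⟩ := isEx_iff.1 ha
    obtain ⟨t, ht, htb⟩ := isEx_iff.1 hb
    refine isEx_iff.2 ⟨s + t, hs.add ht, ?_⟩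
    rw [dG_add hs ht, ← hsa, ← htb]
    rfl
  smul_mem' := by
    intro c a ha
    obtain ⟨s, hs, hsa⟩ := isEx_iff.1 ha
    refine isEx_iff.2 ⟨c • s, hs.smul c, ?_⟩
    rw [dG_smul c hs, ← hsa]
    rfl

theorem mem_ExS {b : X2 M} : b ∈ ExS M ↔ IsEx (b : F2 E4 M) := Iff.rfl

theorem ex_closed {b : X2 M} (hb : IsEx (b : F2 E4 M)) : b ∈ Z2 M := by
  rw [mem_Z2]
  exact IsEx.closed2 hb

/-- the node STOKES. -/
theorem stokes (D : Dat M) : D.STOKES := fun η hη b hb => by
  rw [I_comm]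
  exact Int.dat_stokes D hb η.2 (mem_Z2.1 hη)

/-- **the node N1.** -/
theorem n1 (D : Dat M) : D.N1 := by
  set al : X2 M := ⟨D.al, D.sm_al⟩ with hal
  have halZ : al ∈ Z2 M := by rw [mem_Z2]; exact D.cl_al
  have hFX : D.pi' al = D.FX := rfl
  have := D.fin
  obtain ⟨Φ, h1, h2, h3⟩ := n1_abs (IX D) (fun b c => I_comm _ _) D.pi' D.pi'' pi_add pi'_pi'
    pi'_pi'' (fun b c => I_mixed b c) (fun b => I_anti_nonneg b) D.Pp zero_mem_Pp
    (fun x hx y hy => add_mem_Pp hx hy) (fun c hc x hx => smul_mem_Pp hx hc.le)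
    (fun x hx => pi'_of_mem_Pp hx) (fun x hx => I_PP_nonneg hx) al
    (fun x hx => by
      rw [hFX, IX_apply, I_comm]; exact I_PF_nonneg hx)
    (fun x => order_unit x)
    (by
      rcases eq_or_ne D.μ 0 with h | h
      · right
        intro b c
        rw [IX_apply]
        unfold Dat.I IG
        rw [h, integral_zero_measure]
      · left
        have e : IX D (D.pi' al) (D.pi' al) = D.μ.real univ := I_FF
        rw [e]
        rw [Measure.real, ENNReal.toReal_pos_iff]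
        exact ⟨by
          rw [pos_iff_ne_zero]
          exact fun h' => h (Measure.measure_univ_eq_zero.1 h'), measure_lt_top _ _⟩)
    (ExS M)
    (fun e he => stokes D al halZ e he)
    (fun e he => stokes D e (ex_closed he) e he)
  exact ⟨Φ, h1, fun P hP => h2 P hP, fun b hb => h3 b hb⟩

end

end Crest.Agent.R240.St1
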