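import Mathlib
import Crest.Agent.R240.FormDefs
import Crest.Agent.R240.HB

/-!
Row 240 (S0371), node N2 (helper710): the Hahn-Banach alternative of Step 2 on the space of smooth
two-forms.
-/

set_option autoImplicit false
set_option linter.unusedSectionVars false
set_option maxSynthPendingDepth 3
set_option synthInstance.maxHeartbeats 200000

open Set Function Filter Bundle MeasureTheory
open scoped Manifold ContDiff Topology
open Crest.GeometryTopology.TwoForm

namespace Crest.Agent.R240.N2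

open Crest.Agent.R240.Ch

noncomputable section

variable {M : Type*} [TopologicalSpace M] [ChartedSpace E4 M] [IsManifold 𝓘(ℝ, E4) ∞ M]

theorem at2_bp_apply (J : EndF E4 M) (a : F2 E4 M) (x : M) (u v : E4) :
    at2 (bp J a) x u v = (at2 a x u v + at2 a x (atJ J x u) (atJ J x v)) / 2 := invp_apply _ _ _ _

theorem at2_bpp_apply (J : EndF E4 M) (a : F2 E4 M) (x : M) (u v : E4) :
    at2 (bpp J a) x u v = (at2 a x u v - at2 a x (atJ J x u) (atJ J x v)) / 2 :=
  antip_apply _ _ _ _

/-- two forms are equal if their values are. -/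
theorem f2_ext {a b : F2 E4 M} (h : ∀ x (u v : E4), at2 a x u v = at2 b x u v) : a = b := by
  funext x
  exact ContinuousLinearMap.ext fun u => ContinuousLinearMap.ext fun v => h x u v

/-- `b'` is `J`-invariant. -/
theorem at2_bp_inv {J : EndF E4 M} (hJ : ∀ x (v : E4), atJ J x (atJ J x v) = -v) (a : F2 E4 M)
    (x : M) (u v : E4) : at2 (bp J a) x (atJ J x u) (atJ J x v) = at2 (bp J a) x u v := by
  rw [at2_bp_apply, at2_bp_apply, hJ, hJ]
  simp only [map_neg, neg_apply, neg_neg]
  ring

theorem at2_bp_diag {J : EndF E4 M} (hJ : ∀ x (v : E4), atJ J x (atJ J x v) = -v) {a : F2 E4 M}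
    {x : M} (ha : Alt (at2 a x)) (v : E4) :
    at2 (bp J a) x v (atJ J x v) = at2 a x v (atJ J x v) := by
  have h1 := at2_bp_apply J a x v (atJ J x v)
  have h2 : at2 a x (atJ J x v) (atJ J x (atJ J x v)) = at2 a x v (atJ J x v) := by
    rw [hJ, map_neg]
    exact (ha.swap v (atJ J x v)).symm
  rw [h2] at h1
  rw [h1]; ring

/-- `b''` is `J`-anti-invariant. -/
theorem at2_bpp_anti {J : EndF E4 M} (hJ : ∀ x (v : E4), atJ J x (atJ J x v) = -v) (a : F2 E4 M)
    (x : M) (u v : E4) : at2 (bpp J a) x (atJ J x u) (atJ J x v) = - at2 (bpp J a) x u v := by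
  rw [at2_bpp_apply, at2_bpp_apply, hJ, hJ]
  simp only [map_neg, neg_apply, neg_neg]
  ring

theorem bp_add_bpp (J : EndF E4 M) (a : F2 E4 M) : bp J a + bpp J a = a := by
  refine f2_ext fun x u v => ?_
  have h : at2 (bp J a + bpp J a) x u v = at2 (bp J a) x u v + at2 (bpp J a) x u v := rfl
  rw [h, at2_bp_apply, at2_bpp_apply]; ring

/-- invariant forms are fixed by `'`. -/
theorem bp_of_inv {J : EndF E4 M} {a : F2 E4 M}
    (h : ∀ x (u v : E4), at2 a x (atJ J x u) (atJ J x v) = at2 a x u v) : bp J a = a := by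
  refine f2_ext fun x u v => ?_
  rw [at2_bp_apply, h]; ring

theorem bpp_of_inv {J : EndF E4 M} {a : F2 E4 M}
    (h : ∀ x (u v : E4), at2 a x (atJ J x u) (atJ J x v) = at2 a x u v) : bpp J a = 0 := by
  refine f2_ext fun x u v => ?_
  rw [at2_bpp_apply, h]
  have : at2 (0 : F2 E4 M) x u v = 0 := rfl
  rw [this]; ring

theorem bp_of_anti {J : EndF E4 M} {a : F2 E4 M}
    (h : ∀ x (u v : E4), at2 a x (atJ J x u) (atJ J x v) = - at2 a x u v) : bp J a = 0 := by
  refine f2_ext fun x u v => ?_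
  rw [at2_bp_apply, h]
  have : at2 (0 : F2 E4 M) x u v = 0 := rfl
  rw [this]; ring

theorem bpp_of_anti {J : EndF E4 M} {a : F2 E4 M}
    (h : ∀ x (u v : E4), at2 a x (atJ J x u) (atJ J x v) = - at2 a x u v) : bpp J a = a := by
  refine f2_ext fun x u v => ?_
  rw [at2_bpp_apply, h]; ring

/-- **N2, core**. -/
theorem n2_core {J : EndF E4 M} (hJ : ∀ x (v : E4), atJ J x (atJ J x v) = -v)
    (X : Submodule ℝ (F2 E4 M))
    (hX0 : ∀ a ∈ X, ∀ x, Alt (at2 a x))
    (jp jm : X →ₗ[ℝ] X) (hjp : ∀ b, (jp b).1 = bp J b.1) (hjm : ∀ b, (jm b).1 = bpp J b.1)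
    (Z : Submodule ℝ X) (F : X) (hFp : PosG J F.1)
    (hunit : ∀ b : X, ∃ t : ℝ, ∀ x (v : E4), |at2 b.1 x v (atJ J x v)| ≤ t * at2 F.1 x v (atJ J x v))
    (ν : Seminorm ℝ X) (ρ : ℝ) (hρ : 0 < ρ) :
    (∃ b ∈ Z, PosG J (bp J b.1 - F.1) ∧ ν (jm b) < ρ) ∨
      ∃ L : X →ₗ[ℝ] ℝ, (∀ b ∈ Z, L b = 0) ∧ (∀ P : X, PosG J P.1 → 0 ≤ L P) ∧ L F = 1 ∧
        ∀ g : X, bpp J g.1 = g.1 → |L g| ≤ ρ⁻¹ * ν g := by
  by_cases hno : ∃ b ∈ Z, PosG J (bp J b.1 - F.1) ∧ ν (jm b) < ρ
  · exact Or.inl hno
  · right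
    push Not at hno
    have hF1 : jp F = F := Subtype.ext ((hjp F).trans (bp_of_inv fun x u v => (hFp x).inv u v))
    have hF2 : jm F = 0 := Subtype.ext ((hjm F).trans (bpp_of_inv fun x u v => (hFp x).inv u v))
    have hsub : ∀ z : X, PosG J (jp z - F : X).1 → PosG J (bp J z.1 - F.1) := by
      intro z hP x
      have h := hP x
      have e1 : at2 (jp z - F : X).1 x = at2 (jp z).1 x - at2 F.1 x := rfl
      have e2 : at2 (bp J z.1 - F.1) x = at2 (bp J z.1) x - at2 F.1 x := rfl
      rw [e1, hjp z] at h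
      rw [e2]
      exact h
    obtain ⟨T, hT1, hT2, hT3, hT4⟩ := HB.hb2 Z jp jm {P : X | PosG J P.1}
      (by
        intro x
        exact ⟨fun v => rfl, fun u v => rfl, fun v => le_rfl⟩)
      (by
        intro a ha b hb x
        have e : at2 (a + b : X).1 x = at2 a.1 x + at2 b.1 x := rfl
        refine ⟨fun v => ?_, fun u v => ?_, fun v => ?_⟩
        · rw [e]
          show at2 a.1 x v v + at2 b.1 x v v = 0
          rw [(ha x).alt v, (hb x).alt v, add_zero]
        · rw [e]
          show at2 a.1 x _ _ + at2 b.1 x _ _ = at2 a.1 x u v + at2 b.1 x u v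
          rw [(ha x).inv, (hb x).inv]
        · rw [e]
          exact add_nonneg ((ha x).nonneg v) ((hb x).nonneg v))
      (by
        intro c hc a ha x
        have e : at2 (c • a : X).1 x = c • at2 a.1 x := rfl
        refine ⟨fun v => ?_, fun u v => ?_, fun v => ?_⟩
        · rw [e]
          show c • at2 a.1 x v v = 0
          rw [(ha x).alt v, smul_zero]
        · rw [e]
          show c • at2 a.1 x _ _ = c • at2 a.1 x u v
          rw [(ha x).inv]
        · rw [e]
          exact mul_nonneg hc.le ((ha x).nonneg v))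
      F hF1 hF2
      (by
        intro b
        obtain ⟨t, ht⟩ := hunit b
        refine ⟨t, fun x => ?_⟩
        have e : ∀ u v : E4, at2 (t • F - jp b : X).1 x u v
            = t * at2 F.1 x u v - at2 (bp J b.1) x u v := by
          intro u v
          rw [← hjp b]; rfl
        refine ⟨fun v => ?_, fun u v => ?_, fun v => ?_⟩
        · refine (e v v).trans ?_
          rw [(hFp x).alt v, at2_bp_apply, hX0 _ b.2 x v, hX0 _ b.2 x (atJ J x v)]
          ring
        · refine (e _ _).trans (Eq.trans ?_ (e u v).symm)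
          rw [(hFp x).inv, at2_bp_inv hJ]
        · refine le_of_le_of_eq ?_ (e v (atJ J x v)).symm
          exact sub_nonneg.2 ((at2_bp_diag hJ (hX0 _ b.2 x) v).trans_le (abs_le.1 (ht x v)).2))
      ν ρ hρ
      (by
        intro z hz hP
        exact hno z hz (hsub z hP))
    refine ⟨T, hT1, ?_, hT2, ?_⟩
    · intro P hP
      exact hT3 P hP (Subtype.ext ((hjp P).trans (bp_of_inv fun x u v => (hP x).inv u v)))
        (Subtype.ext ((hjm P).trans (bpp_of_inv fun x u v => (hP x).inv u v)))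
    · intro g hg
      have h1 : jm g = g := Subtype.ext ((hjm g).trans hg)
      have h2 : jp g = 0 := by
        refine Subtype.ext ((hjp g).trans ?_)
        refine bp_of_anti fun x u v => ?_
        have := at2_bpp_anti hJ g.1 x u v
        rwa [hg] at this
      exact hT4 g h2 h1

end

end Crest.Agent.R240.N2
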