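import Crest.Agent.R240.EllFin
import Crest.Agent.R240.FAFinal

/-!
# Node N3 (Lemma A) of row 240, complete

`N3` = helper106's gluing (`Ell.n3_of_local`) applied to the local theorem (`FA.localThm`).
-/

open scoped Manifold ContDiff Topology

namespace Crest.Agent.R240.Dat

variable {M : Type*} [MetricSpace M] [CompactSpace M] [ChartedSpace E4 M]
  [IsManifold 𝓘(ℝ, E4) ∞ M] [MeasurableSpace M] [BorelSpace M]

theorem n3 (D : Dat M) : D.N3 := Ell.n3_of_local FA.localThm D

end Crest.Agent.R240.Dat

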