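import Mathlib

/-!
# Row 240 (S0371), node N3, soft part: from dual estimates to exact solvability

`X` is a real vector space with an increasing sequence of seminorms `cm l`, `Z` a subspace and
`π : X → X` linear.  Assume the *dual estimate*: every linear `B` with `|B b| ≤ D * cm L (π b)`
and `|B c| ≤ cm l c` on `Z` satisfies `|B b| ≤ C * cm s (π b)` with `C` independent of `D`.
Then, by Hahn--Banach, for every `b` and `δ > 0` there is `c ∈ Z` with
`cm l c ≤ C * cm s (π b) + δ` and `cm L (π (b - c)) ≤ δ`; a Mittag-Leffler sum gives `c ∈ Z` with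
`π c = π b` exactly and `cm 0 c ≤ C * cm (s 0) (π b)`.
-/

open Filter Topology

namespace Crest.Agent.R240.N3

variable {X : Type*} [AddCommGroup X] [Module ℝ X]

/-- The dual estimate for the orders `l` (on `Z`), `L` (a priori order) and `s` (gained order). -/
def Dual (Z : Submodule ℝ X) (π : X →ₗ[ℝ] X) (cm : ℕ → Seminorm ℝ X) (l L s : ℕ) : Prop :=
  ∃ C : ℝ, 0 ≤ C ∧ ∀ (D : ℝ) (B : X →ₗ[ℝ] ℝ), 0 ≤ D → (∀ b, |B b| ≤ D * cm L (π b)) →
    (∀ c ∈ Z, |B c| ≤ cm l c) → ∀ b, |B b| ≤ C * cm s (π b)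

/-- Hahn--Banach for a seminorm-like function `p` at one point. -/
theorem exists_support (p : X → ℝ) (h0 : ∀ x, 0 ≤ p x)
    (hhom : ∀ t : ℝ, 0 < t → ∀ x, p (t • x) = t * p x)
    (hadd : ∀ x y, p (x + y) ≤ p x + p y) (β : X) :
    ∃ B : X →ₗ[ℝ] ℝ, B β = p β ∧ ∀ x, B x ≤ p x := by
  rcases eq_or_ne β 0 with rfl | hβ
  · refine ⟨0, ?_, fun x => by simpa using h0 x⟩
    have h1 := hhom 2 (by norm_num) 0
    rw [smul_zero] at h1
    have : p (0 : X) = 0 := by linarith
    simp [this]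
  · set f : X →ₗ.[ℝ] ℝ := LinearPMap.mkSpanSingleton (K := ℝ) β (p β) hβ with hf
    obtain ⟨g, hg1, hg2⟩ := exists_extension_of_le_sublinear f p hhom hadd (by
      rintro ⟨x, hx⟩
      obtain ⟨t, rfl⟩ := Submodule.mem_span_singleton.1 hx
      have e1 : f ⟨t • β, hx⟩ = t * p β := by
        exact LinearPMap.mkSpanSingleton'_apply (σ := RingHom.id ℝ) β (p β)
          (fun c hc => by
            rcases smul_eq_zero.1 hc with h | h
            · simp [h]
            · exact absurd h hβ) t hx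
      rw [e1]
      rcases lt_trichotomy t 0 with ht | ht | ht
      · exact le_trans (mul_nonpos_of_nonpos_of_nonneg ht.le (h0 _)) (h0 _)
      · subst ht; simpa using h0 _
      · exact le_of_eq (hhom t ht β).symm)
    refine ⟨g, ?_, hg2⟩
    have hm : β ∈ f.domain := by
      rw [hf]; exact Submodule.mem_span_singleton_self β
    have := hg1 ⟨β, hm⟩
    rw [this]
    exact LinearPMap.mkSpanSingleton_apply ℝ ℝ hβ _

/-- The auxiliary functional of the Hahn--Banach step. -/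
noncomputable def pf (Z : Submodule ℝ X) (π : X →ₗ[ℝ] X) (cm : ℕ → Seminorm ℝ X) (l L : ℕ)
    (D : ℝ) (b : X) : ℝ :=
  ⨅ c : Z, (cm l (c : X) + D * cm L (π (b - c)))

section pf

variable (Z : Submodule ℝ X) (π : X →ₗ[ℝ] X) (cm : ℕ → Seminorm ℝ X) (l L : ℕ) {D : ℝ}

theorem pf_bdd (hD : 0 ≤ D) (b : X) :
    BddBelow (Set.range fun c : Z => (cm l (c : X) + D * cm L (π (b - c)))) := by
  refine ⟨0, ?_⟩
  rintro _ ⟨c, rfl⟩
  have h1 := apply_nonneg (cm l) (c : X)
  have h2 := apply_nonneg (cm L) (π (b - c))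
  positivity

theorem pf_nonneg (hD : 0 ≤ D) (b : X) : 0 ≤ pf Z π cm l L D b := by
  refine le_ciInf fun c => ?_
  have h1 := apply_nonneg (cm l) (c : X)
  have h2 := apply_nonneg (cm L) (π (b - c))
  positivity

theorem pf_le (hD : 0 ≤ D) (b : X) (c : X) (hc : c ∈ Z) :
    pf Z π cm l L D b ≤ cm l c + D * cm L (π (b - c)) :=
  ciInf_le (pf_bdd Z π cm l L hD b) (⟨c, hc⟩ : Z)

theorem pf_exists (D : ℝ) (b : X) {t : ℝ} (ht : pf Z π cm l L D b < t) :
    ∃ c ∈ Z, cm l c + D * cm L (π (b - c)) < t := by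
  obtain ⟨c, hc⟩ := exists_lt_of_ciInf_lt ht
  exact ⟨c, c.2, hc⟩

theorem pf_smul_le (hD : 0 ≤ D) (t : ℝ) (ht : 0 < t) (b : X) :
    pf Z π cm l L D (t • b) ≤ t * pf Z π cm l L D b := by
  refine le_of_forall_pos_le_add fun ε hε => ?_
  obtain ⟨c, hc, h⟩ := pf_exists Z π cm l L D b
    (show pf Z π cm l L D b < pf Z π cm l L D b + ε / t by
      have := div_pos hε ht; linarith)
  have h2 := pf_le Z π cm l L hD (t • b) (t • c) (Z.smul_mem t hc)
  rw [← smul_sub, LinearMap.map_smul, map_smul_eq_mul, map_smul_eq_mul,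
    Real.norm_of_nonneg ht.le] at h2
  have h3 : t * (cm l c + D * cm L (π (b - c))) < t * (pf Z π cm l L D b + ε / t) :=
    mul_lt_mul_of_pos_left h ht
  have h4 : t * (ε / t) = ε := by field_simp
  nlinarith

theorem pf_smul (hD : 0 ≤ D) (t : ℝ) (ht : 0 < t) (b : X) :
    pf Z π cm l L D (t • b) = t * pf Z π cm l L D b := by
  refine le_antisymm (pf_smul_le Z π cm l L hD t ht b) ?_
  have h := pf_smul_le Z π cm l L hD t⁻¹ (inv_pos.2 ht) (t • b)
  rw [smul_smul, inv_mul_cancel₀ ht.ne', one_smul] at h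
  have h2 := mul_le_mul_of_nonneg_left h ht.le
  rwa [← mul_assoc, mul_inv_cancel₀ ht.ne', one_mul] at h2

theorem pf_add (hD : 0 ≤ D) (x y : X) :
    pf Z π cm l L D (x + y) ≤ pf Z π cm l L D x + pf Z π cm l L D y := by
  refine le_of_forall_pos_le_add fun ε hε => ?_
  obtain ⟨c, hc, h⟩ := pf_exists Z π cm l L D x
    (show pf Z π cm l L D x < pf Z π cm l L D x + ε / 2 by linarith)
  obtain ⟨d, hd, h'⟩ := pf_exists Z π cm l L D y
    (show pf Z π cm l L D y < pf Z π cm l L D y + ε / 2 by linarith)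
  have h2 := pf_le Z π cm l L hD (x + y) (c + d) (Z.add_mem hc hd)
  have e : π (x + y - (c + d)) = π (x - c) + π (y - d) := by
    rw [← map_add]; congr 1; abel
  have h3 := map_add_le_add (cm l) c d
  have h4 := map_add_le_add (cm L) (π (x - c)) (π (y - d))
  rw [e] at h2
  have h5 := mul_le_mul_of_nonneg_left h4 hD
  nlinarith

end pf

/-- **Hahn--Banach step.** -/
theorem approx (Z : Submodule ℝ X) (π : X →ₗ[ℝ] X) (cm : ℕ → Seminorm ℝ X) (l L s : ℕ)
    (hdual : Dual Z π cm l L s) :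
    ∃ C : ℝ, 0 ≤ C ∧ ∀ b : X, ∀ δ : ℝ, 0 < δ → ∀ δ' : ℝ, 0 < δ' → ∃ c ∈ Z,
      cm l c ≤ C * cm s (π b) + δ ∧ cm L (π (b - c)) ≤ δ' := by
  obtain ⟨C, hC, hdual⟩ := hdual
  refine ⟨C, hC, fun b δ hδ δ' hδ' => ?_⟩
  set R : ℝ := C * cm s (π b) + δ with hR
  have hRpos : 0 < R := by
    have := apply_nonneg (cm s) (π b)
    positivity
  set D : ℝ := R / δ' with hDdef
  have hD : 0 ≤ D := by positivity
  obtain ⟨B, hB1, hB2⟩ := exists_support (pf Z π cm l L D) (pf_nonneg Z π cm l L hD)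
    (fun t ht x => pf_smul Z π cm l L hD t ht x) (pf_add Z π cm l L hD) b
  have hneg : ∀ x, pf Z π cm l L D (-x) = pf Z π cm l L D x := by
    have key : ∀ x, pf Z π cm l L D (-x) ≤ pf Z π cm l L D x := by
      intro x
      refine le_of_forall_pos_le_add fun ε hε => ?_
      obtain ⟨c, hc, h⟩ := pf_exists Z π cm l L D x
        (show pf Z π cm l L D x < pf Z π cm l L D x + ε by linarith)
      have h2 := pf_le Z π cm l L hD (-x) (-c) (Z.neg_mem hc)
      have e : π (-x - -c) = - π (x - c) := by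
        rw [← map_neg]; congr 1; abel
      rw [e, map_neg_eq_map, map_neg_eq_map] at h2
      linarith
    intro x
    refine le_antisymm (key x) ?_
    have := key (-x)
    rwa [neg_neg] at this
  have habs : ∀ x, |B x| ≤ pf Z π cm l L D x := by
    intro x
    rw [abs_le]
    constructor
    · have := hB2 (-x)
      rw [map_neg, hneg] at this
      linarith
    · exact hB2 x
  have h1 : ∀ x, |B x| ≤ D * cm L (π x) := by
    intro x
    refine (habs x).trans ((pf_le Z π cm l L hD x 0 Z.zero_mem).trans ?_)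
    simp
  have h2 : ∀ c ∈ Z, |B c| ≤ cm l c := by
    intro c hc
    refine (habs c).trans ((pf_le Z π cm l L hD c c hc).trans ?_)
    simp
  have h3 := hdual D B hD h1 h2 b
  have h4 : pf Z π cm l L D b < R := by
    have : pf Z π cm l L D b ≤ C * cm s (π b) := by
      rw [← hB1]; exact (le_abs_self _).trans h3
    rw [hR]; linarith
  obtain ⟨c, hc, h5⟩ := pf_exists Z π cm l L D b h4
  refine ⟨c, hc, ?_, ?_⟩
  · have : 0 ≤ D * cm L (π (b - c)) := mul_nonneg hD (apply_nonneg _ _)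
    linarith
  · have h6 : D * cm L (π (b - c)) ≤ R := by
      have := apply_nonneg (cm l) c
      linarith
    rw [hDdef, div_mul_eq_mul_div, div_le_iff₀ hδ'] at h6
    exact le_of_mul_le_mul_left h6 hRpos

theorem cm_mono_le (cm : ℕ → Seminorm ℝ X) (hmono : ∀ l b, cm l b ≤ cm (l + 1) b) {l m : ℕ}
    (h : l ≤ m) (b : X) : cm l b ≤ cm m b := by
  induction h with
  | refl => exact le_rfl
  | step _ ih => exact ih.trans (hmono _ _)

/-- **Mittag-Leffler step**: exact solvability with a bound. -/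
theorem solve (Z : Submodule ℝ X) (π : X →ₗ[ℝ] X) (cm : ℕ → Seminorm ℝ X) (s : ℕ → ℕ)
    (hmono : ∀ l b, cm l b ≤ cm (l + 1) b)
    (hdual : ∀ l L, s l ≤ L → Dual Z π cm l L (s l))
    (hπ : ∃ (k : ℕ) (C : ℝ), ∀ b, cm 0 (π b) ≤ C * cm k b)
    (hsep : ∀ b, cm 0 b = 0 → b = 0)
    (hcomplete : ∀ c : ℕ → X, (∀ j, c j ∈ Z) → (∀ l, Summable fun j => cm l (c j)) →
      ∃ d ∈ Z, ∀ l, Tendsto (fun n => cm l (d - ∑ j ∈ Finset.range n, c j)) atTop (𝓝 0)) :
    ∃ C : ℝ, 0 ≤ C ∧ ∀ b, ∃ c ∈ Z, π c = π b ∧ cm 0 c ≤ C * cm (s 0) (π b) := by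
  have hstep : ∀ j, ∃ C : ℝ, 0 ≤ C ∧ ∀ b : X, ∀ δ : ℝ, 0 < δ → ∀ δ' : ℝ, 0 < δ' → ∃ c ∈ Z,
      cm j c ≤ C * cm (s j) (π b) + δ ∧ cm (s (j + 1)) (π (b - c)) ≤ δ' := by
    intro j
    obtain ⟨C, hC, h⟩ := approx Z π cm j (max (s j) (s (j + 1))) (s j)
      (hdual j _ (le_max_left _ _))
    refine ⟨C, hC, fun b δ hδ δ' hδ' => ?_⟩
    obtain ⟨c, hc, h1, h2⟩ := h b δ hδ δ' hδ'
    exact ⟨c, hc, h1, (cm_mono_le cm hmono (le_max_right _ _) _).trans h2⟩
  choose C hC hstep using hstep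
  obtain ⟨k, Cπ, hπ⟩ := hπ
  refine ⟨C 0 + 2, by linarith [hC 0], fun b => ?_⟩
  set a : ℝ := cm (s 0) (π b) with ha
  rcases (apply_nonneg (cm (s 0)) (π b)).eq_or_lt with h0 | hapos
  · refine ⟨0, Z.zero_mem, ?_, ?_⟩
    · have h1 : cm 0 (π b) ≤ 0 := by
        rw [h0]; exact cm_mono_le cm hmono (Nat.zero_le _) _
      have h2 : cm 0 (π b) = 0 := le_antisymm h1 (apply_nonneg _ _)
      rw [hsep _ h2, map_zero]
    · rw [map_zero, ha, ← h0, mul_zero]
  rw [← ha] at hapos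
  set δ' : ℕ → ℝ := fun j => min (1 / 2 ^ j) (a / 2 ^ (j + 2) / (C (j + 1) + 1)) with hδ'def
  have hC1 : ∀ j, 0 < C j + 1 := fun j => by linarith [hC j]
  have hδ' : ∀ j, 0 < δ' j := by
    intro j
    have := hC1 (j + 1)
    exact lt_min (by positivity) (by positivity)
  have hδ1 : ∀ j, δ' j ≤ 1 / 2 ^ j := fun j => min_le_left _ _
  have hδ2 : ∀ j, C (j + 1) * δ' j ≤ a / 2 ^ (j + 2) := by
    intro j
    have h1 : δ' j ≤ a / 2 ^ (j + 2) / (C (j + 1) + 1) := min_le_right _ _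
    have h2 : (C (j + 1) + 1) * δ' j ≤ a / 2 ^ (j + 2) := by
      rw [le_div_iff₀ (hC1 _)] at h1
      linarith
    linarith [hδ' j]
  have hδ : ∀ j : ℕ, 0 < a / 2 ^ (j + 2) := fun j => by positivity
  choose f hfZ hf1 hf2 using fun (j : ℕ) (x : X) => hstep j x (a / 2 ^ (j + 2)) (hδ j) (δ' j) (hδ' j)
  obtain ⟨Bs, hBs0, hBs1⟩ : ∃ Bs : ℕ → X, Bs 0 = b ∧ ∀ j, Bs (j + 1) = Bs j - f j (Bs j) :=
    ⟨fun n => Nat.rec b (fun j x => x - f j x) n, rfl, fun j => rfl⟩
  set c : ℕ → X := fun j => f j (Bs j) with hc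
  have hcZ : ∀ j, c j ∈ Z := fun j => hfZ j (Bs j)
  have hsum : ∀ n, Bs n = b - ∑ j ∈ Finset.range n, c j := by
    intro n
    induction n with
    | zero => simp [hBs0]
    | succ n ih => rw [hBs1, Finset.sum_range_succ, sub_add_eq_sub_sub, ← ih]
  have hsmall : ∀ j, cm (s (j + 1)) (π (Bs (j + 1))) ≤ δ' j := fun j => by
    rw [hBs1]; exact hf2 j (Bs j)
  have hc0 : cm 0 (c 0) ≤ C 0 * a + a / 4 := by
    have h1 := hf1 0 (Bs 0)
    have e : a / 2 ^ (0 + 2) = a / 4 := by norm_num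
    rw [e, hBs0, ← ha] at h1
    rw [hc]
    simpa [hBs0] using h1
  have hcj : ∀ j, cm (j + 1) (c (j + 1)) ≤ a / 2 ^ (j + 1) := by
    intro j
    have h1 := hf1 (j + 1) (Bs (j + 1))
    have h2 := mul_le_mul_of_nonneg_left (hsmall j) (hC (j + 1))
    have h3 := hδ2 j
    have h4 : a / 2 ^ (j + 2) + a / 2 ^ (j + 1 + 2) ≤ a / 2 ^ (j + 1) := by
      have e1 : a / 2 ^ (j + 2) = a / 2 ^ (j + 1) / 2 := by rw [pow_succ]; field_simp
      have e2 : a / 2 ^ (j + 1 + 2) = a / 2 ^ (j + 1) / 4 := by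
        rw [pow_add _ (j + 1) 2]; field_simp; norm_num
      have : 0 < a / 2 ^ (j + 1) := by positivity
      rw [e1, e2]; linarith
    calc cm (j + 1) (c (j + 1)) ≤ _ := h1
      _ ≤ a / 2 ^ (j + 2) + a / 2 ^ (j + 1 + 2) := by linarith
      _ ≤ _ := h4
  have hsummable : ∀ l, Summable fun j => cm l (c j) := by
    intro l
    rw [← summable_nat_add_iff (l + 1)]
    refine Summable.of_nonneg_of_le (fun j => apply_nonneg _ _) (fun j => ?_)
      ((summable_geometric_two).mul_left a)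
    have h1 : cm l (c (j + (l + 1))) ≤ cm (j + l + 1) (c (j + (l + 1))) :=
      cm_mono_le cm hmono (by omega) _
    have h2 := hcj (j + l)
    have h3 : a / 2 ^ (j + l + 1) ≤ a * (1 / 2) ^ j := by
      rw [one_div, inv_pow, ← div_eq_mul_inv]
      exact div_le_div_of_nonneg_left hapos.le (by positivity)
        (pow_le_pow_right₀ (by norm_num) (by omega))
    exact h1.trans (h2.trans h3)
  obtain ⟨d, hdZ, hd⟩ := hcomplete c hcZ hsummable
  refine ⟨d, hdZ, ?_, ?_⟩
  · have key : cm 0 (π (d - b)) ≤ 0 := by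
      have h1 : ∀ n : ℕ, cm 0 (π (d - b)) ≤
          Cπ * cm k (d - ∑ j ∈ Finset.range (n + 1), c j) + 1 / 2 ^ n := by
        intro n
        have e : π (d - b) = π (d - ∑ j ∈ Finset.range (n + 1), c j) - π (Bs (n + 1)) := by
          rw [hsum, ← map_sub]; congr 1; abel
        rw [e]
        refine (map_sub_le_add (cm 0) _ _).trans (add_le_add (hπ _) ?_)
        exact (cm_mono_le cm hmono (Nat.zero_le _) _).trans ((hsmall n).trans (hδ1 n))
      have h2 : Tendsto (fun n : ℕ =>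
          Cπ * cm k (d - ∑ j ∈ Finset.range (n + 1), c j) + 1 / 2 ^ n) atTop (𝓝 (Cπ * 0 + 0)) := by
        refine Tendsto.add (((tendsto_add_atTop_iff_nat 1).2 (hd k)).const_mul Cπ) ?_
        have := tendsto_pow_atTop_nhds_zero_of_lt_one (r := (1 / 2 : ℝ)) (by norm_num) (by norm_num)
        refine this.congr fun n => ?_
        rw [one_div, inv_pow, one_div]
      have h3 := ge_of_tendsto' h2 h1
      simpa using h3
    have h0 := hsep _ (le_antisymm key (apply_nonneg _ _))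
    rw [map_sub, sub_eq_zero] at h0
    exact h0
  · have hpart : ∀ n, ∑ j ∈ Finset.range (n + 1), cm 0 (c j) ≤
        C 0 * a + a / 4 + a * (1 - 1 / 2 ^ n) := by
      intro n
      induction n with
      | zero => simpa using hc0
      | succ n ih =>
        rw [Finset.sum_range_succ]
        have h1 : cm 0 (c (n + 1)) ≤ a / 2 ^ (n + 1) :=
          (cm_mono_le cm hmono (Nat.zero_le _) _).trans (hcj n)
        have e : a * (1 - 1 / 2 ^ (n + 1)) = a * (1 - 1 / 2 ^ n) + a / 2 ^ (n + 1) := by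
          rw [pow_succ]; field_simp; ring
        rw [e]; linarith
    have hpart' : ∀ n, ∑ j ∈ Finset.range (n + 1), cm 0 (c j) ≤ (C 0 + 2) * a := by
      intro n
      refine (hpart n).trans ?_
      have : 0 < a * (1 / 2 ^ n) := by positivity
      nlinarith
    have h1 : ∀ n : ℕ, cm 0 d ≤
        cm 0 (d - ∑ j ∈ Finset.range (n + 1), c j) + (C 0 + 2) * a := by
      intro n
      have e : d = (d - ∑ j ∈ Finset.range (n + 1), c j) + ∑ j ∈ Finset.range (n + 1), c j := by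
        abel
      calc cm 0 d = cm 0 ((d - ∑ j ∈ Finset.range (n + 1), c j) +
            ∑ j ∈ Finset.range (n + 1), c j) := by rw [← e]
        _ ≤ _ := map_add_le_add _ _ _
        _ ≤ _ := by
            refine add_le_add le_rfl (le_trans ?_ (hpart' n))
            exact Finset.le_sum_of_subadditive (cm 0) (map_zero (cm 0)).le (map_add_le_add (cm 0)) _ _
    have h2 : Tendsto (fun n : ℕ =>
        cm 0 (d - ∑ j ∈ Finset.range (n + 1), c j) + (C 0 + 2) * a) atTop
        (𝓝 (0 + (C 0 + 2) * a)) :=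
      ((tendsto_add_atTop_iff_nat 1).2 (hd 0)).add_const _
    have h3 := ge_of_tendsto' h2 h1
    simpa using h3

end Crest.Agent.R240.N3
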