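import Crest.Agent.R240.En4E
import Crest.Agent.R240.NrCm
import Crest.Agent.R240.IntNodes

/-!
Row 240 (S0371), helper240: node N5' (growth of the trace measure of a closed (1,1)-current)
from the smoothing package N8, the monotonicity N9 and FUND.
-/

set_option autoImplicit false
set_option maxSynthPendingDepth 3

open Set Function Filter MeasureTheory Metric
open scoped Manifold ContDiff Topology ENNReal

namespace Crest.Agent.R240.N5P

open Crest.Agent.R240.Ch Crest.Agent.R240.En4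

noncomputable section

variable {M : Type*} [MetricSpace M] [CompactSpace M] [ChartedSpace E4 M]
    [IsManifold 𝓘(ℝ, E4) ∞ M] [MeasurableSpace M] [BorelSpace M]

theorem nrcm (D : Dat M) (𝒰 : Cover M) : NRCM D 𝒰 := by
  obtain ⟨C, -, hC⟩ := NrCm.nr_le_cm D 𝒰
  exact ⟨C, hC⟩

theorem n2_zero (D : Dat M) : D.n2 ((0 : X2 M) : F2 E4 M) = 0 := by
  have h := n2_split D (0 : X2 M)
  rw [map_zero, map_zero] at h
  have h2 : D.n2 ((0 : X2 M) : F2 E4 M) ^ 2 = 0 := by linarith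
  exact pow_eq_zero_iff two_ne_zero |>.1 h2

omit [CompactSpace M] [IsManifold 𝓘(ℝ, E4) ∞ M] [MeasurableSpace M] [BorelSpace M] in
/-- constants are smooth. -/
theorem sF_one : SmoothF E4 (fun _ : M => (1 : ℝ)) := sF_const 1

/-- `∫ g = s(M)`. -/
theorem mass_eq {D : Dat M} {𝒰 : Cover M} (S : SmPack D 𝒰) {s : Measure M}
    {e : ℝ} (he : 0 < e) (hee : e ≤ S.e0) {g : M → ℝ}
    (hgs : ∀ f, SmoothF E4 f → ∫ x, S.a e f x ∂s = ∫ x, f x * g x ∂D.μ) :
    ∫ x, g x ∂D.μ = s.real univ := by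
  have h := hgs (fun _ => 1) sF_one
  simp only [S.a_one e he hee, one_mul, integral_const, smul_eq_mul, mul_one] at h
  exact h.symm

/-- from the smoothed densities to the growth of the measure. -/
theorem growth_of {s : Measure M} [IsFiniteMeasure s] {μ : Measure M} {Cm K r0 e1 : ℝ}
    (hCm : 1 ≤ Cm) (hr0 : 0 < r0) (he1 : 0 < e1) (hK : 0 ≤ K)
    (h : ∀ e, 0 < e → e ≤ e1 → ∃ g : M → ℝ,
      (∀ x r, e ≤ r → s.real (ball x r) ≤ Cm * ∫ y in ball x (Cm * r), g y ∂μ) ∧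
      (∀ x r, e ≤ r → r ≤ r0 → ∫ y in ball x r, g y ∂μ ≤ K * r ^ 2)) :
    Dat.Growth2 s := by
  refine ⟨Cm * (K * Cm ^ 2) + s.real univ * (Cm / r0) ^ 2, fun x r hr => ?_⟩
  have hCm0 : 0 < Cm := by linarith
  have hsu : 0 ≤ s.real univ := measureReal_nonneg
  rcases le_or_gt (Cm * r) r0 with h1 | h1
  · obtain ⟨g, hg1, hg2⟩ := h (min e1 r) (lt_min he1 hr) (min_le_left _ _)
    have h2 := hg1 x r (min_le_right _ _)
    have h3 := hg2 x (Cm * r) ((min_le_right _ _).trans (by nlinarith)) h1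
    have h4 : Cm * ∫ y in ball x (Cm * r), g y ∂μ ≤ Cm * (K * (Cm * r) ^ 2) := by gcongr
    have h5 : 0 ≤ s.real univ * (Cm / r0) ^ 2 * r ^ 2 := by positivity
    nlinarith
  · have h2 : s.real (ball x r) ≤ s.real univ := measureReal_mono (subset_univ _) (measure_ne_top _ _)
    have h3 : 1 ≤ Cm / r0 * r := by
      rw [div_mul_eq_mul_div, one_le_div hr0]; exact h1.le
    have h4 : 1 ≤ (Cm / r0 * r) ^ 2 := one_le_pow₀ h3
    have h5 : 0 ≤ Cm * (K * Cm ^ 2) * r ^ 2 := by positivity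
    have h6 : s.real univ * 1 ≤ s.real univ * (Cm / r0 * r) ^ 2 := by gcongr
    nlinarith

/-- **node N5'**. -/
theorem n5'_of (D : Dat M) (hN8 : D.N8) (hN9 : D.N9) (hF : D.FUND) : D.N5' := by
  intro Φ s hInv hNn hEx hRM
  have hfin := hRM.fin
  obtain ⟨𝒰⟩ := Int.node_COV D
  obtain ⟨S⟩ := hN8 𝒰
  obtain ⟨C1, hC1, hT⟩ := tpart D S (nrcm D 𝒰)
  obtain ⟨Cm, hCm, hm⟩ := S.repm
  obtain ⟨C9, r0, hC9, hr0, h9⟩ := hN9 (C1 + 1) (by linarith)
  have he1 : 0 < min S.e0 (1 / (2 * C1)) := lt_min S.e0_pos (by positivity)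
  refine growth_of (μ := D.μ) (K := C9 * s.real univ) hCm hr0 he1
    (mul_nonneg hC9.le measureReal_nonneg) fun e he hee => ?_
  have hee0 : e ≤ S.e0 := hee.trans (min_le_left _ _)
  have hee1 : e * C1 ≤ 1 / 2 := by
    have h := hee.trans (min_le_right _ _)
    rw [le_div_iff₀ (by positivity)] at h
    linarith
  obtain ⟨g, hgS, hg0, hgs, -, hgm⟩ := hm s hfin e he hee0
  refine ⟨g, hgm, ?_⟩
  obtain ⟨T, hT0, hT1, -, hT3, hT4, -, hT6⟩ :=
    hT Φ s hRM e he hee0 g hgS hg0 hgs S.one (S.one_mem 0)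
  have hTZ : T ∈ Z2 M := by
    refine hF T fun b hb => ?_
    rw [← hT0, ← hInv]
    exact hEx _ (S.exact e S.one he hee0 b hb)
  intro x r her hr
  have h := h9 e he (hee0.trans S.e0_le) T 0 g hgS hg0 (by rw [add_zero]; exact hTZ)
    (fun x => (hT1 x).trans (by nlinarith [hg0 x]))
    (GeF.mono D hT3 fun x => by
      have := hg0 x
      have h2 : 0 ≤ e ^ 2 * g x := by positivity
      nlinarith)
    (fun x => (hT4 x).trans (by
      have := hg0 x
      have h2 : 0 ≤ e * g x := by positivity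
      nlinarith))
    (fun x => by
      have h1 := hT6 rfl x
      have h2 := hg0 x
      have h3 : 1 / 2 * g x ≤ (1 - C1 * e) * g x := by
        apply mul_le_mul_of_nonneg_right _ h2
        linarith
      have h4 : 0 ≤ qG D.F (T : F2 E4 M) D.F x := by nlinarith
      nlinarith) x r her hr
  rw [map_zero, n2_zero, mass_eq S he hee0 hgs, zero_div, add_zero, add_zero] at h
  calc ∫ y in ball x r, g y ∂D.μ ≤ C9 * r ^ 2 * s.real univ := h
    _ = C9 * s.real univ * r ^ 2 := by ring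

end

end Crest.Agent.R240.N5P
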