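import Mathlib

/-!
Row 240, PART T (helper23): real-number lemmas for the bootstrap of Step 4.
-/

set_option autoImplicit false

namespace Crest.Agent.R240.Top

/-- A quadratic inequality with a small coefficient. -/
theorem quad_small {C e t N : ℝ} (hC : 1 ≤ C) (he : 0 ≤ e) (heC : C * e ≤ 1 / 8)
    (ht : 0 ≤ t) (hN : 0 ≤ N)
    (h : N ^ 2 ≤ C * (e ^ 2 * t ^ 2 + t * (e * (N + 1)) + (e * (N + 1)) ^ 2)) :
    N ≤ 8 * C * (1 + e * t) := by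
  have hCe0 : 0 ≤ C * e := by positivity
  have hCe2 : C * e ^ 2 ≤ 1 / 8 := by
    have h1 : e ≤ 1 / 8 := by nlinarith
    calc C * e ^ 2 = (C * e) * e := by ring
      _ ≤ (1 / 8) * e := by gcongr
      _ ≤ (1 / 8) * 1 := by gcongr; linarith
      _ = 1 / 8 := by ring
  set y := e * t with hy
  have hy0 : 0 ≤ y := by positivity
  have h2 : N ^ 2 ≤ C * y ^ 2 + C * y * (N + 1) + (1 / 8) * (N + 1) ^ 2 := by
    calc N ^ 2 ≤ C * (e ^ 2 * t ^ 2 + t * (e * (N + 1)) + (e * (N + 1)) ^ 2) := h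
      _ = C * y ^ 2 + C * y * (N + 1) + (C * e ^ 2) * (N + 1) ^ 2 := by rw [hy]; ring
      _ ≤ _ := by gcongr
  by_contra hcon
  push Not at hcon
  have h3 : 0 ≤ C := by linarith
  -- N > 8 C (1 + y)
  have h4 : 8 ≤ N := by nlinarith
  have h5 : C * y ≤ N / 8 := by nlinarith
  have h6 : C * y ^ 2 ≤ N ^ 2 / 64 := by
    have h7 : y ≤ C * y := by nlinarith
    calc C * y ^ 2 = (C * y) * y := by ring
      _ ≤ (N / 8) * (N / 8) := by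
          apply mul_le_mul h5 (h7.trans h5) hy0 (by positivity)
      _ = N ^ 2 / 64 := by ring
  have h8 : C * y * (N + 1) ≤ (N / 8) * (N + 1) := by gcongr
  nlinarith

/-- Abstract energy bootstrap at a fixed scale `e`: `f κ = ‖B_κ‖`, `g κ = ‖B_κ'‖`,
`h κ = ‖B_κ''‖` in `L²`. -/
theorem energy_boot {ι : Type*} {pos : Set ι} {f g h : ι → ℝ} {C e t : ℝ}
    (hC : 1 ≤ C) (he : 0 ≤ e) (heC : 8 * C ^ 6 * e ≤ 1 / 8) (ht : 0 ≤ t)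
    (hf0 : ∀ κ, 0 ≤ f κ) (hg0 : ∀ κ, 0 ≤ g κ)
    (hbdd : BddAbove (Set.range f))
    (hfgh : ∀ κ ∈ pos, f κ ^ 2 ≤ C * (g κ ^ 2 + h κ ^ 2))
    (hpos : ∀ κ ∈ pos, h κ ^ 2 ≤ C * (e ^ 2 * t ^ 2 + t * g κ + g κ ^ 2))
    (hg : ∀ N : ℝ, (∀ κ, f κ ≤ N) → ∀ κ, g κ ≤ C * (e * (N + 1)))
    (hdec : ∀ κ, ∃ κ₁ ∈ pos, ∃ κ₂ ∈ pos, f κ ≤ C * (f κ₁ + f κ₂)) :
    ∀ κ, f κ ≤ 8 * (8 * C ^ 6) * (1 + e * t) := by
  intro κ₀
  have : Nonempty ι := ⟨κ₀⟩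
  set N := ⨆ κ, f κ with hN
  have hle : ∀ κ, f κ ≤ N := fun κ => le_ciSup hbdd κ
  have hN0 : 0 ≤ N := (hf0 κ₀).trans (hle κ₀)
  have hC0 : 0 ≤ C := by linarith
  have hgN := hg N hle
  have hX0 : 0 ≤ e * (N + 1) := by positivity
  -- bound for positive kernels
  set X := e * (N + 1) with hX
  have e1 : 0 ≤ e ^ 2 * t ^ 2 := by positivity
  have e2 : 0 ≤ t * X := by positivity
  have e3 : 0 ≤ X ^ 2 := by positivity
  set Q := e ^ 2 * t ^ 2 + t * X + X ^ 2 with hQ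
  have hQ0 : 0 ≤ Q := by positivity
  have hP : ∀ κ ∈ pos, f κ ^ 2 ≤ 2 * C ^ 4 * Q := by
    intro κ hκ
    have h1 := hfgh κ hκ
    have h2 := hpos κ hκ
    have h3 := hgN κ
    have h30 := hg0 κ
    have h4 : g κ ^ 2 ≤ C ^ 2 * X ^ 2 := by
      calc g κ ^ 2 ≤ (C * X) ^ 2 := by gcongr
        _ = C ^ 2 * X ^ 2 := by ring
    have h5 : t * g κ ≤ C * (t * X) := by
      calc t * g κ ≤ t * (C * X) := by gcongr
        _ = C * (t * X) := by ring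
    have h6 : h κ ^ 2 ≤ C * (e ^ 2 * t ^ 2 + C * (t * X) + C ^ 2 * X ^ 2) := by
      calc h κ ^ 2 ≤ _ := h2
        _ ≤ _ := by gcongr
    have p1 : (1 : ℝ) ≤ C ^ 2 := one_le_pow₀ hC
    have p2 : C ≤ C ^ 2 := by nlinarith
    have p3 : C ^ 2 ≤ C ^ 3 := pow_le_pow_right₀ hC (by norm_num)
    have p4 : C ^ 3 ≤ C ^ 4 := pow_le_pow_right₀ hC (by norm_num)
    have p5 : C ^ 2 ≤ C ^ 4 := p3.trans p4
    calc f κ ^ 2 ≤ C * (g κ ^ 2 + h κ ^ 2) := h1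
      _ ≤ C * (C ^ 2 * X ^ 2 + C * (e ^ 2 * t ^ 2 + C * (t * X) + C ^ 2 * X ^ 2)) := by gcongr
      _ = C ^ 2 * (e ^ 2 * t ^ 2) + C ^ 3 * (t * X) + (C ^ 3 + C ^ 4) * X ^ 2 := by ring
      _ ≤ (2 * C ^ 4) * (e ^ 2 * t ^ 2) + (2 * C ^ 4) * (t * X) + (2 * C ^ 4) * X ^ 2 := by
          have q4 : 0 ≤ C ^ 4 := by positivity
          gcongr <;> linarith
      _ = 2 * C ^ 4 * Q := by rw [hQ]; ring
  have hall : ∀ κ, f κ ^ 2 ≤ 8 * C ^ 6 * Q := by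
    intro κ
    obtain ⟨κ₁, h1, κ₂, h2, h3⟩ := hdec κ
    have h4 := hP κ₁ h1
    have h5 := hP κ₂ h2
    calc f κ ^ 2 ≤ (C * (f κ₁ + f κ₂)) ^ 2 := by
          have := hf0 κ
          gcongr
      _ = C ^ 2 * (f κ₁ + f κ₂) ^ 2 := by ring
      _ ≤ C ^ 2 * (2 * (f κ₁ ^ 2 + f κ₂ ^ 2)) := by
          gcongr
          nlinarith [sq_nonneg (f κ₁ - f κ₂)]
      _ ≤ C ^ 2 * (2 * (2 * C ^ 4 * Q + 2 * C ^ 4 * Q)) := by gcongr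
      _ = 8 * C ^ 6 * Q := by ring
  have hNle : N ≤ Real.sqrt (8 * C ^ 6 * Q) := by
    apply ciSup_le
    intro κ
    exact Real.le_sqrt_of_sq_le (hall κ)
  have hN2 : N ^ 2 ≤ 8 * C ^ 6 * Q := by
    calc N ^ 2 ≤ Real.sqrt (8 * C ^ 6 * Q) ^ 2 := by gcongr
      _ = 8 * C ^ 6 * Q := Real.sq_sqrt (by positivity)
  have hC6 : 1 ≤ 8 * C ^ 6 := by
    have : (1 : ℝ) ≤ C ^ 6 := one_le_pow₀ hC
    linarith
  exact (hle κ₀).trans (quad_small hC6 he heC ht hN0 hN2)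

/-- The last step of the bootstrap: `N ≤ C(1+y)`, `y² ≤ C D`, `D ≤ C(1+N)`. -/
theorem boot_final {C y N D : ℝ} (hC : 1 ≤ C) (hN0 : 0 ≤ N) (hy0 : 0 ≤ y)
    (h1 : N ≤ C * (1 + y)) (h2 : y ^ 2 ≤ C * D) (h3 : D ≤ C * (1 + N)) :
    N ≤ 4 * C ^ 4 ∧ D ≤ C * (1 + 4 * C ^ 4) := by
  have hC0 : 0 ≤ C := by linarith
  have hC2 : 1 ≤ C ^ 2 := one_le_pow₀ hC
  have hC4 : 1 ≤ C ^ 4 := one_le_pow₀ hC
  have h4 : y ^ 2 ≤ C ^ 2 * (1 + C * (1 + y)) := by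
    calc y ^ 2 ≤ C * D := h2
      _ ≤ C * (C * (1 + N)) := by gcongr
      _ ≤ C * (C * (1 + C * (1 + y))) := by gcongr
      _ = _ := by ring
  -- y ≤ 3 C^3
  have hy : y ≤ 3 * C ^ 3 := by
    by_contra hcon
    push Not at hcon
    have hC3 : 1 ≤ C ^ 3 := one_le_pow₀ hC
    have p2 : C ^ 2 ≤ C ^ 3 := pow_le_pow_right₀ hC (by norm_num)
    have h5 : y ^ 2 ≤ C ^ 2 + C ^ 3 + C ^ 3 * y := by nlinarith
    nlinarith
  have hN : N ≤ 4 * C ^ 4 := by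
    have p3 : C ≤ C ^ 4 := by
      calc C = C ^ 1 := (pow_one C).symm
        _ ≤ C ^ 4 := pow_le_pow_right₀ hC (by norm_num)
    calc N ≤ C * (1 + y) := h1
      _ ≤ C * (1 + 3 * C ^ 3) := by gcongr
      _ = C + 3 * C ^ 4 := by ring
      _ ≤ 4 * C ^ 4 := by linarith
  refine ⟨hN, h3.trans ?_⟩
  gcongr

end Crest.Agent.R240.Top
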