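import Mathlib
import Crest.Agent.R240.TopNum

/-!
Row 240, PART T (helper23): abstract assembly of Step 4 and Step 6.
-/

set_option autoImplicit false

open MeasureTheory Filter Set Metric
open scoped Topology

namespace Crest.Agent.R240.Top

noncomputable section

/-! ### Energy inequality (T1), integrated form -/

section Energy

variable {M : Type*} [MeasurableSpace M] {μ : Measure M}

/-- pointwise energy inequality: `Q` = `q(η,η)`, `p` = density of `|T|_e`, `a = |B_e'|`,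
`b = |B_e''|`. -/
theorem energy_int {Q p a b : M → ℝ} {c C e : ℝ} (hc : 0 < c) (hC : 0 ≤ C)
    (hQ : Integrable Q μ) (hp : MemLp p 2 μ) (ha : MemLp a 2 μ) (hb : MemLp b 2 μ)
    (hI : ∫ x, Q x ∂μ = 0)
    (hpt : ∀ x, c * b x ^ 2 - C * (e ^ 2 * p x ^ 2 + |p x| * |a x| + a x ^ 2) ≤ Q x) :
    ∫ x, b x ^ 2 ∂μ ≤ C / c * (e ^ 2 * (√(∫ x, p x ^ 2 ∂μ)) ^ 2
      + √(∫ x, p x ^ 2 ∂μ) * √(∫ x, a x ^ 2 ∂μ) + (√(∫ x, a x ^ 2 ∂μ)) ^ 2) := by
  have hp2 : Integrable (fun x => p x ^ 2) μ := hp.integrable_sq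
  have ha2 : Integrable (fun x => a x ^ 2) μ := ha.integrable_sq
  have hb2 : Integrable (fun x => b x ^ 2) μ := hb.integrable_sq
  have hpa : Integrable (fun x => |p x| * |a x|) μ := by
    have := hp.norm.integrable_mul (p := 2) (q := 2) ha.norm
    simpa [Pi.mul_def, Real.norm_eq_abs] using this
  have h0p : 0 ≤ ∫ x, p x ^ 2 ∂μ := integral_nonneg fun x => sq_nonneg _
  have h0a : 0 ≤ ∫ x, a x ^ 2 ∂μ := integral_nonneg fun x => sq_nonneg _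
  have hCS : ∫ x, |p x| * |a x| ∂μ ≤ √(∫ x, p x ^ 2 ∂μ) * √(∫ x, a x ^ 2 ∂μ) := by
    have hpq : Real.HolderConjugate 2 2 := Real.HolderConjugate.two_two
    have h1 := integral_mul_le_Lp_mul_Lq_of_nonneg (μ := μ) hpq (f := fun x => |p x|)
      (g := fun x => |a x|) (ae_of_all _ fun x => abs_nonneg _) (ae_of_all _ fun x => abs_nonneg _)
      (by simpa using hp.norm) (by simpa using ha.norm)
    simpa [Real.sqrt_eq_rpow, sq_abs] using h1
  have hs1 : Integrable (fun x => e ^ 2 * p x ^ 2 + |p x| * |a x|) μ :=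
    (hp2.const_mul _).add hpa
  have hs2 : Integrable (fun x => e ^ 2 * p x ^ 2 + |p x| * |a x| + a x ^ 2) μ := hs1.add ha2
  have h1 : ∫ x, (c * b x ^ 2 - C * (e ^ 2 * p x ^ 2 + |p x| * |a x| + a x ^ 2)) ∂μ ≤
      ∫ x, Q x ∂μ := by
    apply integral_mono _ hQ hpt
    exact (hb2.const_mul c).sub (hs2.const_mul C)
  rw [hI] at h1
  have h2 : ∫ x, (c * b x ^ 2 - C * (e ^ 2 * p x ^ 2 + |p x| * |a x| + a x ^ 2)) ∂μ =
      c * ∫ x, b x ^ 2 ∂μ - C * (e ^ 2 * ∫ x, p x ^ 2 ∂μ + ∫ x, |p x| * |a x| ∂μ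
        + ∫ x, a x ^ 2 ∂μ) := by
    rw [integral_sub (hb2.const_mul c) (hs2.const_mul C),
      integral_const_mul, integral_const_mul, integral_add hs1 ha2,
      integral_add (hp2.const_mul _) hpa, integral_const_mul]
  rw [h2] at h1
  rw [Real.sq_sqrt h0p, Real.sq_sqrt h0a, div_mul_eq_mul_div, le_div_iff₀ hc]
  nlinarith [mul_le_mul_of_nonneg_left hCS hC]

end Energy

/-! ### Step 4: the bootstrap on a metric space -/

section Boot

variable {M : Type*} [PseudoMetricSpace M] [MeasurableSpace M]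

/-- two-dimensional upper density bound for radii `≥ e`. -/
def DenB (s : Measure M) (e D : ℝ) : Prop :=
  ∀ x : M, ∀ r : ℝ, e ≤ r → s.real (ball x r) ≤ D * r ^ 2

theorem step4_boot {ι : Type*} [Nonempty ι] {pos : Set ι} {s : Measure M} {e0 C : ℝ}
    (he0 : 0 < e0) (hC : 1 ≤ C)
    (f g h : ℝ → ι → ℝ) (t : ℝ → ℝ) (ht0 : ∀ e, 0 ≤ t e)
    (hf0 : ∀ e κ, 0 ≤ f e κ) (hg0 : ∀ e κ, 0 ≤ g e κ)
    (hbdd : ∀ e, 0 < e → e ≤ e0 → BddAbove (Set.range (f e)))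
    (hfgh : ∀ e, 0 < e → e ≤ e0 → ∀ κ ∈ pos, f e κ ^ 2 ≤ C * (g e κ ^ 2 + h e κ ^ 2))
    (hpos : ∀ e, 0 < e → e ≤ e0 → ∀ κ ∈ pos,
      h e κ ^ 2 ≤ C * (e ^ 2 * t e ^ 2 + t e * g e κ + g e κ ^ 2))
    (hg : ∀ e, 0 < e → e ≤ e0 → ∀ N : ℝ, (∀ κ, f e κ ≤ N) → ∀ κ, g e κ ≤ C * (e * (N + 1)))
    (hdec : ∀ e, 0 < e → e ≤ e0 → ∀ κ, ∃ κ₁ ∈ pos, ∃ κ₂ ∈ pos, f e κ ≤ C * (f e κ₁ + f e κ₂))
    (ht : ∀ e, 0 < e → e ≤ e0 → ∀ D, DenB s e D → e ^ 2 * t e ^ 2 ≤ C * D)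
    (hmono : ∀ e, 0 < e → e ≤ e0 → ∀ N, (∀ κ, f e κ ≤ N) → DenB s e (C * (1 + N))) :
    ∃ e1 > 0, ∃ N D : ℝ, (∀ e, 0 < e → e ≤ e1 → ∀ κ, f e κ ≤ N) ∧
      ∀ x : M, ∀ r : ℝ, 0 < r → s.real (ball x r) ≤ D * r ^ 2 := by
  have hC0 : 0 < C := by linarith
  set K := 8 * (8 * C ^ 6) with hK
  have hC6 : (1 : ℝ) ≤ C ^ 6 := one_le_pow₀ hC
  have hCK : C ≤ K := by
    have : C ≤ C ^ 6 := by
      calc C = C ^ 1 := (pow_one C).symm
        _ ≤ C ^ 6 := pow_le_pow_right₀ hC (by norm_num)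
    rw [hK]; linarith
  have hK1 : 1 ≤ K := hC.trans hCK
  set e1 := min e0 (1 / (8 * (8 * C ^ 6))) with he1
  have he1pos : 0 < e1 := lt_min he0 (by positivity)
  have key : ∀ e, 0 < e → e ≤ e1 → ∀ κ, f e κ ≤ 4 * K ^ 4 := by
    intro e he hee
    have hee0 : e ≤ e0 := hee.trans (min_le_left _ _)
    have hsm : 8 * C ^ 6 * e ≤ 1 / 8 := by
      have h1 : e ≤ 1 / (8 * (8 * C ^ 6)) := hee.trans (min_le_right _ _)
      rw [le_div_iff₀ (by positivity)] at h1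
      linarith
    have hb := energy_boot hC he.le hsm (ht0 e) (hf0 e) (hg0 e) (hbdd e he hee0)
      (hfgh e he hee0) (hpos e he hee0) (hg e he hee0) (hdec e he hee0)
    set N := ⨆ κ, f e κ with hN
    have hle : ∀ κ, f e κ ≤ N := fun κ => le_ciSup (hbdd e he hee0) κ
    have hN0 : 0 ≤ N := by
      obtain ⟨κ⟩ := ‹Nonempty ι›
      exact (hf0 e κ).trans (hle κ)
    have hN1 : N ≤ K * (1 + e * t e) := ciSup_le hb
    have hD := hmono e he hee0 N hle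
    have hD2 := ht e he hee0 _ hD
    have h2 : (e * t e) ^ 2 ≤ K * (K * (1 + N)) := by
      calc (e * t e) ^ 2 = e ^ 2 * t e ^ 2 := by ring
        _ ≤ C * (C * (1 + N)) := hD2
        _ ≤ K * (K * (1 + N)) := by gcongr
    have hfin := boot_final (D := K * (1 + N)) hK1 hN0
      (mul_nonneg he.le (ht0 e)) hN1 h2 le_rfl
    intro κ
    exact (hle κ).trans hfin.1
  refine ⟨e1, he1pos, 4 * K ^ 4, C * (1 + 4 * K ^ 4), key, ?_⟩
  intro x r hr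
  have hm : 0 < min r e1 := lt_min hr he1pos
  exact hmono (min r e1) hm ((min_le_right _ _).trans (min_le_left _ _)) _
    (key _ hm (min_le_right _ _)) x r (min_le_left _ _)

end Boot

end

end Crest.Agent.R240.Top
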