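import Mathlib
import Crest.Agent.R240.IfaceR
import Crest.Agent.R240.En4H
import Crest.Agent.R240.TopAbs
import Crest.Agent.R240.CmPi
import Crest.Agent.R240.N5p

/-!
Row 240 (S0371), helper781: node N5 (Step 4) from the smoothing package N8, monotonicity N9, FUND
and the energy output of helper744 (`En4.bpart`); node N5' is `N5P.n5'_of` (helper240).
-/

set_option autoImplicit false
set_option maxSynthPendingDepth 3

open Set Function Filter MeasureTheory Metric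
open scoped Manifold ContDiff Topology ENNReal

namespace Crest.Agent.R240.N5

open Crest.Agent.R240 Crest.Agent.R240.Ch

noncomputable section

variable {M : Type*} [MetricSpace M] [CompactSpace M] [ChartedSpace E4 M]
    [IsManifold 𝓘(ℝ, E4) ∞ M] [MeasurableSpace M] [BorelSpace M]

/-- `g` is the density of the smoothed measure `s` at scale `e`. -/
def IsDen (D : Dat M) {𝒰 : Cover M} (S : SmPack D 𝒰) (s : Measure M) (e : ℝ) (g : M → ℝ) : Prop :=
  SmoothF E4 g ∧ (∀ x, 0 ≤ g x) ∧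
    ∀ f, SmoothF E4 f → ∫ x, S.a e f x ∂s = ∫ x, f x * g x ∂D.μ

/-- the energy inequality for the smoothed functional. -/
def EPart (D : Dat M) {𝒰 : Cover M} (S : SmPack D 𝒰) : Prop :=
  ∃ C : ℝ, 1 ≤ C ∧ ∀ (L : X2 M →ₗ[ℝ] ℝ) (s : Measure M), Dat.KillsClosed L → D.IsNonneg L →
    D.IsRM L s → FOrd 𝒰 (L ∘ₗ D.pi'') →
    ∀ e, 0 < e → e ≤ S.e0 → ∀ g : M → ℝ, IsDen D S s e g → ∀ p ∈ S.clp 0,
    ∃ T B : X2 M, T + B ∈ Z2 M ∧
      (∀ b : X2 M, D.I (B : F2 E4 M) (b : F2 E4 M) = L (D.pi'' (S.A e p b))) ∧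
      (∀ x, D.nr (T : F2 E4 M) x ≤ C * g x) ∧
      GeF D.J D.F (T : F2 E4 M) (fun x => - (C * e ^ 2 * g x)) ∧
      (∀ x, D.nr (D.pi'' T : F2 E4 M) x ≤ C * e * g x) ∧
      (p = S.one → ∀ x, (1 - C * e) * g x ≤ qG D.F (T : F2 E4 M) D.F x) ∧
      D.n2 (D.pi'' B : F2 E4 M) ^ 2 ≤ C * (e ^ 2 * (∫ x, g x ^ 2 ∂D.μ) +
        √(∫ x, g x ^ 2 ∂D.μ) * D.n2 (D.pi' B : F2 E4 M) + D.n2 (D.pi' B : F2 E4 M) ^ 2)

theorem ePart (D : Dat M) (hF : D.FUND) {𝒰 : Cover M} (S : SmPack D 𝒰) : EPart D S := by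
  obtain ⟨C, hC, h⟩ := En4.bpart D S (N5P.nrcm D 𝒰) hF
  refine ⟨C, hC, fun L s hcl _ hrm hfo e he hee g hg p hp => ?_⟩
  obtain ⟨T, B, -, h2, h3, h4, h5, h6, h7, h8⟩ := h L s hrm hcl hfo e he hee g hg.1 hg.2.1 hg.2.2 p hp
  exact ⟨T, B, h3, fun b => (h2 b).symm, h4, h5, h6, h7, h8⟩

/-! ### small facts -/

theorem n2_congr (D : Dat M) {X Y : X2 M}
    (h : ∀ b : X2 M, D.I (X : F2 E4 M) (b : F2 E4 M) = D.I (Y : F2 E4 M) (b : F2 E4 M)) :
    D.n2 (X : F2 E4 M) = D.n2 (Y : F2 E4 M) := by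
  apply le_antisymm
  · exact En4.n2_le_of_dual D (En4.n2_nonneg D _) fun b => by rw [h]; exact En4.I_le D Y b
  · exact En4.n2_le_of_dual D (En4.n2_nonneg D _) fun b => by rw [← h]; exact En4.I_le D X b

theorem n2_pi'_congr (D : Dat M) {X Y : X2 M}
    (h : ∀ b : X2 M, D.I (X : F2 E4 M) (b : F2 E4 M) = D.I (Y : F2 E4 M) (b : F2 E4 M)) :
    D.n2 (D.pi' X : F2 E4 M) = D.n2 (D.pi' Y : F2 E4 M) := by
  apply n2_congr
  intro b
  rw [← En4.I_pi'_right, ← En4.I_pi'_right, h]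

theorem n2_pi''_congr (D : Dat M) {X Y : X2 M}
    (h : ∀ b : X2 M, D.I (X : F2 E4 M) (b : F2 E4 M) = D.I (Y : F2 E4 M) (b : F2 E4 M)) :
    D.n2 (D.pi'' X : F2 E4 M) = D.n2 (D.pi'' Y : F2 E4 M) := by
  apply n2_congr
  intro b
  rw [← En4.I_pi''_right, ← En4.I_pi''_right, h]

/-- the functional `b ↦ L b''` has finite order. -/
theorem fOrd_pi'' (D : Dat M) (𝒰 : Cover M) (L : X2 M →ₗ[ℝ] ℝ) {m : ℕ} {C : ℝ}
    (h : ∀ b : X2 M, |L (D.pi'' b)| ≤ C * 𝒰.cm m ((D.pi'' b : X2 M) : F2 E4 M)) :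
    FOrd 𝒰 (L ∘ₗ D.pi'') := by
  obtain ⟨C', hC', h'⟩ := cm_bpp_le 𝒰 D.smJ m
  refine ⟨m, |C| * C', fun b => ?_⟩
  calc |(L ∘ₗ D.pi'') b| = |L (D.pi'' b)| := rfl
    _ ≤ C * 𝒰.cm m ((D.pi'' b : X2 M) : F2 E4 M) := h b
    _ ≤ |C| * 𝒰.cm m ((D.pi'' b : X2 M) : F2 E4 M) :=
        mul_le_mul_of_nonneg_right (le_abs_self C) (cm_nonneg _ _ _)
    _ ≤ |C| * (C' * 𝒰.cm m (b : F2 E4 M)) :=
        mul_le_mul_of_nonneg_left (h' _ b.2) (abs_nonneg C)
    _ = _ := by ring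

theorem int_den (D : Dat M) {𝒰 : Cover M} (S : SmPack D 𝒰) {s : Measure M} {e : ℝ}
    (he : 0 < e) (he0 : e ≤ S.e0) {g : M → ℝ} (hg : IsDen D S s e g) :
    ∫ x, g x ∂D.μ = s.real univ := by
  have h := hg.2.2 (fun _ => 1) (En4.sF_const 1)
  simp only [one_mul] at h
  rw [← h]
  have h2 : (fun x => S.a e (fun _ => 1) x) = fun _ => (1 : ℝ) := funext (S.a_one e he he0)
  rw [h2]
  simp

/-- the growth bound from MONO and the representation of the measure. -/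
theorem den_growth (D : Dat M) {s : Measure M} [IsFiniteMeasure s] {C : ℝ}
    (hC : 1 ≤ C) {e : ℝ} (he : 0 < e) {g : M → ℝ} {r₀ Q : ℝ} (hr₀ : 0 < r₀) (hQ : 0 ≤ Q)
    (h1 : ∀ x r, e ≤ r → r ≤ r₀ → ∫ y in ball x r, g y ∂D.μ ≤ Q * r ^ 2)
    (h2 : ∀ x r, e ≤ r → s.real (ball x r) ≤ C * ∫ y in ball x (C * r), g y ∂D.μ) :
    Top.DenB s e (C ^ 3 * Q + s.real univ * (C / r₀) ^ 2) := by
  intro x r hr
  have hr0 : 0 < r := he.trans_le hr
  have hC0 : 0 < C := by linarith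
  have hs0 : 0 ≤ s.real univ := measureReal_nonneg
  rcases le_or_gt (C * r) r₀ with h | h
  · have h3 := h2 x r hr
    have h4 := h1 x (C * r) (hr.trans (le_mul_of_one_le_left hr0.le hC)) h
    calc s.real (ball x r) ≤ C * ∫ y in ball x (C * r), g y ∂D.μ := h3
      _ ≤ C * (Q * (C * r) ^ 2) := by gcongr
      _ = C ^ 3 * Q * r ^ 2 + 0 := by ring
      _ ≤ C ^ 3 * Q * r ^ 2 + s.real univ * (C / r₀) ^ 2 * r ^ 2 := by gcongr; positivity
      _ = _ := by ring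
  · have h3 : 1 ≤ (C * r / r₀) ^ 2 := by
      apply one_le_pow₀
      rw [le_div_iff₀ hr₀]
      linarith
    calc s.real (ball x r) ≤ s.real univ := measureReal_mono (subset_univ _)
      _ = s.real univ * 1 := by ring
      _ ≤ s.real univ * (C * r / r₀) ^ 2 := by gcongr
      _ = 0 + s.real univ * (C / r₀) ^ 2 * r ^ 2 := by ring
      _ ≤ C ^ 3 * Q * r ^ 2 + s.real univ * (C / r₀) ^ 2 * r ^ 2 := by gcongr; positivity
      _ = _ := by ring

theorem dens_le {A C e g q : ℝ} (hA : 2 ≤ A) (hg : 0 ≤ g) (hC : C * e ≤ 1 / 2)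
    (h : (1 - C * e) * g ≤ q) : g ≤ A * q := by
  have h1 : 1 / 2 * g ≤ (1 - C * e) * g := mul_le_mul_of_nonneg_right (by linarith) hg
  have h2 : 0 ≤ q := by linarith
  have h3 : 2 * q ≤ A * q := mul_le_mul_of_nonneg_right hA h2
  linarith

theorem le_of_small {a b c e1 : ℝ} (he1 : 0 < e1) (h : ∀ e, 0 < e → e ≤ e1 → a ≤ b + e * c) :
    a ≤ b := by
  have h1 : Tendsto (fun e : ℝ => b + e * c) (𝓝[>] 0) (𝓝 (b + 0 * c)) :=
    ((continuous_const.add (continuous_id.mul continuous_const)).tendsto 0).mono_left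
      nhdsWithin_le_nhds
  rw [zero_mul, add_zero] at h1
  refine ge_of_tendsto h1 ?_
  filter_upwards [Ioc_mem_nhdsGT he1] with e he
  exact h e he.1 he.2

/-! ### N5 -/

/-- **node N5** (Step 4): `s` has two-dimensional growth and `|L b''| ≤ C ‖b''‖₂`. -/
theorem n5 (D : Dat M) (h8 : D.N8) (h9 : D.N9) (hF : D.FUND) : D.N5 := by
  have hE : ∀ (𝒰 : Cover M) (S : SmPack D 𝒰), EPart D S := fun 𝒰 S => ePart D hF S
  intro L s hcl hnn hfo hrm
  have hfin := hrm.fin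
  rcases isEmpty_or_nonempty M with hM | ⟨⟨x₀⟩⟩
  · refine ⟨⟨0, fun x => (hM.false x).elim⟩, 0, fun b => ?_⟩
    have h0 : D.pi'' b = 0 := Subtype.ext (funext fun x => (hM.false x).elim)
    rw [h0, map_zero]; simp
  obtain ⟨𝒰, m, K, hK⟩ := hfo
  have hFO := fOrd_pi'' D 𝒰 L hK
  obtain ⟨S⟩ := h8 𝒰
  obtain ⟨C₁, hC₁, hE⟩ := hE 𝒰 S
  obtain ⟨C₂, hC₂, hrepm⟩ := S.repm
  have hC₁0 : 0 < C₁ := by linarith
  have hC₂0 : 0 < C₂ := by linarith
  obtain ⟨m', K', hK'⟩ := hFO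
  obtain ⟨k, n, C₄, hcrude⟩ := S.crude m'
  obtain ⟨C₅, hleak⟩ := S.leak k
  obtain ⟨C₆, hsign⟩ := S.sign k
  obtain ⟨C₇, happ⟩ := S.approx m'
  set A : ℝ := max 2 C₁ with hA
  have hA2 : 2 ≤ A := le_max_left _ _
  have hAC : C₁ ≤ A := le_max_right _ _
  obtain ⟨C₃, r₀, hC₃, hr₀, h9⟩ := h9 A (by linarith)
  set e0 : ℝ := min S.e0 (1 / (2 * C₁)) with he0
  have he0pos : 0 < e0 := lt_min S.e0_pos (by positivity)
  have he0S : e0 ≤ S.e0 := min_le_left _ _
  have hs0 : 0 ≤ s.real univ := measureReal_nonneg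
  set L' : X2 M →ₗ[ℝ] ℝ := L ∘ₗ D.pi'' with hL'
  have hL'' : ∀ b, L' b = L' (D.pi'' b) := by
    intro b
    show L (D.pi'' b) = L (D.pi'' (D.pi'' b))
    rw [En4.pi''_pi'']
  have hFO : FOrd 𝒰 L' := ⟨m', K', hK'⟩
  -- the smoothed functionals
  have hB : ∀ (e : ℝ) (p : S.κ), ∃ η : X2 M, 0 < e → e ≤ S.e0 →
      ∀ b : X2 M, L' (S.A e p b) = D.I (η : F2 E4 M) (b : F2 E4 M) := by
    intro e p
    by_cases h : 0 < e ∧ e ≤ S.e0
    · obtain ⟨η, hη⟩ := S.rep L' hFO e p h.1 h.2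
      exact ⟨η, fun _ _ => hη⟩
    · exact ⟨0, fun h1 h2 => (h ⟨h1, h2⟩).elim⟩
  choose B hB using hB
  have hG : ∀ e : ℝ, ∃ g : M → ℝ, 0 < e → e ≤ S.e0 → IsDen D S s e g ∧
      (∀ x, g x ≤ C₂ / e ^ 4 * s.real (ball x (C₂ * e))) ∧
      (∀ x r, e ≤ r → s.real (ball x r) ≤ C₂ * ∫ y in ball x (C₂ * r), g y ∂D.μ) := by
    intro e
    by_cases h : 0 < e ∧ e ≤ S.e0
    · obtain ⟨g, h1, h2, h3, h4, h5⟩ := hrepm s hfin e h.1 h.2
      exact ⟨g, fun _ _ => ⟨⟨h1, h2, h3⟩, h4, h5⟩⟩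
    · exact ⟨0, fun h1 h2 => (h ⟨h1, h2⟩).elim⟩
  choose G hG using hG
  let ι : Type := {p : S.κ // p ∈ S.cl k}
  let one' : ι := ⟨S.one, S.clp_sub k (S.one_mem k)⟩
  have : Nonempty ι := ⟨one'⟩
  set pos : Set ι := {q | q.1 ∈ S.clp k} with hpos
  have hone : one' ∈ pos := S.one_mem k
  set f : ℝ → ι → ℝ := fun e q => D.n2 (B e q.1 : F2 E4 M) with hf
  set g : ℝ → ι → ℝ := fun e q => D.n2 (D.pi' (B e q.1) : F2 E4 M) with hg
  set h : ℝ → ι → ℝ := fun e q => D.n2 (D.pi'' (B e q.1) : F2 E4 M) with hh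
  set t : ℝ → ℝ := fun e => √(∫ x, G e x ^ 2 ∂D.μ) with ht
  have hf0 : ∀ e q, 0 ≤ f e q := fun e q => En4.n2_nonneg D _
  have hg0 : ∀ e q, 0 ≤ g e q := fun e q => En4.n2_nonneg D _
  have hIB : ∀ e, 0 < e → e ≤ e0 → ∀ q : ι, ∀ b : X2 M,
      |L' (S.A e q.1 b)| ≤ f e q * D.n2 (b : F2 E4 M) := by
    intro e he hee q b
    rw [hB e q.1 he (hee.trans he0S)]
    exact En4.I_le D _ _
  have hfle : ∀ e, 0 < e → e ≤ e0 → ∀ q : ι, ∀ N : ℝ, 0 ≤ N →
      (∀ b : X2 M, |L' (S.A e q.1 b)| ≤ N * D.n2 (b : F2 E4 M)) → f e q ≤ N := by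
    intro e he hee q N hN h
    apply En4.n2_le_of_dual D hN
    intro b
    rw [← hB e q.1 he (hee.trans he0S)]
    exact h b
  -- crude bound
  have hbdd : ∀ e, 0 < e → e ≤ e0 → BddAbove (Set.range (f e)) := by
    intro e he hee
    refine ⟨|K'| * (|C₄| / e ^ n), ?_⟩
    rintro _ ⟨q, rfl⟩
    apply hfle e he hee q _ (by positivity)
    intro b
    calc |L' (S.A e q.1 b)| ≤ K' * 𝒰.cm m' (S.A e q.1 b : F2 E4 M) := hK' _
      _ ≤ |K'| * 𝒰.cm m' (S.A e q.1 b : F2 E4 M) :=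
          mul_le_mul_of_nonneg_right (le_abs_self _) (cm_nonneg _ _ _)
      _ ≤ |K'| * (C₄ / e ^ n * D.n2 (b : F2 E4 M)) :=
          mul_le_mul_of_nonneg_left (hcrude e q.1 he (hee.trans he0S) q.2 b) (abs_nonneg _)
      _ ≤ |K'| * (|C₄| / e ^ n * D.n2 (b : F2 E4 M)) := by
          have h0 := En4.n2_nonneg D (b : F2 E4 M)
          gcongr
          exact le_abs_self _
      _ = _ := by ring
  -- leak
  have hleak' : ∀ e, 0 < e → e ≤ e0 → ∀ N : ℝ, (∀ q, f e q ≤ N) →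
      ∀ q, g e q ≤ |C₅| * e * N := by
    intro e he hee N hN q
    have hN0 : 0 ≤ N := (hf0 e one').trans (hN one')
    apply En4.n2_inv_le_of_dual D (by positivity)
    intro b
    rw [← hB e q.1 he (hee.trans he0S)]
    refine (hleak e he (hee.trans he0S) L' hFO hL'' N hN0 ?_ q.1 q.2 b).trans ?_
    · intro p hp c
      exact (hIB e he hee ⟨p, hp⟩ c).trans
        (mul_le_mul_of_nonneg_right (hN ⟨p, hp⟩) (En4.n2_nonneg D _))
    · have h0 := En4.n2_nonneg D (b : F2 E4 M)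
      gcongr
      exact le_abs_self _
  -- the decomposition into positive kernels
  have hdec : ∀ e, 0 < e → e ≤ e0 → ∀ q, ∃ q₁ ∈ pos, ∃ q₂ ∈ pos,
      f e q ≤ (2 * |C₆|) * (f e q₁ + f e q₂) := by
    intro e he hee q
    set R : ℝ := sSup (f e '' pos) with hR
    have hbd : BddAbove (f e '' pos) := (hbdd e he hee).mono (image_subset_range _ _)
    have hle : ∀ q' ∈ pos, f e q' ≤ R := fun q' hq' => le_csSup hbd ⟨q', hq', rfl⟩
    have hR0 : 0 ≤ R := (hf0 e one').trans (hle one' hone)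
    have hq : f e q ≤ |C₆| * R := by
      apply hfle e he hee q _ (by positivity)
      intro b
      have h0 := En4.n2_nonneg D (b : F2 E4 M)
      have h1 := hsign e he (hee.trans he0S) L' b (R * D.n2 (b : F2 E4 M)) (by
        intro p hp
        exact (hIB e he hee ⟨p, S.clp_sub k hp⟩ b).trans
          (mul_le_mul_of_nonneg_right (hle ⟨p, S.clp_sub k hp⟩ hp) h0)) q.1 q.2
      calc |L' (S.A e q.1 b)| ≤ C₆ * (R * D.n2 (b : F2 E4 M)) := h1
        _ ≤ |C₆| * (R * D.n2 (b : F2 E4 M)) := by gcongr; exact le_abs_self _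
        _ = _ := by ring
    rcases hR0.eq_or_lt with hR1 | hR1
    · refine ⟨one', hone, one', hone, ?_⟩
      rw [← hR1, mul_zero] at hq
      have := hf0 e one'
      exact hq.trans (by positivity)
    · obtain ⟨_, ⟨q', hq', rfl⟩, hlt⟩ := exists_lt_of_lt_csSup
        (⟨_, one', hone, rfl⟩ : (f e '' pos).Nonempty) (half_lt_self hR1)
      refine ⟨q', hq', q', hq', hq.trans ?_⟩
      have : R ≤ 2 * f e q' := by linarith
      have h6 := abs_nonneg C₆
      nlinarith [hf0 e q']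
  -- energy
  have hpos' : ∀ e, 0 < e → e ≤ e0 → ∀ q ∈ pos,
      h e q ^ 2 ≤ C₁ * (e ^ 2 * t e ^ 2 + t e * g e q + g e q ^ 2) := by
    intro e he hee q hq
    obtain ⟨hden, -, -⟩ := hG e he (hee.trans he0S)
    obtain ⟨T, B', -, hB', -, -, -, -, hen⟩ := hE L s hcl hnn hrm hFO e he (hee.trans he0S)
      (G e) hden q.1 (S.clp_anti 0 k (Nat.zero_le k) hq)
    have hcong : ∀ b : X2 M, D.I (B' : F2 E4 M) (b : F2 E4 M) =
        D.I (B e q.1 : F2 E4 M) (b : F2 E4 M) := by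
      intro b
      rw [hB', ← hB e q.1 he (hee.trans he0S)]
      rfl
    rw [n2_pi''_congr D hcong, n2_pi'_congr D hcong] at hen
    have ht2 : t e ^ 2 = ∫ x, G e x ^ 2 ∂D.μ :=
      Real.sq_sqrt (integral_nonneg fun x => sq_nonneg _)
    rw [ht2]
    exact hen
  -- the density
  have htb : ∀ e, 0 < e → e ≤ e0 → ∀ Dn, Top.DenB s e Dn →
      e ^ 2 * t e ^ 2 ≤ (C₂ ^ 3 * s.real univ) * Dn := by
    intro e he hee Dn hDn
    obtain ⟨hden, hup, -⟩ := hG e he (hee.trans he0S)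
    have hDn0 : 0 ≤ Dn := by
      have h1 : 0 ≤ s.real (ball x₀ e) := measureReal_nonneg
      have h2 := hDn x₀ e le_rfl
      have h3 : 0 < e ^ 2 := by positivity
      by_contra hneg
      rw [not_le] at hneg
      nlinarith
    have ht2 : t e ^ 2 = ∫ x, G e x ^ 2 ∂D.μ :=
      Real.sq_sqrt (integral_nonneg fun x => sq_nonneg _)
    have hGc : Continuous (G e) := En4.sF_continuous hden.1
    have hGle : ∀ x, G e x ≤ C₂ ^ 3 * Dn / e ^ 2 := by
      intro x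
      have h1 := hup x
      have h2 := hDn x (C₂ * e) (le_mul_of_one_le_left he.le hC₂)
      calc G e x ≤ C₂ / e ^ 4 * s.real (ball x (C₂ * e)) := h1
        _ ≤ C₂ / e ^ 4 * (Dn * (C₂ * e) ^ 2) := by gcongr
        _ = C₂ ^ 3 * Dn / e ^ 2 := by field_simp
    have hint : ∫ x, G e x ^ 2 ∂D.μ ≤ C₂ ^ 3 * Dn / e ^ 2 * s.real univ := by
      calc ∫ x, G e x ^ 2 ∂D.μ ≤ ∫ x, C₂ ^ 3 * Dn / e ^ 2 * G e x ∂D.μ := by
            apply integral_mono (En4.integrable_cont D (hGc.pow 2))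
              (En4.integrable_cont D (continuous_const.mul hGc))
            intro x
            show G e x ^ 2 ≤ C₂ ^ 3 * Dn / e ^ 2 * G e x
            have h1 := hGle x
            have h2 := hden.2.1 x
            rw [sq]
            exact mul_le_mul_of_nonneg_right h1 h2
        _ = C₂ ^ 3 * Dn / e ^ 2 * s.real univ := by
            rw [integral_const_mul, int_den D S he (hee.trans he0S) hden]
    rw [ht2]
    calc e ^ 2 * ∫ x, G e x ^ 2 ∂D.μ ≤ e ^ 2 * (C₂ ^ 3 * Dn / e ^ 2 * s.real univ) := by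
          gcongr
      _ = _ := by field_simp
  -- monotonicity
  have hmono : ∀ e, 0 < e → e ≤ e0 → ∀ N, (∀ q, f e q ≤ N) →
      Top.DenB s e ((C₂ ^ 3 * (C₃ * (s.real univ + 1 + |C₅|)) +
        s.real univ * (C₂ / r₀) ^ 2) * (1 + N)) := by
    intro e he hee N hN
    have hN0 : 0 ≤ N := (hf0 e one').trans (hN one')
    obtain ⟨hden, -, hlo⟩ := hG e he (hee.trans he0S)
    obtain ⟨T, B', hTB, hB', hT2, hT3, hT4, hT5, -⟩ := hE L s hcl hnn hrm hFO e he
      (hee.trans he0S) (G e) hden S.one (S.one_mem 0)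
    have hcong : ∀ b : X2 M, D.I (B' : F2 E4 M) (b : F2 E4 M) =
        D.I (B e S.one : F2 E4 M) (b : F2 E4 M) := by
      intro b
      rw [hB', ← hB e S.one he (hee.trans he0S)]
      rfl
    have hn1 : D.n2 (B' : F2 E4 M) ≤ N := by
      rw [n2_congr D hcong]; exact hN one'
    have hn2 : D.n2 (D.pi' B' : F2 E4 M) ≤ |C₅| * e * N := by
      rw [n2_pi'_congr D hcong]; exact hleak' e he hee N hN one'
    have hesm : C₁ * e ≤ 1 / 2 := by
      have h1 : e ≤ 1 / (2 * C₁) := hee.trans (min_le_right _ _)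
      rw [le_div_iff₀ (by positivity)] at h1
      linarith
    have hgn := hden.2.1
    have hpg : ∀ x, G e x ≤ A * qG D.F (T : F2 E4 M) D.F x := by
      intro x
      exact dens_le hA2 (hgn x) hesm (hT5 rfl x)
    have hA1 : ∀ x, D.nr (T : F2 E4 M) x ≤ A * G e x := fun x =>
      (hT2 x).trans (mul_le_mul_of_nonneg_right hAC (hgn x))
    have hA2 : GeF D.J D.F (T : F2 E4 M) (fun x => - (A * e ^ 2 * G e x)) := by
      intro x v
      refine le_trans ?_ (hT3 x v)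
      apply mul_le_mul_of_nonneg_right
      · have := mul_le_mul_of_nonneg_right hAC (mul_nonneg (sq_nonneg e) (hgn x))
        simp only
        nlinarith
      · rcases eq_or_ne v 0 with rfl | hv
        · simp
        · exact ((En4.spos D x).pos v hv).le
    have hA3 : ∀ x, D.nr (D.pi'' T : F2 E4 M) x ≤ A * e * G e x := fun x =>
      (hT4 x).trans (mul_le_mul_of_nonneg_right
        (mul_le_mul_of_nonneg_right hAC he.le) (hgn x))
    have hm := h9 e he ((hee.trans he0S).trans S.e0_le) T B' (G e) hden.1 hgn hTB hA1 hA2 hA3 hpg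
    have hgr := den_growth D hC₂ he (Q := C₃ * (s.real univ + 1 + |C₅|) * (1 + N)) hr₀
      (by positivity) (by
        intro x r hr hrr
        have hr0 : 0 < r := he.trans_le hr
        have hm1 := hm x r hr hrr
        rw [int_den D S he (hee.trans he0S) hden] at hm1
        have h5 : D.n2 (D.pi' B' : F2 E4 M) / r ≤ |C₅| * N := by
          rw [div_le_iff₀ hr0]
          calc D.n2 (D.pi' B' : F2 E4 M) ≤ |C₅| * e * N := hn2
            _ ≤ |C₅| * r * N := by gcongr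
            _ = _ := by ring
        have h5' := abs_nonneg C₅
        calc ∫ y in ball x r, G e y ∂D.μ
            ≤ C₃ * r ^ 2 * (s.real univ + D.n2 (B' : F2 E4 M) +
              D.n2 (D.pi' B' : F2 E4 M) / r) := hm1
          _ ≤ C₃ * r ^ 2 * (s.real univ + N + |C₅| * N) := by gcongr
          _ ≤ C₃ * r ^ 2 * ((s.real univ + 1 + |C₅|) * (1 + N)) := by
              gcongr
              nlinarith [mul_nonneg hs0 hN0]
          _ = _ := by ring) hlo
    intro x r hr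
    refine (hgr x r hr).trans ?_
    have hr2 : 0 ≤ r ^ 2 := sq_nonneg r
    apply mul_le_mul_of_nonneg_right _ hr2
    have h7 : 0 ≤ s.real univ * (C₂ / r₀) ^ 2 := by positivity
    nlinarith [mul_nonneg h7 hN0]
  -- bootstrap
  set C : ℝ := 1 + C₁ + |C₅| + 2 * |C₆| + C₂ ^ 3 * s.real univ +
    (C₂ ^ 3 * (C₃ * (s.real univ + 1 + |C₅|)) + s.real univ * (C₂ / r₀) ^ 2) with hC
  have a1 : 0 ≤ |C₅| := abs_nonneg _
  have a2 : 0 ≤ |C₆| := abs_nonneg _
  have a3 : 0 ≤ C₂ ^ 3 * s.real univ := by positivity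
  have a4 : 0 ≤ C₂ ^ 3 * (C₃ * (s.real univ + 1 + |C₅|)) + s.real univ * (C₂ / r₀) ^ 2 := by
    positivity
  have hC1 : 1 ≤ C := by rw [hC]; linarith
  obtain ⟨e1, he1, N, Dn, hN, hDn⟩ := Top.step4_boot (pos := pos) (s := s) (e0 := e0) (C := C)
    he0pos hC1 f g h t (fun e => Real.sqrt_nonneg _) hf0 hg0 hbdd
    (by
      intro e he hee q hq
      have h1 : f e q ^ 2 = g e q ^ 2 + h e q ^ 2 := En4.n2_split D (B e q.1)
      rw [h1]
      exact le_mul_of_one_le_left (by positivity) hC1)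
    (by
      intro e he hee q hq
      refine (hpos' e he hee q hq).trans (mul_le_mul_of_nonneg_right ?_ ?_)
      · rw [hC]; linarith
      · have := hg0 e q
        have : 0 ≤ t e := Real.sqrt_nonneg _
        positivity)
    (by
      intro e he hee N hN q
      have hN0 : 0 ≤ N := (hf0 e one').trans (hN one')
      calc g e q ≤ |C₅| * e * N := hleak' e he hee N hN q
        _ = |C₅| * (e * N) := by ring
        _ ≤ C * (e * N) := by
            apply mul_le_mul_of_nonneg_right _ (by positivity)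
            rw [hC]; linarith
        _ ≤ C * (e * (N + 1)) := by
            have : 0 ≤ C := by linarith
            gcongr
            linarith)
    (by
      intro e he hee q
      obtain ⟨q₁, h1, q₂, h2, h3⟩ := hdec e he hee q
      refine ⟨q₁, h1, q₂, h2, h3.trans ?_⟩
      apply mul_le_mul_of_nonneg_right _ (add_nonneg (hf0 _ _) (hf0 _ _))
      rw [hC]; linarith)
    (by
      intro e he hee Dn hDn
      refine (htb e he hee Dn hDn).trans ?_
      have hDn0 : 0 ≤ Dn := by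
        have h1 : 0 ≤ s.real (ball x₀ e) := measureReal_nonneg
        have h2 := hDn x₀ e le_rfl
        have h3 : 0 < e ^ 2 := by positivity
        by_contra hneg
        rw [not_le] at hneg
        nlinarith
      apply mul_le_mul_of_nonneg_right _ hDn0
      rw [hC]; linarith)
    (by
      intro e he hee N hN x r hr
      have hN0 : 0 ≤ N := (hf0 e one').trans (hN one')
      refine (hmono e he hee N hN x r hr).trans ?_
      apply mul_le_mul_of_nonneg_right _ (sq_nonneg r)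
      apply mul_le_mul_of_nonneg_right _ (by linarith)
      rw [hC]; linarith)
  refine ⟨⟨Dn, hDn⟩, N, fun b => ?_⟩
  set c : X2 M := D.pi'' b with hc
  have hLc : L c = L' c := by
    show L c = L (D.pi'' c)
    rw [hc, En4.pi''_pi'']
  rw [hLc]
  refine le_of_small (lt_min he1 he0pos)
    (c := |K'| * (|C₇| * 𝒰.cm (m' + 1) (c : F2 E4 M))) fun e he hee => ?_
  have hee1 : e ≤ e1 := hee.trans (min_le_left _ _)
  have hee0 : e ≤ e0 := hee.trans (min_le_right _ _)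
  have h1 : |L' (S.A e S.one c)| ≤ N * D.n2 (c : F2 E4 M) :=
    (hIB e he hee0 one' c).trans
      (mul_le_mul_of_nonneg_right (hN e he hee1 one') (En4.n2_nonneg D _))
  have h2 : |L' (S.A e S.one c - c)| ≤ |K'| * (|C₇| * e * 𝒰.cm (m' + 1) (c : F2 E4 M)) := by
    calc |L' (S.A e S.one c - c)|
        ≤ K' * 𝒰.cm m' ((S.A e S.one c - c : X2 M) : F2 E4 M) := hK' _
      _ ≤ |K'| * 𝒰.cm m' ((S.A e S.one c - c : X2 M) : F2 E4 M) :=
          mul_le_mul_of_nonneg_right (le_abs_self _) (cm_nonneg _ _ _)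
      _ ≤ |K'| * (C₇ * e * 𝒰.cm (m' + 1) (c : F2 E4 M)) :=
          mul_le_mul_of_nonneg_left ((happ e he (hee0.trans he0S) c).2) (abs_nonneg _)
      _ ≤ _ := by
          have h0 := cm_nonneg 𝒰 (m' + 1) (c : F2 E4 M)
          gcongr
          exact le_abs_self _
  have h3 : L' c = L' (S.A e S.one c) - L' (S.A e S.one c - c) := by
    rw [map_sub]; ring
  rw [h3]
  calc |L' (S.A e S.one c) - L' (S.A e S.one c - c)|
      ≤ |L' (S.A e S.one c)| + |L' (S.A e S.one c - c)| := abs_sub _ _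
    _ ≤ N * D.n2 (c : F2 E4 M) + |K'| * (|C₇| * e * 𝒰.cm (m' + 1) (c : F2 E4 M)) :=
        add_le_add h1 h2
    _ = _ := by ring

end

end Crest.Agent.R240.N5
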