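import Mathlib
import Crest.Agent.R240.PhiR
import Crest.Agent.R240.En4D

/-!
# R240: restriction of a current on `M` to a Borel set, node form (helper168)

`PhiR_exists'` (with lower bounds w.r.t. the trace measure) and `PhiR_node` (IsInv, IsKahler, IsRM).
-/

set_option autoImplicit false
set_option linter.unusedSectionVars false
set_option maxSynthPendingDepth 3
open MeasureTheory Set Filter Topology
open scoped Manifold ContDiff

namespace Crest.Agent.R240.Vm

open Crest.Agent.R240.Ch Crest.Agent.R240.HB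

noncomputable section

theorem nsq_smul (J : E4 →L[ℝ] E4) (F : Bil) (r : ℝ) (b : Bil) :
    nsq J F (r • b) = r ^ 2 * nsq J F b := by
  have h1 : invp J (r • b) = r • invp J b := by
    ext u v
    have e : ∀ (c : Bil) x y, (r • c) x y = r * c x y := fun _ _ _ => rfl
    rw [invp_apply, e, e, e, invp_apply]
    ring
  have h2 : antip J (r • b) = r • antip J b := by
    ext u v
    have e : ∀ (c : Bil) x y, (r • c) x y = r * c x y := fun _ _ _ => rfl
    rw [antip_apply, e, e, e, antip_apply]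
    ring
  unfold nsq ip
  rw [h1, h2, q_smul_left, q_smul_left, q_smul_left, q_comm F (invp J b) (r • invp J b),
    q_comm F (antip J b) (r • antip J b), q_smul_left, q_smul_left]
  ring

theorem nr_smul (J : E4 →L[ℝ] E4) (F : Bil) (r : ℝ) (b : Bil) :
    nr J F (r • b) = |r| * nr J F b := by
  unfold nr
  rw [nsq_smul, Real.sqrt_mul (sq_nonneg r), Real.sqrt_sq_eq_abs]

section Main

variable {M : Type*} [MetricSpace M] [CompactSpace M] [ChartedSpace E4 M]
    [IsManifold 𝓘(ℝ, E4) ∞ M] [MeasurableSpace M] [BorelSpace M]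

theorem nr_mulX (D : Dat M) (f : SF M) (b : X2 M) (x : M) :
    D.nr (mulX M f b).1 x = |f x| * D.nr b.1 x :=
  nr_smul (atJ D.J x) (at2 D.F x) (f x) (at2 b.1 x)

theorem smoothF_SF (f : SF M) : SmoothF E4 (fun x => f x) := (smoothF_iff _).1 f.contMDiff

set_option maxHeartbeats 1000000 in
/-- **Restriction of a current to a Borel set**, with the lower bounds. -/
theorem PhiR_exists' (D : Dat M) (hqc : ∀ P : X2 M, Continuous (qG D.F P.1 D.F))
    (N : X2 M → M → ℝ) (hNc : ∀ b, Continuous (N b)) (hN0 : ∀ b x, 0 ≤ N b x)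
    (hNm : ∀ (f : SF M) b x, N (mulX M f b) x = |f x| * N b x)
    (Phi : X2 M →ₗ[ℝ] ℝ) (hinv : ∀ b, Phi b = Phi (invM D.J D.smJ b))
    (hpos : ∀ P ∈ PosM D.J, D.I P.1 D.F ≤ Phi P)
    (s : Measure M) [IsFiniteMeasure s] (hb : ∀ b, |Phi b| ≤ ∫ x, N b x ∂s)
    (G : Set M) (hG : MeasurableSet G) (hGμ : D.μ Gᶜ = 0) :
    ∃ Phi0 : X2 M →ₗ[ℝ] ℝ,
      (∀ b, Phi0 b = Phi0 (invM D.J D.smJ b)) ∧
      (∀ P ∈ PosM D.J, D.I P.1 D.F ≤ Phi0 P) ∧
      (∀ b, |Phi0 b| ≤ ∫ x in G, N b x ∂s) ∧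
      (∀ b (g : M → ℝ) (C : ℝ), AEStronglyMeasurable g s → (∀ x, |g x| ≤ C) →
        (∀ f : SF M, Phi (mulX M f b) = ∫ x, f x * g x ∂s) → Phi0 b = ∫ x in G, g x ∂s) ∧
      (∀ F0 : X2 M, (∀ f : SF M, Phi (mulX M f F0) = ∫ x, f x ∂s) →
        ∀ f : SF M, Phi0 (mulX M f F0) = ∫ x in G, f x ∂s) ∧
      (∀ b (k : M → ℝ) (C : ℝ), AEStronglyMeasurable k s → (∀ x, |k x| ≤ C) →
        (∀ f : SF M, (∀ x, 0 ≤ f x) → ∫ x, f x * k x ∂s ≤ Phi (mulX M f b)) →
        ∫ x in G, k x ∂s ≤ Phi0 b) := by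
  have := D.fin
  have hcont : ∀ f : SF M, Continuous (evSmooth 𝓘(ℝ, E4) f) := evSmooth_continuous 𝓘(ℝ, E4)
  obtain ⟨Phi0, hR⟩ := exists_Restr (A := SF M) (X := X2 M) s D.μ (evSmooth 𝓘(ℝ, E4) (M := M))
    (mulX M) N hcont hNc hN0 hNm Phi hb hG
    (exists_cut_smooth 𝓘(ℝ, E4) (s + D.μ) hG)
  have hbd : ∀ g : M → ℝ, Continuous g → ∃ C, ∀ x, |g x| ≤ C := by
    intro g hg
    obtain ⟨C, hC⟩ := (isCompact_univ.image hg.abs).isBounded.bddAbove
    exact ⟨C, fun x => hC ⟨x, mem_univ _, rfl⟩⟩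
  have hrepr : ∀ b (g : M → ℝ) (C : ℝ), AEStronglyMeasurable g s → (∀ x, |g x| ≤ C) →
      (∀ f : SF M, Phi (mulX M f b) = ∫ x, f x * g x ∂s) → Phi0 b = ∫ x in G, g x ∂s :=
    fun b g C h1 h2 h3 => hR.repr b g C h1 h2 h3
  refine ⟨Phi0, ?_, ?_, hR.bound, hrepr, ?_, ?_⟩
  · intro b
    apply hR.congr
    intro f
    rw [hinv (mulX M f b), invM_mulX]
  · intro P hP
    obtain ⟨C, hC⟩ := hbd _ (hqc P)
    have h1 := hR.lower P (qG D.F P.1 D.F) C (hqc P).aestronglyMeasurable hC (by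
      intro f hf
      have h2 := hpos (mulX M f P) (PosM.mulX hf hP)
      refine le_of_eq_of_le ?_ h2
      unfold Dat.I IG
      apply integral_congr_ae
      filter_upwards with x
      exact (qG_fmul_left D.F P.1 D.F f x).symm)
    have h3 : ∫ x in G, qG D.F P.1 D.F x ∂D.μ = D.I P.1 D.F := by
      unfold Dat.I IG
      have : D.μ.restrict G = D.μ := by
        apply Measure.restrict_eq_self_of_ae_mem
        rw [ae_iff]
        exact hGμ
      rw [this]
    rw [h3] at h1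
    exact h1
  · intro F0 hF0 f
    obtain ⟨C, hC⟩ := hbd _ (hcont f)
    apply hrepr _ _ C (hcont f).aestronglyMeasurable hC
    intro g
    have h1 : mulX M g (mulX M f F0) = mulX M (g * f) F0 := by
      apply Subtype.ext
      funext x
      exact smul_smul (g x) (f x) (F0.1 x)
    rw [h1, hF0]
    rfl
  · intro b k C hk hkC h
    exact hR.isRestr.ge_setIntegral (μ := s) hcont hG
      (exists_cut_smooth 𝓘(ℝ, E4) (s + s) hG) hk hkC h

set_option maxHeartbeats 1000000 in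
/-- **Restriction of a Kähler current to a Borel set of full `μ`-measure**, node form. -/
theorem PhiR_node (D : Dat M) (Φ : X2 M →ₗ[ℝ] ℝ) (s : Measure M) (hinv : D.IsInv Φ)
    (hK : D.IsKahler Φ) (hRM : D.IsRM Φ s) (G : Set M) (hG : MeasurableSet G)
    (hGμ : D.μ Gᶜ = 0) :
    ∃ Φ₀ : X2 M →ₗ[ℝ] ℝ, D.IsInv Φ₀ ∧ D.IsKahler Φ₀ ∧ D.IsRM Φ₀ (s.restrict G) ∧
      (∀ (b : X2 M) (g : M → ℝ) (C : ℝ), AEStronglyMeasurable g s → (∀ x, |g x| ≤ C) →
        (∀ f : SF M, Φ (mulX M f b) = ∫ x, f x * g x ∂s) → Φ₀ b = ∫ x in G, g x ∂s) := by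
  have := hRM.fin
  have hqc : ∀ P : X2 M, Continuous (qG D.F P.1 D.F) := fun P =>
    En4.sF_continuous (En4.sF_qG D P.2 (En4.smF D))
  have hnc : ∀ b : X2 M, Continuous (D.nr b.1) := fun b => En4.cont_nr D b.2
  obtain ⟨Φ₀, h1, h2, h3, h4, h5, h6⟩ := PhiR_exists' D hqc (fun b x => 2 * D.nr b.1 x)
    (fun b => continuous_const.mul (hnc b))
    (fun b x => mul_nonneg zero_le_two (En4.nr_nonneg D _ x))
    (fun f b x => by
      rw [nr_mulX]
      ring)
    Φ hinv hK s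
    (fun b => by
      rw [hinv b, integral_const_mul]
      exact hRM.bound b) G hG hGμ
  refine ⟨Φ₀, h1, h2, ⟨inferInstance, ?_, ?_, ?_⟩, h4⟩
  · -- trace
    intro f hf b hb
    have hF0 : ∀ g : SF M, Φ (mulX M g D.FX) = ∫ x, g x ∂s := fun g =>
      hRM.trace (fun x => g x) (smoothF_SF g) _ rfl
    let f' : SF M := ⟨f, (smoothF_iff f).2 hf⟩
    have h7 := h5 D.FX hF0 f'
    have h8 : b = mulX M f' D.FX := Subtype.ext hb
    rw [h8]
    exact h7
  · -- bound
    intro b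
    have h7 := h3 b
    rw [integral_const_mul, h1 b] at h7
    exact h7
  · -- lower
    intro b h hh hge
    have hbd : ∃ C, ∀ x, |h x| ≤ C := by
      obtain ⟨C, hC⟩ := (isCompact_univ.image hh.abs).isBounded.bddAbove
      exact ⟨C, fun x => hC ⟨x, mem_univ _, rfl⟩⟩
    obtain ⟨C, hC⟩ := hbd
    apply h6 (D.pi' b) h C hh.aestronglyMeasurable hC
    intro f hf
    have h7 : mulX M f (D.pi' b) = D.pi' (mulX M f b) := (invM_mulX D.J D.smJ f b).symm
    rw [h7]
    have hfc : Continuous fun x => f x := f.contMDiff.continuous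
    apply hRM.lower (mulX M f b) (fun x => f x * h x) (hfc.mul hh)
    intro x v
    have h8 : at2 (mulX M f b).1 x v (atJ D.J x v) = f x * at2 b.1 x v (atJ D.J x v) := rfl
    have h9 := mul_le_mul_of_nonneg_left (hge x v) (hf x)
    rw [h8, mul_assoc]
    exact h9

end Main

end

end Crest.Agent.R240.Vm
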