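import Mathlib
import Crest.Agent.R240.Pol3
import Crest.Agent.R240.Ch4

/-!
Row 240 (S0371), node N6 (helper768): one-forms supported in a chart.
-/

set_option autoImplicit false
set_option linter.unusedSectionVars false
set_option maxSynthPendingDepth 3

open MeasureTheory Metric Set Filter Function
open scoped ContDiff ENNReal Manifold Topology

namespace Crest.Agent.R240.Pol

open Crest.Agent.R240 Crest.Agent.R240.Ch

section Ext

variable {M : Type*} [TopologicalSpace M] [T2Space M]
  [ChartedSpace E4 M] [IsManifold 𝓘(ℝ, E4) ∞ M]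

variable {p : M} {K : Set E4}

lemma at1_ext1_of_mem {x : M} (hx : x ∈ (chartAt E4 p).source) (f : E4 → E4 →L[ℝ] ℝ) :
    at1 (ext1 p f) x = (f (chartAt E4 p x)).comp (tcc x p x) := if_pos hx

lemma at1_ext1_of_notMem {x : M} (hx : x ∉ (chartAt E4 p).source) (f : E4 → E4 →L[ℝ] ℝ) :
    at1 (ext1 p f) x = 0 := if_neg hx

lemma rep1_ext1_self {y : E4} (hy : y ∈ (chartAt E4 p).target) (f : E4 → E4 →L[ℝ] ℝ) :
    rep1 p (ext1 p f) y = f y := by
  ext u
  rw [rep1_apply, at1_ext1_of_mem (symm_mem hy), (chartAt E4 p).right_inv hy]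
  simp only [ContinuousLinearMap.comp_apply]
  rw [tcc_cancel (symm_mem hy)]

lemma at1_ext1_zero {x : M} {f : E4 → E4 →L[ℝ] ℝ}
    (h0 : ∀ y, y ∉ K → f y = 0) (hx : x ∉ (chartAt E4 p).symm '' K) :
    at1 (ext1 p f) x = 0 := by
  by_cases h : x ∈ (chartAt E4 p).source
  · rw [at1_ext1_of_mem h, h0 _ fun h1 => hx ⟨_, h1, (chartAt E4 p).left_inv h⟩]
    simp
  · exact at1_ext1_of_notMem h f

lemma rep1_zero_of_at1 {q : M} {s : F1 E4 M} {y : E4} (h : at1 s ((chartAt E4 q).symm y) = 0) :
    rep1 q s y = 0 := by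
  ext u
  rw [rep1_apply, h]; simp

/-- smoothness of the extension by zero. -/
theorem smooth1_ext1 (hK : IsCompact K) (hKt : K ⊆ (chartAt E4 p).target)
    {f : E4 → E4 →L[ℝ] ℝ} (hf : ContDiff ℝ ∞ f) (h0 : ∀ y, y ∉ K → f y = 0) :
    Smooth1 (ext1 p f) := by
  refine Smooth1.of_local (fun x => ?_)
  by_cases h : x ∈ (chartAt E4 p).source
  · refine ⟨p, h, ?_⟩
    have ht := (chartAt E4 p).map_source h
    refine hf.contDiffAt.congr_of_eventuallyEq ?_
    filter_upwards [(chartAt E4 p).open_target.mem_nhds ht] with y hy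
    exact rep1_ext1_self hy f
  · refine ⟨x, mem_chart_source E4 x, ?_⟩
    have hcl : IsClosed ((chartAt E4 p).symm '' K) :=
      (hK.image_of_continuousOn ((chartAt E4 p).continuousOn_symm.mono hKt)).isClosed
    have hx : (chartAt E4 x).symm (chartAt E4 x x) ∉ (chartAt E4 p).symm '' K := by
      rw [(chartAt E4 x).left_inv (mem_chart_source E4 x)]
      rintro ⟨y, hy, rfl⟩
      exact h (symm_mem (hKt hy))
    have h1 : ∀ᶠ y' in 𝓝 (chartAt E4 x x),
        (chartAt E4 x).symm y' ∈ ((chartAt E4 p).symm '' K)ᶜ :=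
      ((chartAt E4 x).continuousAt_symm (mem_chart_target E4 x)).eventually
        (hcl.isOpen_compl.mem_nhds hx)
    refine (contDiffAt_const (c := (0 : E4 →L[ℝ] ℝ))).congr_of_eventuallyEq ?_
    filter_upwards [h1] with y' hy'
    exact rep1_zero_of_at1 (at1_ext1_zero h0 hy')

/-- the exterior derivative of the extension vanishes off the core. -/
theorem dG_zero_of_off (hK : IsCompact K) (hKt : K ⊆ (chartAt E4 p).target) {s : F1 E4 M}
    (h0 : ∀ x, x ∉ (chartAt E4 p).symm '' K → at1 s x = 0) {x : M}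
    (hx : x ∉ (chartAt E4 p).symm '' K) : at2 (dG s) x = 0 := by
  have hcl : IsClosed ((chartAt E4 p).symm '' K) :=
    (hK.image_of_continuousOn ((chartAt E4 p).continuousOn_symm.mono hKt)).isClosed
  have hx' : (chartAt E4 x).symm (chartAt E4 x x) ∉ (chartAt E4 p).symm '' K := by
    rwa [(chartAt E4 x).left_inv (mem_chart_source E4 x)]
  have h1 : ∀ᶠ y' in 𝓝 (chartAt E4 x x),
      (chartAt E4 x).symm y' ∈ ((chartAt E4 p).symm '' K)ᶜ :=
    ((chartAt E4 x).continuousAt_symm (mem_chart_target E4 x)).eventually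
      (hcl.isOpen_compl.mem_nhds hx')
  have h2 : rep1 x s =ᶠ[𝓝 (chartAt E4 x x)] fun _ => 0 := by
    filter_upwards [h1] with y' hy'
    exact rep1_zero_of_at1 (h0 _ hy')
  change d1 (rep1 x s) (chartAt E4 x x) = 0
  rw [d1_congr h2]
  ext u v
  simp [d1_apply]

/-- the representation of a one-form supported in a core, as a test form on the model space. -/
theorem exists_test (hK : IsCompact K) (hKt : K ⊆ (chartAt E4 p).target) {s : F1 E4 M}
    (hs : Smooth1 s) (h0 : ∀ x, x ∉ (chartAt E4 p).symm '' K → at1 s x = 0) :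
    ∃ S : E4 → E4 →L[ℝ] ℝ, ContDiff ℝ ∞ S ∧ tsupport S ⊆ K ∧
      ∀ y ∈ (chartAt E4 p).target, rep1 p s y = S y := by
  classical
  refine ⟨fun y => if y ∈ (chartAt E4 p).target then rep1 p s y else 0, ?_, ?_, ?_⟩
  · rw [contDiff_iff_contDiffAt]
    intro y
    by_cases hy : y ∈ (chartAt E4 p).target
    · have h1 : ContDiffAt ℝ ∞ (rep1 p s) y := hs.at hy
      refine h1.congr_of_eventuallyEq ?_
      filter_upwards [(chartAt E4 p).open_target.mem_nhds hy] with z hz
      rw [if_pos hz]
    · have hyK : y ∈ Kᶜ := fun h => hy (hKt h)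
      refine (contDiffAt_const (c := (0 : E4 →L[ℝ] ℝ))).congr_of_eventuallyEq ?_
      filter_upwards [hK.isClosed.isOpen_compl.mem_nhds hyK] with z hz
      by_cases hzt : z ∈ (chartAt E4 p).target
      · rw [if_pos hzt]
        apply rep1_zero_of_at1
        apply h0
        rintro ⟨z', hz', he⟩
        have : z' = z := (chartAt E4 p).symm.injOn (hKt hz') hzt he
        exact hz (this ▸ hz')
      · rw [if_neg hzt]
  · apply closure_minimal _ hK.isClosed
    intro y hy
    by_contra hyK
    apply hy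
    by_cases hyt : y ∈ (chartAt E4 p).target
    · simp only [if_pos hyt]
      apply rep1_zero_of_at1
      apply h0
      rintro ⟨z', hz', he⟩
      have : z' = y := (chartAt E4 p).symm.injOn (hKt hz') hyt he
      exact hyK (this ▸ hz')
    · simp only [if_neg hyt]
  · intro y hy
    simp only [if_pos hy]

end Ext

end Crest.Agent.R240.Pol
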