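import Mathlib
import Crest.Agent.R240.Pol4
import Crest.Agent.R240.PhiR
import Crest.Agent.R240.Iface
import Crest.Agent.R240.MeasDens

/-!
Row 240 (S0371), node N6 (helper768): the restricted current is closed.
-/

set_option autoImplicit false
set_option linter.unusedSectionVars false
set_option maxSynthPendingDepth 3

open MeasureTheory Metric Set Filter Function
open scoped ContDiff ENNReal Manifold Topology

namespace Crest.Agent.R240.Pol

open Crest.Agent.R240 Crest.Agent.R240.Ch

/-! ### partition of unity subordinate to chart balls -/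

section PU

variable (M : Type*) [TopologicalSpace M] [T2Space M] [CompactSpace M]
  [ChartedSpace E4 M] [IsManifold 𝓘(ℝ, E4) ∞ M]

/-- a finite smooth partition of unity supported in chart balls. -/
structure BallPU where
  t : Finset M
  x0 : M → E4
  R : M → ℝ
  K : M → Set E4
  χ : M → M → ℝ
  R_pos : ∀ i, 0 < R i
  sub : ∀ i, closedBall (x0 i) (3 * R i) ⊆ (chartAt E4 i).target
  K_cpt : ∀ i, IsCompact (K i)
  K_sub : ∀ i, K i ⊆ ball (x0 i) (R i)
  smooth : ∀ i, SmoothF E4 (χ i)
  off : ∀ i x, x ∉ (chartAt E4 i).symm '' K i → χ i x = 0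
  sum_one : ∀ x, ∑ i ∈ t, χ i x = 1

theorem exists_ballPU : Nonempty (BallPU M) := by
  classical
  have h1 : ∀ x : M, ∃ R : ℝ, 0 < R ∧ closedBall (chartAt E4 x x) (3 * R) ⊆
      (chartAt E4 x).target := by
    intro x
    obtain ⟨ε, hε, h⟩ := Metric.isOpen_iff.1 (chartAt E4 x).open_target (chartAt E4 x x)
      (mem_chart_target E4 x)
    refine ⟨ε / 6, by positivity, ?_⟩
    refine (closedBall_subset_ball (by linarith)).trans h
  choose R hR hRs using h1
  let U : M → Set M := fun x => (chartAt E4 x).symm '' ball (chartAt E4 x x) (R x)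
  have hsub : ∀ x, ball (chartAt E4 x x) (R x) ⊆ (chartAt E4 x).target := fun x =>
    (ball_subset_closedBall.trans (closedBall_subset_closedBall (by linarith [hR x]))).trans
      (hRs x)
  have hU : ∀ x, IsOpen (U x) := fun x =>
    (chartAt E4 x).isOpen_image_symm_of_subset_target isOpen_ball (hsub x)
  have hxU : ∀ x, x ∈ U x := fun x =>
    ⟨chartAt E4 x x, mem_ball_self (hR x), (chartAt E4 x).left_inv (mem_chart_source E4 x)⟩
  obtain ⟨f, hf⟩ := SmoothPartitionOfUnity.exists_isSubordinate 𝓘(ℝ, E4)
    (isClosed_univ (X := M)) U hU (fun x _ => mem_iUnion.2 ⟨x, hxU x⟩)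
  have hfin : {i | (support (f i)).Nonempty}.Finite :=
    f.locallyFinite.finite_nonempty_of_compact
  have hts : ∀ i, tsupport (f i) ⊆ (chartAt E4 i).source := by
    intro i x hx
    obtain ⟨y, hy, rfl⟩ := hf i hx
    exact symm_mem (hsub i hy)
  refine ⟨⟨hfin.toFinset, fun x => chartAt E4 x x, R, fun i => chartAt E4 i '' tsupport (f i),
    fun i => f i, hR, hRs, ?_, ?_, ?_, ?_, ?_⟩⟩
  · intro i
    exact ((isClosed_tsupport (f i)).isCompact).image_of_continuousOn
      ((chartAt E4 i).continuousOn.mono (hts i))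
  · rintro i _ ⟨x, hx, rfl⟩
    obtain ⟨y, hy, rfl⟩ := hf i hx
    rwa [(chartAt E4 i).right_inv (hsub i hy)]
  · intro i
    exact (smoothF_iff _).1 (f i).contMDiff
  · intro i x hx
    by_contra hne
    apply hx
    have hxt : x ∈ tsupport (f i) := subset_tsupport _ hne
    exact ⟨chartAt E4 i x, ⟨x, hxt, rfl⟩, (chartAt E4 i).left_inv (hts i hxt)⟩
  · intro x
    have h2 := f.sum_eq_one (mem_univ x)
    rw [finsum_eq_sum_of_support_subset] at h2
    · exact h2
    · intro p hp
      rw [Set.Finite.coe_toFinset]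
      exact ⟨x, hp⟩

end PU

/-! ### finite sums of one-forms -/

section Sums

variable {M : Type*} [TopologicalSpace M] [T2Space M] [CompactSpace M]
  [ChartedSpace E4 M] [IsManifold 𝓘(ℝ, E4) ∞ M]

theorem smooth1_sum {ι : Type*} (t : Finset ι) (s : ι → F1 E4 M) (h : ∀ i ∈ t, Smooth1 (s i)) :
    Smooth1 (∑ i ∈ t, s i) := by
  classical
  induction t using Finset.induction_on with
  | empty => simpa using smooth1_zero
  | insert a t ha ih =>
    rw [Finset.sum_insert ha]
    exact (h a (Finset.mem_insert_self a t)).add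
      (ih fun i hi => h i (Finset.mem_insert_of_mem hi))

theorem dG_zero' : dG (0 : F1 E4 M) = 0 := by
  have h := dG_smul (0 : ℝ) (smooth1_zero (E := E4) (M := M))
  simpa using h

theorem dG_sum {ι : Type*} (t : Finset ι) (s : ι → F1 E4 M) (h : ∀ i ∈ t, Smooth1 (s i)) :
    dG (∑ i ∈ t, s i) = ∑ i ∈ t, dG (s i) := by
  classical
  induction t using Finset.induction_on with
  | empty => simpa using dG_zero'
  | insert a t ha ih =>
    rw [Finset.sum_insert ha, Finset.sum_insert ha,
      dG_add (h a (Finset.mem_insert_self a t))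
        (smooth1_sum t s fun i hi => h i (Finset.mem_insert_of_mem hi)),
      ih fun i hi => h i (Finset.mem_insert_of_mem hi)]

/-- a form is the sum of its pieces. -/
theorem sum_pieces (P : BallPU M) (S : F1 E4 M) : ∑ i ∈ P.t, fmul1 (P.χ i) S = S := by
  funext x
  rw [Finset.sum_apply]
  have : ∀ i ∈ P.t, fmul1 (P.χ i) S x = P.χ i x • S x := fun i _ => rfl
  rw [Finset.sum_congr rfl this, ← Finset.sum_smul, P.sum_one, one_smul]

/-- an exact form is `dG` of its primitive. -/
theorem eq_dG {b : F2 E4 M} {S : F1 E4 M} (hS : Smooth1 S)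
    (h : ∀ p : M, ∀ y ∈ (chartAt E4 p).target, rep p b y = d1 (rep1 p S) y) : b = dG S := by
  funext x
  have h1 := h x _ (mem_chart_target E4 x)
  have h2 := rep_dG hS (mem_chart_target E4 x)
  rw [← h2] at h1
  change at2 b x = at2 (dG S) x
  ext u v
  rw [← rep_self x b u v, ← rep_self x (dG S) u v, h1]

end Sums

end Crest.Agent.R240.Pol
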