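import Mathlib
import Crest.Agent.R240.Pol5

/-!
Row 240 (S0371), node N6 (helper768): the restricted current is closed.
-/

set_option autoImplicit false
set_option linter.unusedSectionVars false
set_option maxSynthPendingDepth 3

open MeasureTheory Metric Set Filter Function
open scoped ContDiff ENNReal Manifold Topology

namespace Crest.Agent.R240.Pol

open Crest.Agent.R240 Crest.Agent.R240.Ch Crest.Agent.R240.Vm

/-! ### bounds -/

theorem continuousOn_W' {f g : E4 → Bil} {K : Set E4} (hf : ContinuousOn f K)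
    (hg : ContinuousOn g K) : ContinuousOn (fun y => W (f y) (g y)) K := by
  unfold W ent
  fun_prop

theorem abs_W_le2 (b c : Bil) : |W b c| ≤ 6 * (‖b‖ * ‖c‖) := by
  have e : ∀ i j k l : Fin 4, |ent b i j * ent c k l| ≤ ‖b‖ * ‖c‖ := by
    intro i j k l
    rw [abs_mul]
    exact mul_le_mul (abs_ent_le b i j) (abs_ent_le c k l) (abs_nonneg _) (norm_nonneg _)
  have h1 := abs_le.1 (e 0 1 2 3)
  have h2 := abs_le.1 (e 0 2 1 3)
  have h3 := abs_le.1 (e 0 3 1 2)
  have h4 := abs_le.1 (e 1 2 0 3)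
  have h5 := abs_le.1 (e 1 3 0 2)
  have h6 := abs_le.1 (e 2 3 0 1)
  unfold W
  rw [abs_le]
  constructor <;> linarith [h1.1, h1.2, h2.1, h2.2, h3.1, h3.2, h4.1, h4.2, h5.1, h5.2, h6.1, h6.2]

section Bdd

variable {M : Type*} [TopologicalSpace M] [ChartedSpace E4 M] [IsManifold 𝓘(ℝ, E4) ∞ M]
variable {p : M} {K : Set E4}

theorem W_ne_of_spos {J : E4 →L[ℝ] E4} (hJ : ∀ v, J (J v) = -v) {F : Bil} (hF : SPos J F) :
    W F F ≠ 0 := by
  obtain ⟨A, hA⟩ := exists_frame hJ hF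
  exact hA.W_ne hF.alt

theorem bdd_q (hK : IsCompact K) (hKt : K ⊆ (chartAt E4 p).target) {J : EndF E4 M}
    {F : F2 E4 M} (hF : Smooth2 F)
    (hs : ∀ y ∈ K, SPos (repJ p J y) (rep p F y))
    (hJ2 : ∀ y ∈ K, ∀ v, repJ p J y (repJ p J y v) = -v) {φ : E4 → Bil} {C : ℝ}
    (hφ : ∀ y ∈ K, ‖φ y‖ ≤ C) {β : E4 → Bil} (hβ : ContinuousOn β K) :
    ∃ C' : ℝ, 0 ≤ C' ∧ ∀ y ∈ K, |q (rep p F y) (φ y) (β y)| ≤ C' := by
  have hFc : ContinuousOn (rep p F) K := (hF.2 p).continuousOn.mono hKt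
  have hW : ContinuousOn (fun y => (W (rep p F y) (rep p F y))⁻¹) K := by
    apply ContinuousOn.inv₀
    · exact continuousOn_W' hFc hFc
    · intro y hy
      exact W_ne_of_spos (hJ2 y hy) (hs y hy)
  obtain ⟨C1, hC1⟩ := hK.exists_bound_of_continuousOn hW
  obtain ⟨C2, hC2⟩ := hK.exists_bound_of_continuousOn hβ
  refine ⟨6 * (|C| * |C2|) * |C1|, by positivity, ?_⟩
  intro y hy
  unfold q
  rw [div_eq_mul_inv, abs_mul]
  have h1 := hC1 y hy
  rw [Real.norm_eq_abs] at h1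
  have h2 := hC2 y hy
  have h3 := hφ y hy
  calc |W (φ y) (β y)| * |(W (rep p F y) (rep p F y))⁻¹|
      ≤ (6 * (‖φ y‖ * ‖β y‖)) * |(W (rep p F y) (rep p F y))⁻¹| := by
        gcongr
        exact abs_W_le2 _ _
    _ ≤ 6 * (|C| * |C2|) * |C1| := by
        refine mul_le_mul ?_ (h1.trans (le_abs_self _)) (abs_nonneg _) (by positivity)
        refine mul_le_mul_of_nonneg_left ?_ (by norm_num)
        exact mul_le_mul (h3.trans (le_abs_self _)) (h2.trans (le_abs_self _)) (norm_nonneg _)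
          (abs_nonneg _)

end Bdd

/-! ### the chart density -/

section Main

variable {M : Type*} [MetricSpace M] [CompactSpace M] [ChartedSpace E4 M]
    [IsManifold 𝓘(ℝ, E4) ∞ M] [MeasurableSpace M] [BorelSpace M]

/-- (D2) of helper703: the current has a density in every chart ball. -/
def ChartDens (D : Dat M) : Prop :=
  ∀ (Φ : X2 M →ₗ[ℝ] ℝ) (s : Measure M), D.IsInv Φ → D.IsNonneg Φ → D.IsRM Φ s →
  ∀ (p : M) (x0 : E4) (R : ℝ), 0 < R → closedBall x0 (3 * R) ⊆ (chartAt E4 p).target →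
  ∃ φ : E4 → Bil, Measurable φ ∧ (∀ y ∈ closedBall x0 (2 * R), Pos (repJ p D.J y) (φ y)) ∧
    (∀ y ∈ closedBall x0 (2 * R), q (rep p D.F y) (φ y) (rep p D.F y) = 1) ∧
    (∃ C : ℝ, ∀ y ∈ closedBall x0 (2 * R), ‖φ y‖ ≤ C) ∧
    ∀ b : X2 M, (∀ x, x ∉ core p (closedBall x0 (2 * R)) → at2 (b : F2 E4 M) x = 0) →
      Φ b = ∫ x in core p (closedBall x0 (2 * R)),
        q (rep p D.F (chartAt E4 p x)) (φ (chartAt E4 p x))
          (rep p (b : F2 E4 M) (chartAt E4 p x)) ∂s

theorem smF (D : Dat M) : Smooth2 D.F := Smooth2.bp D.smJ D.sm_al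

theorem sposF (D : Dat M) : SPosG D.J D.F := by
  intro x
  refine ⟨?_, ?_, ?_⟩
  · intro v
    change invp (atJ D.J x) (at2 D.al x) v v = 0
    rw [invp_apply]
    have h1 := D.sm_al.1 x v
    have h2 := D.sm_al.1 x (atJ D.J x v)
    rw [h1, h2]; simp
  · intro u v
    change invp (atJ D.J x) (at2 D.al x) _ _ = invp (atJ D.J x) (at2 D.al x) u v
    rw [invp_apply, invp_apply, D.sq, D.sq]
    simp
    ring
  · intro v hv
    change 0 < invp (atJ D.J x) (at2 D.al x) v (atJ D.J x v)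
    rw [invp_apply, D.sq]
    have h1 := D.tames x v hv
    have h3 : at2 D.al x (atJ D.J x v) (-v) = at2 D.al x v (atJ D.J x v) := by
      rw [map_neg]
      have := D.sm_al.antisymm x (atJ D.J x v) v
      change at2 D.al x (atJ D.J x v) v = - at2 D.al x v (atJ D.J x v) at this
      rw [this]; simp
    rw [h3]
    linarith

theorem rep_eq_d1 {p : M} {s1 : F1 E4 M} (hs1 : Smooth1 s1) {σ : E4 → E4 →L[ℝ] ℝ}
    (h : ∀ y ∈ (chartAt E4 p).target, rep1 p s1 y = σ y) {y : E4}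
    (hy : y ∈ (chartAt E4 p).target) : rep p (dG s1) y = En.d1 σ y := by
  rw [rep_dG hs1 hy]
  have h1 : rep1 p s1 =ᶠ[𝓝 y] σ := by
    filter_upwards [(chartAt E4 p).open_target.mem_nhds hy] with z hz using h z hz
  rw [d1_congr h1]
  rfl

theorem piece_zero (LP : LocalPoles) (D : Dat M) {Φ : X2 M →ₗ[ℝ] ℝ} {s : Measure M}
    [IsFiniteMeasure s]
    (hinv : D.IsInv Φ) (hnn : D.IsNonneg Φ) (hEx : Dat.KillsExact Φ) (hRM : D.IsRM Φ s)
    (hgr : Dat.Growth2 s) (hCD : ChartDens D) {Φ₀ : X2 M →ₗ[ℝ] ℝ}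
    (hrepr : ∀ (b : X2 M) (g : M → ℝ) (C : ℝ), AEStronglyMeasurable g s → (∀ x, |g x| ≤ C) →
      (∀ f : SF M, Φ (mulX M f b) = ∫ x, f x * g x ∂s) →
      Φ₀ b = ∫ x in {x | wpot s x < ⊤}, g x ∂s)
    {p : M} {x0 : E4} {R : ℝ} (hR : 0 < R) (hsub : closedBall x0 (3 * R) ⊆ (chartAt E4 p).target)
    {K : Set E4} (hK : IsCompact K) (hKR : K ⊆ ball x0 R) {s1 : F1 E4 M} (hs1 : Smooth1 s1)
    (h0 : ∀ x, x ∉ (chartAt E4 p).symm '' K → at1 s1 x = 0) :
    Φ₀ ⟨dG s1, Smooth2.dG hs1⟩ = 0 := by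
  obtain ⟨φ, hφm, hφp, hφn, ⟨Cφ, hCφ⟩, hform⟩ := hCD Φ s hinv hnn hRM p x0 R hR hsub
  have h2sub : closedBall x0 (2 * R) ⊆ (chartAt E4 p).target :=
    (closedBall_subset_closedBall (by linarith)).trans hsub
  have h2c : IsCompact (closedBall x0 (2 * R)) := isCompact_closedBall _ _
  have hKt : K ⊆ (chartAt E4 p).target :=
    (hKR.trans (ball_subset_closedBall.trans (closedBall_subset_closedBall (by linarith)))).trans
      h2sub
  obtain ⟨C, hC⟩ := hgr
  have hs : ∀ x r, 0 < r → s (ball x r) ≤ ENNReal.ofReal (C * r ^ 2) := by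
    intro x r hr
    rw [← ENNReal.ofReal_toReal (measure_ne_top s (ball x r))]
    exact ENNReal.ofReal_le_ofReal (hC x r hr)
  -- closedness in the chart
  have hcl : ∀ S : E4 → En.Cov, ContDiff ℝ ∞ S → HasCompactSupport S →
      tsupport S ⊆ ball x0 (2 * R) →
      ∫ x in core p (closedBall x0 (2 * R)), q (rep p D.F (chartAt E4 p x)) (φ (chartAt E4 p x))
        (En.d1 S (chartAt E4 p x)) ∂s = 0 := by
    intro S hS hSc hSs
    have hSt : tsupport S ⊆ (chartAt E4 p).target :=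
      (hSs.trans ball_subset_closedBall).trans h2sub
    have hS0 : ∀ y, y ∉ tsupport S → S y = 0 := fun y hy => image_eq_zero_of_notMem_tsupport hy
    have hsm : Smooth1 (ext1 p S) := smooth1_ext1 hSc.isCompact hSt hS hS0
    have hrep1 : ∀ y ∈ (chartAt E4 p).target, rep1 p (ext1 p S) y = S y :=
      fun y hy => rep1_ext1_self hy S
    have hz := hEx ⟨dG (ext1 p S), Smooth2.dG hsm⟩ ⟨ext1 p S, hsm, fun q y hy => rep_dG hsm hy⟩
    rw [hform _ (by
      intro x hx
      apply dG_zero_of_off hSc.isCompact hSt (fun x hx => at1_ext1_zero hS0 hx)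
      intro h
      apply hx
      obtain ⟨y, hy, rfl⟩ := h
      exact ⟨y, ball_subset_closedBall (hSs hy), rfl⟩)] at hz
    rw [← hz]
    apply setIntegral_congr_fun (core_meas h2c h2sub)
    intro x hx
    have hy := h2sub (chart_core_mem h2sub hx)
    simp only
    rw [rep_eq_d1 hsm hrep1 hy]
  -- the piece as a test form
  obtain ⟨σ, hσ, hσK, hσr⟩ := exists_test hK hKt hs1 h0
  have hσc : HasCompactSupport σ := hK.of_isClosed_subset (isClosed_tsupport σ) hσK
  have hz := chart_zero LP D.bl D.smJ D.sq (smF D) (sposF D) hR hsub s hs hφm hφp hφn hcl hσ hσc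
    (hσK.trans hKR)
  have hσm : Measurable (En.d1 σ) := by
    have h1 : Continuous (fderiv ℝ σ) := hσ.continuous_fderiv (by simp)
    have h2 : Continuous fun y => fderiv ℝ σ y - (fderiv ℝ σ y).flip :=
      h1.sub ((ContinuousLinearMap.flipₗᵢ ℝ E4 E4 ℝ).continuous.comp h1)
    exact h2.measurable
  have hσcont : Continuous (En.d1 σ) := by
    have h1 : Continuous (fderiv ℝ σ) := hσ.continuous_fderiv (by simp)
    exact h1.sub ((ContinuousLinearMap.flipₗᵢ ℝ E4 E4 ℝ).continuous.comp h1)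
  set A : Set M := core p (closedBall x0 (2 * R)) with hA
  have hAm : MeasurableSet A := core_meas h2c h2sub
  obtain ⟨Cq, hCq0, hCq⟩ := bdd_q (p := p) h2c h2sub (J := D.J) (smF D)
    (fun y hy => spos_rep (sposF D) (h2sub hy)) (fun y hy v => repJ_sq D.sq (h2sub hy) v) hCφ
    (hσcont.continuousOn (s := closedBall x0 (2 * R)))
  rw [← hz]
  apply hrepr _ _ Cq
  · rw [aestronglyMeasurable_indicator_iff hAm]
    have h1 := aesm_integrand (smF D) hR hsub s hφm hσm
    exact h1.comp_aemeasurable (aemeas_chart h2c h2sub s)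
  · intro x
    by_cases hx : x ∈ A
    · rw [indicator_of_mem hx]
      exact hCq _ (chart_core_mem h2sub hx)
    · rw [indicator_of_notMem hx, abs_zero]
      exact hCq0
  · intro f
    rw [hform _ (by
      intro x hx
      rw [at2_mulX]
      have h3 : at2 (dG s1) x = 0 := by
        apply dG_zero_of_off hK hKt h0
        intro h
        apply hx
        obtain ⟨y, hy, rfl⟩ := h
        exact ⟨y, ball_subset_closedBall (ball_subset_ball (by linarith) (hKR hy)), rfl⟩
      rw [h3, smul_zero]), ← integral_indicator hAm]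
    congr 1
    ext x
    by_cases hx : x ∈ A
    · rw [indicator_of_mem hx, indicator_of_mem hx]
      have hy := h2sub (chart_core_mem h2sub hx)
      have hxs : x ∈ (chartAt E4 p).source := core_sub h2sub hx
      have h5 : rep p ((⟨dG s1, Smooth2.dG hs1⟩ : X2 M) : F2 E4 M) (chartAt E4 p x)
          = En.d1 σ (chartAt E4 p x) := rep_eq_d1 hs1 hσr hy
      rw [mulX_coe, Vm.rep_fmul, h5, (chartAt E4 p).left_inv hxs, q_smul_right]
    · rw [indicator_of_notMem hx, indicator_of_notMem hx, mul_zero]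

end Main

end Crest.Agent.R240.Pol
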