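import Mathlib
import Crest.Agent.R240.Pol6
import Crest.Agent.R240.PhiN
import Crest.Agent.R240.ChDens

/-!
Row 240 (S0371), node N6 (helper768): removal of the poles of the Kaehler current on `M`
(from the local poles theorem).
-/

set_option autoImplicit false
set_option linter.unusedSectionVars false
set_option maxSynthPendingDepth 3

open MeasureTheory Metric Set Filter Function
open scoped ContDiff ENNReal Manifold Topology

namespace Crest.Agent.R240.Pol

open Crest.Agent.R240 Crest.Agent.R240.Ch Crest.Agent.R240.Vm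

variable {M : Type*} [MetricSpace M] [CompactSpace M] [ChartedSpace E4 M]
    [IsManifold 𝓘(ℝ, E4) ∞ M] [MeasurableSpace M] [BorelSpace M]

theorem wpot_eq_w (s : Measure M) : wpot s = Kern.w s := by
  funext x
  rw [MeasDens.w_eq_edist]
  rfl

/-- the restricted current is closed. -/
theorem killsExact_restr (LP : LocalPoles) (D : Dat M) {Φ : X2 M →ₗ[ℝ] ℝ} {s : Measure M}
    [IsFiniteMeasure s]
    (hinv : D.IsInv Φ) (hnn : D.IsNonneg Φ) (hEx : Dat.KillsExact Φ) (hRM : D.IsRM Φ s)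
    (hgr : Dat.Growth2 s) (hCD : ChartDens D) {Φ₀ : X2 M →ₗ[ℝ] ℝ}
    (hrepr : ∀ (b : X2 M) (g : M → ℝ) (C : ℝ), AEStronglyMeasurable g s → (∀ x, |g x| ≤ C) →
      (∀ f : SF M, Φ (mulX M f b) = ∫ x, f x * g x ∂s) →
      Φ₀ b = ∫ x in {x | wpot s x < ⊤}, g x ∂s) :
    Dat.KillsExact Φ₀ := by
  intro b hb
  obtain ⟨S, hS, hbS⟩ := hb
  obtain ⟨P⟩ := exists_ballPU M
  have hSi : ∀ i, Smooth1 (fmul1 (P.χ i) S) := fun i => Smooth1.fmul (P.smooth i) hS
  have hbe : b.1 = ∑ i ∈ P.t, dG (fmul1 (P.χ i) S) := by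
    rw [eq_dG hS hbS, ← dG_sum P.t _ (fun i _ => hSi i), sum_pieces P S]
  have hsum : b = ∑ i ∈ P.t, (⟨dG (fmul1 (P.χ i) S), Smooth2.dG (hSi i)⟩ : X2 M) := by
    apply Subtype.ext
    rw [hbe, Submodule.coe_sum]
  rw [hsum, map_sum]
  apply Finset.sum_eq_zero
  intro i _
  apply piece_zero LP D hinv hnn hEx hRM hgr hCD hrepr (P.R_pos i) (P.sub i) (P.K_cpt i)
    (P.K_sub i) (hSi i)
  intro x hx
  have h1 : P.χ i x = 0 := P.off i x hx
  change P.χ i x • at1 S x = 0
  rw [h1, zero_smul]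

/-- **node N6**. -/
theorem n6_of (LP : LocalPoles) (D : Dat M) (hVG : D.VG) : D.N6 := by
  intro Φ s hinv hK hEx hRM hgr
  have hfin : IsFiniteMeasure s := hRM.fin
  have hfinμ : IsFiniteMeasure D.μ := D.fin
  set G : Set M := {x | wpot s x < ⊤} with hG
  have hGm : MeasurableSet G := measurableSet_lt (measurable_wpot _) measurable_const
  have hGμ : D.μ Gᶜ = 0 := by
    obtain ⟨C, hC⟩ := hVG
    have h1 : ∀ (x : M) (r : ℝ), 0 < r → D.μ (ball x r) ≤
        ENNReal.ofReal (max C 0 * r ^ (2 + 2)) := by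
      intro x r hr
      rw [← ENNReal.ofReal_toReal (measure_ne_top D.μ (ball x r))]
      apply ENNReal.ofReal_le_ofReal
      refine (hC x r hr).trans ?_
      exact mul_le_mul_of_nonneg_right (le_max_left _ _) (by positivity)
    have h2 := Kern.ae_w_lt_top D.μ s (c := 2) (by norm_num) (le_max_right C 0) h1
    rw [ae_iff] at h2
    rw [hG, wpot_eq_w]
    exact h2
  have hnn : D.IsNonneg Φ := by
    intro P hP
    refine le_trans ?_ (hK P hP)
    unfold Dat.I IG
    apply integral_nonneg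
    intro x
    have hP' := hP x
    exact ((En4.pos_iff (D.sq x) (ChDens.spos D x) hP'.alt hP'.inv).1 hP'.nonneg).1
  obtain ⟨Φ₀, h1, h2, h3, h4⟩ := PhiR_node D Φ s hinv hK hRM G hGm hGμ
  refine ⟨Φ₀, s.restrict G, h1, h2, ?_, h3, ?_, ?_⟩
  · exact killsExact_restr LP D hinv hnn hEx hRM hgr (ChDens.chartDens D) h4
  · obtain ⟨C, hC⟩ := hgr
    refine ⟨C, fun x r hr => le_trans ?_ (hC x r hr)⟩
    apply ENNReal.toReal_mono (measure_ne_top _ _)
    exact Measure.restrict_apply_le _ _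
  · unfold Dat.ZeroDens
    rw [ae_restrict_iff' hGm]
    refine Eventually.of_forall fun x hx => ?_
    have hx' : Kern.w s x < ⊤ := by
      rw [← wpot_eq_w]; exact hx
    have h5 := MeasDens.tendsto_th_restrict s G x hx'
    have h6 := (ENNReal.tendsto_toReal ENNReal.zero_ne_top).comp h5
    simp only [ENNReal.toReal_zero] at h6
    refine h6.congr' ?_
    filter_upwards [self_mem_nhdsWithin] with r hr
    have hr' : (0 : ℝ) < r := hr
    simp only [comp_apply, MeasDens.th]
    rw [ENNReal.toReal_div, ENNReal.toReal_ofReal (by positivity)]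
    rfl

end Crest.Agent.R240.Pol
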