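import Mathlib
import Crest.Agent.R240.Pol
import Crest.Agent.R240.LocPolesFin
import Crest.Agent.R240.IntNodes

/-!
Row 240 (S0371), node N6, unconditional (helper768).
-/

set_option autoImplicit false

open scoped Manifold ContDiff

namespace Crest.Agent.R240.Pol

open Crest.Agent.R240 Crest.Agent.R240.Ch

/-- **node N6**: removal of the poles of the Kaehler current. -/
theorem n6 {M : Type*} [MetricSpace M] [CompactSpace M] [ChartedSpace E4 M]
    [IsManifold 𝓘(ℝ, E4) ∞ M] [MeasurableSpace M] [BorelSpace M] (D : Dat M) : D.N6 :=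
  n6_of Loc5.localPoles D (Int.node_VG D)

end Crest.Agent.R240.Pol
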