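import Mathlib
import Crest.Agent.R240.Main
import Crest.Agent.R240.IntTop
import Crest.Agent.R240.IntBall

/-!
Row 240 (S0371), TOP (helper23): last steps.
-/

set_option autoImplicit false
set_option maxSynthPendingDepth 3

open Set Function Filter MeasureTheory Metric
open scoped Manifold ContDiff Topology ENNReal

namespace Crest.Agent.R240

open Ch

noncomputable section

namespace Dat

variable {M : Type*} [MetricSpace M] [CompactSpace M] [ChartedSpace E4 M]
    [IsManifold 𝓘(ℝ, E4) ∞ M] [MeasurableSpace M] [BorelSpace M]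

theorem sposG_of_goal (D : Dat M) (h : D.Goal) :
    ∃ c : F2 E4 M, Smooth2 c ∧ Closed2 c ∧ SPosG D.J c := by
  obtain ⟨b, hbZ, hb0, hpos⟩ := h
  refine ⟨b.1, b.2, hbZ, fun x => ⟨alt b x, ?_, hpos x⟩⟩
  intro u v
  have h1 : antip (atJ D.J x) (at2 (b : F2 E4 M) x) = 0 := by
    have h2 : at2 ((D.pi'' b : X2 M) : F2 E4 M) x = at2 ((0 : X2 M) : F2 E4 M) x := by rw [hb0]
    exact h2
  have h2 : antip (atJ D.J x) (at2 (b : F2 E4 M) x) u v = 0 := by rw [h1]; rfl
  rw [antip_apply] at h2
  linarith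

/-- node VG. -/
theorem vg_int (D : Dat M) : D.VG := by
  obtain ⟨C, hC, h⟩ := Int.dat_ball_le D
  refine ⟨C, fun x r hr => ?_⟩
  exact ENNReal.toReal_le_of_le_ofReal (by positivity) (h x r hr)

end Dat

end

end Crest.Agent.R240
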