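import Mathlib
import Crest.Agent.R240.Iface
import Crest.Agent.R240.TopFin
import Crest.Agent.R240.MeasDens

/-!
Row 240 (S0371), TOP (helper23): node N7 from helper369's `MeasDens`.
-/

set_option autoImplicit false
set_option maxSynthPendingDepth 3

open Set Function Filter MeasureTheory Metric
open scoped Manifold ContDiff Topology ENNReal

namespace Crest.Agent.R240

open Ch

noncomputable section

section Metric

variable {X : Type*} [PseudoMetricSpace X] [MeasurableSpace X]

theorem growth_ennreal {s : Measure X} [IsFiniteMeasure s] {C : ℝ} {a : ℕ}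
    (h : ∀ x : X, ∀ r : ℝ, 0 < r → s.real (ball x r) ≤ C * r ^ a) :
    ∀ (x : X) (r : ℝ), 0 < r → s (ball x r) ≤ ENNReal.ofReal (C * r ^ a) := by
  intro x r hr
  rw [← ENNReal.ofReal_toReal (measure_ne_top s (ball x r))]
  exact ENNReal.ofReal_le_ofReal (h x r hr)

theorem th_tendsto {s : Measure X} [IsFiniteMeasure s] {x : X}
    (h : Tendsto (fun r : ℝ => s.real (ball x r) / r ^ 2) (𝓝[>] 0) (𝓝 0)) :
    Tendsto (fun r => MeasDens.th s x r) (𝓝[>] (0 : ℝ)) (𝓝 0) := by
  have h2 : Tendsto (fun r : ℝ => ENNReal.ofReal (s.real (ball x r) / r ^ 2)) (𝓝[>] 0) (𝓝 0) := by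
    have := ENNReal.tendsto_ofReal h
    rwa [ENNReal.ofReal_zero] at this
  refine h2.congr' ?_
  filter_upwards [self_mem_nhdsWithin] with r hr
  have hr' : (0 : ℝ) < r := hr
  unfold MeasDens.th
  rw [ENNReal.ofReal_div_of_pos (by positivity), Measure.real, ENNReal.ofReal_toReal
    (measure_ne_top _ _)]

end Metric

namespace Dat

variable {M : Type*} [MetricSpace M] [CompactSpace M] [ChartedSpace E4 M]
    [IsManifold 𝓘(ℝ, E4) ∞ M] [MeasurableSpace M] [BorelSpace M]

theorem n7_proof (D : Dat M) : D.N7 := by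
  intro s₀ s hs₀ hs hg₀ hg hz K hK
  have hμfin := D.fin
  obtain ⟨A, hA⟩ := D.vg_int
  obtain ⟨C, hC⟩ := hg₀
  obtain ⟨C', hC'⟩ := hg
  have hμ : ∀ (x : M) (r : ℝ), 0 < r → D.μ (ball x r) ≤ ENNReal.ofReal (max A 0 * r ^ 4) := by
    intro x r hr
    refine (growth_ennreal hA x r hr).trans (ENNReal.ofReal_le_ofReal ?_)
    gcongr
    exact le_max_left _ _
  have hs0' := growth_ennreal hC
  have hs' := growth_ennreal hC'
  have h0 : ∀ᵐ x ∂s₀, Tendsto (fun r => MeasDens.th s₀ x r) (𝓝[>] (0 : ℝ)) (𝓝 0) := by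
    filter_upwards [hz] with x hx
    exact th_tendsto hx
  have h1 : ∀ᵐ x ∂s, Tendsto (fun r => MeasDens.th s₀ x r) (𝓝[>] (0 : ℝ)) (𝓝 0) := by
    apply MeasDens.vitali_null s₀ s hs'
      (G := {x | Tendsto (fun r => MeasDens.th s₀ x r) (𝓝[>] (0 : ℝ)) (𝓝 0)})
    · exact h0
    · intro x hx; exact hx
  refine ⟨?_, ?_⟩
  · exact MeasDens.tendsto_integral_of_lintegral (MeasDens.tendsto_lintegral_tht s₀ s hs0' h1 hK)
  · have h2 := MeasDens.tendsto_lintegral_sq D.μ s₀ (le_max_right A 0) hμ hs0' h0 hK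
    have h3 := (ENNReal.tendsto_toReal ENNReal.zero_ne_top).comp h2
    rw [ENNReal.toReal_zero] at h3
    refine h3.congr' ?_
    filter_upwards [self_mem_nhdsWithin] with ε hε
    have hε' : (0 : ℝ) < ε := hε
    simp only [Function.comp]
    rw [integral_eq_lintegral_of_nonneg_ae]
    · congr 1
      apply lintegral_congr
      intro x
      have h4 : s₀ (ball x (K * ε)) = ENNReal.ofReal (s₀.real (ball x (K * ε))) := by
        rw [Measure.real, ENNReal.ofReal_toReal (measure_ne_top _ _)]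
      have h5 : 0 ≤ s₀.real (ball x (K * ε)) := measureReal_nonneg
      rw [h4, ← ENNReal.ofReal_div_of_pos (by positivity), ← ENNReal.ofReal_pow (by positivity)]
      congr 1
      field_simp
    · exact ae_of_all _ fun x => by
        have h5 : 0 ≤ s₀.real (ball x (K * ε)) := measureReal_nonneg
        show 0 ≤ s₀.real (ball x (K * ε)) / ε ^ 2 * (s₀.real (ball x (K * ε)) / ε ^ 4)
        positivity
    · have hm : Measurable fun x : M => s₀.real (ball x (K * ε)) :=
        (MeasDens.measurable_meas_ball s₀ (K * ε)).ennreal_toReal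
      exact ((hm.div_const _).mul (hm.div_const _)).aestronglyMeasurable

end Dat

end

end Crest.Agent.R240
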