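import Mathlib
import Crest.Agent.R240.En4L
import Crest.Agent.R240.Sm2

/-!
Row 240 (S0371), R4a (helper83), file 1: pointwise estimates for the pull-back of two-forms by a linear map
which is close to the identity, between two nearby structures `(J₀,F₀)`, `(J₁,F₁)` on `E4`.
-/

set_option autoImplicit false
set_option maxSynthPendingDepth 3
set_option linter.unusedVariables false

namespace Crest.Agent.R240.Q4

open Crest.Agent.R240 Crest.Agent.R240.Sm Crest.Agent.R240.En4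

noncomputable section

/-- comparison of `(J,F)` with the Euclidean structure, with constant `B`. -/
structure Cmp (B : ℝ) (J : E4 →L[ℝ] E4) (F : Bil) : Prop where
  sq : ∀ v, J (J v) = -v
  spos : SPos J F
  nJ : ‖J‖ ≤ B
  nF : ‖F‖ ≤ B
  low : ∀ b : Bil, Alt b → ‖b‖ ≤ B * nr J F b
  up : ∀ b : Bil, Alt b → nr J F b ≤ B * ‖b‖
  ell : ∀ v : E4, ‖v‖ ^ 2 ≤ B * F v (J v)

/-- two structures at distance `t`, and a linear map `A` at distance `t` from the identity. -/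
structure Near (B t : ℝ) (J₀ J₁ : E4 →L[ℝ] E4) (F₀ F₁ : Bil) (A : E4 →L[ℝ] E4) : Prop where
  one_le : 1 ≤ B
  t_nonneg : 0 ≤ t
  c0 : Cmp B J₀ F₀
  c1 : Cmp B J₁ F₁
  nA : ‖A‖ ≤ B
  dJ : ‖J₁ - J₀‖ ≤ B * t
  dF : ‖F₁ - F₀‖ ≤ B * t
  dA : ‖A - ContinuousLinearMap.id ℝ E4‖ ≤ B * t

theorem bil_le (b : Bil) (u v : E4) : |b u v| ≤ ‖b‖ * ‖u‖ * ‖v‖ := by
  have := ContinuousLinearMap.le_opNorm₂ b u v
  rwa [Real.norm_eq_abs] at this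

theorem bil_bound {b : Bil} {C : ℝ} (hC : 0 ≤ C) (h : ∀ u v, |b u v| ≤ C * ‖u‖ * ‖v‖) : ‖b‖ ≤ C :=
  ContinuousLinearMap.opNorm_le_bound₂ b hC (fun u v => by rw [Real.norm_eq_abs]; exact h u v)

theorem alt_pb {b : Bil} (hb : Alt b) (A : E4 →L[ℝ] E4) : Alt (pb b A) := fun v => hb _

theorem norm_pb_le (b : Bil) (A : E4 →L[ℝ] E4) : ‖pb b A‖ ≤ ‖b‖ * ‖A‖ ^ 2 := by
  refine bil_bound (by positivity) (fun u v => ?_)
  rw [pb_apply]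
  refine (bil_le b _ _).trans ?_
  have h1 := A.le_opNorm u
  have h2 := A.le_opNorm v
  calc ‖b‖ * ‖A u‖ * ‖A v‖ ≤ ‖b‖ * (‖A‖ * ‖u‖) * (‖A‖ * ‖v‖) := by gcongr
    _ = ‖b‖ * ‖A‖ ^ 2 * ‖u‖ * ‖v‖ := by ring

/-- difference of two pull-backs of the same form -/
theorem bil_diff_le (b : Bil) (X Y : E4 →L[ℝ] E4) (u v : E4) :
    |b (X u) (X v) - b (Y u) (Y v)| ≤ ‖b‖ * ‖X - Y‖ * (‖X‖ + ‖Y‖) * ‖u‖ * ‖v‖ := by
  have e : b (X u) (X v) - b (Y u) (Y v) = b ((X - Y) u) (X v) + b (Y u) ((X - Y) v) := by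
    simp only [ContinuousLinearMap.sub_apply, map_sub]; ring
  rw [e]
  have h1 := (X - Y).le_opNorm u
  have h2 := (X - Y).le_opNorm v
  have h3 := X.le_opNorm v
  have h4 := Y.le_opNorm u
  calc |b ((X - Y) u) (X v) + b (Y u) ((X - Y) v)|
      ≤ |b ((X - Y) u) (X v)| + |b (Y u) ((X - Y) v)| := abs_add_le _ _
    _ ≤ ‖b‖ * ‖(X - Y) u‖ * ‖X v‖ + ‖b‖ * ‖Y u‖ * ‖(X - Y) v‖ :=
        add_le_add (bil_le _ _ _) (bil_le _ _ _)
    _ ≤ ‖b‖ * (‖X - Y‖ * ‖u‖) * (‖X‖ * ‖v‖) + ‖b‖ * (‖Y‖ * ‖u‖) * (‖X - Y‖ * ‖v‖) := by gcongr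
    _ = _ := by ring

namespace Near

variable {B t : ℝ} {J₀ J₁ : E4 →L[ℝ] E4} {F₀ F₁ : Bil} {A : E4 →L[ℝ] E4}

theorem B_pos (h : Near B t J₀ J₁ F₀ F₁ A) : 0 < B := lt_of_lt_of_le one_pos h.one_le

theorem dXY (h : Near B t J₀ J₁ F₀ F₁ A) : ‖J₁.comp A - A.comp J₀‖ ≤ 3 * B ^ 2 * t := by
  have hB := h.B_pos.le
  have e : J₁.comp A - A.comp J₀ = (J₁ - J₀).comp A + J₀.comp (A - ContinuousLinearMap.id ℝ E4)
      - (A - ContinuousLinearMap.id ℝ E4).comp J₀ := by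
    ext v i
    simp only [ContinuousLinearMap.sub_apply, ContinuousLinearMap.add_apply,
      ContinuousLinearMap.comp_apply, map_sub, ContinuousLinearMap.id_apply, PiLp.add_apply,
      PiLp.sub_apply]
    ring
  rw [e]
  have h1 : ‖(J₁ - J₀).comp A‖ ≤ (B * t) * B :=
    (ContinuousLinearMap.opNorm_comp_le _ _).trans
      (mul_le_mul h.dJ h.nA (norm_nonneg _) (by have := h.t_nonneg; positivity))
  have h2 : ‖J₀.comp (A - ContinuousLinearMap.id ℝ E4)‖ ≤ B * (B * t) :=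
    (ContinuousLinearMap.opNorm_comp_le _ _).trans (mul_le_mul h.c0.nJ h.dA (norm_nonneg _) hB)
  have h3 : ‖(A - ContinuousLinearMap.id ℝ E4).comp J₀‖ ≤ (B * t) * B :=
    (ContinuousLinearMap.opNorm_comp_le _ _).trans
      (mul_le_mul h.dA h.c0.nJ (norm_nonneg _) (by have := h.t_nonneg; positivity))
  calc _ ≤ ‖(J₁ - J₀).comp A + J₀.comp (A - ContinuousLinearMap.id ℝ E4)‖
        + ‖(A - ContinuousLinearMap.id ℝ E4).comp J₀‖ := norm_sub_le _ _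
    _ ≤ (‖(J₁ - J₀).comp A‖ + ‖J₀.comp (A - ContinuousLinearMap.id ℝ E4)‖)
        + ‖(A - ContinuousLinearMap.id ℝ E4).comp J₀‖ := by gcongr; exact norm_add_le _ _
    _ ≤ ((B * t) * B + B * (B * t)) + (B * t) * B := by gcongr
    _ = _ := by ring

theorem nX (h : Near B t J₀ J₁ F₀ F₁ A) : ‖J₁.comp A‖ ≤ B ^ 2 := by
  have hB := h.B_pos.le
  calc _ ≤ ‖J₁‖ * ‖A‖ := ContinuousLinearMap.opNorm_comp_le _ _
    _ ≤ B * B := mul_le_mul h.c1.nJ h.nA (norm_nonneg _) hB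
    _ = _ := by ring

theorem nY (h : Near B t J₀ J₁ F₀ F₁ A) : ‖A.comp J₀‖ ≤ B ^ 2 := by
  have hB := h.B_pos.le
  calc _ ≤ ‖A‖ * ‖J₀‖ := ContinuousLinearMap.opNorm_comp_le _ _
    _ ≤ B * B := mul_le_mul h.nA h.c0.nJ (norm_nonneg _) hB
    _ = _ := by ring

theorem XY_bound (h : Near B t J₀ J₁ F₀ F₁ A) (b : Bil) (u v : E4) :
    |b (J₁ (A u)) (J₁ (A v)) - b (A (J₀ u)) (A (J₀ v))| ≤ 6 * B ^ 4 * t * ‖b‖ * ‖u‖ * ‖v‖ := by
  have hB := h.B_pos.le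
  have ht := h.t_nonneg
  have h1 := bil_diff_le b (J₁.comp A) (A.comp J₀) u v
  simp only [ContinuousLinearMap.comp_apply] at h1
  refine h1.trans ?_
  have h2 := h.dXY
  have h3 := h.nX
  have h4 := h.nY
  calc ‖b‖ * ‖J₁.comp A - A.comp J₀‖ * (‖J₁.comp A‖ + ‖A.comp J₀‖) * ‖u‖ * ‖v‖
      ≤ ‖b‖ * (3 * B ^ 2 * t) * (B ^ 2 + B ^ 2) * ‖u‖ * ‖v‖ := by gcongr
    _ = _ := by ring

theorem nr0_le (h : Near B t J₀ J₁ F₀ F₁ A) {b : Bil} (hb : Alt b) {C : ℝ} (hC : ‖b‖ ≤ C) :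
    nr J₀ F₀ b ≤ B * C :=
  (h.c0.up b hb).trans (mul_le_mul_of_nonneg_left hC h.B_pos.le)

/-- the norm of the pull-back -/
theorem bd (h : Near B t J₀ J₁ F₀ F₁ A) {b : Bil} (hb : Alt b) :
    nr J₀ F₀ (pb b A) ≤ B ^ 4 * nr J₁ F₁ b := by
  have hB := h.B_pos.le
  have h1 : ‖pb b A‖ ≤ (B * nr J₁ F₁ b) * B ^ 2 :=
    (norm_pb_le b A).trans (mul_le_mul (h.c1.low b hb)
      (pow_le_pow_left₀ (norm_nonneg _) h.nA 2) (by positivity)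
      (mul_nonneg hB (Real.sqrt_nonneg _)))
  refine (h.nr0_le (alt_pb hb A) h1).trans (le_of_eq ?_)
  ring

theorem nr_invp_le {J : E4 →L[ℝ] E4} {F : Bil} (hJ : ∀ v, J (J v) = -v) (hF : SPos J F) {b : Bil}
    (hb : Alt b) : nr J F (invp J b) ≤ nr J F b := by
  unfold nr
  apply Real.sqrt_le_sqrt
  rw [nsq_split hJ hF hb]
  have := nsq_nonneg hJ hF (hb.antip J)
  linarith

theorem nr_antip_le {J : E4 →L[ℝ] E4} {F : Bil} (hJ : ∀ v, J (J v) = -v) (hF : SPos J F) {b : Bil}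
    (hb : Alt b) : nr J F (antip J b) ≤ nr J F b := by
  unfold nr
  apply Real.sqrt_le_sqrt
  rw [nsq_split hJ hF hb]
  have := nsq_nonneg hJ hF (hb.invp J)
  linarith

theorem leak_aux1 (h : Near B t J₀ J₁ F₀ F₁ A) {b : Bil} (hb : Alt b)
    (hi : ∀ u v, b (J₁ u) (J₁ v) = b u v) :
    nr J₀ F₀ (antip J₀ (pb b A)) ≤ 3 * B ^ 6 * t * nr J₁ F₁ b := by
  have hB := h.B_pos.le
  have ht := h.t_nonneg
  have h0 : 0 ≤ nr J₁ F₁ b := Real.sqrt_nonneg _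
  have h1 : ‖antip J₀ (pb b A)‖ ≤ 3 * B ^ 4 * t * (B * nr J₁ F₁ b) := by
    refine bil_bound (by positivity) (fun u v => ?_)
    rw [antip_apply, pb_apply, pb_apply, ← hi (A u) (A v), abs_div, abs_two]
    have h2 := h.XY_bound b u v
    have h3 := h.c1.low b hb
    have h4 : 6 * B ^ 4 * t * ‖b‖ * ‖u‖ * ‖v‖ ≤ 6 * B ^ 4 * t * (B * nr J₁ F₁ b) * ‖u‖ * ‖v‖ := by
      gcongr
    rw [div_le_iff₀ (by norm_num)]
    linarith
  refine (h.nr0_le ((alt_pb hb A).antip J₀) h1).trans (le_of_eq ?_)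
  ring

theorem leak_aux2 (h : Near B t J₀ J₁ F₀ F₁ A) {b : Bil} (hb : Alt b)
    (hi : ∀ u v, b (J₁ u) (J₁ v) = - b u v) :
    nr J₀ F₀ (invp J₀ (pb b A)) ≤ 3 * B ^ 6 * t * nr J₁ F₁ b := by
  have hB := h.B_pos.le
  have ht := h.t_nonneg
  have h0 : 0 ≤ nr J₁ F₁ b := Real.sqrt_nonneg _
  have h1 : ‖invp J₀ (pb b A)‖ ≤ 3 * B ^ 4 * t * (B * nr J₁ F₁ b) := by
    refine bil_bound (by positivity) (fun u v => ?_)
    have h5 : b (A u) (A v) = - b (J₁ (A u)) (J₁ (A v)) := by rw [hi, neg_neg]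
    rw [invp_apply, pb_apply, pb_apply, h5, abs_div, abs_two]
    have h2 := h.XY_bound b u v
    have h3 := h.c1.low b hb
    have h4 : 6 * B ^ 4 * t * ‖b‖ * ‖u‖ * ‖v‖ ≤ 6 * B ^ 4 * t * (B * nr J₁ F₁ b) * ‖u‖ * ‖v‖ := by
      gcongr
    rw [div_le_iff₀ (by norm_num)]
    have h6 : |-b (J₁ (A u)) (J₁ (A v)) + b (A (J₀ u)) (A (J₀ v))| =
        |b (J₁ (A u)) (J₁ (A v)) - b (A (J₀ u)) (A (J₀ v))| := by
      rw [← abs_neg]; congr 1; ring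
    rw [h6]
    linarith
  refine (h.nr0_le ((alt_pb hb A).invp J₀) h1).trans (le_of_eq ?_)
  ring

/-- leak of invariant forms -/
theorem leak1 (h : Near B t J₀ J₁ F₀ F₁ A) {b : Bil} (hb : Alt b) :
    nr J₀ F₀ (antip J₀ (pb (invp J₁ b) A)) ≤ 3 * B ^ 6 * t * nr J₁ F₁ b := by
  have hB := h.B_pos.le
  have ht := h.t_nonneg
  refine (h.leak_aux1 (hb.invp J₁) (invp_inv h.c1.sq b)).trans ?_
  exact mul_le_mul_of_nonneg_left (nr_invp_le h.c1.sq h.c1.spos hb) (by positivity)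

/-- leak of anti-invariant forms -/
theorem leak2 (h : Near B t J₀ J₁ F₀ F₁ A) {b : Bil} (hb : Alt b) :
    nr J₀ F₀ (invp J₀ (pb (antip J₁ b) A)) ≤ 3 * B ^ 6 * t * nr J₁ F₁ b := by
  have hB := h.B_pos.le
  have ht := h.t_nonneg
  refine (h.leak_aux2 (hb.antip J₁) (antip_anti h.c1.sq b)).trans ?_
  exact mul_le_mul_of_nonneg_left (nr_antip_le h.c1.sq h.c1.spos hb) (by positivity)

/-- Cauchy-Schwarz for a semi-positive form -/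
theorem pos_cs {J : E4 →L[ℝ] E4} {P : Bil} (hJ : ∀ v, J (J v) = -v) (hP : Pos J P) (w k : E4) :
    - (P k (J k)) / 4 ≤ P w (J w + k) := by
  -- `P(w, k) = - P(w, J (J k)) = - h(w, J k)`, `h(u,v) = P(u, J v)`
  have e1 : P w (J w + k) = P w (J w) + P w k := by rw [map_add]
  -- use `0 ≤ h(x,x)` for `x = w - (1/2) J k`
  have h0 := hP.nonneg (w - (1/2 : ℝ) • J k)
  have e2 : P (w - (1/2 : ℝ) • J k) (J (w - (1/2 : ℝ) • J k)) =
      P w (J w) + (1/2 : ℝ) * P w k - (1/2 : ℝ) * P (J k) (J w) + - (1/4 : ℝ) * P (J k) k := by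
    rw [map_sub J, map_smul J, hJ]
    simp only [map_sub, map_smul, ContinuousLinearMap.sub_apply, ContinuousLinearMap.smul_apply,
      smul_eq_mul, map_neg]
    ring
  have e3 : P (J k) (J w) = - P w k := by rw [hP.inv, hP.alt.swap]
  have e4 : P (J k) k = - P k (J k) := hP.alt.swap _ _
  rw [e2, e3, e4] at h0
  rw [e1]
  linarith

/-- positivity up to second order -/
theorem pos (h : Near B t J₀ J₁ F₀ F₁ A) {P : Bil} (hP : Pos J₁ P) (v : E4) :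
    - (3 * B ^ 7 * t ^ 2 * nr J₁ F₁ P) * F₀ v (J₀ v) ≤ pb P A v (J₀ v) := by
  have hB := h.B_pos.le
  have ht := h.t_nonneg
  have h0 : 0 ≤ nr J₁ F₁ P := Real.sqrt_nonneg _
  set k : E4 := A (J₀ v) - J₁ (A v) with hk
  have hk1 : ‖k‖ ≤ 3 * B ^ 2 * t * ‖v‖ := by
    have h1 := (J₁.comp A - A.comp J₀).le_opNorm v
    have h2 : ‖k‖ = ‖(J₁.comp A - A.comp J₀) v‖ := by
      rw [hk, ← norm_neg]
      congr 1
      simp
    rw [h2]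
    exact h1.trans (mul_le_mul_of_nonneg_right h.dXY (norm_nonneg _))
  have h1 := pos_cs h.c1.sq hP (A v) k
  have e1 : J₁ (A v) + k = A (J₀ v) := by rw [hk]; abel
  rw [e1] at h1
  rw [pb_apply]
  refine le_trans ?_ h1
  have h2 : P k (J₁ k) ≤ ‖P‖ * ‖k‖ * (B * ‖k‖) := by
    refine (le_abs_self _).trans ((bil_le P k (J₁ k)).trans ?_)
    have h3 : ‖J₁ k‖ ≤ B * ‖k‖ := (J₁.le_opNorm k).trans
      (mul_le_mul_of_nonneg_right h.c1.nJ (norm_nonneg _))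
    gcongr
  have h3 : ‖P‖ * ‖k‖ * (B * ‖k‖) ≤ (B * nr J₁ F₁ P) * (3 * B ^ 2 * t * ‖v‖) *
      (B * (3 * B ^ 2 * t * ‖v‖)) := by
    have h4 := h.c1.low P hP.alt
    gcongr
  have h5 := h.c0.ell v
  have h6 : (B * nr J₁ F₁ P) * (3 * B ^ 2 * t * ‖v‖) * (B * (3 * B ^ 2 * t * ‖v‖)) =
      (9 * B ^ 6 * t ^ 2 * nr J₁ F₁ P) * ‖v‖ ^ 2 := by ring
  have h7 : (9 * B ^ 6 * t ^ 2 * nr J₁ F₁ P) * ‖v‖ ^ 2 ≤
      (9 * B ^ 6 * t ^ 2 * nr J₁ F₁ P) * (B * F₀ v (J₀ v)) :=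
    mul_le_mul_of_nonneg_left h5 (by positivity)
  have h8 : 0 ≤ F₀ v (J₀ v) := by
    have := h.B_pos
    by_contra hneg
    push Not at hneg
    have h9 : B * F₀ v (J₀ v) < 0 := mul_neg_of_pos_of_neg this hneg
    have := sq_nonneg ‖v‖
    linarith
  have h9 : 0 ≤ B ^ 7 * t ^ 2 * nr J₁ F₁ P * F₀ v (J₀ v) := by positivity
  have h10 : (9 * B ^ 6 * t ^ 2 * nr J₁ F₁ P) * (B * F₀ v (J₀ v)) =
    9 * (B ^ 7 * t ^ 2 * nr J₁ F₁ P * F₀ v (J₀ v)) := by ring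
  have h11 : (3 * B ^ 7 * t ^ 2 * nr J₁ F₁ P) * F₀ v (J₀ v) =
    3 * (B ^ 7 * t ^ 2 * nr J₁ F₁ P * F₀ v (J₀ v)) := by ring
  linarith

/-- lower bound of the pull-back of `F`. -/
theorem low (h : Near B t J₀ J₁ F₀ F₁ A) (v : E4) :
    (1 - 3 * B ^ 5 * t) * F₀ v (J₀ v) ≤ pb F₁ A v (J₀ v) := by
  have hB := h.B_pos.le
  have hB1 := h.one_le
  have ht := h.t_nonneg
  have e : F₁ (A v) (A (J₀ v)) - F₀ v (J₀ v) = (F₁ - F₀) (A v) (A (J₀ v))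
      + F₀ ((A - ContinuousLinearMap.id ℝ E4) v) (A (J₀ v))
      + F₀ v ((A - ContinuousLinearMap.id ℝ E4) (J₀ v)) := by
    simp only [ContinuousLinearMap.sub_apply, ContinuousLinearMap.id_apply, map_sub]
    ring
  have hAv : ‖A v‖ ≤ B * ‖v‖ := (A.le_opNorm v).trans
    (mul_le_mul_of_nonneg_right h.nA (norm_nonneg _))
  have hJv : ‖J₀ v‖ ≤ B * ‖v‖ := (J₀.le_opNorm v).trans
    (mul_le_mul_of_nonneg_right h.c0.nJ (norm_nonneg _))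
  have hAJv : ‖A (J₀ v)‖ ≤ B * (B * ‖v‖) := (A.le_opNorm _).trans
    (mul_le_mul h.nA hJv (norm_nonneg _) hB)
  have hd1 : ‖(A - ContinuousLinearMap.id ℝ E4) v‖ ≤ (B * t) * ‖v‖ :=
    ((A - ContinuousLinearMap.id ℝ E4).le_opNorm v).trans
      (mul_le_mul_of_nonneg_right h.dA (norm_nonneg _))
  have hd2 : ‖(A - ContinuousLinearMap.id ℝ E4) (J₀ v)‖ ≤ (B * t) * (B * ‖v‖) :=
    ((A - ContinuousLinearMap.id ℝ E4).le_opNorm _).trans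
      (mul_le_mul h.dA hJv (norm_nonneg _) (by positivity))
  have h1 : |(F₁ - F₀) (A v) (A (J₀ v))| ≤ (B * t) * (B * ‖v‖) * (B * (B * ‖v‖)) := by
    refine (bil_le _ _ _).trans ?_
    have := h.dF
    gcongr
  have h2 : |F₀ ((A - ContinuousLinearMap.id ℝ E4) v) (A (J₀ v))| ≤
      B * ((B * t) * ‖v‖) * (B * (B * ‖v‖)) := by
    refine (bil_le _ _ _).trans ?_
    have := h.c0.nF
    gcongr
  have h3 : |F₀ v ((A - ContinuousLinearMap.id ℝ E4) (J₀ v))| ≤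
      B * ‖v‖ * ((B * t) * (B * ‖v‖)) := by
    refine (bil_le _ _ _).trans ?_
    have := h.c0.nF
    gcongr
  have h4 : B * ‖v‖ * ((B * t) * (B * ‖v‖)) ≤ B ^ 4 * t * ‖v‖ ^ 2 := by
    have h5 : B * ‖v‖ * ((B * t) * (B * ‖v‖)) = B ^ 3 * (t * ‖v‖ ^ 2) := by ring
    have h6 : B ^ 4 * t * ‖v‖ ^ 2 = B ^ 4 * (t * ‖v‖ ^ 2) := by ring
    rw [h5, h6]
    exact mul_le_mul_of_nonneg_right (pow_le_pow_right₀ hB1 (by norm_num)) (by positivity)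
  have h7 : |F₁ (A v) (A (J₀ v)) - F₀ v (J₀ v)| ≤ 3 * B ^ 4 * t * ‖v‖ ^ 2 := by
    rw [e]
    refine (abs_add_le _ _).trans ((add_le_add_left (abs_add_le _ _) _).trans ?_)
    have h8 : (B * t) * (B * ‖v‖) * (B * (B * ‖v‖)) = B ^ 4 * t * ‖v‖ ^ 2 := by ring
    have h9 : B * ((B * t) * ‖v‖) * (B * (B * ‖v‖)) = B ^ 4 * t * ‖v‖ ^ 2 := by ring
    linarith
  have h10 := h.c0.ell v
  have h11 : 3 * B ^ 4 * t * ‖v‖ ^ 2 ≤ 3 * B ^ 4 * t * (B * F₀ v (J₀ v)) :=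
    mul_le_mul_of_nonneg_left h10 (by positivity)
  have h12 := (abs_le.1 h7).1
  have h13 : 3 * B ^ 4 * t * (B * F₀ v (J₀ v)) = 3 * B ^ 5 * t * F₀ v (J₀ v) := by ring
  rw [pb_apply]
  linarith

end Near

end

end Crest.Agent.R240.Q4
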