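import Mathlib
import Crest.Agent.R240.Q1
import Crest.Agent.R240.Ch6
import Crest.Agent.R240.IntPair
import Crest.Agent.R240.XDefs
import Crest.Agent.R240.TopDefs

/-!
Row 240 (S0371), R4a (helper83), file 2: the constants of `Near` on a compact piece of a chart.
-/

set_option autoImplicit false
set_option maxSynthPendingDepth 3
set_option linter.unusedVariables false
set_option maxHeartbeats 400000

open Set Function Filter Metric
open scoped Manifold ContDiff Topology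

namespace Crest.Agent.R240.Q4

open Crest.Agent.R240 Crest.Agent.R240.Ch Crest.Agent.R240.Sm Crest.Agent.R240.En4

noncomputable section

/-! ### general lemmas -/

theorem pos_lower {X : Type*} [TopologicalSpace X] {K : Set X} (hK : IsCompact K) {f : X → ℝ}
    (hf : ContinuousOn f K) (hpos : ∀ x ∈ K, 0 < f x) : ∃ c : ℝ, 0 < c ∧ ∀ x ∈ K, c ≤ f x := by
  rcases K.eq_empty_or_nonempty with h | h
  · exact ⟨1, one_pos, by simp [h]⟩
  · obtain ⟨x, hx, hmin⟩ := hK.exists_isMinOn h hf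
    exact ⟨f x, hpos x hx, fun y hy => hmin hy⟩

/-- mean value inequality in the parameter, uniformly on a compact set. -/
theorem lip_zero {Z E V : Type*} [NormedAddCommGroup Z] [NormedSpace ℝ Z] [FiniteDimensional ℝ Z]
    [NormedAddCommGroup E] [NormedSpace ℝ E]
    [NormedAddCommGroup V] [NormedSpace ℝ V] {Φ : Z × E → V} {r ρ : ℝ} (hρ0 : 0 ≤ ρ) (hρ : ρ < r)
    {U K : Set E} (hU : IsOpen U) (hK : IsCompact K) (hKU : K ⊆ U)
    (hΦ : ContDiffOn ℝ ∞ Φ (ball (0 : Z) r ×ˢ U)) :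
    ∃ C : ℝ, 0 ≤ C ∧ ∀ z ∈ closedBall (0 : Z) ρ, ∀ y ∈ K, ‖Φ (z, y) - Φ (0, y)‖ ≤ C * ‖z‖ := by
  have : ProperSpace Z := FiniteDimensional.proper ℝ Z
  have ho : IsOpen (ball (0 : Z) r ×ˢ U) := isOpen_ball.prod hU
  have h1 : ContDiffOn ℝ ∞ (fun p : Z × E => fderiv ℝ Φ p) (ball 0 r ×ˢ U) :=
    hΦ.fderiv_of_isOpen ho (by simp)
  have hsub : closedBall (0 : Z) ρ ×ˢ K ⊆ ball (0 : Z) r ×ˢ U :=
    prod_mono (closedBall_subset_ball hρ) hKU
  obtain ⟨C, hC⟩ := ((isCompact_closedBall (0 : Z) ρ).prod hK).exists_bound_of_continuousOn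
    (h1.continuousOn.mono hsub)
  refine ⟨max C 0, le_max_right _ _, fun z hz y hy => ?_⟩
  have hz0 : (0 : Z) ∈ closedBall (0 : Z) ρ := mem_closedBall_self hρ0
  have hd : ∀ z ∈ closedBall (0 : Z) ρ, HasFDerivWithinAt (fun z => Φ (z, y))
      ((fderiv ℝ Φ (z, y)).comp (ContinuousLinearMap.inl ℝ Z E)) (closedBall (0 : Z) ρ) z := by
    intro z hz
    have hmem : (z, y) ∈ (ball (0 : Z) r ×ˢ U) := hsub ⟨hz, hy⟩
    have h2 : HasFDerivAt Φ (fderiv ℝ Φ (z, y)) (z, y) :=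
      ((hΦ.contDiffAt (ho.mem_nhds hmem)).differentiableAt (by simp)).hasFDerivAt
    have h3 : HasFDerivAt (fun z : Z => (z, y)) (ContinuousLinearMap.inl ℝ Z E) z :=
      hasFDerivAt_prodMk_left z y
    exact (HasFDerivAt.comp z (g := Φ) h2 h3).hasFDerivWithinAt
  have hb : ∀ z ∈ closedBall (0 : Z) ρ,
      ‖(fderiv ℝ Φ (z, y)).comp (ContinuousLinearMap.inl ℝ Z E)‖ ≤ max C 0 := by
    intro z hz
    refine (ContinuousLinearMap.opNorm_comp_le _ _).trans ?_
    have h4 := hC (z, y) ⟨hz, hy⟩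
    have h5 : ‖ContinuousLinearMap.inl ℝ Z E‖ ≤ 1 :=
      ContinuousLinearMap.opNorm_le_bound _ zero_le_one fun v => by simp
    calc _ ≤ C * 1 := mul_le_mul h4 h5 (norm_nonneg _) ((norm_nonneg _).trans h4)
      _ ≤ max C 0 := by rw [mul_one]; exact le_max_left _ _
  have := (convex_closedBall (0 : Z) ρ).norm_image_sub_le_of_norm_hasFDerivWithin_le hd hb hz0 hz
  simpa using this

/-! ### continuity of `nsq` -/

theorem pull_eq_pb (J : E4 →L[ℝ] E4) (b : Bil) : pull J b = pb b J := by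
  ext u v; rw [pull_apply, pb_apply]

section cont

variable {X : Type*} [TopologicalSpace X] {s : Set X} {J : X → E4 →L[ℝ] E4} {F b c : X → Bil}

theorem continuousOn_pull (hJ : ContinuousOn J s) (hb : ContinuousOn b s) :
    ContinuousOn (fun x => pull (J x) (b x)) s := by
  unfold pull
  have h1 : ContinuousOn (fun y => (ContinuousLinearMap.compL ℝ E4 E4 ℝ).flip (J y)) s :=
    ((ContinuousLinearMap.compL ℝ E4 E4 ℝ).flip.continuous.comp_continuousOn hJ)
  exact h1.clm_comp (hb.clm_comp hJ)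

theorem continuousOn_invp (hJ : ContinuousOn J s) (hb : ContinuousOn b s) :
    ContinuousOn (fun x => invp (J x) (b x)) s :=
  (hb.add (continuousOn_pull hJ hb)).const_smul (1 / 2 : ℝ)

theorem continuousOn_antip (hJ : ContinuousOn J s) (hb : ContinuousOn b s) :
    ContinuousOn (fun x => antip (J x) (b x)) s :=
  (hb.sub (continuousOn_pull hJ hb)).const_smul (1 / 2 : ℝ)

theorem continuousOn_q (hF : ContinuousOn F s) (hF0 : ∀ x ∈ s, W (F x) (F x) ≠ 0)
    (hb : ContinuousOn b s) (hc : ContinuousOn c s) :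
    ContinuousOn (fun x => q (F x) (b x) (c x)) s :=
  (Int.continuousOn_W hb hc).div (Int.continuousOn_W hF hF) hF0

theorem continuousOn_nsq (hJ : ContinuousOn J s) (hF : ContinuousOn F s)
    (hF0 : ∀ x ∈ s, W (F x) (F x) ≠ 0) (hb : ContinuousOn b s) :
    ContinuousOn (fun x => nsq (J x) (F x) (b x)) s := by
  have h1 := continuousOn_q hF hF0 hb hF
  have h2 := continuousOn_q hF hF0 (continuousOn_invp hJ hb) (continuousOn_invp hJ hb)
  have h3 := continuousOn_q hF hF0 (continuousOn_antip hJ hb) (continuousOn_antip hJ hb)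
  exact (((continuousOn_const.mul h1).mul h1).sub h2).add h3

end cont

theorem nsq_smul (J : E4 →L[ℝ] E4) (F : Bil) (r : ℝ) (b : Bil) :
    nsq J F (r • b) = r ^ 2 * nsq J F b := by
  unfold nsq
  rw [ip_smul_left, ip_smul_right]; ring

theorem W_ne_of_spos {J : E4 →L[ℝ] E4} {F : Bil} (hJ : ∀ v, J (J v) = -v) (hF : SPos J F) :
    W F F ≠ 0 := by
  obtain ⟨A, hA⟩ := exists_frame hJ hF
  exact hA.W_ne hF.alt

/-- the unit sphere of alternating forms -/
def SA : Set Bil := {b | Alt b ∧ ‖b‖ = 1}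

theorem isCompact_SA : IsCompact SA := by
  have : ProperSpace Bil := FiniteDimensional.proper ℝ Bil
  have h1 : IsClosed {b : Bil | Alt b} := by
    have : {b : Bil | Alt b} = ⋂ v : E4, {b : Bil | b v v = 0} := by
      ext b; simp [Alt]
    rw [this]
    refine isClosed_iInter fun v => isClosed_eq ?_ continuous_const
    fun_prop
  have h2 : SA = {b : Bil | Alt b} ∩ sphere (0 : Bil) 1 := by
    ext b; simp [SA]
  rw [h2]
  exact (isCompact_sphere (0 : Bil) 1).inter_left h1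

variable {X : Type*} [TopologicalSpace X]

/-- uniform comparison on a compact set. -/
theorem exists_cmp {K : Set X} (hK : IsCompact K) {J : X → E4 →L[ℝ] E4} {F : X → Bil}
    (hJ : ContinuousOn J K) (hF : ContinuousOn F K) (hsq : ∀ x ∈ K, ∀ v, J x (J x v) = -v)
    (hsp : ∀ x ∈ K, SPos (J x) (F x)) : ∃ B : ℝ, 1 ≤ B ∧ ∀ x ∈ K, Cmp B (J x) (F x) := by
  have hJ' : ContinuousOn (fun w : X × Bil => J w.1) (K ×ˢ SA) :=
    hJ.comp continuousOn_fst (fun w hw => hw.1)
  have hF' : ContinuousOn (fun w : X × Bil => F w.1) (K ×ˢ SA) :=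
    hF.comp continuousOn_fst (fun w hw => hw.1)
  have hn : ContinuousOn (fun w : X × Bil => nsq (J w.1) (F w.1) w.2) (K ×ˢ SA) :=
    continuousOn_nsq hJ' hF' (fun w hw => W_ne_of_spos (hsq _ hw.1) (hsp _ hw.1)) continuousOn_snd
  have hc := hK.prod isCompact_SA
  obtain ⟨c, hc0, hlow⟩ := pos_lower hc hn (fun w hw => by
    refine nsq_pos (hsq _ hw.1) (hsp _ hw.1) hw.2.1 ?_
    intro h0
    have := hw.2.2
    rw [h0, norm_zero] at this
    exact zero_ne_one this)
  obtain ⟨C, hC⟩ := hc.exists_bound_of_continuousOn hn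
  obtain ⟨BJ, hBJ⟩ := hK.exists_bound_of_continuousOn hJ
  obtain ⟨BF, hBF⟩ := hK.exists_bound_of_continuousOn hF
  have hJ2 : ContinuousOn (fun w : X × E4 => J w.1) (K ×ˢ sphere (0 : E4) 1) :=
    hJ.comp continuousOn_fst (fun w hw => hw.1)
  have hF2 : ContinuousOn (fun w : X × E4 => F w.1) (K ×ˢ sphere (0 : E4) 1) :=
    hF.comp continuousOn_fst (fun w hw => hw.1)
  have he : ContinuousOn (fun w : X × E4 => F w.1 w.2 (J w.1 w.2)) (K ×ˢ sphere (0 : E4) 1) :=
    (hF2.clm_apply continuousOn_snd).clm_apply (hJ2.clm_apply continuousOn_snd)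
  obtain ⟨d, hd0, hell⟩ := pos_lower (hK.prod (isCompact_sphere (0 : E4) 1)) he (fun w hw => by
    refine (hsp _ hw.1).pos _ ?_
    intro h0
    have := hw.2
    rw [h0] at this
    simp at this)
  set B : ℝ := 1 + |BJ| + |BF| + (√c)⁻¹ + √|C| + d⁻¹ with hB
  have hsc : 0 < √c := Real.sqrt_pos.2 hc0
  have p1 : 0 ≤ |BJ| := abs_nonneg _
  have p2 : 0 ≤ |BF| := abs_nonneg _
  have p3 : 0 ≤ (√c)⁻¹ := by positivity
  have p4 : 0 ≤ √|C| := Real.sqrt_nonneg _
  have p5 : 0 ≤ d⁻¹ := by positivity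
  refine ⟨B, by rw [hB]; linarith, fun x hx => ?_⟩
  have hB0 : 0 ≤ B := by rw [hB]; linarith
  have key : ∀ b : Bil, Alt b → c * ‖b‖ ^ 2 ≤ nsq (J x) (F x) b ∧
      nsq (J x) (F x) b ≤ |C| * ‖b‖ ^ 2 := by
    intro b hb
    rcases eq_or_ne b 0 with h0 | h0
    · subst h0
      have h1 : nsq (J x) (F x) (0 : Bil) = 0 := by
        have := nsq_smul (J x) (F x) 0 0
        rw [bzero_smul] at this
        simpa using this
      rw [h1]
      simp
    · have hn0 : ‖b‖ ≠ 0 := norm_ne_zero_iff.2 h0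
      set b1 : Bil := ‖b‖⁻¹ • b with hb1
      have hb1' : b1 ∈ SA := by
        refine ⟨hb.smul _, ?_⟩
        rw [hb1, norm_smul, norm_inv, norm_norm, inv_mul_cancel₀ hn0]
      have e : b = ‖b‖ • b1 := by
        rw [hb1, smul_smul, mul_inv_cancel₀ hn0, one_smul]
      have e2 : nsq (J x) (F x) b = ‖b‖ ^ 2 * nsq (J x) (F x) b1 := by
        conv_lhs => rw [e]
        exact nsq_smul _ _ _ _
      have h1 := hlow (x, b1) ⟨hx, hb1'⟩
      have h2 := hC (x, b1) ⟨hx, hb1'⟩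
      simp only [Real.norm_eq_abs] at h2
      have h3 := (abs_le.1 (h2.trans (le_abs_self C))).2
      rw [e2]
      constructor
      · rw [mul_comm c]
        exact mul_le_mul_of_nonneg_left h1 (by positivity)
      · rw [mul_comm |C|]
        exact mul_le_mul_of_nonneg_left h3 (by positivity)
  refine ⟨hsq x hx, hsp x hx, ?_, ?_, ?_, ?_, ?_⟩
  · have := hBJ x hx
    have := le_abs_self BJ
    rw [hB]; linarith
  · have := hBF x hx
    have := le_abs_self BF
    rw [hB]; linarith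
  · intro b hb
    have h1 := (key b hb).1
    have h2 : √c * ‖b‖ ≤ nr (J x) (F x) b := by
      unfold nr
      apply Real.le_sqrt_of_sq_le
      rw [mul_pow, Real.sq_sqrt hc0.le]
      exact h1
    have h3 : ‖b‖ ≤ (√c)⁻¹ * nr (J x) (F x) b := by
      rw [← div_eq_inv_mul, le_div_iff₀ hsc]
      linarith
    refine h3.trans (mul_le_mul_of_nonneg_right ?_ (Real.sqrt_nonneg _))
    rw [hB]; linarith
  · intro b hb
    have h1 := (key b hb).2
    have h2 : nr (J x) (F x) b ≤ √|C| * ‖b‖ := by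
      unfold nr
      rw [← Real.sqrt_sq (norm_nonneg b), ← Real.sqrt_mul (abs_nonneg C)]
      exact Real.sqrt_le_sqrt h1
    refine h2.trans (mul_le_mul_of_nonneg_right ?_ (norm_nonneg _))
    rw [hB]; linarith
  · intro v
    rcases eq_or_ne v 0 with h0 | h0
    · subst h0
      simp
    · have hn0 : ‖v‖ ≠ 0 := norm_ne_zero_iff.2 h0
      have hv1 : ‖v‖⁻¹ • v ∈ sphere (0 : E4) 1 := by
        rw [mem_sphere_zero_iff_norm, norm_smul, norm_inv, norm_norm, inv_mul_cancel₀ hn0]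
      have h1 : d ≤ F x (‖v‖⁻¹ • v) (J x (‖v‖⁻¹ • v)) := hell (x, ‖v‖⁻¹ • v) ⟨hx, hv1⟩
      have e : F x (‖v‖⁻¹ • v) (J x (‖v‖⁻¹ • v)) = ‖v‖⁻¹ ^ 2 * F x v (J x v) := by
        rw [map_smul (J x), map_smul (F x), map_smul]
        simp only [ContinuousLinearMap.smul_apply, smul_eq_mul]
        ring
      rw [e] at h1
      have h2 : ‖v‖ ^ 2 * d ≤ F x v (J x v) := by
        have h3 := mul_le_mul_of_nonneg_left h1 (sq_nonneg ‖v‖)
        have h4 : ‖v‖ ^ 2 * (‖v‖⁻¹ ^ 2 * F x v (J x v)) = F x v (J x v) := by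
          field_simp
        linarith
      have h3 : ‖v‖ ^ 2 ≤ d⁻¹ * F x v (J x v) := by
        rw [← div_eq_inv_mul, le_div_iff₀ hd0]
        exact h2
      have h4 : 0 ≤ F x v (J x v) := (by positivity : 0 ≤ ‖v‖ ^ 2 * d).trans h2
      refine h3.trans (mul_le_mul_of_nonneg_right ?_ h4)
      rw [hB]; linarith


theorem Cmp.mono {B B' : ℝ} (hB : B ≤ B') {J : E4 →L[ℝ] E4} {F : Bil} (h : Cmp B J F) :
    Cmp B' J F where
  sq := h.sq
  spos := h.spos
  nJ := h.nJ.trans hB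
  nF := h.nF.trans hB
  low b hb := (h.low b hb).trans (mul_le_mul_of_nonneg_right hB (Real.sqrt_nonneg _))
  up b hb := (h.up b hb).trans (mul_le_mul_of_nonneg_right hB (norm_nonneg _))
  ell v := by
    refine (h.ell v).trans (mul_le_mul_of_nonneg_right hB ?_)
    rcases eq_or_ne v 0 with h0 | h0
    · subst h0; simp
    · exact (h.spos.pos v h0).le

/-! ### in a chart -/

section man

variable {M : Type*} [TopologicalSpace M] [ChartedSpace E4 M] [IsManifold 𝓘(ℝ, E4) ∞ M]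
variable {p : M}

theorem rJ_sq {J : EndF E4 M} (hJ2 : ∀ x v, atJ J x (atJ J x v) = -v) {y : E4}
    (hy : y ∈ (chartAt E4 p).target) (v : E4) : repJ p J y (repJ p J y v) = -v := by
  rw [repJ_apply, repJ_apply, tcc_cancel' (symm_mem hy), hJ2, map_neg, tcc_cancel (symm_mem hy)]

theorem r_spos {J : EndF E4 M} {F : F2 E4 M} (hF : SPosG J F) {y : E4}
    (hy : y ∈ (chartAt E4 p).target) : SPos (repJ p J y) (rep p F y) := by
  have h := hF ((chartAt E4 p).symm y)
  refine ⟨fun v => ?_, fun u v => ?_, fun v hv => ?_⟩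
  · rw [rep_apply]; exact h.alt _
  · rw [rep_apply, repJ_apply, repJ_apply, tcc_cancel' (symm_mem hy), tcc_cancel' (symm_mem hy),
      h.inv, rep_apply]
  · rw [rep_apply, repJ_apply, tcc_cancel' (symm_mem hy)]
    exact h.pos _ (tcc_ne_zero hy hv)

/-- **the constant of a chart family.** -/
theorem exists_near {J : EndF E4 M} {F : F2 E4 M} (hJ : SmoothJ J) (hF : Smooth2 F)
    (hsq : ∀ x v, atJ J x (atJ J x v) = -v) (hsp : SPosG J F)
    (G : Fam E4) (hG : G.K ⊆ (chartAt E4 p).target) {ρ : ℝ} (hρ0 : 0 ≤ ρ) (hρ : ρ < G.r) :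
    ∃ B : ℝ, 1 ≤ B ∧ ∀ z ∈ closedBall (0 : E4) ρ, ∀ y ∈ G.K,
      Near B ‖z‖ (repJ p J y) (repJ p J (G.g z y)) (rep p F y) (rep p F (G.g z y)) (G.dg z y) := by
  have hJc : ContinuousOn (repJ p J) G.K := ((hJ p).continuousOn).mono hG
  have hFc : ContinuousOn (rep p F) G.K := ((hF.2 p).continuousOn).mono hG
  obtain ⟨B₁, hB₁, h1⟩ := exists_cmp G.isCompact hJc hFc (fun y hy => rJ_sq hsq (hG hy))
    (fun y hy => r_spos hsp (hG hy))
  obtain ⟨Cg, hCg0, hCg⟩ := lip_zero (Φ := fun w : E4 × E4 => G.g w.1 w.2) hρ0 hρ isOpen_univ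
    G.isCompact (subset_univ _) G.smooth
  obtain ⟨Cd, hCd0, hCd⟩ := lip_zero (Φ := fun w : E4 × E4 => G.dg w.1 w.2) hρ0 hρ isOpen_univ
    G.isCompact (subset_univ _) G.contDiffOn_dg
  obtain ⟨LJ, hLJ0, hLJ⟩ := lip_repJ hJ p G.isCompact hG
  obtain ⟨LF, hLF0, hLF⟩ := lip_rep hF p G.isCompact hG
  set B : ℝ := B₁ + (1 + Cd * ρ) + LJ * Cg + LF * Cg + Cd with hB
  have q1 : 0 ≤ Cd * ρ := by positivity
  have q2 : 0 ≤ LJ * Cg := by positivity
  have q3 : 0 ≤ LF * Cg := by positivity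
  have hB1 : B₁ ≤ B := by rw [hB]; linarith
  refine ⟨B, by linarith, fun z hz y hy => ?_⟩
  have hzρ : ‖z‖ ≤ ρ := by simpa using hz
  have hzr : z ∈ ball (0 : E4) G.r := closedBall_subset_ball hρ hz
  have hz0 : (0 : E4) ∈ ball (0 : E4) G.r := mem_ball_self G.r_pos
  have hgy : G.g z y ∈ G.K := G.mem_K hzr hy
  have hd0 : G.dg 0 y = ContinuousLinearMap.id ℝ E4 := by
    have h2 : G.g 0 = id := funext G.g_zero
    rw [Fam.dg, h2, fderiv_id]
  have hdg : ‖G.dg z y - ContinuousLinearMap.id ℝ E4‖ ≤ Cd * ‖z‖ := by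
    have := hCd z hz y hy
    simp only [hd0] at this
    exact this
  have hgg : ‖G.g z y - y‖ ≤ Cg * ‖z‖ := by
    have := hCg z hz y hy
    simp only [G.g_zero] at this
    exact this
  refine ⟨by linarith, norm_nonneg _, (h1 y hy).mono hB1, (h1 _ hgy).mono hB1, ?_, ?_, ?_, ?_⟩
  · have e : G.dg z y = (G.dg z y - ContinuousLinearMap.id ℝ E4) + ContinuousLinearMap.id ℝ E4 := by
      abel
    rw [e]
    refine (norm_add_le _ _).trans ?_
    have h3 : ‖ContinuousLinearMap.id ℝ E4‖ ≤ 1 := ContinuousLinearMap.norm_id_le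
    have h4 : Cd * ‖z‖ ≤ Cd * ρ := mul_le_mul_of_nonneg_left hzρ hCd0
    rw [hB]; linarith
  · have h3 := hLJ (G.g z y) hgy y hy
    have h4 : LJ * ‖G.g z y - y‖ ≤ LJ * (Cg * ‖z‖) := mul_le_mul_of_nonneg_left hgg hLJ0
    have h5 : LJ * (Cg * ‖z‖) = (LJ * Cg) * ‖z‖ := by ring
    refine (h3.trans h4).trans ?_
    rw [h5]
    exact mul_le_mul_of_nonneg_right (by rw [hB]; linarith) (norm_nonneg _)
  · have h3 := hLF (G.g z y) hgy y hy
    have h4 : LF * ‖G.g z y - y‖ ≤ LF * (Cg * ‖z‖) := mul_le_mul_of_nonneg_left hgg hLF0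
    have h5 : LF * (Cg * ‖z‖) = (LF * Cg) * ‖z‖ := by ring
    refine (h3.trans h4).trans ?_
    rw [h5]
    exact mul_le_mul_of_nonneg_right (by rw [hB]; linarith) (norm_nonneg _)
  · refine hdg.trans (mul_le_mul_of_nonneg_right (by rw [hB]; linarith) (norm_nonneg _))

end man

end

end Crest.Agent.R240.Q4
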