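import Crest.Agent.R240.IfaceR
import Crest.Agent.R240.En4G

/-!
Row 240 (S0371), N8 (smoothing), COMPOSITION LAYER (helper822): the pointwise fields
`bd, pos, leak1, leak2, low` of `SmPack` are stable under composition of operators.

* `AvgF a`: the averaging operators on functions (fields `a_smooth, a_nonneg, a_one, a_add, a_smul`);
* `Good D e C A a`: fields `bd, pos, leak1, leak2` with constant `C` at the scale `e`;
* `Low D e C A a`: field `low`.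

`AvgF.comp`, `Good.comp`, `Low.comp`, the identity, and the versions for lists.
-/

set_option autoImplicit false
set_option maxSynthPendingDepth 3

open Set Function Filter MeasureTheory
open scoped Manifold ContDiff Topology ENNReal

namespace Crest.Agent.R240.Comp

open Crest.Agent.R240 Crest.Agent.R240.Ch Crest.Agent.R240.En4

noncomputable section

/-! ### functions -/

section Fun

variable {M : Type*} [TopologicalSpace M] [ChartedSpace E4 M]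

/-- the function part of the smoothing package. -/
structure AvgF (a : (M → ℝ) → M → ℝ) : Prop where
  smooth : ∀ f, SmoothF E4 f → SmoothF E4 (a f)
  nonneg : ∀ f, SmoothF E4 f → (∀ x, 0 ≤ f x) → ∀ x, 0 ≤ a f x
  one : ∀ x, a (fun _ => 1) x = 1
  add : ∀ f g, SmoothF E4 f → SmoothF E4 g → ∀ x, a (fun y => f y + g y) x = a f x + a g x
  smul : ∀ (r : ℝ) f, SmoothF E4 f → ∀ x, a (fun y => r * f y) x = r * a f x

theorem AvgF.id : AvgF (M := M) (fun f => f) where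
  smooth _ h := h
  nonneg _ _ h := h
  one _ := rfl
  add _ _ _ _ _ := rfl
  smul _ _ _ _ := rfl

theorem AvgF.mono {a : (M → ℝ) → M → ℝ} (ha : AvgF a) {f g : M → ℝ} (hf : SmoothF E4 f)
    (hg : SmoothF E4 g) (h : ∀ x, f x ≤ g x) (x : M) : a f x ≤ a g x := by
  have h1 : SmoothF E4 (fun y => g y - f y) := sF_sub hg hf
  have h2 := ha.nonneg _ h1 (fun y => sub_nonneg.2 (h y)) x
  have h3 := ha.add f (fun y => g y - f y) hf h1 x
  have h4 : (fun y => f y + (g y - f y)) = g := by funext y; ring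
  rw [h4] at h3
  linarith

theorem AvgF.comp {a₁ a₂ : (M → ℝ) → M → ℝ} (h₂ : AvgF a₂) (h₁ : AvgF a₁) :
    AvgF (fun f => a₂ (a₁ f)) where
  smooth f hf := h₂.smooth _ (h₁.smooth f hf)
  nonneg f hf h0 := h₂.nonneg _ (h₁.smooth f hf) (h₁.nonneg f hf h0)
  one x := by
    have h : a₁ (fun _ => 1) = fun _ => 1 := funext h₁.one
    show a₂ (a₁ (fun _ => 1)) x = 1
    rw [h, h₂.one]
  add f g hf hg x := by
    have h : a₁ (fun y => f y + g y) = fun y => a₁ f y + a₁ g y := funext (h₁.add f g hf hg)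
    show a₂ (a₁ (fun y => f y + g y)) x = _
    rw [h, h₂.add _ _ (h₁.smooth f hf) (h₁.smooth g hg)]
  smul r f hf x := by
    have h : a₁ (fun y => r * f y) = fun y => r * a₁ f y := funext (h₁.smul r f hf)
    show a₂ (a₁ (fun y => r * f y)) x = _
    rw [h, h₂.smul r _ (h₁.smooth f hf)]

end Fun

variable {M : Type*} [MetricSpace M] [CompactSpace M] [ChartedSpace E4 M]
    [IsManifold 𝓘(ℝ, E4) ∞ M] [MeasurableSpace M] [BorelSpace M]

/-! ### forms -/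

/-- the fields `bd, pos, leak1, leak2` with constant `C`, scale `e`. -/
structure Good (D : Dat M) (e C : ℝ) (A : X2 M →ₗ[ℝ] X2 M) (a : (M → ℝ) → M → ℝ) : Prop where
  bd : ∀ (b : X2 M) (h : M → ℝ), SmoothF E4 h →
    (∀ x, D.nr (b : F2 E4 M) x ≤ h x) → ∀ x, D.nr (A b : F2 E4 M) x ≤ C * a h x
  pos : ∀ P ∈ D.Pp, ∀ h : M → ℝ, SmoothF E4 h → (∀ x, D.nr (P : F2 E4 M) x ≤ h x) →
    GeF D.J D.F (A P : F2 E4 M) (fun x => - (C * e ^ 2 * a h x))
  leak1 : ∀ (b : X2 M) (h : M → ℝ), SmoothF E4 h → (∀ x, D.nr (b : F2 E4 M) x ≤ h x) →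
    ∀ x, D.nr (D.pi'' (A (D.pi' b)) : F2 E4 M) x ≤ C * e * a h x
  leak2 : ∀ (b : X2 M) (h : M → ℝ), SmoothF E4 h → (∀ x, D.nr (b : F2 E4 M) x ≤ h x) →
    ∀ x, D.nr (D.pi' (A (D.pi'' b)) : F2 E4 M) x ≤ C * e * a h x

/-- the field `low` with constant `C`, scale `e`. -/
def Low (D : Dat M) (e C : ℝ) (A : X2 M →ₗ[ℝ] X2 M) (a : (M → ℝ) → M → ℝ) : Prop :=
  ∀ f : M → ℝ, SmoothF E4 f → (∀ x, 0 ≤ f x) → ∀ b : X2 M, (b : F2 E4 M) = fmul f D.F →
    GeF D.J D.F (A b : F2 E4 M) (fun x => (1 - C * e) * a f x)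

/-! ### pointwise lemmas -/

section Pt

theorem pneg_nr_le {J : E4 →L[ℝ] E4} {F b : Bil} (hJ : ∀ v, J (J v) = -v) (hF : SPos J F)
    (hb : Alt b) (v : E4) : - (2 * R240.nr J F b) * F v (J v) ≤ b v (J v) := by
  have hn0 : 0 ≤ nsq J F b := En4.nsq_nonneg hJ hF hb
  have hnr : R240.nr J F b ^ 2 = nsq J F b := Real.sq_sqrt hn0
  have hnr0 : 0 ≤ R240.nr J F b := Real.sqrt_nonneg _
  set n := R240.nr J F b with hn
  have ha : q F (invp J b) F = q F b F := En4.q_F_invp hJ hF hb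
  have hcs : q F b F ^ 2 ≤ n ^ 2 := by
    have := En4.q_cs hJ hF hb hF.alt
    rw [En4.nsq_F hJ hF, mul_one] at this
    rw [hnr]; exact this
  have habs : |q F b F| ≤ n := abs_le_of_sq_le_sq hcs hnr0
  have hsplit : nsq J F b = nsq J F (invp J b) + nsq J F (antip J b) := En4.nsq_split hJ hF hb
  have hanti0 : 0 ≤ nsq J F (antip J b) := En4.nsq_nonneg hJ hF (Alt.antip hb J)
  have hprim : nsq J F (prim J F b) ≤ (q F b F + 2 * n) ^ 2 := by
    have h1 : nsq J F (prim J F b) = nsq J F (invp J b) - q F b F ^ 2 := by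
      rw [nsq_prim hJ hF hb]
      have h2 : prim J F b = invp J b - (q F b F) • F := rfl
      rw [h2, q_sub_left, q_sub_right, q_sub_right, q_smul_left, q_smul_left, q_smul_right,
        q_smul_right, En4.q_F_F hJ hF, q_comm F F (invp J b), ha,
        En4.nsq_inv hJ hF (invp_inv hJ b), ha]
      ring
    have h3 := (abs_le.1 habs).1
    nlinarith [sq_nonneg (q F b F), sq_nonneg (q F b F + n)]
  have h := pos_of_prim hJ hF hb (g := 2 * n) (by linarith [(abs_le.1 habs).1]) hprim v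
  linarith

end Pt

variable {D : Dat M}

theorem nr_add_le (b c : X2 M) (x : M) :
    D.nr ((b + c : X2 M) : F2 E4 M) x ≤ D.nr (b : F2 E4 M) x + D.nr (c : F2 E4 M) x := by
  have hJ := D.sq x
  have hF := spos D x
  have hb := alt2 b x
  have hc := alt2 c x
  have hb0 : 0 ≤ nsq (atJ D.J x) (at2 D.F x) (at2 b.1 x) := En4.nsq_nonneg hJ hF hb
  have hc0 : 0 ≤ nsq (atJ D.J x) (at2 D.F x) (at2 c.1 x) := En4.nsq_nonneg hJ hF hc
  have h1 : D.nr (b : F2 E4 M) x ^ 2 = nsq (atJ D.J x) (at2 D.F x) (at2 b.1 x) := Real.sq_sqrt hb0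
  have h2 : D.nr (c : F2 E4 M) x ^ 2 = nsq (atJ D.J x) (at2 D.F x) (at2 c.1 x) := Real.sq_sqrt hc0
  have hbn : 0 ≤ D.nr (b : F2 E4 M) x := Real.sqrt_nonneg _
  have hcn : 0 ≤ D.nr (c : F2 E4 M) x := Real.sqrt_nonneg _
  have h3 := En4.ip_cs hJ hF hb hc
  rw [← h1, ← h2] at h3
  have h4 : ip (atJ D.J x) (at2 D.F x) (at2 b.1 x) (at2 c.1 x) ≤
      D.nr (b : F2 E4 M) x * D.nr (c : F2 E4 M) x := by
    refine le_trans (le_abs_self _) (abs_le_of_sq_le_sq ?_ (mul_nonneg hbn hcn))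
    rw [mul_pow]; exact h3
  refine Real.sqrt_le_iff.2 ⟨add_nonneg hbn hcn, ?_⟩
  have h5 : nsqG D.J D.F ((b + c : X2 M) : F2 E4 M) x =
      nsq (atJ D.J x) (at2 D.F x) (at2 b.1 x) +
      2 * ip (atJ D.J x) (at2 D.F x) (at2 b.1 x) (at2 c.1 x) +
      nsq (atJ D.J x) (at2 D.F x) (at2 c.1 x) := by
    have e : nsqG D.J D.F ((b + c : X2 M) : F2 E4 M) x =
      ip (atJ D.J x) (at2 D.F x) (at2 b.1 x + at2 c.1 x) (at2 b.1 x + at2 c.1 x) := rfl
    rw [e, En4.ip_add_left, En4.ip_add_right, En4.ip_add_right,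
      En4.ip_comm _ _ (at2 c.1 x) (at2 b.1 x)]
    unfold nsq
    ring
  have h6 : nsq (atJ D.J x) (at2 D.F x) (at2 ((b + c : X2 M) : F2 E4 M) x) =
    nsqG D.J D.F ((b + c : X2 M) : F2 E4 M) x := rfl
  rw [h6, h5, ← h1, ← h2]
  nlinarith

theorem nr_smul (r : ℝ) (b : X2 M) (x : M) :
    D.nr ((r • b : X2 M) : F2 E4 M) x = |r| * D.nr (b : F2 E4 M) x := by
  have e : nsqG D.J D.F ((r • b : X2 M) : F2 E4 M) x =
      r ^ 2 * nsqG D.J D.F (b : F2 E4 M) x := by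
    have e : nsqG D.J D.F ((r • b : X2 M) : F2 E4 M) x =
      ip (atJ D.J x) (at2 D.F x) (r • at2 b.1 x) (r • at2 b.1 x) := rfl
    rw [e, En4.ip_smul_left, En4.ip_smul_right]
    have e2 : nsqG D.J D.F b.1 x = ip (atJ D.J x) (at2 D.F x) (at2 b.1 x) (at2 b.1 x) := rfl
    rw [e2]; ring
  have e3 : D.nr ((r • b : X2 M) : F2 E4 M) x = √(nsqG D.J D.F ((r • b : X2 M) : F2 E4 M) x) := rfl
  have e4 : D.nr b.1 x = √(nsqG D.J D.F b.1 x) := rfl
  rw [e3, e4, e, Real.sqrt_mul (sq_nonneg _), Real.sqrt_sq_eq_abs]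

theorem nr_zero (x : M) : D.nr ((0 : X2 M) : F2 E4 M) x = 0 := by
  have h := nr_smul (D := D) (0 : ℝ) (0 : X2 M) x
  rw [zero_smul, abs_zero, zero_mul] at h
  exact h

theorem nr_neg (b : X2 M) (x : M) : D.nr ((-b : X2 M) : F2 E4 M) x = D.nr (b : F2 E4 M) x := by
  have h := nr_smul (D := D) (-1 : ℝ) b x
  rw [neg_one_smul, abs_neg, abs_one, one_mul] at h
  exact h

theorem nr_sub_le (b c : X2 M) (x : M) :
    D.nr ((b - c : X2 M) : F2 E4 M) x ≤ D.nr (b : F2 E4 M) x + D.nr (c : F2 E4 M) x := by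
  rw [sub_eq_add_neg, ← nr_neg c]
  exact nr_add_le b (-c) x

theorem nr_pi'_le (b : X2 M) (x : M) : D.nr (D.pi' b : F2 E4 M) x ≤ D.nr (b : F2 E4 M) x := by
  refine Real.sqrt_le_sqrt ?_
  have h1 := En4.nsq_split (D.sq x) (spos D x) (alt2 b x)
  have h2 := En4.nsq_nonneg (D.sq x) (spos D x) (alt2 (D.pi'' b) x)
  have h3 : nsq (atJ D.J x) (at2 D.F x) (at2 (D.pi'' b).1 x) =
    nsq (atJ D.J x) (at2 D.F x) (antip (atJ D.J x) (at2 b.1 x)) := rfl
  have h4 : nsq (atJ D.J x) (at2 D.F x) (at2 (D.pi' b).1 x) =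
    nsq (atJ D.J x) (at2 D.F x) (invp (atJ D.J x) (at2 b.1 x)) := rfl
  linarith

theorem nr_pi''_le (b : X2 M) (x : M) : D.nr (D.pi'' b : F2 E4 M) x ≤ D.nr (b : F2 E4 M) x := by
  refine Real.sqrt_le_sqrt ?_
  have h1 := En4.nsq_split (D.sq x) (spos D x) (alt2 b x)
  have h2 := En4.nsq_nonneg (D.sq x) (spos D x) (alt2 (D.pi' b) x)
  have h3 : nsq (atJ D.J x) (at2 D.F x) (at2 (D.pi'' b).1 x) =
    nsq (atJ D.J x) (at2 D.F x) (antip (atJ D.J x) (at2 b.1 x)) := rfl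
  have h4 : nsq (atJ D.J x) (at2 D.F x) (at2 (D.pi' b).1 x) =
    nsq (atJ D.J x) (at2 D.F x) (invp (atJ D.J x) (at2 b.1 x)) := rfl
  linarith

theorem nrFX (x : M) : D.nr (D.FX : F2 E4 M) x = 1 := by
  have h : D.nr (D.FX : F2 E4 M) x = √(nsq (atJ D.J x) (at2 D.F x) (at2 D.F x)) := rfl
  rw [h, En4.nsq_F (D.sq x) (spos D x), Real.sqrt_one]

theorem F_nonneg (D : Dat M) (x : M) (v : E4) : 0 ≤ at2 D.F x v (atJ D.J x v) := by
  have h := (FX_mem_Pp D x).nonneg v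
  exact h

theorem geF_add {b c : X2 M} {h k : M → ℝ} (hb : GeF D.J D.F (b : F2 E4 M) h)
    (hc : GeF D.J D.F (c : F2 E4 M) k) :
    GeF D.J D.F ((b + c : X2 M) : F2 E4 M) (fun x => h x + k x) := by
  intro x v
  have h1 := hb x v
  have h2 := hc x v
  have h3 : at2 ((b + c : X2 M) : F2 E4 M) x v (atJ D.J x v) =
    at2 b.1 x v (atJ D.J x v) + at2 c.1 x v (atJ D.J x v) := rfl
  rw [h3]; linarith

theorem geF_smul {b : X2 M} {h : M → ℝ} {r : ℝ} (hr : 0 ≤ r)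
    (hb : GeF D.J D.F (b : F2 E4 M) h) :
    GeF D.J D.F ((r • b : X2 M) : F2 E4 M) (fun x => r * h x) := by
  intro x v
  have h1 := hb x v
  have h3 : at2 ((r • b : X2 M) : F2 E4 M) x v (atJ D.J x v) =
    r * at2 b.1 x v (atJ D.J x v) := rfl
  rw [h3]
  calc r * h x * at2 D.F x v (atJ D.J x v) = r * (h x * at2 D.F x v (atJ D.J x v)) := by ring
    _ ≤ _ := mul_le_mul_of_nonneg_left h1 hr

theorem geF_mono {b : X2 M} {h k : M → ℝ} (hb : GeF D.J D.F (b : F2 E4 M) h)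
    (hk : ∀ x, k x ≤ h x) : GeF D.J D.F (b : F2 E4 M) k := by
  intro x v
  exact (mul_le_mul_of_nonneg_right (hk x) (F_nonneg D x v)).trans (hb x v)

theorem geF_of_nr {b : X2 M} {u : M → ℝ} (hu : ∀ x, D.nr (b : F2 E4 M) x ≤ u x) :
    GeF D.J D.F (b : F2 E4 M) (fun x => - (2 * u x)) := by
  intro x v
  have h1 := pneg_nr_le (D.sq x) (spos D x) (alt2 b x) v
  have h2 := mul_le_mul_of_nonneg_right (hu x) (F_nonneg D x v)
  have h3 : D.nr (b : F2 E4 M) x = R240.nr (atJ D.J x) (at2 D.F x) (at2 b.1 x) := rfl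
  rw [h3] at h2
  have h4 : - (2 * u x) * at2 D.F x v (atJ D.J x v) ≤
      - (2 * R240.nr (atJ D.J x) (at2 D.F x) (at2 b.1 x)) * at2 D.F x v (atJ D.J x v) := by
    nlinarith
  exact h4.trans h1

/-- only the invariant part matters. -/
theorem geF_pi' {b : X2 M} {h : M → ℝ} :
    GeF D.J D.F (D.pi' b : F2 E4 M) h ↔ GeF D.J D.F (b : F2 E4 M) h := by
  have h3 : ∀ x v, at2 (D.pi' b).1 x v (atJ D.J x v) = at2 b.1 x v (atJ D.J x v) :=
    fun x v => invp_diag (D.sq x) (alt2 b x) v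
  constructor
  · intro hb x v
    have := hb x v
    rw [h3] at this
    exact this
  · intro hb x v
    rw [h3]
    exact hb x v

/-- `X ≥ -g F` gives `X' + g F ≥ 0`. -/
theorem mem_Pp_of_geF {X : X2 M} {g : M → ℝ} (hg : SmoothF E4 g)
    (h : GeF D.J D.F (X : F2 E4 M) (fun x => - g x)) : D.pi' X + fX g hg D.FX ∈ D.Pp := by
  refine mem_Pp D (fun x u v => ?_) (fun x v => ?_)
  · have h1 : ∀ a b, at2 (D.pi' X + fX g hg D.FX).1 x a b =
      invp (atJ D.J x) (at2 X.1 x) a b + g x * at2 D.F x a b := fun a b => rfl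
    rw [h1, h1, invp_inv (D.sq x), (spos D x).inv]
  · have h1 : at2 (D.pi' X + fX g hg D.FX).1 x v (atJ D.J x v) =
      invp (atJ D.J x) (at2 X.1 x) v (atJ D.J x v) + g x * at2 D.F x v (atJ D.J x v) := rfl
    rw [h1, invp_diag (D.sq x) (alt2 X x)]
    have := h x v
    linarith

theorem fX_FX (f : M → ℝ) (hf : SmoothF E4 f) : (fX f hf D.FX : F2 E4 M) = fmul f D.F := rfl

theorem pi'_fX (f : M → ℝ) (hf : SmoothF E4 f) : D.pi' (fX f hf D.FX) = fX f hf D.FX := by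
  apply ext_at2
  intro x
  apply invp_of_inv
  intro u v
  have h : ∀ a b, at2 (fX f hf D.FX).1 x a b = f x * at2 D.F x a b := fun a b => rfl
  rw [h, h, (spos D x).inv]

theorem pi''_fX (f : M → ℝ) (hf : SmoothF E4 f) : D.pi'' (fX f hf D.FX) = 0 := by
  rw [← pi'_fX f hf, pi''_pi']

theorem nr_fX_FX {f : M → ℝ} (hf : SmoothF E4 f) (h0 : ∀ x, 0 ≤ f x) (x : M) :
    D.nr (fX f hf D.FX).1 x = f x := by
  rw [nr_fX D hf h0, nrFX, mul_one]

/-! ### the core estimate -/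

variable {e C : ℝ} {A : X2 M →ₗ[ℝ] X2 M} {a : (M → ℝ) → M → ℝ}

theorem Good.mono (h : Good D e C A a) (ha : AvgF a) {C' : ℝ} (he : 0 ≤ e) (hC : C ≤ C') :
    Good D e C' A a := by
  have h0 : ∀ (b : X2 M) (k : M → ℝ), SmoothF E4 k → (∀ x, D.nr (b : F2 E4 M) x ≤ k x) →
      ∀ x, 0 ≤ a k x := fun b k hk hb x =>
    ha.nonneg k hk (fun y => (nr_nonneg D b.1 y).trans (hb y)) x
  refine ⟨fun b k hk hb x => ?_, fun P hP k hk hb => ?_, fun b k hk hb x => ?_,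
    fun b k hk hb x => ?_⟩
  · exact (h.bd b k hk hb x).trans (mul_le_mul_of_nonneg_right hC (h0 b k hk hb x))
  · refine geF_mono (h.pos P hP k hk hb) (fun x => ?_)
    have h1 := h0 P k hk hb x
    have h2 : C * e ^ 2 * a k x ≤ C' * e ^ 2 * a k x := by gcongr
    linarith
  · exact (h.leak1 b k hk hb x).trans (by have := h0 b k hk hb x; gcongr)
  · exact (h.leak2 b k hk hb x).trans (by have := h0 b k hk hb x; gcongr)

theorem Low.mono (h : Low D e C A a) (ha : AvgF a) {C' : ℝ} (he : 0 ≤ e) (hC : C ≤ C') :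
    Low D e C' A a := by
  intro f hf hf0 b hb
  refine geF_mono (h f hf hf0 b hb) (fun x => ?_)
  have h1 := ha.nonneg f hf hf0 x
  have h2 : 1 - C' * e ≤ 1 - C * e := by nlinarith
  exact mul_le_mul_of_nonneg_right h2 h1

/-- the core estimate: `X ≥ -gF`, `|X| ≤ u`, `|X''| ≤ k`. -/
theorem Good.core (h : Good D e C A a) (ha : AvgF a) {X : X2 M} {u g k : M → ℝ}
    (hu : SmoothF E4 u) (hg : SmoothF E4 g) (hk : SmoothF E4 k) (hg0 : ∀ x, 0 ≤ g x)
    (hXu : ∀ x, D.nr (X : F2 E4 M) x ≤ u x)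
    (hX : GeF D.J D.F (X : F2 E4 M) (fun x => - g x))
    (hXk : ∀ x, D.nr (D.pi'' X : F2 E4 M) x ≤ k x) :
    GeF D.J D.F (A X : F2 E4 M) (fun x => - (C * e ^ 2 * (a u x + a g x) + 2 * C * a g x +
      2 * (C * e * a k x))) := by
  set Q : X2 M := D.pi' X + fX g hg D.FX with hQ
  have hQP : Q ∈ D.Pp := mem_Pp_of_geF hg hX
  have hsum : A X = A Q + (- A (fX g hg D.FX) + A (D.pi'' X)) := by
    have h1 : X = Q + (- fX g hg D.FX + D.pi'' X) := by
      conv_lhs => rw [← pi_add D X]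
      rw [hQ]; abel
    conv_lhs => rw [h1]
    rw [map_add A Q, map_add A (- fX g hg D.FX), map_neg]
  have hug : SmoothF E4 (fun y => u y + g y) := sF_add hu hg
  have hQn : ∀ x, D.nr (Q : F2 E4 M) x ≤ u x + g x := by
    intro x
    refine (nr_add_le _ _ x).trans ?_
    rw [nr_fX_FX hg hg0]
    exact add_le_add ((nr_pi'_le X x).trans (hXu x)) le_rfl
  have e1 : GeF D.J D.F (A Q : F2 E4 M) (fun x => - (C * e ^ 2 * (a u x + a g x))) := by
    refine geF_mono (h.pos Q hQP _ hug hQn) (fun x => ?_)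
    rw [ha.add u g hu hg]
  have e2 : GeF D.J D.F ((- A (fX g hg D.FX) : X2 M) : F2 E4 M) (fun x => - (2 * (C * a g x))) := by
    refine geF_of_nr (fun x => ?_)
    rw [nr_neg]
    exact h.bd _ g hg (fun y => (nr_fX_FX hg hg0 y).le) x
  have e3 : GeF D.J D.F (A (D.pi'' X) : F2 E4 M) (fun x => - (2 * (C * e * a k x))) := by
    rw [← geF_pi']
    refine geF_of_nr (fun x => ?_)
    have h1 := h.leak2 (D.pi'' X) k hk hXk x
    rw [pi''_pi''] at h1
    exact h1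
  rw [hsum]
  refine geF_mono (geF_add e1 (geF_add e2 e3)) (fun x => ?_)
  have : -(C * e ^ 2 * (a u x + a g x)) + (-(2 * (C * a g x)) + -(2 * (C * e * a k x))) =
    -(C * e ^ 2 * (a u x + a g x) + 2 * C * a g x + 2 * (C * e * a k x)) := by ring
  rw [this]

/-! ### composition -/

variable {C₁ C₂ : ℝ} {A₁ A₂ : X2 M →ₗ[ℝ] X2 M} {a₁ a₂ : (M → ℝ) → M → ℝ}

theorem Good.comp (h₂ : Good D e C₂ A₂ a₂) (h₁ : Good D e C₁ A₁ a₁) (ha₂ : AvgF a₂)
    (ha₁ : AvgF a₁) (he : 0 ≤ e) (he1 : e ≤ 1) (hC₁ : 0 ≤ C₁) (hC₂ : 0 ≤ C₂) :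
    Good D e (6 * C₁ * C₂) (A₂ ∘ₗ A₁) (fun f => a₂ (a₁ f)) := by
  have key : ∀ (b : X2 M) (h : M → ℝ), SmoothF E4 h → (∀ x, D.nr (b : F2 E4 M) x ≤ h x) →
      SmoothF E4 (a₁ h) ∧ (∀ x, 0 ≤ a₁ h x) ∧ ∀ x, 0 ≤ a₂ (a₁ h) x := by
    intro b h hh hb
    have h0 : ∀ x, 0 ≤ h x := fun x => (nr_nonneg D b.1 x).trans (hb x)
    have h1 := ha₁.smooth h hh
    have h2 := ha₁.nonneg h hh h0
    exact ⟨h1, h2, ha₂.nonneg _ h1 h2⟩
  have hsm : ∀ (c : ℝ) (h : M → ℝ), SmoothF E4 h → SmoothF E4 (fun y => c * h y) :=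
    fun c h hh => sF_const_mul c hh
  refine ⟨fun b h hh hb x => ?_, fun P hP h hh hb => ?_, fun b h hh hb x => ?_,
    fun b h hh hb x => ?_⟩
  · -- bd
    obtain ⟨k1, k2, k3⟩ := key b h hh hb
    have h1 := h₁.bd b h hh hb
    have h2 := h₂.bd (A₁ b) _ (hsm C₁ _ k1) h1 x
    rw [ha₂.smul C₁ _ k1] at h2
    refine le_trans h2 ?_
    have := k3 x
    have h5 : 0 ≤ C₂ * (C₁ * a₂ (a₁ h) x) := by positivity
    nlinarith
  · -- pos
    obtain ⟨k1, k2, k3⟩ := key P h hh hb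
    have hu := h₁.bd P h hh hb
    have hg := h₁.pos P hP h hh hb
    have hPinv : D.pi' P = P := by
      apply ext_at2
      intro x
      exact invp_of_inv (hP x).inv
    have hk := h₁.leak1 P h hh hb
    rw [hPinv] at hk
    have hcore := h₂.core ha₂ (X := A₁ P) (hsm C₁ _ k1) (hsm (C₁ * e ^ 2) _ k1)
      (hsm (C₁ * e) _ k1) (fun x => by have := k2 x; positivity) hu hg hk
    refine geF_mono hcore (fun x => ?_)
    rw [ha₂.smul C₁ _ k1, ha₂.smul (C₁ * e ^ 2) _ k1, ha₂.smul (C₁ * e) _ k1]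
    have h3 := k3 x
    have h4 : e ^ 2 ≤ 1 := pow_le_one₀ he he1
    have h5 : 0 ≤ C₂ * e ^ 2 * (C₁ * a₂ (a₁ h) x) := by positivity
    have h6 : C₂ * e ^ 2 * (C₁ * a₂ (a₁ h) x) * e ^ 2 ≤ C₂ * e ^ 2 * (C₁ * a₂ (a₁ h) x) * 1 :=
      mul_le_mul_of_nonneg_left h4 h5
    nlinarith
  · -- leak1
    obtain ⟨k1, k2, k3⟩ := key b h hh hb
    have hb' : ∀ y, D.nr (D.pi' b : F2 E4 M) y ≤ h y := fun y => (nr_pi'_le b y).trans (hb y)
    set X := A₁ (D.pi' b) with hX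
    have hXu := h₁.bd (D.pi' b) h hh hb'
    have hXk := h₁.leak1 b h hh hb
    have hsplit : D.pi'' (A₂ X) = D.pi'' (A₂ (D.pi' X)) + D.pi'' (A₂ (D.pi'' X)) := by
      rw [← map_add, ← map_add, pi_add]
    have h1 := h₂.leak1 X _ (hsm C₁ _ k1) hXu x
    have h2 := (nr_pi''_le (A₂ (D.pi'' X)) x).trans
      (h₂.bd (D.pi'' X) _ (hsm (C₁ * e) _ k1) hXk x)
    rw [ha₂.smul _ _ k1] at h1 h2
    have h3 : D.nr (D.pi'' (A₂ X) : F2 E4 M) x ≤
        C₂ * e * (C₁ * a₂ (a₁ h) x) + C₂ * (C₁ * e * a₂ (a₁ h) x) := by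
      rw [hsplit]
      exact (nr_add_le _ _ x).trans (add_le_add h1 h2)
    refine h3.trans ?_
    have := k3 x
    have h5 : 0 ≤ C₂ * e * (C₁ * a₂ (a₁ h) x) := by positivity
    nlinarith
  · -- leak2
    obtain ⟨k1, k2, k3⟩ := key b h hh hb
    have hb' : ∀ y, D.nr (D.pi'' b : F2 E4 M) y ≤ h y := fun y => (nr_pi''_le b y).trans (hb y)
    set X := A₁ (D.pi'' b) with hX
    have hXu := h₁.bd (D.pi'' b) h hh hb'
    have hXk := h₁.leak2 b h hh hb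
    have hsplit : D.pi' (A₂ X) = D.pi' (A₂ (D.pi'' X)) + D.pi' (A₂ (D.pi' X)) := by
      rw [← map_add, ← map_add, add_comm, pi_add]
    have h1 := h₂.leak2 X _ (hsm C₁ _ k1) hXu x
    have h2 := (nr_pi'_le (A₂ (D.pi' X)) x).trans
      (h₂.bd (D.pi' X) _ (hsm (C₁ * e) _ k1) hXk x)
    rw [ha₂.smul _ _ k1] at h1 h2
    have h3 : D.nr (D.pi' (A₂ X) : F2 E4 M) x ≤
        C₂ * e * (C₁ * a₂ (a₁ h) x) + C₂ * (C₁ * e * a₂ (a₁ h) x) := by
      rw [hsplit]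
      exact (nr_add_le _ _ x).trans (add_le_add h1 h2)
    refine h3.trans ?_
    have := k3 x
    have h5 : 0 ≤ C₂ * e * (C₁ * a₂ (a₁ h) x) := by positivity
    nlinarith

/-- the main term in the composition of `low`. -/
theorem low_main (l₂ : Low D e C₂ A₂ a₂) (h₂ : Good D e C₂ A₂ a₂) (ha₂ : AvgF a₂) (he : 0 ≤ e)
    (hC₁ : 0 ≤ C₁) (hC₂ : 0 ≤ C₂) {g : M → ℝ} (hg : SmoothF E4 g) (hg0 : ∀ x, 0 ≤ g x) :
    GeF D.J D.F (((1 - C₁ * e) • A₂ (fX g hg D.FX) : X2 M) : F2 E4 M)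
      (fun x => (1 - (C₁ + C₂ + 2 * C₁ * C₂) * e) * a₂ g x) := by
  have k3 := ha₂.nonneg _ hg hg0
  have h7 : 0 ≤ C₁ * C₂ * e ^ 2 := by positivity
  have h6 : 0 ≤ C₁ * C₂ * e := by positivity
  have h5 : 0 ≤ C₂ * e := by positivity
  rcases le_total 0 (1 - C₁ * e) with h0 | h0
  · refine geF_mono (geF_smul h0 (l₂ g hg hg0 _ rfl)) (fun x => ?_)
    have h4 : (1 - (C₁ + C₂ + 2 * C₁ * C₂) * e) ≤ (1 - C₁ * e) * (1 - C₂ * e) := by
      nlinarith
    calc (1 - (C₁ + C₂ + 2 * C₁ * C₂) * e) * a₂ g x ≤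
        (1 - C₁ * e) * (1 - C₂ * e) * a₂ g x := mul_le_mul_of_nonneg_right h4 (k3 x)
      _ = _ := by ring
  · have h1 : ∀ x, D.nr (((1 - C₁ * e) • A₂ (fX g hg D.FX) : X2 M) : F2 E4 M) x ≤
        C₁ * e * (C₂ * a₂ g x) := by
      intro x
      rw [nr_smul]
      have h2 : |1 - C₁ * e| ≤ C₁ * e := by
        rw [abs_of_nonpos h0]; linarith
      exact mul_le_mul h2 (h₂.bd _ g hg (fun y => (nr_fX_FX hg hg0 y).le) x)
        (nr_nonneg D _ x) (by positivity)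
    refine geF_mono (geF_of_nr h1) (fun x => ?_)
    have h4 : 1 ≤ C₁ * e := by linarith
    have h8 : (1 - (C₁ + C₂ + 2 * C₁ * C₂) * e) ≤ - (2 * (C₁ * e * C₂)) := by nlinarith
    calc (1 - (C₁ + C₂ + 2 * C₁ * C₂) * e) * a₂ g x ≤
        - (2 * (C₁ * e * C₂)) * a₂ g x := mul_le_mul_of_nonneg_right h8 (k3 x)
      _ = _ := by ring

/-- the numerical inequality in the composition of `low`. -/
theorem low_num (he : 0 ≤ e) (he1 : e ≤ 1) (hC₁ : 1 ≤ C₁) (hC₂ : 1 ≤ C₂) {y : ℝ} (hy : 0 ≤ y) :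
    (1 - 10 * C₁ * C₂ * e) * y ≤
      -(C₂ * e ^ 2 * ((2 * C₁ + 1) * y + 0) + 2 * C₂ * 0 + 2 * (C₂ * e * (C₁ * e * y))) +
        (1 - (C₁ + C₂ + 2 * C₁ * C₂) * e) * y := by
  have hC₁0 : 0 ≤ C₁ := zero_le_one.trans hC₁
  have hC₂0 : 0 ≤ C₂ := zero_le_one.trans hC₂
  have h4 : e ^ 2 ≤ e := by nlinarith
  have h4' : e ^ 2 * y ≤ e * y := mul_le_mul_of_nonneg_right h4 hy
  have hey : 0 ≤ e * y := by positivity
  have h5 : C₁ * C₂ * (e ^ 2 * y) ≤ C₁ * C₂ * (e * y) :=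
    mul_le_mul_of_nonneg_left h4' (by positivity)
  have h6 : C₂ * (e ^ 2 * y) ≤ C₂ * (e * y) := mul_le_mul_of_nonneg_left h4' (by positivity)
  have h7 : C₁ ≤ C₁ * C₂ := le_mul_of_one_le_right hC₁0 hC₂
  have h8 : C₂ ≤ C₁ * C₂ := le_mul_of_one_le_left hC₂0 hC₁
  have h9 : C₁ * (e * y) ≤ C₁ * C₂ * (e * y) := mul_le_mul_of_nonneg_right h7 hey
  have h10 : C₂ * (e * y) ≤ C₁ * C₂ * (e * y) := mul_le_mul_of_nonneg_right h8 hey
  have h11 : 0 ≤ C₁ * C₂ * (e * y) := by positivity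
  have e1 : (1 - 10 * C₁ * C₂ * e) * y = y - 10 * (C₁ * C₂ * (e * y)) := by ring
  have e2 : -(C₂ * e ^ 2 * ((2 * C₁ + 1) * y + 0) + 2 * C₂ * 0 + 2 * (C₂ * e * (C₁ * e * y))) +
        (1 - (C₁ + C₂ + 2 * C₁ * C₂) * e) * y =
      y - 4 * (C₁ * C₂ * (e ^ 2 * y)) - C₂ * (e ^ 2 * y) - C₁ * (e * y) - C₂ * (e * y) -
        2 * (C₁ * C₂ * (e * y)) := by ring
  rw [e1, e2]
  linarith

theorem Low.comp (l₂ : Low D e C₂ A₂ a₂) (l₁ : Low D e C₁ A₁ a₁) (h₂ : Good D e C₂ A₂ a₂)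
    (h₁ : Good D e C₁ A₁ a₁) (ha₂ : AvgF a₂) (ha₁ : AvgF a₁) (he : 0 ≤ e) (he1 : e ≤ 1)
    (hC₁ : 1 ≤ C₁) (hC₂ : 1 ≤ C₂) :
    Low D e (10 * C₁ * C₂) (A₂ ∘ₗ A₁) (fun f => a₂ (a₁ f)) := by
  have hC₁0 : 0 ≤ C₁ := zero_le_one.trans hC₁
  have hC₂0 : 0 ≤ C₂ := zero_le_one.trans hC₂
  have hsm : ∀ (c : ℝ) (h : M → ℝ), SmoothF E4 h → SmoothF E4 (fun y => c * h y) :=
    fun c h hh => sF_const_mul c hh
  intro f hf hf0 b hb
  have k1 := ha₁.smooth f hf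
  have k2 := ha₁.nonneg f hf hf0
  have hbX : b = fX f hf D.FX := Subtype.ext hb
  have hbn : ∀ x, D.nr (b : F2 E4 M) x ≤ f x := by
    intro x; rw [hbX]; exact (nr_fX_FX hf hf0 x).le
  set t : ℝ := 1 - C₁ * e with ht
  set G : X2 M := fX (a₁ f) k1 D.FX with hG
  set R : X2 M := A₁ b - t • G with hR
  have hlow := l₁ f hf hf0 b hb
  -- R ≥ 0
  have hRge : GeF D.J D.F (R : F2 E4 M) (fun x => - (0 : ℝ)) := by
    intro x v
    have h1 := hlow x v
    have h3 : at2 (R : F2 E4 M) x v (atJ D.J x v) =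
      at2 (A₁ b).1 x v (atJ D.J x v) - t * (a₁ f x * at2 D.F x v (atJ D.J x v)) := rfl
    rw [h3, neg_zero, zero_mul]
    have h4 : (1 - C₁ * e) * a₁ f x * at2 D.F x v (atJ D.J x v) =
      t * (a₁ f x * at2 D.F x v (atJ D.J x v)) := by rw [ht]; ring
    rw [h4] at h1
    linarith
  have htabs : |t| ≤ 1 + C₁ := by
    rw [ht, abs_le]; constructor <;> nlinarith
  have hGn : ∀ x, D.nr (G : F2 E4 M) x ≤ a₁ f x := fun x => (nr_fX_FX k1 k2 x).le
  have hRu : ∀ x, D.nr (R : F2 E4 M) x ≤ (2 * C₁ + 1) * a₁ f x := by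
    intro x
    refine (nr_sub_le _ _ x).trans ?_
    rw [nr_smul]
    have h1 := h₁.bd b f hf hbn x
    have h2 : |t| * D.nr (G : F2 E4 M) x ≤ (1 + C₁) * a₁ f x :=
      mul_le_mul htabs (hGn x) (nr_nonneg D _ x) (by linarith)
    linarith
  have hRk : ∀ x, D.nr (D.pi'' R : F2 E4 M) x ≤ C₁ * e * a₁ f x := by
    intro x
    have h1 : D.pi'' R = D.pi'' (A₁ (D.pi' b)) := by
      rw [hR, map_sub, map_smul, hG, pi''_fX, smul_zero, sub_zero, hbX, pi'_fX]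
    rw [h1]
    exact h₁.leak1 b f hf hbn x
  have hz : ∀ x, a₂ (fun _ => (0 : ℝ)) x = 0 := by
    intro x
    have h1 := ha₂.smul 0 (fun _ => (0 : ℝ)) (sF_const 0) x
    simpa using h1
  have hcore := h₂.core ha₂ (X := R) (hsm (2 * C₁ + 1) _ k1) (sF_const (M := M) 0)
    (hsm (C₁ * e) _ k1) (fun _ => le_rfl) hRu hRge hRk
  have hmain := low_main l₂ h₂ ha₂ he hC₁0 hC₂0 k1 k2
  have hsum : (A₂ ∘ₗ A₁) b = A₂ R + (1 - C₁ * e) • A₂ (fX (a₁ f) k1 D.FX) := by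
    rw [LinearMap.comp_apply, hR, map_sub, map_smul, ht, hG]
    exact (sub_add_cancel _ _).symm
  rw [hsum]
  refine geF_mono (geF_add hcore hmain) (fun x => ?_)
  rw [ha₂.smul _ _ k1, ha₂.smul _ _ k1, hz]
  exact low_num he he1 hC₁ hC₂ (ha₂.nonneg _ k1 k2 x)

/-! ### the identity -/

theorem Good.id (D : Dat M) (he : 0 ≤ e) : Good D e 1 LinearMap.id (fun f => f) := by
  refine ⟨fun b h _ hb x => ?_, fun P hP h _ hb => ?_, fun b h _ hb x => ?_, fun b h _ hb x => ?_⟩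
  · rw [one_mul]; exact hb x
  · intro x v
    have h1 : 0 ≤ at2 P.1 x v (atJ D.J x v) := (hP x).nonneg v
    have h2 : 0 ≤ h x := (nr_nonneg D P.1 x).trans (hb x)
    have h3 := F_nonneg D x v
    have h4 : 0 ≤ 1 * e ^ 2 * h x * at2 D.F x v (atJ D.J x v) := by positivity
    have h5 : - (1 * e ^ 2 * h x) * at2 D.F x v (atJ D.J x v) =
      - (1 * e ^ 2 * h x * at2 D.F x v (atJ D.J x v)) := by ring
    rw [h5]
    exact (neg_nonpos.2 h4).trans h1
  · have h2 : 0 ≤ h x := (nr_nonneg D b.1 x).trans (hb x)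
    have h3 : D.pi'' ((LinearMap.id : X2 M →ₗ[ℝ] X2 M) (D.pi' b)) = 0 := pi''_pi' D b
    rw [h3, nr_zero]
    positivity
  · have h2 : 0 ≤ h x := (nr_nonneg D b.1 x).trans (hb x)
    have h3 : D.pi' ((LinearMap.id : X2 M →ₗ[ℝ] X2 M) (D.pi'' b)) = 0 := pi'_pi'' D b
    rw [h3, nr_zero]
    positivity

theorem Low.id (D : Dat M) (he : 0 ≤ e) : Low D e 1 LinearMap.id (fun f => f) := by
  intro f _ hf0 b hb x v
  have h1 : at2 ((LinearMap.id : X2 M →ₗ[ℝ] X2 M) b).1 x v (atJ D.J x v) =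
    f x * at2 D.F x v (atJ D.J x v) := by
    have : ((LinearMap.id : X2 M →ₗ[ℝ] X2 M) b).1 = fmul f D.F := hb
    rw [this]; rfl
  rw [h1]
  have h2 := hf0 x
  have h3 := F_nonneg D x v
  have h4 : (1 - 1 * e) * f x ≤ f x := by nlinarith [mul_nonneg he h2]
  exact mul_le_mul_of_nonneg_right h4 h3

/-! ### lists -/

/-- the composition of the operators `A i`, `i ∈ l` (the head of the list is applied last). -/
def compL {ι : Type*} (A : ι → X2 M →ₗ[ℝ] X2 M) (l : List ι) : X2 M →ₗ[ℝ] X2 M :=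
  l.foldr (fun i B => A i ∘ₗ B) LinearMap.id

theorem compL_apply {ι : Type*} (A : ι → X2 M →ₗ[ℝ] X2 M) (l : List ι) (b : X2 M) :
    compL A l b = l.foldr (fun i c => A i c) b := by
  induction l with
  | nil => rfl
  | cons i l ih =>
    show A i (compL A l b) = A i (l.foldr (fun i c => A i c) b)
    rw [ih]

theorem AvgF.list {ι : Type*} {a : ι → (M → ℝ) → M → ℝ} (l : List ι) (ha : ∀ i ∈ l, AvgF (a i)) :
    AvgF (fun f => l.foldr (fun i g => a i g) f) := by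
  induction l with
  | nil => exact AvgF.id
  | cons i l ih =>
    exact AvgF.comp (ha i (List.mem_cons_self ..))
      (ih (fun j hj => ha j (List.mem_cons_of_mem _ hj)))

theorem Good.list {ι : Type*} {A : ι → X2 M →ₗ[ℝ] X2 M} {a : ι → (M → ℝ) → M → ℝ} (l : List ι)
    (ha : ∀ i ∈ l, AvgF (a i)) (he : 0 ≤ e) (he1 : e ≤ 1) (hC : 0 ≤ C)
    (h : ∀ i ∈ l, Good D e C (A i) (a i)) :
    Good D e ((6 * C) ^ l.length) (compL A l) (fun f => l.foldr (fun i g => a i g) f) := by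
  induction l with
  | nil => exact Good.id D he
  | cons i l ih =>
    have ha' : ∀ j ∈ l, AvgF (a j) := fun j hj => ha j (List.mem_cons_of_mem _ hj)
    have h1 := Good.comp (h i (List.mem_cons_self ..))
      (ih ha' (fun j hj => h j (List.mem_cons_of_mem _ hj)))
      (ha i (List.mem_cons_self ..)) (AvgF.list l ha') he he1 (by positivity) hC
    have e1 : (6 * C) ^ (i :: l).length = 6 * (6 * C) ^ l.length * C := by
      rw [List.length_cons, pow_succ]; ring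
    rw [e1]
    exact h1

theorem Low.list {ι : Type*} {A : ι → X2 M →ₗ[ℝ] X2 M} {a : ι → (M → ℝ) → M → ℝ} (l : List ι)
    (ha : ∀ i ∈ l, AvgF (a i)) (he : 0 ≤ e) (he1 : e ≤ 1) (hC : 1 ≤ C)
    (h : ∀ i ∈ l, Good D e C (A i) (a i)) (hl : ∀ i ∈ l, Low D e C (A i) (a i)) :
    Low D e ((10 * C) ^ l.length) (compL A l) (fun f => l.foldr (fun i g => a i g) f) := by
  induction l with
  | nil => exact Low.id D he
  | cons i l ih =>
    have ha' : ∀ j ∈ l, AvgF (a j) := fun j hj => ha j (List.mem_cons_of_mem _ hj)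
    have h' : ∀ j ∈ l, Good D e C (A j) (a j) := fun j hj => h j (List.mem_cons_of_mem _ hj)
    have hC0 : 0 ≤ C := zero_le_one.trans hC
    have hg : Good D e ((10 * C) ^ l.length) (compL A l) (fun f => l.foldr (fun i g => a i g) f) :=
      (Good.list l ha' he he1 hC0 h').mono (AvgF.list l ha') he
        (pow_le_pow_left₀ (by positivity) (by linarith) _)
    have h1 := Low.comp (hl i (List.mem_cons_self ..))
      (ih ha' h' (fun j hj => hl j (List.mem_cons_of_mem _ hj)))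
      (h i (List.mem_cons_self ..)) hg
      (ha i (List.mem_cons_self ..)) (AvgF.list l ha') he he1
      (one_le_pow₀ (by linarith)) hC
    have e1 : (10 * C) ^ (i :: l).length = 10 * (10 * C) ^ l.length * C := by
      rw [List.length_cons, pow_succ]; ring
    rw [e1]
    exact h1

end

end Crest.Agent.R240.Comp
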