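import Mathlib
import Crest.Agent.R240.Q2
import Crest.Agent.R240.SmA1
import Crest.Agent.R240.SmComp
import Crest.Agent.R240.IntTop

/-!
Row 240 (S0371), R4a (helper83), file 3: the ONE-CHART fields `bd, pos, leak1, leak2, low` of `SmPack`.
-/

set_option autoImplicit false
set_option maxSynthPendingDepth 3
set_option linter.unusedVariables false
set_option linter.unusedSectionVars false
set_option maxHeartbeats 400000

open Set Function Filter Metric MeasureTheory
open scoped Manifold ContDiff Topology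

namespace Crest.Agent.R240.Q4

open Crest.Agent.R240 Crest.Agent.R240.Ch Crest.Agent.R240.Sm Crest.Agent.R240.En4

noncomputable section

/-! ### integrals of families of two-forms -/

section integrals

variable {Z : Type*} [MeasurableSpace Z] {μ : Measure Z} {J : E4 →L[ℝ] E4} {F : Bil}

/-- `b ↦ ⟨b, c⟩` as a continuous linear form. -/
def ipL (J : E4 →L[ℝ] E4) (F c : Bil) : Bil →L[ℝ] ℝ :=
  LinearMap.toContinuousLinearMap
    { toFun := fun b => ip J F b c
      map_add' := fun a b => ip_add_left J F a b c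
      map_smul' := fun r b => ip_smul_left J F r b c }

theorem ipL_apply (J : E4 →L[ℝ] E4) (F b c : Bil) : ipL J F c b = ip J F b c := rfl

/-- `antip` as a continuous linear map. -/
def antiL (J : E4 →L[ℝ] E4) : Bil →L[ℝ] Bil :=
  LinearMap.toContinuousLinearMap
    { toFun := fun b => antip J b
      map_add' := fun a b => antip_add J a b
      map_smul' := fun r b => antip_smul J r b }

theorem antiL_apply (J : E4 →L[ℝ] E4) (b : Bil) : antiL J b = antip J b := rfl

/-- `invp` as a continuous linear map. -/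
def invL (J : E4 →L[ℝ] E4) : Bil →L[ℝ] Bil :=
  LinearMap.toContinuousLinearMap
    { toFun := fun b => invp J b
      map_add' := fun a b => invp_add J a b
      map_smul' := fun r b => invp_smul J r b }

theorem invL_apply (J : E4 →L[ℝ] E4) (b : Bil) : invL J b = invp J b := rfl

/-- evaluation at two vectors. -/
def evL (u v : E4) : Bil →L[ℝ] ℝ :=
  (ContinuousLinearMap.apply ℝ ℝ v).comp (ContinuousLinearMap.apply ℝ (E4 →L[ℝ] ℝ) u)

theorem evL_apply (u v : E4) (b : Bil) : evL u v b = b u v := rfl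

theorem alt_integral {f : Z → Bil} (hf : Integrable f μ) (halt : ∀ z, Alt (f z)) :
    Alt (∫ z, f z ∂μ) := by
  intro v
  have h := (evL v v).integral_comp_comm hf
  rw [evL_apply] at h
  rw [← h]
  simp only [evL_apply]
  rw [integral_congr_ae (g := fun _ => (0 : ℝ)) (Eventually.of_forall fun z => halt z v)]
  simp

/-- the norm of an integral. -/
theorem nr_integral_le (hJ : ∀ v, J (J v) = -v) (hF : SPos J F) {f : Z → Bil} {g : Z → ℝ}
    (hf : Integrable f μ) (hg : Integrable g μ) (halt : ∀ z, Alt (f z))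
    (hfg : ∀ z, nr J F (f z) ≤ g z) : nr J F (∫ z, f z ∂μ) ≤ ∫ z, g z ∂μ := by
  set I : Bil := ∫ z, f z ∂μ with hI
  have hIa : Alt I := alt_integral hf halt
  have h1 : nsq J F I = ∫ z, ip J F (f z) I ∂μ := by
    have h := (ipL J F I).integral_comp_comm hf
    simp only [ipL_apply] at h
    rw [h]; rfl
  have hn0 : 0 ≤ nsq J F I := nsq_nonneg hJ hF hIa
  have hn : nr J F I ^ 2 = nsq J F I := Real.sq_sqrt hn0
  have hnn : 0 ≤ nr J F I := Real.sqrt_nonneg _
  have h2 : ∀ z, ip J F (f z) I ≤ g z * nr J F I := by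
    intro z
    have h3 := ip_cs hJ hF (halt z) hIa
    have h4 : nr J F (f z) ^ 2 = nsq J F (f z) := Real.sq_sqrt (nsq_nonneg hJ hF (halt z))
    have h5 : ip J F (f z) I ≤ nr J F (f z) * nr J F I := by
      refine le_trans (le_abs_self _) (abs_le_of_sq_le_sq ?_ (mul_nonneg (Real.sqrt_nonneg _) hnn))
      rw [mul_pow, h4, hn]; exact h3
    exact h5.trans (mul_le_mul_of_nonneg_right (hfg z) hnn)
  have h3 : Integrable (fun z => ip J F (f z) I) μ := (ipL J F I).integrable_comp hf
  have h4 : ∫ z, ip J F (f z) I ∂μ ≤ ∫ z, g z * nr J F I ∂μ :=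
    integral_mono h3 (hg.mul_const _) h2
  rw [← h1, ← hn, integral_mul_const] at h4
  rcases hnn.eq_or_lt with h0 | h0
  · rw [← h0]
    exact integral_nonneg fun z => (Real.sqrt_nonneg _).trans (hfg z)
  · have h5 : nr J F I * nr J F I ≤ (∫ z, g z ∂μ) * nr J F I := by rw [← sq]; exact h4
    exact le_of_mul_le_mul_right h5 h0

end integrals

/-! ### the norm in a chart -/

section chart

variable {M : Type*} [MetricSpace M] [CompactSpace M] [ChartedSpace E4 M]
    [IsManifold 𝓘(ℝ, E4) ∞ M] [MeasurableSpace M] [BorelSpace M] (D : Dat M)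

theorem nrG_chart {b : F2 E4 M} (hb : ∀ x, Alt (at2 b x)) {p x : M}
    (hx : x ∈ (chartAt E4 p).source) :
    D.nr b x = nr (repJ p D.J (chartAt E4 p x)) (rep p D.F (chartAt E4 p x))
      (rep p b (chartAt E4 p x)) := by
  have hV : Int.Vol D.F := Int.dat_volF D
  have hFa : ∀ x, Alt (at2 D.F x) := (smF D).1
  have hb' : ∀ x, Alt (at2 (bp D.J b) x) := fun x => (hb x).invp _
  have hb'' : ∀ x, Alt (at2 (bpp D.J b) x) := fun x => (hb x).antip _
  have e : D.nr b x = √(nsqG D.J D.F b x) := rfl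
  rw [e, nsqG_eq, Int.qG_chart' hV hb hFa hx, Int.qG_chart' hV hb' hb' hx,
    Int.qG_chart' hV hb'' hb'' hx, rep_bp ((chartAt E4 p).map_source hx),
    rep_bpp ((chartAt E4 p).map_source hx)]
  rfl

end chart

/-! ### pointwise estimates for the pull-back by `psi` -/

section point

variable {M : Type*} [MetricSpace M] [CompactSpace M] [ChartedSpace E4 M]
    [IsManifold 𝓘(ℝ, E4) ∞ M] [MeasurableSpace M] [BorelSpace M] {D : Dat M}

/-- all pointwise estimates with one constant. -/
structure Pt (D : Dat M) (G : Fam E4) (p : M) (ρ C : ℝ) : Prop where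
  one_le : 1 ≤ C
  bd : ∀ z ∈ closedBall (0 : E4) ρ, ∀ (b : F2 E4 M), (∀ x, Alt (at2 b x)) → ∀ x,
    D.nr (pullG G p z b) x ≤ C * D.nr b (psi G p z x)
  leak1 : ∀ z ∈ closedBall (0 : E4) ρ, ∀ (b : F2 E4 M), (∀ x, Alt (at2 b x)) → ∀ x,
    D.nr (bpp D.J (pullG G p z (bp D.J b))) x ≤ C * ‖z‖ * D.nr b (psi G p z x)
  leak2 : ∀ z ∈ closedBall (0 : E4) ρ, ∀ (b : F2 E4 M), (∀ x, Alt (at2 b x)) → ∀ x,
    D.nr (bp D.J (pullG G p z (bpp D.J b))) x ≤ C * ‖z‖ * D.nr b (psi G p z x)
  pos : ∀ z ∈ closedBall (0 : E4) ρ, ∀ P : F2 E4 M, PosG D.J P → ∀ x v,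
    - (C * ‖z‖ ^ 2 * D.nr P (psi G p z x)) * at2 D.F x v (atJ D.J x v) ≤
      at2 (pullG G p z P) x v (atJ D.J x v)
  low : ∀ z ∈ closedBall (0 : E4) ρ, ∀ x v,
    (1 - C * ‖z‖) * at2 D.F x v (atJ D.J x v) ≤ at2 (pullG G p z D.F) x v (atJ D.J x v)

/-- positive forms in charts -/
theorem pos_rep {J : EndF E4 M} {P : F2 E4 M} {p : M} (hP : PosG J P) {y : E4}
    (hy : y ∈ (chartAt E4 p).target) : Pos (repJ p J y) (rep p P y) := by
  have h := hP ((chartAt E4 p).symm y)
  refine ⟨fun v => ?_, fun u v => ?_, fun v => ?_⟩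
  · rw [rep_apply]; exact h.alt _
  · rw [rep_apply, repJ_apply, repJ_apply, tcc_cancel' (symm_mem hy), tcc_cancel' (symm_mem hy),
      h.inv, rep_apply]
  · rw [rep_apply, repJ_apply, tcc_cancel' (symm_mem hy)]
    exact h.nonneg _

theorem at2_bpp (J : EndF E4 M) (b : F2 E4 M) (x : M) :
    at2 (bpp J b) x = antip (atJ J x) (at2 b x) := rfl

theorem at2_bp (J : EndF E4 M) (b : F2 E4 M) (x : M) :
    at2 (bp J b) x = invp (atJ J x) (at2 b x) := rfl

theorem nr_def (b : F2 E4 M) (x : M) : D.nr b x = nr (atJ D.J x) (at2 D.F x) (at2 b x) := rfl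

theorem exists_pt (D : Dat M) {G : Fam E4} {p : M} (hG : G.K ⊆ (chartAt E4 p).target) {ρ : ℝ}
    (hρ0 : 0 ≤ ρ) (hρ : ρ < G.r) : ∃ C : ℝ, Pt D G p ρ C := by
  have hsp : SPosG D.J D.F := fun x => spos D x
  obtain ⟨B, hB1, hN⟩ := exists_near (p := p) D.smJ (smF D) D.sq hsp G hG hρ0 hρ
  have hB0 : 0 ≤ B := zero_le_one.trans hB1
  set C : ℝ := 3 * B ^ 7 with hC
  have hpow : ∀ k : ℕ, k ≤ 7 → B ^ k ≤ B ^ 7 := fun k hk => pow_le_pow_right₀ hB1 hk
  have hB7 : 1 ≤ B ^ 7 := one_le_pow₀ hB1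
  have c1 : B ^ 4 ≤ C := by have := hpow 4 (by norm_num); rw [hC]; linarith
  have c2 : 3 * B ^ 6 ≤ C := by have := hpow 6 (by norm_num); rw [hC]; linarith
  have c3 : 3 * B ^ 5 ≤ C := by have := hpow 5 (by norm_num); rw [hC]; linarith
  have c0 : 1 ≤ C := by rw [hC]; linarith
  have hC0 : 0 ≤ C := zero_le_one.trans c0
  have hnn : ∀ (b : F2 E4 M) x, 0 ≤ D.nr b x := fun b x => Real.sqrt_nonneg _
  -- splitting
  have cases : ∀ z ∈ closedBall (0 : E4) ρ, ∀ x : M,
      (x ∉ KM G p ∧ psi G p z x = x) ∨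
      (∃ y ∈ G.K, x ∈ (chartAt E4 p).source ∧ chartAt E4 p x = y ∧
        psi G p z x ∈ (chartAt E4 p).source ∧ chartAt E4 p (psi G p z x) = G.g z y) := by
    intro z hz x
    have hz' : z ∈ ball (0 : E4) G.r := closedBall_subset_ball hρ hz
    by_cases hx : x ∈ KM G p
    · right
      obtain ⟨y, hy, rfl⟩ := hx
      have h1 : (chartAt E4 p).symm y ∈ (chartAt E4 p).source := symm_mem (hG hy)
      have h2 := chart_psi hG hz' h1
      rw [(chartAt E4 p).right_inv (hG hy)] at h2
      exact ⟨y, hy, h1, (chartAt E4 p).right_inv (hG hy), h2.1, h2.2⟩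
    · exact Or.inl ⟨hx, psi_off hz' hx⟩
  have hoff : ∀ z ∈ closedBall (0 : E4) ρ, ∀ x ∉ KM G p, ∀ b : F2 E4 M,
      at2 (pullG G p z b) x = at2 b x := fun z hz x hx b =>
    pullG_off (closedBall_subset_ball hρ hz) hx b
  refine ⟨C, c0, ?_, ?_, ?_, ?_, ?_⟩
  · -- bd
    intro z hz b hb x
    rcases cases z hz x with ⟨hx, hpsi⟩ | ⟨y, hy, hx, hxy, hx', hxy'⟩
    · rw [hpsi]
      have e : D.nr (pullG G p z b) x = D.nr b x := by rw [nr_def, nr_def, hoff z hz x hx]
      rw [e]
      exact le_mul_of_one_le_left (hnn b x) c0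
    · rw [nrG_chart D (fun x v => pullG_alt hb z x v) hx, nrG_chart D hb hx', hxy, hxy',
        rep_pullG (hG hy)]
      exact ((hN z hz y hy).bd (Int.rep_alt hb p _)).trans
        (mul_le_mul_of_nonneg_right c1 (Real.sqrt_nonneg _))
  · -- leak1
    intro z hz b hb x
    have hb' : ∀ x, Alt (at2 (bp D.J b) x) := fun x => (hb x).invp _
    have hb2 : ∀ x, Alt (at2 (pullG G p z (bp D.J b)) x) := fun x v => pullG_alt hb' z x v
    rcases cases z hz x with ⟨hx, hpsi⟩ | ⟨y, hy, hx, hxy, hx', hxy'⟩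
    · rw [hpsi]
      have e : D.nr (bpp D.J (pullG G p z (bp D.J b))) x = 0 := by
        rw [nr_def, at2_bpp, hoff z hz x hx, at2_bp, antip_of_inv (invp_inv (D.sq x) _)]
        unfold nr nsq ip
        rw [q_zero_left]
        have e1 : invp (atJ D.J x) (0 : Bil) = 0 := by
          have := invp_smul (atJ D.J x) 0 (0 : Bil); rwa [bzero_smul, bzero_smul] at this
        have e2 : antip (atJ D.J x) (0 : Bil) = 0 := by
          have := antip_smul (atJ D.J x) 0 (0 : Bil); rwa [bzero_smul, bzero_smul] at this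
        rw [e1, e2, q_zero_left]
        simp
      rw [e]
      have := hnn b x
      positivity
    · rw [nrG_chart D (b := bpp D.J (pullG G p z (bp D.J b))) (fun x => (hb2 x).antip _) hx,
        nrG_chart D hb hx', hxy, hxy',
        rep_bpp (hG hy), rep_pullG (hG hy),
        rep_bp (hG (G.mem_K (closedBall_subset_ball hρ hz) hy))]
      exact ((hN z hz y hy).leak1 (Int.rep_alt hb p _)).trans
        (mul_le_mul_of_nonneg_right (mul_le_mul_of_nonneg_right c2 (norm_nonneg _))
          (Real.sqrt_nonneg _))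
  · -- leak2
    intro z hz b hb x
    have hb' : ∀ x, Alt (at2 (bpp D.J b) x) := fun x => (hb x).antip _
    have hb2 : ∀ x, Alt (at2 (pullG G p z (bpp D.J b)) x) := fun x v => pullG_alt hb' z x v
    rcases cases z hz x with ⟨hx, hpsi⟩ | ⟨y, hy, hx, hxy, hx', hxy'⟩
    · rw [hpsi]
      have e : D.nr (bp D.J (pullG G p z (bpp D.J b))) x = 0 := by
        rw [nr_def, at2_bp, hoff z hz x hx, at2_bpp, invp_of_anti (antip_anti (D.sq x) _)]
        unfold nr nsq ip
        rw [q_zero_left]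
        have e1 : invp (atJ D.J x) (0 : Bil) = 0 := by
          have := invp_smul (atJ D.J x) 0 (0 : Bil); rwa [bzero_smul, bzero_smul] at this
        have e2 : antip (atJ D.J x) (0 : Bil) = 0 := by
          have := antip_smul (atJ D.J x) 0 (0 : Bil); rwa [bzero_smul, bzero_smul] at this
        rw [e1, e2, q_zero_left]
        simp
      rw [e]
      have := hnn b x
      positivity
    · rw [nrG_chart D (b := bp D.J (pullG G p z (bpp D.J b))) (fun x => (hb2 x).invp _) hx,
        nrG_chart D hb hx', hxy, hxy',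
        rep_bp (hG hy), rep_pullG (hG hy),
        rep_bpp (hG (G.mem_K (closedBall_subset_ball hρ hz) hy))]
      exact ((hN z hz y hy).leak2 (Int.rep_alt hb p _)).trans
        (mul_le_mul_of_nonneg_right (mul_le_mul_of_nonneg_right c2 (norm_nonneg _))
          (Real.sqrt_nonneg _))
  · -- pos
    intro z hz P hP x v
    have hF0 : 0 ≤ at2 D.F x v (atJ D.J x v) := Comp.F_nonneg D x v
    rcases cases z hz x with ⟨hx, hpsi⟩ | ⟨y, hy, hx, hxy, hx', hxy'⟩
    · rw [hpsi, hoff z hz x hx]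
      have h1 : 0 ≤ at2 P x v (atJ D.J x v) := (hP x).nonneg v
      have h2 : 0 ≤ C * ‖z‖ ^ 2 * D.nr P x * at2 D.F x v (atJ D.J x v) := by
        have := hnn P x
        positivity
      linarith
    · rw [nrG_chart D (fun x => (hP x).alt) hx', hxy', apply_J_eq_rep hx, apply_J_eq_rep hx, hxy,
        rep_pullG (hG hy)]
      have h1 := (hN z hz y hy).pos
        (pos_rep hP (hG (G.mem_K (closedBall_subset_ball hρ hz) hy))) (tcc x p x v)
      refine le_trans ?_ h1
      have h2 : 0 ≤ rep p D.F y (tcc x p x v) (repJ p D.J y (tcc x p x v)) := by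
        rw [apply_J_eq_rep hx, hxy] at hF0
        exact hF0
      exact le_refl _
  · -- low
    intro z hz x v
    have hF0 : 0 ≤ at2 D.F x v (atJ D.J x v) := Comp.F_nonneg D x v
    rcases cases z hz x with ⟨hx, hpsi⟩ | ⟨y, hy, hx, hxy, hx', hxy'⟩
    · rw [hoff z hz x hx]
      have h2 : 0 ≤ C * ‖z‖ * at2 D.F x v (atJ D.J x v) := by positivity
      linarith
    · have h1 := (hN z hz y hy).low (tcc x p x v)
      have h2 : 0 ≤ rep p D.F y (tcc x p x v) (repJ p D.J y (tcc x p x v)) := by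
        rw [apply_J_eq_rep hx, hxy] at hF0
        exact hF0
      rw [apply_J_eq_rep hx, apply_J_eq_rep hx, hxy, rep_pullG (hG hy)]
      refine le_trans (mul_le_mul_of_nonneg_right ?_ h2) h1
      have h3 := mul_le_mul_of_nonneg_right c3 (norm_nonneg z)
      linarith

end point

end

end Crest.Agent.R240.Q4
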