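import Mathlib
import Crest.Agent.R240.Q3
import Crest.Agent.R240.SmSys

/-!
Row 240 (S0371), R4a (helper83), file 5: the fields `bd, pos, leak1, leak2, low` of `SmPack` for the
smoothing system of 915 (one chart: here; composition: 822's `SmComp`).
-/

set_option autoImplicit false
set_option maxSynthPendingDepth 3
set_option linter.unusedVariables false
set_option linter.unusedSectionVars false
set_option maxHeartbeats 400000

open Set Function Filter Metric MeasureTheory
open scoped Manifold ContDiff Topology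

namespace Crest.Agent.R240.Q4

open Crest.Agent.R240 Crest.Agent.R240.Ch Crest.Agent.R240.Sm Crest.Agent.R240.En4

noncomputable section

theorem nr_smul_pt (J : E4 →L[ℝ] E4) (F : Bil) (r : ℝ) (b : Bil) :
    nr J F (r • b) = |r| * nr J F b := by
  unfold nr
  rw [nsq_smul, Real.sqrt_mul (sq_nonneg _), Real.sqrt_sq_eq_abs]

variable {M : Type*} [MetricSpace M] [CompactSpace M] [ChartedSpace E4 M]
    [IsManifold 𝓘(ℝ, E4) ∞ M] [MeasurableSpace M] [BorelSpace M] {D : Dat M}

/-- non-negative kernels below `κ₀`. -/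
structure KP (G : Fam E4) (κ κ₀ : E4 → ℝ) (e : ℝ) : Prop where
  adm : Adm G κ e
  adm0 : Adm G κ₀ e
  nn : ∀ z, 0 ≤ κ z
  le : ∀ z, κ z ≤ κ₀ z
  small : ∀ z, κ z ≠ 0 → ‖z‖ ≤ 1

section one

variable {G : Fam E4} {p : M} {ρ C e : ℝ} {κ κ₀ : E4 → ℝ}

theorem KP.mem {hK : KP G κ κ₀ e} (he : 0 < e) (heρ : e ≤ ρ) {z : E4} (hz : κ z ≠ 0) :
    e • z ∈ closedBall (0 : E4) ρ ∧ ‖e • z‖ ≤ e := by
  have h1 : ‖e • z‖ ≤ e := by
    rw [norm_smul, Real.norm_eq_abs, abs_of_pos he]
    have := mul_le_mul_of_nonneg_left (hK.small z hz) he.le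
    linarith
  exact ⟨by rw [mem_closedBall_zero_iff]; exact h1.trans heρ, h1⟩

theorem avg_bound (hG : G.K ⊆ (chartAt E4 p).target) (hK : KP G κ κ₀ e) {x : M} {T : E4 → Bil}
    (hT : Integrable (fun z => κ z • T z)) (halt : ∀ z, Alt (T z)) {c : ℝ} (hc : 0 ≤ c)
    {h : M → ℝ} (hh : SmoothF E4 h) (h0 : ∀ x, 0 ≤ h x)
    (hb : ∀ z, κ z ≠ 0 → nr (atJ D.J x) (at2 D.F x) (T z) ≤ c * h (psi G p (e • z) x)) :
    nr (atJ D.J x) (at2 D.F x) (∫ z, κ z • T z) ≤ c * a1 G p κ₀ e h x := by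
  have hi := (integrable_a1 (p := p) hG hK.adm0 hh x).const_mul c
  have e1 : c * a1 G p κ₀ e h x = ∫ z, c * (κ₀ z * h (psi G p (e • z) x)) := by
    rw [a1, integral_const_mul]
  rw [e1]
  refine nr_integral_le (D.sq x) (spos D x) hT hi (fun z => (halt z).smul _) (fun z => ?_)
  rw [nr_smul_pt, abs_of_nonneg (hK.nn z)]
  by_cases hz : κ z = 0
  · rw [hz, zero_mul]
    have h1 := (hK.nn z).trans (hK.le z)
    have h2 := h0 (psi G p (e • z) x)
    positivity
  · have h1 := hb z hz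
    have h2 := h0 (psi G p (e • z) x)
    calc κ z * nr (atJ D.J x) (at2 D.F x) (T z) ≤ κ z * (c * h (psi G p (e • z) x)) :=
          mul_le_mul_of_nonneg_left h1 (hK.nn z)
      _ ≤ κ₀ z * (c * h (psi G p (e • z) x)) := mul_le_mul_of_nonneg_right (hK.le z) (by positivity)
      _ = _ := by ring

/-- **the one-chart operator is good.** -/
theorem good_one (hG : G.K ⊆ (chartAt E4 p).target) (hP : Pt D G p ρ C) (he : 0 < e) (heρ : e ≤ ρ)
    (hK : KP G κ κ₀ e) : Comp.Good D e C (A1L hG hK.adm) (a1 G p κ₀ e) := by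
  have hC0 : 0 ≤ C := zero_le_one.trans hP.one_le
  have hnn : ∀ (b : F2 E4 M) x, 0 ≤ D.nr b x := fun b x => Real.sqrt_nonneg _
  refine ⟨fun b h hh hb x => ?_, fun P hPp h hh hb x v => ?_, fun b h hh hb x => ?_,
    fun b h hh hb x => ?_⟩
  · have h0 : ∀ x, 0 ≤ h x := fun x => (hnn b.1 x).trans (hb x)
    have e1 : D.nr (A1L hG hK.adm b : F2 E4 M) x = nr (atJ D.J x) (at2 D.F x)
      (∫ z, κ z • at2 (pullG G p (e • z) b.1) x) := rfl
    rw [e1]
    refine avg_bound hG hK (integrable_A1 hG hK.adm b.2 x)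
      (fun z v => pullG_alt (fun x => b.2.1 x) _ x v) hC0 hh h0 (fun z hz => ?_)
    have hm := KP.mem (hK := hK) he heρ hz
    exact (hP.bd _ hm.1 b.1 b.2.1 x).trans (mul_le_mul_of_nonneg_left (hb _) hC0)
  · -- pos
    have h0 : ∀ x, 0 ≤ h x := fun x => (hnn P.1 x).trans (hb x)
    have hF0 : 0 ≤ at2 D.F x v (atJ D.J x v) := Comp.F_nonneg D x v
    set Fv : ℝ := at2 D.F x v (atJ D.J x v) with hFv
    have hi := integrable_A1 (p := p) hG hK.adm P.2 x
    have e1 : at2 (A1L hG hK.adm P : F2 E4 M) x v (atJ D.J x v) =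
        ∫ z, κ z * at2 (pullG G p (e • z) P.1) x v (atJ D.J x v) := by
      have h1 := (evL v (atJ D.J x v)).integral_comp_comm hi
      have h2 : at2 (A1L hG hK.adm P : F2 E4 M) x v (atJ D.J x v) =
        evL v (atJ D.J x v) (∫ z, κ z • at2 (pullG G p (e • z) P.1) x) := rfl
      rw [h2, ← h1]
      rfl
    have hi1 : Integrable (fun z => κ z * at2 (pullG G p (e • z) P.1) x v (atJ D.J x v)) :=
      (evL v (atJ D.J x v)).integrable_comp hi
    have hi2 := (integrable_a1 (p := p) hG hK.adm0 hh x).const_mul (-(C * e ^ 2) * Fv)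
    have e2 : -(C * e ^ 2 * a1 G p κ₀ e h x) * Fv =
        ∫ z, (-(C * e ^ 2) * Fv) * (κ₀ z * h (psi G p (e • z) x)) := by
      rw [integral_const_mul]
      rw [a1]; ring
    show -(C * e ^ 2 * a1 G p κ₀ e h x) * Fv ≤ _
    rw [e1, e2]
    refine integral_mono hi2 hi1 (fun z => ?_)
    have h2 := h0 (psi G p (e • z) x)
    have hk0 : 0 ≤ κ₀ z := (hK.nn z).trans (hK.le z)
    have hpos : 0 ≤ C * e ^ 2 * Fv * (κ₀ z * h (psi G p (e • z) x)) := by positivity
    have e3 : -(C * e ^ 2) * Fv * (κ₀ z * h (psi G p (e • z) x)) =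
      -(C * e ^ 2 * Fv * (κ₀ z * h (psi G p (e • z) x))) := by ring
    simp only
    rw [e3]
    by_cases hz : κ z = 0
    · rw [hz, zero_mul]; linarith
    · have hm := KP.mem (hK := hK) he heρ hz
      have h3 := hP.pos _ hm.1 P.1 hPp x v
      have h4 : C * ‖e • z‖ ^ 2 * D.nr P.1 (psi G p (e • z) x) ≤
          C * e ^ 2 * h (psi G p (e • z) x) := by
        have := hb (psi G p (e • z) x)
        have := hnn P.1 (psi G p (e • z) x)
        have := hm.2
        gcongr
      have h5 : C * ‖e • z‖ ^ 2 * D.nr P.1 (psi G p (e • z) x) * Fv ≤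
          C * e ^ 2 * h (psi G p (e • z) x) * Fv := mul_le_mul_of_nonneg_right h4 hF0
      have h6 : -(C * e ^ 2 * h (psi G p (e • z) x) * Fv) ≤
          at2 (pullG G p (e • z) P.1) x v (atJ D.J x v) := by
        have e4 : -(C * ‖e • z‖ ^ 2 * D.nr P.1 (psi G p (e • z) x)) * Fv =
          -(C * ‖e • z‖ ^ 2 * D.nr P.1 (psi G p (e • z) x) * Fv) := by ring
        rw [e4] at h3
        linarith
      have h7 := mul_le_mul_of_nonneg_left h6 (hK.nn z)
      have h8 : κ z * (C * e ^ 2 * h (psi G p (e • z) x) * Fv) ≤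
          κ₀ z * (C * e ^ 2 * h (psi G p (e • z) x) * Fv) :=
        mul_le_mul_of_nonneg_right (hK.le z) (by positivity)
      have e5 : κ z * -(C * e ^ 2 * h (psi G p (e • z) x) * Fv) =
        -(κ z * (C * e ^ 2 * h (psi G p (e • z) x) * Fv)) := by ring
      have e6 : κ₀ z * (C * e ^ 2 * h (psi G p (e • z) x) * Fv) =
        C * e ^ 2 * Fv * (κ₀ z * h (psi G p (e • z) x)) := by ring
      linarith
  · -- leak1
    have h0 : ∀ x, 0 ≤ h x := fun x => (hnn b.1 x).trans (hb x)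
    have hi := integrable_A1 (p := p) hG hK.adm (D.pi' b).2 x
    have e1 : D.nr (D.pi'' (A1L hG hK.adm (D.pi' b)) : F2 E4 M) x = nr (atJ D.J x) (at2 D.F x)
        (∫ z, κ z • antip (atJ D.J x) (at2 (pullG G p (e • z) (D.pi' b).1) x)) := by
      have h1 := (antiL (atJ D.J x)).integral_comp_comm hi
      have h2 : D.nr (D.pi'' (A1L hG hK.adm (D.pi' b)) : F2 E4 M) x = nr (atJ D.J x) (at2 D.F x)
        (antiL (atJ D.J x) (∫ z, κ z • at2 (pullG G p (e • z) (D.pi' b).1) x)) := rfl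
      rw [h2, ← h1]
      congr 1
      refine integral_congr_ae (Eventually.of_forall fun z => ?_)
      simp only [map_smul, antiL_apply]
    have hi2 : Integrable
        (fun z => κ z • antip (atJ D.J x) (at2 (pullG G p (e • z) (D.pi' b).1) x)) := by
      have h1 := (antiL (atJ D.J x)).integrable_comp hi
      refine h1.congr (Eventually.of_forall fun z => ?_)
      simp only [map_smul, antiL_apply]
    rw [e1]
    refine avg_bound hG hK hi2 (fun z => ?_) (by positivity) hh h0 (fun z hz => ?_)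
    · have h1 : Alt (at2 (pullG G p (e • z) (D.pi' b).1) x) :=
        fun v => pullG_alt (fun x => (D.pi' b).2.1 x) _ x v
      exact h1.antip _
    · have hm := KP.mem (hK := hK) he heρ hz
      have h1 := hP.leak1 _ hm.1 b.1 b.2.1 x
      refine le_trans h1 ?_
      have h2 := hb (psi G p (e • z) x)
      have h3 := hnn b.1 (psi G p (e • z) x)
      have h4 := hm.2
      gcongr
  · -- leak2
    have h0 : ∀ x, 0 ≤ h x := fun x => (hnn b.1 x).trans (hb x)
    have hi := integrable_A1 (p := p) hG hK.adm (D.pi'' b).2 x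
    have e1 : D.nr (D.pi' (A1L hG hK.adm (D.pi'' b)) : F2 E4 M) x = nr (atJ D.J x) (at2 D.F x)
        (∫ z, κ z • invp (atJ D.J x) (at2 (pullG G p (e • z) (D.pi'' b).1) x)) := by
      have h1 := (invL (atJ D.J x)).integral_comp_comm hi
      have h2 : D.nr (D.pi' (A1L hG hK.adm (D.pi'' b)) : F2 E4 M) x = nr (atJ D.J x) (at2 D.F x)
        (invL (atJ D.J x) (∫ z, κ z • at2 (pullG G p (e • z) (D.pi'' b).1) x)) := rfl
      rw [h2, ← h1]
      congr 1
      refine integral_congr_ae (Eventually.of_forall fun z => ?_)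
      simp only [map_smul, invL_apply]
    have hi2 : Integrable
        (fun z => κ z • invp (atJ D.J x) (at2 (pullG G p (e • z) (D.pi'' b).1) x)) := by
      have h1 := (invL (atJ D.J x)).integrable_comp hi
      refine h1.congr (Eventually.of_forall fun z => ?_)
      simp only [map_smul, invL_apply]
    rw [e1]
    refine avg_bound hG hK hi2 (fun z => ?_) (by positivity) hh h0 (fun z hz => ?_)
    · have h1 : Alt (at2 (pullG G p (e • z) (D.pi'' b).1) x) :=
        fun v => pullG_alt (fun x => (D.pi'' b).2.1 x) _ x v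
      exact h1.invp _
    · have hm := KP.mem (hK := hK) he heρ hz
      have h1 := hP.leak2 _ hm.1 b.1 b.2.1 x
      refine le_trans h1 ?_
      have h2 := hb (psi G p (e • z) x)
      have h3 := hnn b.1 (psi G p (e • z) x)
      have h4 := hm.2
      gcongr

/-- **the one-chart lower bound.** -/
theorem low_one (hG : G.K ⊆ (chartAt E4 p).target) (hP : Pt D G p ρ C) (he : 0 < e) (heρ : e ≤ ρ)
    (hK : KP G κ κ e) : Comp.Low D e C (A1L hG hK.adm) (a1 G p κ e) := by
  have hC0 : 0 ≤ C := zero_le_one.trans hP.one_le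
  intro f hf hf0 b hb x v
  have hF0 : 0 ≤ at2 D.F x v (atJ D.J x v) := Comp.F_nonneg D x v
  set Fv : ℝ := at2 D.F x v (atJ D.J x v) with hFv
  have hi := integrable_A1 (p := p) hG hK.adm b.2 x
  have e1 : at2 (A1L hG hK.adm b : F2 E4 M) x v (atJ D.J x v) =
      ∫ z, κ z * at2 (pullG G p (e • z) b.1) x v (atJ D.J x v) := by
    have h1 := (evL v (atJ D.J x v)).integral_comp_comm hi
    have h2 : at2 (A1L hG hK.adm b : F2 E4 M) x v (atJ D.J x v) =
      evL v (atJ D.J x v) (∫ z, κ z • at2 (pullG G p (e • z) b.1) x) := rfl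
    rw [h2, ← h1]
    rfl
  have hi1 : Integrable (fun z => κ z * at2 (pullG G p (e • z) b.1) x v (atJ D.J x v)) :=
    (evL v (atJ D.J x v)).integrable_comp hi
  have hi2 := (integrable_a1 (p := p) hG hK.adm hf x).const_mul ((1 - C * e) * Fv)
  have e2 : (1 - C * e) * a1 G p κ e f x * Fv =
      ∫ z, ((1 - C * e) * Fv) * (κ z * f (psi G p (e • z) x)) := by
    rw [integral_const_mul]
    rw [a1]; ring
  show (1 - C * e) * a1 G p κ e f x * Fv ≤ _
  rw [e1, e2]
  refine integral_mono hi2 hi1 (fun z => ?_)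
  simp only
  by_cases hz : κ z = 0
  · rw [hz]; simp
  · have hm := KP.mem (hK := hK) he heρ hz
    have h3 := hP.low _ hm.1 x v
    have h4 : (1 - C * e) * Fv ≤ at2 (pullG G p (e • z) D.F) x v (atJ D.J x v) := by
      refine le_trans (mul_le_mul_of_nonneg_right ?_ hF0) h3
      have := mul_le_mul_of_nonneg_left hm.2 hC0
      linarith
    have h5 : at2 (pullG G p (e • z) b.1) x v (atJ D.J x v) =
        f (psi G p (e • z) x) * at2 (pullG G p (e • z) D.F) x v (atJ D.J x v) := by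
      rw [hb, pullG_fmul]; rfl
    rw [h5]
    have h6 := mul_le_mul_of_nonneg_left h4 (hf0 (psi G p (e • z) x))
    have h7 := mul_le_mul_of_nonneg_left h6 (hK.nn z)
    calc (1 - C * e) * Fv * (κ z * f (psi G p (e • z) x)) =
          κ z * (f (psi G p (e • z) x) * ((1 - C * e) * Fv)) := by ring
      _ ≤ _ := h7

end one

theorem Pt.mono {G : Fam E4} {p : M} {ρ C C' : ℝ} (h : Pt D G p ρ C) (hC : C ≤ C') :
    Pt D G p ρ C' := by
  have hnn : ∀ (b : F2 E4 M) x, 0 ≤ D.nr b x := fun b x => Real.sqrt_nonneg _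
  refine ⟨h.one_le.trans hC, fun z hz b hb x => ?_, fun z hz b hb x => ?_, fun z hz b hb x => ?_,
    fun z hz P hP x v => ?_, fun z hz x v => ?_⟩
  · exact (h.bd z hz b hb x).trans (mul_le_mul_of_nonneg_right hC (hnn _ _))
  · exact (h.leak1 z hz b hb x).trans (mul_le_mul_of_nonneg_right
      (mul_le_mul_of_nonneg_right hC (norm_nonneg _)) (hnn _ _))
  · exact (h.leak2 z hz b hb x).trans (mul_le_mul_of_nonneg_right
      (mul_le_mul_of_nonneg_right hC (norm_nonneg _)) (hnn _ _))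
  · refine le_trans ?_ (h.pos z hz P hP x v)
    refine mul_le_mul_of_nonneg_right (neg_le_neg ?_) (Comp.F_nonneg D x v)
    have := hnn P (psi G p z x)
    gcongr
  · refine le_trans ?_ (h.low z hz x v)
    refine mul_le_mul_of_nonneg_right ?_ (Comp.F_nonneg D x v)
    have := mul_le_mul_of_nonneg_right hC (norm_nonneg z)
    linarith

/-! ### the system -/

theorem avgF_f1 (S : Sys M) {e : ℝ} (h : S.Ok e) (i : Fin S.n) : Comp.AvgF (S.f1 e i) where
  smooth f hf := Sys.smoothF_f1 h i hf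
  nonneg f hf h0 := Sys.f1_nonneg e i h0
  one x := by rw [Sys.f1_const]
  add f g hf hg x := by rw [Sys.f1_add h i hf hg]
  smul r f hf x := by rw [Sys.f1_smul]

theorem opL_eq_compL (S : Sys M) (e : ℝ) (q : Fin S.n → KF) (l : List (Fin S.n)) :
    S.opL e q l = Comp.compL (fun i => S.op1 e i (q i).1) l := rfl

theorem exists_sys (D : Dat M) (S : Sys M) : ∃ (e1 C : ℝ), 0 < e1 ∧ e1 ≤ 1 ∧ 1 ≤ C ∧
    (∀ e, 0 < e → e ≤ e1 → S.Ok e) ∧ ∀ i, Pt D (S.G i) (S.p i) e1 C := by
  obtain ⟨e1, he1, he1', hok⟩ := S.exists_ok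
  have h1 : ∀ i, ∃ C, Pt D (S.G i) (S.p i) e1 C := fun i =>
    exists_pt D (S.hG i) he1.le ((hok e1 he1 le_rfl).2 i)
  choose C hC using h1
  refine ⟨e1, 1 + ∑ i, |C i|, he1, he1', ?_, hok, fun i => (hC i).mono ?_⟩
  · have : 0 ≤ ∑ i, |C i| := Finset.sum_nonneg fun i _ => abs_nonneg _
    linarith
  · have h2 : |C i| ≤ ∑ i, |C i| :=
      Finset.single_le_sum (f := fun i => |C i|) (fun i _ => abs_nonneg _) (Finset.mem_univ i)
    have := le_abs_self (C i)
    linarith

theorem good_op1 {S : Sys M} {e e1 C : ℝ} (he : 0 < e) (hee : e ≤ e1) (hok : S.Ok e) {i : Fin S.n}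
    (hP : Pt D (S.G i) (S.p i) e1 C) {q : Fin S.n → KF} (hq : q ∈ ClpK S.n 0) :
    Comp.Good D e C (S.op1 e i (q i).1) (S.f1 e i) := by
  have hK : KP (S.G i) (kk (q i).1) kap0 e :=
    { adm := hok.adm_kk i (q i).2
      adm0 := hok.adm_kap0 i
      nn := ClpK.kk_nonneg hq i
      le := ClpK.kk_le hq i
      small := fun z hz => (kk_ne hz).le }
  rw [Sys.op1_eq hok i (q i).2]
  exact good_one (S.hG i) hP he hee hK

theorem low_op1 {S : Sys M} {e e1 C : ℝ} (he : 0 < e) (hee : e ≤ e1) (hok : S.Ok e) {i : Fin S.n}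
    (hP : Pt D (S.G i) (S.p i) e1 C) :
    Comp.Low D e C (S.op1 e i (oneK S.n i).1) (S.f1 e i) := by
  have hk : kk (oneK S.n i).1 = kap0 := kk_one
  have hK : KP (S.G i) (kk (oneK S.n i).1) (kk (oneK S.n i).1) e :=
    { adm := hok.adm_kk i (oneK S.n i).2
      adm0 := hok.adm_kk i (oneK S.n i).2
      nn := fun z => by rw [hk]; exact kap0_nonneg z
      le := fun z => le_rfl
      small := fun z hz => (kk_ne hz).le }
  rw [Sys.op1_eq hok i (oneK S.n i).2]
  have h := low_one (S.hG i) hP he hee hK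
  have e1 : S.f1 e i = a1 (S.G i) (S.p i) (kk (oneK S.n i).1) e := by
    rw [hk]; rfl
  rw [e1]
  exact h

theorem good_A {S : Sys M} {e e1 C : ℝ} (he : 0 < e) (hee : e ≤ e1) (he1 : e1 ≤ 1) (hC : 1 ≤ C)
    (hok : S.Ok e) (hP : ∀ i, Pt D (S.G i) (S.p i) e1 C) {q : Fin S.n → KF}
    (hq : q ∈ ClpK S.n 0) :
    Comp.Good D e ((6 * C) ^ (List.finRange S.n).length) (S.A e q) (S.a e) :=
  Comp.Good.list (List.finRange S.n) (fun i _ => avgF_f1 S hok i) he.le (hee.trans he1)
    (zero_le_one.trans hC) (fun i _ => good_op1 he hee hok (hP i) hq)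

theorem low_A {S : Sys M} {e e1 C : ℝ} (he : 0 < e) (hee : e ≤ e1) (he1 : e1 ≤ 1) (hC : 1 ≤ C)
    (hok : S.Ok e) (hP : ∀ i, Pt D (S.G i) (S.p i) e1 C) :
    Comp.Low D e ((10 * C) ^ (List.finRange S.n).length) (S.A e (oneK S.n)) (S.a e) :=
  Comp.Low.list (List.finRange S.n) (fun i _ => avgF_f1 S hok i) he.le (hee.trans he1) hC
    (fun i _ => good_op1 he hee hok (hP i) (oneK_mem S.n 0))
    (fun i _ => low_op1 he hee hok (hP i))

/-- **field `bd`.** -/
theorem fBd (D : Dat M) (S : Sys M) : FBd D S := by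
  obtain ⟨e1, C, h1, h2, h3, hok, hP⟩ := exists_sys D S
  exact ⟨e1, h1, _, fun e p he hee hp => (good_A he hee h2 h3 (hok e he hee) hP hp).bd⟩

/-- **field `pos`.** -/
theorem fPos (D : Dat M) (S : Sys M) : FPos D S := by
  obtain ⟨e1, C, h1, h2, h3, hok, hP⟩ := exists_sys D S
  exact ⟨e1, h1, _, fun e p he hee hp => (good_A he hee h2 h3 (hok e he hee) hP hp).pos⟩

/-- **field `leak1`.** -/
theorem fLeak1 (D : Dat M) (S : Sys M) : FLeak1 D S := by
  obtain ⟨e1, C, h1, h2, h3, hok, hP⟩ := exists_sys D S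
  exact ⟨e1, h1, _, fun e p he hee hp => (good_A he hee h2 h3 (hok e he hee) hP hp).leak1⟩

/-- **field `leak2`.** -/
theorem fLeak2 (D : Dat M) (S : Sys M) : FLeak2 D S := by
  obtain ⟨e1, C, h1, h2, h3, hok, hP⟩ := exists_sys D S
  exact ⟨e1, h1, _, fun e p he hee hp => (good_A he hee h2 h3 (hok e he hee) hP hp).leak2⟩

/-- **field `low`.** -/
theorem fLow (D : Dat M) (S : Sys M) : FLow D S := by
  obtain ⟨e1, C, h1, h2, h3, hok, hP⟩ := exists_sys D S
  exact ⟨e1, h1, _, fun e he hee => low_A he hee h2 h3 (hok e he hee) hP⟩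

end

end Crest.Agent.R240.Q4
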