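import Mathlib
import Crest.Agent.R240.Lin1

/-!
Row 240, block SM, part Sm3a (helper375): change of variables in `E4` for the wedge pairing.
-/

set_option autoImplicit false

open Set MeasureTheory

namespace Crest.Agent.R240.Sm

noncomputable section

/-- **Change of variables** for the wedge pairing under an orientation preserving
diffeomorphism `τ` of an open set `Ω`; `σ` is a sign function invariant under `τ`. -/
theorem integral_W_pull {Ω : Set E4} (hΩ : MeasurableSet Ω) {τ : E4 → E4}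
    {τ' : E4 → E4 →L[ℝ] E4} (hτ' : ∀ y ∈ Ω, HasFDerivAt τ (τ' y) y) (hinj : InjOn τ Ω)
    (himg : τ '' Ω = Ω) (hdet : ∀ y ∈ Ω, 0 < LinearMap.det (τ' y : E4 →ₗ[ℝ] E4))
    {σ : E4 → ℝ} (hσ : ∀ y ∈ Ω, σ (τ y) = σ y) {a b : E4 → Bil}
    (ha : ∀ y ∈ Ω, Alt (a y)) (hb : ∀ y ∈ Ω, Alt (b y)) :
    ∫ y in Ω, σ y * W (pull (τ' y) (a (τ y))) (pull (τ' y) (b (τ y))) =
      ∫ y in Ω, σ y * W (a y) (b y) := by
  have h1 : ∫ y in Ω, σ y * W (a y) (b y) = ∫ y in τ '' Ω, σ y * W (a y) (b y) := by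
    rw [himg]
  rw [h1, integral_image_eq_integral_abs_det_fderiv_smul volume hΩ
    (fun y hy => (hτ' y hy).hasFDerivWithinAt) hinj]
  apply setIntegral_congr_fun hΩ
  intro y hy
  have hty : τ y ∈ Ω := by rw [← himg]; exact mem_image_of_mem _ hy
  have hd : |(τ' y).det| = LinearMap.det (τ' y : E4 →ₗ[ℝ] E4) := by
    rw [ContinuousLinearMap.det, abs_of_pos (hdet y hy)]
  simp only [smul_eq_mul]
  rw [W_pull (ha _ hty) (hb _ hty), hd, hσ y hy]
  ring

end

end Crest.Agent.R240.Sm
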