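import Mathlib
import Crest.Agent.R240.TopDefs
import Crest.Agent.R240.Sm2

/-!
# Row 240, block R (smoothing): one-forms (helper461)

The pull-back `pull1 G p z s` of one-forms by the diffeomorphisms `psi G p z`, its joint
smoothness, and the naturality of the exterior derivative: the pull-back of an exact two-form is
exact.
-/

set_option autoImplicit false
set_option maxSynthPendingDepth 3
set_option linter.unusedSectionVars false

open Set Function Filter Metric Bundle
open scoped Manifold ContDiff Topology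

namespace Crest.Agent.R240.Sm

open Crest.Agent.R240.Ch

noncomputable section

section Local

variable {E : Type*} [NormedAddCommGroup E] [NormedSpace ℝ E]

/-- naturality of the exterior derivative of one-forms on a normed space. -/
lemma d1_comp {σ : E → E →L[ℝ] ℝ} {f : E → E} {y : E}
    (hσ : DifferentiableAt ℝ σ (f y)) (hf : ContDiffAt ℝ 2 f y) :
    d1 (fun y => (σ (f y)).comp (fderiv ℝ f y)) y = pb (d1 σ (f y)) (fderiv ℝ f y) := by
  have hf1 : DifferentiableAt ℝ f y := hf.differentiableAt (by norm_num)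
  have hf2 : DifferentiableAt ℝ (fderiv ℝ f) y :=
    (hf.fderiv_right (m := 1) (by norm_num)).differentiableAt (by norm_num)
  have hs : IsSymmSndFDerivAt ℝ f y := by
    refine ContDiffAt.isSymmSndFDerivAt hf ?_
    simp
  have h1 : DifferentiableAt ℝ (fun y => σ (f y)) y := hσ.comp y hf1
  have hfd : ∀ u, fderiv ℝ (fun y => σ (f y)) y u = fderiv ℝ σ (f y) (fderiv ℝ f y u) := by
    intro u
    have := fderiv_comp y hσ hf1
    have h2 : (σ ∘ f) = fun y => σ (f y) := rfl
    rw [← h2, this]
    rfl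
  have key : ∀ u v, fderiv ℝ (fun y => (σ (f y)).comp (fderiv ℝ f y)) y u v =
      fderiv ℝ σ (f y) (fderiv ℝ f y u) (fderiv ℝ f y v)
        + σ (f y) (fderiv ℝ (fderiv ℝ f) y u v) := by
    intro u v
    have h3 := fderiv_clm_comp h1 hf2
    rw [h3]
    simp only [add_apply, ContinuousLinearMap.comp_apply, ContinuousLinearMap.compL_apply,
      ContinuousLinearMap.flip_apply, hfd]
    ring
  ext u v
  rw [d1_apply, key, key, pb_apply, d1_apply, hs.eq u v]
  ring

lemma d1_congr {σ τ : E → E →L[ℝ] ℝ} {y : E} (h : σ =ᶠ[𝓝 y] τ) : d1 σ y = d1 τ y := by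
  rw [d1, d1, h.fderiv_eq]

end Local

section Defs

variable {E : Type*} [NormedAddCommGroup E] [NormedSpace ℝ E]
variable {M : Type*} [TopologicalSpace M] [ChartedSpace E M] [IsManifold 𝓘(ℝ, E) ∞ M]
variable (G : Fam E) (p : M)

open Classical in
/-- the pull-back of a one-form by `psi G p z`. -/
def pull1 (z : E) (s : F1 E M) : F1 E M := fun x =>
  (if x ∈ (chartAt E p).source then
    (rep1 p s (G.g z (chartAt E p x))).comp ((G.dg z (chartAt E p x)).comp (tcc x p x))
   else at1 s x : E →L[ℝ] ℝ)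

end Defs

section Basic

variable {E : Type*} [NormedAddCommGroup E] [NormedSpace ℝ E]
variable {M : Type*} [TopologicalSpace M] [ChartedSpace E M] [IsManifold 𝓘(ℝ, E) ∞ M]
variable {G : Fam E} {p : M}

lemma at1_pull1_of_mem {x : M} (hx : x ∈ (chartAt E p).source) (z : E) (s : F1 E M) :
    at1 (pull1 G p z s) x =
      (rep1 p s (G.g z (chartAt E p x))).comp ((G.dg z (chartAt E p x)).comp (tcc x p x)) :=
  if_pos hx

lemma at1_pull1_of_notMem {x : M} (hx : x ∉ (chartAt E p).source) (z : E) (s : F1 E M) :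
    at1 (pull1 G p z s) x = at1 s x := if_neg hx

lemma rep1_eq_comp (q : M) (s : F1 E M) (y : E) :
    rep1 q s y = (at1 s ((chartAt E q).symm y)).comp
      (tcc q ((chartAt E q).symm y) ((chartAt E q).symm y)) := rfl

lemma at1_eq_comp {q x : M} (hx : x ∈ (chartAt E q).source) (s : F1 E M) :
    at1 s x = (rep1 q s (chartAt E q x)).comp (tcc x q x) := by
  ext u
  exact apply_eq_rep1 hx s u

/-- **the pull-back in the chart at `p`.** -/
lemma rep1_pull1 {y : E} (hy : y ∈ (chartAt E p).target) (z : E) (s : F1 E M) :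
    rep1 p (pull1 G p z s) y = (rep1 p s (G.g z y)).comp (G.dg z y) := by
  rw [rep1_eq_comp, at1_pull1_of_mem (symm_mem hy), (chartAt E p).right_inv hy]
  ext u
  simp only [ContinuousLinearMap.comp_apply]
  rw [tcc_cancel (symm_mem hy)]

/-- off the compact set the pull-back does not change anything. -/
lemma pull1_off {z : E} (hz : z ∈ ball (0 : E) G.r) {x : M} (hx : x ∉ KM G p) (s : F1 E M) :
    at1 (pull1 G p z s) x = at1 s x := by
  by_cases h : x ∈ (chartAt E p).source
  · have h1 := notMem_K_of h hx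
    rw [at1_pull1_of_mem h, G.id_off z hz _ h1, G.dg_id_off hz h1, at1_eq_comp h s]
    rfl
  · exact at1_pull1_of_notMem h z s

/-- change of chart for representations. -/
lemma rep1_change {q p : M} {y : E} (hy : y ∈ (chartAt E q).target)
    (hp : (chartAt E q).symm y ∈ (chartAt E p).source) (s : F1 E M) :
    rep1 q s y = (rep1 p s (Ch.trans (E := E) q p y)).comp
      (fderiv ℝ (Ch.trans (E := E) q p) y) := by
  ext u
  have h1 := rep1_trans (symm_mem hy) hp s u
  rw [(chartAt E q).right_inv hy, tcc_eq_fderiv_trans, (chartAt E q).right_inv hy] at h1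
  exact h1

end Basic

section Smooth

variable {E : Type*} [NormedAddCommGroup E] [NormedSpace ℝ E]
variable {M : Type*} [TopologicalSpace M] [ChartedSpace E M] [IsManifold 𝓘(ℝ, E) ∞ M]
variable {G : Fam E} {p : M}
variable {Z : Type*} [NormedAddCommGroup Z] [NormedSpace ℝ Z]

omit [NormedSpace ℝ E] [IsManifold 𝓘(ℝ, E) ∞ M] in
lemma eventually_overlap {q p : M} {y : E} (hy : y ∈ (chartAt E q).target)
    (hp : (chartAt E q).symm y ∈ (chartAt E p).source) :
    ∀ᶠ y' in 𝓝 y, y' ∈ (chartAt E q).target ∧ (chartAt E q).symm y' ∈ (chartAt E p).source := by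
  have ho : IsOpen ((chartAt E q).target ∩ (chartAt E q).symm ⁻¹' (chartAt E p).source) :=
    (chartAt E q).isOpen_inter_preimage_symm (chartAt E p).open_source
  filter_upwards [ho.mem_nhds ⟨hy, hp⟩] with y' hy' using hy'

/-- joint smoothness at a point of a family of one-forms does not depend on the chart. -/
lemma jsmooth1_change {β : Z → F1 E M} {q p x : M} (hq : x ∈ (chartAt E q).source)
    (hp : x ∈ (chartAt E p).source) {z : Z}
    (h : ContDiffAt ℝ ∞ (fun w : Z × E => rep1 p (β w.1) w.2) (z, chartAt E p x)) :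
    ContDiffAt ℝ ∞ (fun w : Z × E => rep1 q (β w.1) w.2) (z, chartAt E q x) := by
  have hy : chartAt E q x ∈ (chartAt E q).target := (chartAt E q).map_source hq
  have hpx : (chartAt E q).symm (chartAt E q x) ∈ (chartAt E p).source := by
    rw [(chartAt E q).left_inv hq]; exact hp
  have ht := trans_contDiffAt hy hpx
  have ht' : ContDiffAt ℝ ∞ (fderiv ℝ (Ch.trans (E := E) q p)) (chartAt E q x) :=
    ht.fderiv_right (by simp)
  have htx : Ch.trans (E := E) q p (chartAt E q x) = chartAt E p x := trans_apply hq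
  have h1 : ContDiffAt ℝ ∞ (fun w : Z × E => rep1 p (β w.1) (Ch.trans (E := E) q p w.2))
      (z, chartAt E q x) := by
    have h2 : ContDiffAt ℝ ∞ (fun w : Z × E => (w.1, Ch.trans (E := E) q p w.2))
        (z, chartAt E q x) :=
      contDiffAt_fst.prodMk (ContDiffAt.comp (z, chartAt E q x) (g := Ch.trans (E := E) q p)
        (f := fun w : Z × E => w.2) ht contDiffAt_snd)
    have h3 : ContDiffAt ℝ ∞ (fun w : Z × E => rep1 p (β w.1) w.2)
        ((fun w : Z × E => (w.1, Ch.trans (E := E) q p w.2)) (z, chartAt E q x)) := by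
      simp only [htx]; exact h
    exact ContDiffAt.comp (z, chartAt E q x) (g := fun w : Z × E => rep1 p (β w.1) w.2)
      (f := fun w : Z × E => (w.1, Ch.trans (E := E) q p w.2)) h3 h2
  have h4 : ContDiffAt ℝ ∞ (fun w : Z × E => fderiv ℝ (Ch.trans (E := E) q p) w.2)
      (z, chartAt E q x) :=
    ContDiffAt.comp (z, chartAt E q x) (g := fderiv ℝ (Ch.trans (E := E) q p))
      (f := fun w : Z × E => w.2) ht' contDiffAt_snd
  have h5 := h1.clm_comp h4
  refine h5.congr_of_eventuallyEq ?_
  have hev2 : ∀ᶠ w : Z × E in 𝓝 (z, chartAt E q x), w.2 ∈ (chartAt E q).target ∧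
      (chartAt E q).symm w.2 ∈ (chartAt E p).source :=
    (continuous_snd.tendsto (z, chartAt E q x)).eventually (eventually_overlap hy hpx)
  filter_upwards [hev2] with w hw
  exact rep1_change hw.1 hw.2 (β w.1)

/-- **joint smoothness of the pull-back of one-forms** in all charts. -/
theorem contDiffOn_rep1_pull1 [T2Space M] (hG : G.K ⊆ (chartAt E p).target) {s : F1 E M}
    (hs : Smooth1 s) (q : M) :
    ContDiffOn ℝ ∞ (fun w : E × E => rep1 q (pull1 G p w.1 s) w.2)
      (ball 0 G.r ×ˢ (chartAt E q).target) := by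
  rintro ⟨z, y⟩ ⟨hz, hy⟩
  apply ContDiffAt.contDiffWithinAt
  have hbz : ball (0 : E) G.r ∈ 𝓝 z := isOpen_ball.mem_nhds hz
  by_cases hx : (chartAt E q).symm y ∈ (chartAt E p).source
  · have h := jsmooth1_change (β := fun z => pull1 G p z s) (symm_mem hy) hx (z := z) ?_
    · rwa [(chartAt E q).right_inv hy] at h
    set t := chartAt E p ((chartAt E q).symm y) with ht
    have htt : t ∈ (chartAt E p).target := (chartAt E p).map_source hx
    have hgt : G.g z t ∈ (chartAt E p).target := G.mem_of_mem hz hG htt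
    have hmem : (z, t) ∈ (ball (0 : E) G.r ×ˢ (univ : Set E)) := ⟨hz, mem_univ _⟩
    have ho : (ball (0 : E) G.r ×ˢ (univ : Set E)) ∈ 𝓝 (z, t) :=
      (isOpen_ball.prod isOpen_univ).mem_nhds hmem
    have h1 : ContDiffAt ℝ ∞ (fun w : E × E => G.g w.1 w.2) (z, t) :=
      (G.smooth (z, t) hmem).contDiffAt ho
    have h2 : ContDiffAt ℝ ∞ (fun w : E × E => G.dg w.1 w.2) (z, t) :=
      (G.contDiffOn_dg (z, t) hmem).contDiffAt ho
    have h3 : ContDiffAt ℝ ∞ (rep1 p s) (G.g z t) := contDiffOn_chart_iff.1 (hs p) _ hgt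
    have h4 : ContDiffAt ℝ ∞ (fun w : E × E => rep1 p s (G.g w.1 w.2)) (z, t) :=
      ContDiffAt.comp (z, t) (g := rep1 p s) (f := fun w : E × E => G.g w.1 w.2) h3 h1
    have h5 := h4.clm_comp h2
    refine h5.congr_of_eventuallyEq ?_
    have h6 : ∀ᶠ w : E × E in 𝓝 (z, t), w.2 ∈ (chartAt E p).target :=
      (continuous_snd.tendsto (z, t)).eventually ((chartAt E p).open_target.mem_nhds htt)
    filter_upwards [h6] with w hw
    exact rep1_pull1 hw w.1 s
  · have hx' : (chartAt E q).symm y ∉ KM G p := fun h => hx (KM_subset hG h)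
    have h1 : ContDiffAt ℝ ∞ (fun w : E × E => rep1 q s w.2) (z, y) :=
      ContDiffAt.comp (z, y) (g := rep1 q s) (f := fun w : E × E => w.2)
        (contDiffOn_chart_iff.1 (hs q) y hy) contDiffAt_snd
    refine h1.congr_of_eventuallyEq ?_
    have h2 : ∀ᶠ y' in 𝓝 y, (chartAt E q).symm y' ∉ KM G p :=
      ((chartAt E q).continuousAt_symm hy).preimage_mem_nhds
        ((isClosed_KM hG).isOpen_compl.mem_nhds hx')
    have h3 : ∀ᶠ w : E × E in 𝓝 (z, y), (chartAt E q).symm w.2 ∉ KM G p :=
      (continuous_snd.tendsto (z, y)).eventually h2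
    have h4 : ∀ᶠ w : E × E in 𝓝 (z, y), w.1 ∈ ball (0 : E) G.r :=
      (continuous_fst.tendsto (z, y)).eventually hbz
    filter_upwards [h3, h4] with w hw hw2
    rw [rep1_eq_comp, rep1_eq_comp, pull1_off hw2 hw]

theorem smooth1_pull1 [T2Space M] (hG : G.K ⊆ (chartAt E p).target) {s : F1 E M}
    (hs : Smooth1 s) {z : E} (hz : z ∈ ball (0 : E) G.r) : Smooth1 (pull1 G p z s) := by
  intro q y hy
  have h := (contDiffOn_rep1_pull1 hG hs q (z, y) ⟨hz, hy⟩).contDiffAt
    ((isOpen_ball.prod (chartAt E q).open_target).mem_nhds ⟨hz, hy⟩)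
  exact (ContDiffAt.comp y (g := fun w : E × E => rep1 q (pull1 G p w.1 s) w.2)
    (f := fun y => (z, y)) h (contDiffAt_const.prodMk contDiffAt_id)).contDiffWithinAt

lemma Smooth1.diff {s : F1 E M} (hs : Smooth1 s) {p : M} {y : E} (hy : y ∈ (chartAt E p).target) :
    DifferentiableAt ℝ (rep1 p s) y :=
  (contDiffOn_chart_iff.1 (hs p) y hy).differentiableAt (by simp)

/-- change of charts for the exterior derivative of a one-form. -/
lemma d1_rep1_change {q p : M} {y : E} (hy : y ∈ (chartAt E q).target)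
    (hp : (chartAt E q).symm y ∈ (chartAt E p).source) {s : F1 E M} (hs : Smooth1 s) :
    d1 (rep1 q s) y = pb (d1 (rep1 p s) (Ch.trans (E := E) q p y))
      (fderiv ℝ (Ch.trans (E := E) q p) y) := by
  have hev : rep1 q s =ᶠ[𝓝 y] fun y => (rep1 p s (Ch.trans (E := E) q p y)).comp
      (fderiv ℝ (Ch.trans (E := E) q p) y) := by
    filter_upwards [eventually_overlap hy hp] with y' hy'
    exact rep1_change hy'.1 hy'.2 s
  rw [d1_congr hev]
  have ht := trans_contDiffAt hy hp
  refine d1_comp (Smooth1.diff hs ?_) (ht.of_le ?_)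
  · exact (chartAt E p).map_source hp
  · exact_mod_cast ENat.LEInfty.out

/-- if `b = ds` at a point in one chart then it holds in all charts. -/
lemma ex_change {q p : M} {y : E} (hy : y ∈ (chartAt E q).target)
    (hp : (chartAt E q).symm y ∈ (chartAt E p).source) {s : F1 E M} (hs : Smooth1 s) {b : F2 E M}
    (h : rep p b (Ch.trans (E := E) q p y) = d1 (rep1 p s) (Ch.trans (E := E) q p y)) :
    rep q b y = d1 (rep1 q s) y := by
  rw [rep_change hy hp, h, d1_rep1_change hy hp hs]

/-- `b = ds`, in all charts. -/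
def ExBy (b : F2 E M) (s : F1 E M) : Prop :=
  ∀ q : M, ∀ y ∈ (chartAt E q).target, rep q b y = d1 (rep1 q s) y

/-- **the pull-back of an exact form is exact.** -/
theorem ExBy.pullG [T2Space M] (hG : G.K ⊆ (chartAt E p).target) {b : F2 E M} {s : F1 E M}
    (hs : Smooth1 s) (h : ExBy b s) {z : E} (hz : z ∈ ball (0 : E) G.r) :
    ExBy (pullG G p z b) (pull1 G p z s) := by
  intro q y hy
  have hs' : Smooth1 (pull1 G p z s) := smooth1_pull1 hG hs hz
  by_cases hx : (chartAt E q).symm y ∈ (chartAt E p).source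
  · refine ex_change hy hx hs' ?_
    set t := Ch.trans (E := E) q p y with ht
    have htt : t ∈ (chartAt E p).target := (chartAt E p).map_source hx
    have hgt : G.g z t ∈ (chartAt E p).target := G.mem_of_mem hz hG htt
    have hev : rep1 p (pull1 G p z s) =ᶠ[𝓝 t] fun t => (rep1 p s (G.g z t)).comp
        (fderiv ℝ (G.g z) t) := by
      filter_upwards [(chartAt E p).open_target.mem_nhds htt] with t' ht'
      exact rep1_pull1 ht' z s
    rw [rep_pullG htt, d1_congr hev, h p _ hgt,
      d1_comp (Smooth1.diff hs hgt) ((G.contDiff_g hz).contDiffAt.of_le ?_)]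
    · rfl
    · exact_mod_cast ENat.LEInfty.out
  · have hx' : (chartAt E q).symm y ∉ KM G p := fun h => hx (KM_subset hG h)
    have hev : rep1 q (pull1 G p z s) =ᶠ[𝓝 y] rep1 q s := by
      have h2 : ∀ᶠ y' in 𝓝 y, (chartAt E q).symm y' ∉ KM G p :=
        ((chartAt E q).continuousAt_symm hy).preimage_mem_nhds
          ((isClosed_KM hG).isOpen_compl.mem_nhds hx')
      filter_upwards [h2] with y' hy'
      rw [rep1_eq_comp, rep1_eq_comp, pull1_off hz hy']
    rw [d1_congr hev, ← h q y hy, rep_eq_pb, rep_eq_pb, pullG_off hz hx']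

end Smooth

end

end Crest.Agent.R240.Sm
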