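import Mathlib
import Crest.Agent.R240.SmOne
import Crest.Agent.R240.SmAvg

/-!
# Row 240, block R (smoothing): averages of exact forms are exact (helper461)

`(S1)` of note 10738, for one chart: `isEx_avg_pullG`.
-/

set_option autoImplicit false
set_option maxSynthPendingDepth 3
set_option linter.unusedSectionVars false

open Set Function Filter Metric Bundle MeasureTheory
open scoped Manifold ContDiff Topology

namespace Crest.Agent.R240.Sm

open Crest.Agent.R240.Ch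

noncomputable section

variable {M : Type*} [TopologicalSpace M] [ChartedSpace E4 M] [IsManifold 𝓘(ℝ, E4) ∞ M]

section Fam1

variable {Z : Type*} [NormedAddCommGroup Z] [NormedSpace ℝ Z]

/-- a jointly smooth family of one-forms, over the open parameter set `U`. -/
def JSm1 (U : Set Z) (σ : Z → F1 E4 M) : Prop :=
  ∀ q : M, ContDiffOn ℝ ∞ (fun w : Z × E4 => rep1 q (σ w.1) w.2) (U ×ˢ (chartAt E4 q).target)

lemma JSm1.continuousOn_at1 {U : Set Z} {σ : Z → F1 E4 M} (hσ : JSm1 U σ) (x : M) :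
    ContinuousOn (fun z => at1 (σ z) x) U := by
  have h1 : ContinuousOn (fun z => rep1 x (σ z) (chartAt E4 x x)) U :=
    (hσ x).continuousOn.comp (f := fun z => ((z, chartAt E4 x x) : Z × E4)) (by fun_prop)
      (fun z hz => ⟨hz, mem_chart_target E4 x⟩)
  have h2 : (fun z => at1 (σ z) x) = fun z => rep1 x (σ z) (chartAt E4 x x) := by
    funext z
    ext u
    rw [at1_eq_comp (mem_chart_source E4 x) (σ z)]
    show rep1 x (σ z) (chartAt E4 x x) (tcc x x x u) = _
    rw [tcc_self (mem_chart_source E4 x)]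
  rw [h2]
  exact h1

lemma JSm1.diffAt {U : Set Z} (hU : IsOpen U) {σ : Z → F1 E4 M} (hσ : JSm1 U σ) {q : M} {y : E4}
    (hy : y ∈ (chartAt E4 q).target) {z : Z} (hz : z ∈ U) :
    DifferentiableAt ℝ (fun w : E4 × Z => rep1 q (σ w.2) w.1) (y, z) :=
  ((contDiffOn_swap (hσ q)).contDiffAt
    (((chartAt E4 q).open_target.prod hU).mem_nhds ⟨hy, hz⟩)).differentiableAt (by simp)

lemma JSm1.smooth1 {U : Set Z} (hU : IsOpen U) {σ : Z → F1 E4 M} (hσ : JSm1 U σ) {z : Z}
    (hz : z ∈ U) : Smooth1 (σ z) := by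
  intro q y hy
  have h := (hσ q (z, y) ⟨hz, hy⟩).contDiffAt
    ((hU.prod (chartAt E4 q).open_target).mem_nhds ⟨hz, hy⟩)
  exact (ContDiffAt.comp y (g := fun w : Z × E4 => rep1 q (σ w.1) w.2)
    (f := fun y => (z, y)) h (contDiffAt_const.prodMk contDiffAt_id)).contDiffWithinAt

lemma JSm1.continuousOn_fderiv {Z : Type} [NormedAddCommGroup Z] [NormedSpace ℝ Z]
    {U : Set Z} (hU : IsOpen U) {σ : Z → F1 E4 M} (hσ : JSm1 U σ)
    {q : M} {y : E4} (hy : y ∈ (chartAt E4 q).target) :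
    ContinuousOn (fun z => fderiv ℝ (rep1 q (σ z)) y) U := by
  have h3 := contDiffOn_swap (hσ q)
  have hdg := SmJ.contDiffOn_dx ((chartAt E4 q).open_target.prod hU) h3
  have h4 : ContinuousOn (fun z => SmJ.dx (fun w : E4 × Z => rep1 q (σ w.2) w.1) (y, z)) U :=
    hdg.continuousOn.comp (f := fun z : Z => ((y, z) : E4 × Z)) (by fun_prop)
        fun z hz => ⟨hy, hz⟩
  refine h4.congr fun z hz => ?_
  exact (SmJ.hasFDerivAt_dx (hσ.diffAt hU hy hz)).fderiv

/-- the antisymmetrisation, as a continuous linear map. -/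
def asL : Bil →L[ℝ] Bil :=
  ContinuousLinearMap.id ℝ Bil - ((ContinuousLinearMap.flipₗᵢ ℝ E4 E4 ℝ) : Bil ≃ₗᵢ[ℝ] Bil)

lemma asL_apply (b : Bil) : asL b = b - b.flip := rfl

lemma d1_eq_asL (s : E4 → E4 →L[ℝ] ℝ) (y : E4) : d1 s y = asL (fderiv ℝ s y) := rfl

end Fam1

section Avg

variable {Z : Type} [NormedAddCommGroup Z] [NormedSpace ℝ Z] [MeasureSpace Z] [BorelSpace Z]
  [IsFiniteMeasureOnCompacts (volume : Measure Z)]

/-- the average of a family of one-forms. -/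
def avg1 (κ : Z → ℝ) (σ : Z → F1 E4 M) : F1 E4 M := fun x =>
  (∫ z, κ z • at1 (σ z) x : E4 →L[ℝ] ℝ)

lemma at1_avg1 (κ : Z → ℝ) (σ : Z → F1 E4 M) (x : M) :
    at1 (avg1 κ σ) x = ∫ z, κ z • at1 (σ z) x := rfl

lemma rep1_avg1 {U : Set Z} (hU : IsOpen U) {κ : Z → ℝ} (hκ : Continuous κ)
    (hc : HasCompactSupport κ) (hs : tsupport κ ⊆ U) {σ : Z → F1 E4 M} (hσ : JSm1 U σ)
    (q : M) (y : E4) :
    rep1 q (avg1 κ σ) y = ∫ z, κ z • rep1 q (σ z) y := by
  set x := (chartAt E4 q).symm y with hx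
  have hi : Integrable (fun z => κ z • at1 (σ z) x) :=
    integrable_smul_of hU hκ hc hs (hσ.continuousOn_at1 x)
  have h := ((ContinuousLinearMap.compL ℝ E4 E4 ℝ).flip (tcc q x x)).integral_comp_comm hi
  rw [rep1_eq_comp, at1_avg1]
  change ((ContinuousLinearMap.compL ℝ E4 E4 ℝ).flip (tcc q x x)) _ = _
  rw [← h]
  rfl

theorem smooth1_avg1 {U : Set Z} (hU : IsOpen U) {κ : Z → ℝ} (hκ : Continuous κ)
    (hc : HasCompactSupport κ) (hs : tsupport κ ⊆ U) {σ : Z → F1 E4 M} (hσ : JSm1 U σ) :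
    Smooth1 (avg1 κ σ) := by
  intro q
  have h3 := contDiffOn_swap (hσ q)
  refine (contDiffOn_integral hU (chartAt E4 q).open_target hκ hc hs h3).congr fun y _ => ?_
  exact rep1_avg1 hU hκ hc hs hσ q y

/-- **the exterior derivative of the average is the average of the exterior derivatives.** -/
theorem d1_avg1 {U : Set Z} (hU : IsOpen U) {κ : Z → ℝ} (hκ : Continuous κ)
    (hc : HasCompactSupport κ) (hs : tsupport κ ⊆ U) {σ : Z → F1 E4 M} (hσ : JSm1 U σ)
    {q : M} {y : E4} (hy : y ∈ (chartAt E4 q).target) :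
    d1 (rep1 q (avg1 κ σ)) y = ∫ z, κ z • d1 (rep1 q (σ z)) y := by
  have h1 := hasFDerivAt_integral hU (chartAt E4 q).open_target hκ hc hs
    (contDiffOn_swap (hσ q)) hy
  have h2 : rep1 q (avg1 κ σ) = fun y => ∫ z, κ z • rep1 q (σ z) y :=
    funext fun y => rep1_avg1 hU hκ hc hs hσ q y
  have h4 : fderiv ℝ (rep1 q (avg1 κ σ)) y = ∫ z, κ z • fderiv ℝ (rep1 q (σ z)) y := by
    rw [h2, h1.fderiv]
    refine integral_congr_ae (Eventually.of_forall fun z => ?_)
    simp only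
    by_cases hz : z ∈ U
    · rw [← (SmJ.hasFDerivAt_dx (hσ.diffAt hU hy hz)).fderiv]
    · have : κ z = 0 := image_eq_zero_of_notMem_tsupport fun h' => hz (hs h')
      rw [this, zero_smul, zero_smul]
  rw [d1_eq_asL, h4, ← ContinuousLinearMap.integral_comp_comm _
    (integrable_smul_of hU hκ hc hs (hσ.continuousOn_fderiv hU hy))]
  refine integral_congr_ae (Eventually.of_forall fun z => ?_)
  simp only
  rw [map_smul, d1_eq_asL]

/-- **averages of exact forms are exact.** -/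
theorem exBy_avg {U : Set Z} (hU : IsOpen U) {κ : Z → ℝ} (hκ : Continuous κ)
    (hc : HasCompactSupport κ) (hs : tsupport κ ⊆ U) {σ : Z → F1 E4 M} (hσ : JSm1 U σ)
    {β : Z → F2 E4 M} (hβ : JSm U β) (h : ∀ z ∈ U, ExBy (β z) (σ z)) :
    ExBy (Sm.avg κ β) (avg1 κ σ) := by
  intro q y hy
  rw [d1_avg1 hU hκ hc hs hσ hy, rep_avg hU hκ hc hs hβ q y]
  refine integral_congr_ae (Eventually.of_forall fun z => ?_)
  simp only
  by_cases hz : z ∈ U
  · rw [h z hz q y hy]
  · have : κ z = 0 := image_eq_zero_of_notMem_tsupport fun h' => hz (hs h')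
    rw [this, zero_smul, zero_smul]

end Avg

section OneChart

variable [T2Space M] {G : Fam E4} {p : M}

/-- joint smoothness of the pull-back of a one-form, after a smooth change of parameter. -/
lemma jsm1_pull1 {W : Type*} [NormedAddCommGroup W] [NormedSpace ℝ W]
    (hG : G.K ⊆ (chartAt E4 p).target) {s : F1 E4 M} (hs : Smooth1 s) {U : Set W} {ζ : W → E4}
    (hζ : ContDiffOn ℝ ∞ ζ U) (hm : MapsTo ζ U (ball 0 G.r)) :
    JSm1 U (fun w => pull1 G p (ζ w) s) := fun q =>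
  contDiffOn_param (contDiffOn_rep1_pull1 hG hs q) hζ hm

lemma jsm_pullG0 {W : Type*} [NormedAddCommGroup W] [NormedSpace ℝ W]
    (hG : G.K ⊆ (chartAt E4 p).target) {b : F2 E4 M} (hb : Smooth2 b) {U : Set W} {ζ : W → E4}
    (hζ : ContDiffOn ℝ ∞ ζ U) (hm : MapsTo ζ U (ball 0 G.r)) :
    JSm U (fun w => pullG G p (ζ w) b) :=
  ⟨fun _ _ x v => pullG_alt hb.1 _ x v, fun q =>
    contDiffOn_param (contDiffOn_rep_pullG hG hb q) hζ hm⟩

lemma isOpen_scaled (r e : ℝ) : IsOpen {z : E4 | e • z ∈ ball (0 : E4) r} :=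
  isOpen_ball.preimage (by fun_prop)

/-- **(S1) in one chart: the averages `∫ κ(z) (ψ_{ez})^* b dz` of an exact form are exact.** -/
theorem isEx_avg_pullG (hG : G.K ⊆ (chartAt E4 p).target) {κ : E4 → ℝ} (hκ : Continuous κ)
    (hc : HasCompactSupport κ) {e : ℝ} (hs : ∀ z ∈ tsupport κ, e • z ∈ ball (0 : E4) G.r)
    {b : F2 E4 M} (hb2 : Smooth2 b) (hb : IsEx b) :
    IsEx (Sm.avg κ (fun z => pullG G p (e • z) b)) := by
  obtain ⟨s, hs1, hbs⟩ := hb
  set U : Set E4 := {z : E4 | e • z ∈ ball (0 : E4) G.r} with hU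
  have hUo : IsOpen U := isOpen_scaled G.r e
  have hζ : ContDiffOn ℝ ∞ (fun z : E4 => e • z) U := by fun_prop
  have hm : MapsTo (fun z : E4 => e • z) U (ball 0 G.r) := fun z hz => hz
  have hσ := jsm1_pull1 (p := p) hG hs1 hζ hm
  have hβ := jsm_pullG0 (p := p) hG hb2 hζ hm
  refine ⟨avg1 κ (fun z => pull1 G p (e • z) s), smooth1_avg1 hUo hκ hc hs hσ, ?_⟩
  exact exBy_avg hUo hκ hc hs hσ hβ fun z hz => ExBy.pullG hG hs1 hbs hz

end OneChart

end

end Crest.Agent.R240.Sm
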