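import Mathlib
import Crest.Agent.R240.SmEx
import Crest.Agent.R240.Sm3
import Crest.Agent.R240.DensM
import Crest.Agent.R240.Cmp
import Crest.Agent.R240.IntTop
import Crest.Agent.R240.Iface

/-!
# Row 240, block R (smoothing): adjoint consistency (helper461)

`(S2)` of note 10738 = the field `adj` of `SmPack`.
-/

set_option autoImplicit false
set_option maxSynthPendingDepth 3
set_option linter.unusedSectionVars false

open Set Function Filter Metric Bundle MeasureTheory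
open scoped Manifold ContDiff Topology

namespace Crest.Agent.R240.SmAdj

open Crest.Agent.R240.Ch Crest.Agent.R240.Sm

noncomputable section

section General

variable {M : Type*} [TopologicalSpace M] [ChartedSpace E4 M] [IsManifold 𝓘(ℝ, E4) ∞ M]

/-- uniform normalisation constants on compact pieces of charts. -/
theorem exists_Bd {J : EndF E4 M} {F : F2 E4 M} (hJ : SmoothJ J)
    (hsq : ∀ x v, atJ J x (atJ J x v) = -v) (hF : Smooth2 F) (hFp : ∀ x, SPos (atJ J x) (at2 F x))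
    (p : M) {K : Set E4} (hK : IsCompact K) (hKt : K ⊆ (chartAt E4 p).target) :
    ∃ m m' : ℝ, 0 < m ∧ 0 < m' ∧ ∀ y ∈ K, Bd (repJ p J y) (rep p F y) m m' := by
  obtain ⟨c, hc, hc'⟩ := unif_pos hF hJ (fun x v hv => (hFp x).pos v hv) p hK hKt
  obtain ⟨B, hB, hB'⟩ := bdd_on (hF.continuousOn p) hK hKt
  obtain ⟨B2, hB2, hB2'⟩ := bdd_on (hJ.continuousOn p) hK hKt
  refine ⟨c, B * B2, hc, by positivity, fun y hy => ?_⟩
  refine ⟨DensM.repJ_sq hsq (hKt hy), DensM.spos_rep hFp (hKt hy), hc, hc' y hy, fun v => ?_⟩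
  calc rep p F y v (repJ p J y v) ≤ |rep p F y v (repJ p J y v)| := le_abs_self _
    _ ≤ ‖rep p F y‖ * ‖v‖ * ‖repJ p J y v‖ := by
        rw [← Real.norm_eq_abs]; exact ContinuousLinearMap.le_opNorm₂ _ _ _
    _ ≤ ‖rep p F y‖ * ‖v‖ * (‖repJ p J y‖ * ‖v‖) := by
        gcongr; exact ContinuousLinearMap.le_opNorm _ _
    _ ≤ B * ‖v‖ * (B2 * ‖v‖) := by
        gcongr
        · exact hB' y hy
        · exact hB2' y hy
    _ = B * B2 * ‖v‖ ^ 2 := by ring

/-- `Pos` in charts. -/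
theorem pos_rep {J : EndF E4 M} {P : F2 E4 M} (hP : PosG J P) {p : M} {y : E4}
    (hy : y ∈ (chartAt E4 p).target) : Pos (repJ p J y) (rep p P y) := by
  have h := hP ((chartAt E4 p).symm y)
  refine ⟨fun v => ?_, fun u v => ?_, fun v => ?_⟩
  · rw [rep_apply]
    exact h.alt _
  · rw [rep_apply, rep_apply, repJ_apply, repJ_apply, tcc_cancel' (symm_mem hy),
      tcc_cancel' (symm_mem hy)]
    exact h.inv _ _
  · rw [rep_apply, repJ_apply, tcc_cancel' (symm_mem hy)]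
    exact h.nonneg _

/-- pointwise: `|q(P,R)| ≤ C |R| q(P,F)` for `P ≥ 0`, uniformly on compact pieces of charts. -/
theorem exists_q_bound {J : EndF E4 M} {F : F2 E4 M} (hJ : SmoothJ J)
    (hsq : ∀ x v, atJ J x (atJ J x v) = -v) (hF : Smooth2 F) (hFp : ∀ x, SPos (atJ J x) (at2 F x))
    (p : M) {K : Set E4} (hK : IsCompact K) (hKt : K ⊆ (chartAt E4 p).target) :
    ∃ C : ℝ, 0 ≤ C ∧ ∀ y ∈ K, ∀ P : F2 E4 M, PosG J P → ∀ R : Bil, Alt R →
      |q (rep p F y) (rep p P y) R| ≤ C * ‖R‖ * q (rep p F y) (rep p P y) (rep p F y) := by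
  obtain ⟨m, m', hm, hm', hB⟩ := exists_Bd hJ hsq hF hFp p hK hKt
  refine ⟨3 / m ^ 2 * (2 * m'), by positivity, fun y hy P hP R hR => ?_⟩
  have h1 := (hB y hy).abs_q_le (pos_rep hP (hKt hy)).alt hR
  have h2 := (hB y hy).norm_le_q (pos_rep hP (hKt hy))
  calc |q (rep p F y) (rep p P y) R| ≤ 3 / m ^ 2 * (‖rep p P y‖ * ‖R‖) := h1
    _ ≤ 3 / m ^ 2 * ((2 * m' * q (rep p F y) (rep p P y) (rep p F y)) * ‖R‖) := by
        gcongr
    _ = _ := by ring

/-- a jointly smooth curve of forms stays close to its initial value. -/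
theorem jsm_close {V : Set ℝ} (hV : IsOpen V) {h : ℝ → F2 E4 M} (hh : JSm V h) {e0 : ℝ}
    (hI : Icc 0 e0 ⊆ V) (p : M) {K : Set E4} (hK : IsCompact K)
    (hKt : K ⊆ (chartAt E4 p).target) :
    ∃ C : ℝ, 0 ≤ C ∧ ∀ e ∈ Icc 0 e0, ∀ y ∈ K, ‖rep p (h e) y - rep p (h 0) y‖ ≤ C * e := by
  set f : ℝ × E4 → Bil := fun w => rep p (h w.1) w.2 with hf
  have hopen : IsOpen (V ×ˢ (chartAt E4 p).target) := hV.prod (chartAt E4 p).open_target
  have hfs : ContDiffOn ℝ ∞ f (V ×ˢ (chartAt E4 p).target) := hh.2 p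
  have hfc : ContinuousOn (fderiv ℝ f) (V ×ˢ (chartAt E4 p).target) :=
    hfs.continuousOn_fderiv_of_isOpen hopen (by simp)
  obtain ⟨C, hC, hC'⟩ := bdd_on hfc (isCompact_Icc.prod hK) (prod_mono hI hKt)
  refine ⟨C, hC.le, fun e he y hy => ?_⟩
  have hd : ∀ t ∈ Icc (0 : ℝ) e0, HasDerivAt (fun t => rep p (h t) y)
      (fderiv ℝ f (t, y) (1, 0)) t := by
    intro t ht
    have h1 : HasFDerivAt f (fderiv ℝ f (t, y)) (t, y) :=
      ((hfs.contDiffAt (hopen.mem_nhds ⟨hI ht, hKt hy⟩)).differentiableAt (by simp)).hasFDerivAt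
    have h2 : HasDerivAt (fun t : ℝ => (t, y)) ((1 : ℝ), (0 : E4)) t :=
      (hasDerivAt_id t).prodMk (hasDerivAt_const t y)
    exact h1.comp_hasDerivAt t h2
  have hb : ∀ t ∈ Icc (0 : ℝ) e0, ‖fderiv ℝ f (t, y) (1, 0)‖ ≤ C := by
    intro t ht
    have h1 := (fderiv ℝ f (t, y)).le_opNorm (1, 0)
    have h2 : ‖((1 : ℝ), (0 : E4))‖ = 1 := by simp [Prod.norm_def]
    rw [h2, mul_one] at h1
    exact h1.trans (hC' (t, y) ⟨ht, hy⟩)
  have h3 := (convex_Icc (0 : ℝ) e0).norm_image_sub_le_of_norm_hasDerivWithin_le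
    (fun t ht => (hd t ht).hasDerivWithinAt) hb (left_mem_Icc.2 (he.1.trans he.2)) he
  simpa [abs_of_nonneg he.1] using h3

end General

section OneChart

variable {M : Type*} [TopologicalSpace M] [ChartedSpace E4 M] [IsManifold 𝓘(ℝ, E4) ∞ M]
  [T2Space M] {G : Fam E4} {p : M}

/-- joint smoothness of `w ↦ (ψ_{ζ w})^* (β w)`. -/
theorem jsm_pullG_fam {W : Type*} [NormedAddCommGroup W] [NormedSpace ℝ W]
    (hG : G.K ⊆ (chartAt E4 p).target) {U : Set W} (hU : IsOpen U) {ζ : W → E4}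
    (hζ : ContDiffOn ℝ ∞ ζ U) (hm : MapsTo ζ U (ball 0 G.r)) {β : W → F2 E4 M} (hβ : JSm U β) :
    JSm U (fun w => pullG G p (ζ w) (β w)) :=
  ⟨fun w hw x v => pullG_alt (hβ.1 w hw) (ζ w) x v, fun q =>
    (LF.pullG hG hU hζ hm).js hβ.2 q⟩

/-- joint smoothness in the scale of the averages. -/
theorem jsm_avg_scale (hG : G.K ⊆ (chartAt E4 p).target) {κ : E4 → ℝ} (hκ : Continuous κ)
    (hc : HasCompactSupport κ) {ρ : ℝ} (hρ : tsupport κ ⊆ ball (0 : E4) ρ) {V : Set ℝ}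
    (hV : IsOpen V) (hVr : ∀ e ∈ V, |e| * ρ < G.r) {h : ℝ → F2 E4 M} (hh : JSm V h) :
    JSm V (fun e => Sm.avg κ (fun z => pullG G p (e • z) (h e))) := by
  have hU : IsOpen (ball (0 : E4) ρ) := isOpen_ball
  refine JSm.avg (β := fun z e => pullG G p (e • z) (h e)) hU hV hκ hc hρ ?_
  have h1 : JSm (ball (0 : E4) ρ ×ˢ V) (fun w : E4 × ℝ => h w.2) :=
    hh.comp (f := fun w : E4 × ℝ => w.2) contDiffOn_snd fun w hw => hw.2
  refine jsm_pullG_fam (ζ := fun w : E4 × ℝ => w.2 • w.1) hG (hU.prod hV)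
    (contDiffOn_snd.smul contDiffOn_fst) ?_ h1
  rintro ⟨z, e⟩ ⟨hz, he⟩
  have hz' : ‖z‖ < ρ := by simpa using hz
  have : ‖e • z‖ < G.r := by
    rw [norm_smul, Real.norm_eq_abs]
    exact lt_of_le_of_lt (mul_le_mul_of_nonneg_left hz'.le (abs_nonneg e)) (hVr e he)
  simpa using this

theorem at2_avg_scale_zero {κ : E4 → ℝ} (h1 : ∫ z, κ z = 1) (b : F2 E4 M) (x : M) :
    at2 (Sm.avg κ (fun z => pullG G p ((0 : ℝ) • z) b)) x = at2 b x := by
  rw [at2_avg]
  have : (fun z : E4 => κ z • at2 (pullG G p ((0 : ℝ) • z) b) x) = fun z => κ z • at2 b x := by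
    funext z
    rw [zero_smul, pullG_zero]
  rw [this, integral_smul_const, h1, one_smul]

end OneChart

section Adj

variable {M : Type*} [TopologicalSpace M] [ChartedSpace E4 M] [IsManifold 𝓘(ℝ, E4) ∞ M]
  [T2Space M]

lemma jsm_scaled {G : Fam E4} {p : M} (hG : G.K ⊆ (chartAt E4 p).target) (e : ℝ) {b : F2 E4 M}
    (hb : Smooth2 b) :
    JSm {z : E4 | e • z ∈ ball (0 : E4) G.r} (fun z => pullG G p (e • z) b) :=
  jsm_pullG0 hG hb (by fun_prop) fun _ hz => hz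

/-- averages of pull-backs are smooth. -/
theorem smooth2_avg_pullG {G : Fam E4} {p : M} (hG : G.K ⊆ (chartAt E4 p).target) {κ : E4 → ℝ}
    (hκ : Continuous κ) (hc : HasCompactSupport κ) {e : ℝ}
    (hs : ∀ z ∈ tsupport κ, e • z ∈ ball (0 : E4) G.r) {b : F2 E4 M} (hb : Smooth2 b) :
    Smooth2 (Sm.avg κ (fun z => pullG G p (e • z) b)) :=
  smooth2_avg (isOpen_scaled G.r e) hκ hc hs (jsm_scaled hG e hb)

variable [CompactSpace M] [MeasurableSpace M] [BorelSpace M]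

/-- **the transpose of a one-chart average.** -/
theorem I_avg_adj {F h b : F2 E4 M} (hF : Int.Vol F) {G : Fam E4} {p : M}
    (hG : G.K ⊆ (chartAt E4 p).target) {κ : E4 → ℝ} (hκ : Continuous κ)
    (hc : HasCompactSupport κ) {e : ℝ} (hs : ∀ z ∈ tsupport κ, e • z ∈ ball (0 : E4) G.r)
    (hh : Smooth2 h) (hb : Smooth2 b) :
    Int.I F h (Sm.avg κ (fun z => pullG G p (e • z) b)) =
      Int.I F (Sm.avg κ (fun z => pullG G.symm p (e • z) h)) b := by
  have hU := isOpen_scaled G.r e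
  rw [I_avg hU hκ hc hs (jsm_scaled hG e hb) hF (Int.Smooth2.cont2 hh), Int.I_comm,
    I_avg hU hκ hc hs (jsm_scaled (G := G.symm) hG e hh) hF (Int.Smooth2.cont2 hb)]
  refine integral_congr_ae (Eventually.of_forall fun z => ?_)
  simp only
  by_cases hz : e • z ∈ ball (0 : E4) G.r
  · rw [I_pullG_adj hF hG hz hh hb, Int.I_comm]
  · have : κ z = 0 := image_eq_zero_of_notMem_tsupport fun h' => hz (hs z h')
    rw [this, zero_mul, zero_mul]

end Adj

/-! ### compositions over a list of charts -/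

section List

variable {M : Type*} [TopologicalSpace M] [ChartedSpace E4 M] [IsManifold 𝓘(ℝ, E4) ∞ M]
variable {ι : Type*} (G : ι → Fam E4) (p : ι → M) (κ : ι → E4 → ℝ)

/-- composition of the one-chart averages over a list of charts. -/
def avgL (e : ℝ) (l : List ι) (b : F2 E4 M) : F2 E4 M :=
  l.foldr (fun i b => Sm.avg (κ i) (fun z => pullG (G i) (p i) (e • z) b)) b

/-- its transpose. -/
def avgLT (e : ℝ) (l : List ι) (h : F2 E4 M) : F2 E4 M :=
  l.foldl (fun h i => Sm.avg (κ i) (fun z => pullG (G i).symm (p i) (e • z) h)) h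

@[simp] lemma avgL_nil (e : ℝ) (b : F2 E4 M) : avgL G p κ e [] b = b := rfl
@[simp] lemma avgL_cons (e : ℝ) (i : ι) (l : List ι) (b : F2 E4 M) :
    avgL G p κ e (i :: l) b =
      Sm.avg (κ i) (fun z => pullG (G i) (p i) (e • z) (avgL G p κ e l b)) := rfl
@[simp] lemma avgLT_nil (e : ℝ) (b : F2 E4 M) : avgLT G p κ e [] b = b := rfl
@[simp] lemma avgLT_cons (e : ℝ) (i : ι) (l : List ι) (h : F2 E4 M) :
    avgLT G p κ e (i :: l) h =
      avgLT G p κ e l (Sm.avg (κ i) (fun z => pullG (G i).symm (p i) (e • z) h)) := rfl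

variable [T2Space M]
variable {G p κ} (hG : ∀ i, (G i).K ⊆ (chartAt E4 (p i)).target) (hκ : ∀ i, Continuous (κ i))
  (hc : ∀ i, HasCompactSupport (κ i))

include hG hκ hc

theorem smooth2_avgL {e : ℝ} (hs : ∀ i, ∀ z ∈ tsupport (κ i), e • z ∈ ball (0 : E4) (G i).r)
    (l : List ι) {b : F2 E4 M} (hb : Smooth2 b) : Smooth2 (avgL G p κ e l b) := by
  induction l with
  | nil => exact hb
  | cons i l ih => exact smooth2_avg_pullG (hG i) (hκ i) (hc i) (hs i) ih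

theorem isEx_avgL {e : ℝ} (hs : ∀ i, ∀ z ∈ tsupport (κ i), e • z ∈ ball (0 : E4) (G i).r)
    (l : List ι) {b : F2 E4 M} (hb2 : Smooth2 b) (hb : IsEx b) : IsEx (avgL G p κ e l b) := by
  induction l with
  | nil => exact hb
  | cons i l ih =>
    exact isEx_avg_pullG (hG i) (hκ i) (hc i) (hs i) (smooth2_avgL hG hκ hc hs l hb2) ih

theorem smooth2_avgLT {e : ℝ} (hs : ∀ i, ∀ z ∈ tsupport (κ i), e • z ∈ ball (0 : E4) (G i).r)
    (l : List ι) {h : F2 E4 M} (hh : Smooth2 h) : Smooth2 (avgLT G p κ e l h) := by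
  induction l generalizing h with
  | nil => exact hh
  | cons i l ih =>
    exact ih (smooth2_avg_pullG (G := (G i).symm) (hG i) (hκ i) (hc i) (hs i) hh)

theorem jsm_avgLT {ρ : ℝ} (hρ0 : 0 < ρ) (hρ : ∀ i, tsupport (κ i) ⊆ ball (0 : E4) ρ) {e1 : ℝ}
    (hr : ∀ i, e1 * ρ ≤ (G i).r) (l : List ι) {h : ℝ → F2 E4 M}
    (hh : JSm {e : ℝ | |e| < e1} h) : JSm {e : ℝ | |e| < e1} (fun e => avgLT G p κ e l (h e)) := by
  have hV : IsOpen {e : ℝ | |e| < e1} := isOpen_lt continuous_abs continuous_const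
  induction l generalizing h with
  | nil => exact hh
  | cons i l ih =>
    refine ih (h := fun e => Sm.avg (κ i) (fun z => pullG (G i).symm (p i) (e • z) (h e))) ?_
    refine jsm_avg_scale (G := (G i).symm) (hG i) (hκ i) (hc i) (hρ i) hV ?_ hh
    intro e he
    exact lt_of_lt_of_le (mul_lt_mul_of_pos_right he hρ0) (hr i)

omit hG hκ hc in
theorem avgLT_zero (h1 : ∀ i, ∫ z, κ i z = 1) (l : List ι) (h : F2 E4 M) :
    avgLT G p κ 0 l h = h := by
  induction l generalizing h with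
  | nil => rfl
  | cons i l ih =>
    rw [avgLT_cons]
    have e1 : Sm.avg (κ i) (fun z => pullG (G i).symm (p i) ((0 : ℝ) • z) h) = h := by
      funext x
      exact at2_avg_scale_zero (h1 i) h x
    rw [e1]
    exact ih h

variable [CompactSpace M] [MeasurableSpace M] [BorelSpace M]

theorem I_avgL_adj {F : F2 E4 M} (hF : Int.Vol F) {e : ℝ}
    (hs : ∀ i, ∀ z ∈ tsupport (κ i), e • z ∈ ball (0 : E4) (G i).r)
    (l : List ι) {h b : F2 E4 M} (hh : Smooth2 h) (hb : Smooth2 b) :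
    Int.I F h (avgL G p κ e l b) = Int.I F (avgLT G p κ e l h) b := by
  induction l generalizing h with
  | nil => rfl
  | cons i l ih =>
    rw [avgL_cons, avgLT_cons, I_avg_adj hF (hG i) (hκ i) (hc i) (hs i) hh
      (smooth2_avgL hG hκ hc hs l hb)]
    exact ih (smooth2_avg_pullG (G := (G i).symm) (hG i) (hκ i) (hc i) (hs i) hh)

end List

section Final

variable {M : Type*} [MetricSpace M] [CompactSpace M] [ChartedSpace E4 M]
    [IsManifold 𝓘(ℝ, E4) ∞ M] [MeasurableSpace M] [BorelSpace M]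

/-- `D.I` is the pairing `Int.I`. -/
lemma dat_I_eq (D : Dat M) (b c : F2 E4 M) : D.I b c = Int.I D.F b c :=
  Int.IG_eq_I (Int.dat_volF D) D.vol b c

/-- uniform pointwise bound: `|q(P,R)| ≤ C δ q(P,F)` for `P ≥ 0` and `|R| ≤ δ`. -/
theorem exists_qG_bound (D : Dat M) (𝒰 : Cover M) :
    ∃ C : ℝ, 0 ≤ C ∧ ∀ (P R : F2 E4 M) (δ : ℝ), PosG D.J P → (∀ x, Alt (at2 R x)) →
      (∀ i, ∀ y ∈ 𝒰.K i, ‖rep (𝒰.p i) R y‖ ≤ δ) →
      ∀ x, |qG D.F P R x| ≤ C * δ * qG D.F P D.F x := by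
  have hpos : ∀ x, SPos (atJ D.J x) (at2 D.F x) := Int.dat_sposF D
  have h1 := fun i => exists_q_bound D.smJ D.sq (Int.dat_smF D) hpos (𝒰.p i) (𝒰.cpt i) (𝒰.sub i)
  choose C hC hC' using h1
  refine ⟨∑ i, C i, Finset.sum_nonneg fun i _ => hC i, fun P R δ hP hR hδ x => ?_⟩
  have hPa : ∀ x, Alt (at2 P x) := fun x => (hP x).alt
  obtain ⟨i, hx, hi⟩ := 𝒰.cov x
  have hK := interior_subset hi
  rw [Int.qG_chart' (Int.dat_volF D) hPa hR hx,
    Int.qG_chart' (Int.dat_volF D) hPa (Int.dat_volF D).alt hx]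
  have h2 := hC' i _ hK P hP (rep (𝒰.p i) R (chartAt E4 (𝒰.p i) x)) (alt_rep hR _)
  have hq : 0 ≤ q (rep (𝒰.p i) D.F (chartAt E4 (𝒰.p i) x))
      (rep (𝒰.p i) P (chartAt E4 (𝒰.p i) x)) (rep (𝒰.p i) D.F (chartAt E4 (𝒰.p i) x)) := by
    obtain ⟨m, m', hm, hm', hB⟩ := exists_Bd D.smJ D.sq (Int.dat_smF D) hpos (𝒰.p i) (𝒰.cpt i)
      (𝒰.sub i)
    have h3 := (hB _ hK).norm_le_q (pos_rep hP (𝒰.sub i hK))
    have h4 := (norm_nonneg _).trans h3
    by_contra hneg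
    have h5 : 2 * m' * q (rep (𝒰.p i) D.F (chartAt E4 (𝒰.p i) x))
      (rep (𝒰.p i) P (chartAt E4 (𝒰.p i) x)) (rep (𝒰.p i) D.F (chartAt E4 (𝒰.p i) x)) < 0 :=
      mul_neg_of_pos_of_neg (by positivity) (not_le.1 hneg)
    linarith
  have hδ0 : ‖rep (𝒰.p i) R (chartAt E4 (𝒰.p i) x)‖ ≤ δ := hδ i _ hK
  have hδ1 : 0 ≤ δ := (norm_nonneg _).trans hδ0
  calc _ ≤ C i * ‖rep (𝒰.p i) R (chartAt E4 (𝒰.p i) x)‖ * _ := h2
    _ ≤ (∑ i, C i) * δ * _ := by
        refine mul_le_mul_of_nonneg_right ?_ hq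
        exact mul_le_mul (Finset.single_le_sum (f := C) (fun j _ => hC j) (Finset.mem_univ i)) hδ0
          (norm_nonneg _) (Finset.sum_nonneg fun i _ => hC i)

variable {ι : Type*} {G : ι → Fam E4} {p : ι → M} {κ : ι → E4 → ℝ}

/-- **(S2), the field `adj` of `SmPack`**, for the composition over a list of charts. -/
theorem adj_avgL (D : Dat M) (𝒰 : Cover M) (hG : ∀ i, (G i).K ⊆ (chartAt E4 (p i)).target)
    (hκ : ∀ i, Continuous (κ i)) (hc : ∀ i, HasCompactSupport (κ i))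
    (h1 : ∀ i, ∫ z, κ i z = 1) {ρ : ℝ} (hρ0 : 0 < ρ)
    (hρ : ∀ i, tsupport (κ i) ⊆ ball (0 : E4) ρ) {e0 e1 : ℝ} (he01 : e0 < e1)
    (hr : ∀ i, e1 * ρ ≤ (G i).r) (l : List ι) :
    ∃ C : ℝ, ∀ e : ℝ, 0 < e → e ≤ e0 → ∀ P : F2 E4 M, Smooth2 P → PosG D.J P →
      (1 - C * e) * D.I P D.F ≤ D.I (avgL G p κ e l P) D.F := by
  set V : Set ℝ := {e : ℝ | |e| < e1} with hVd
  have hV : IsOpen V := isOpen_lt continuous_abs continuous_const
  have hvol := Int.dat_volF D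
  have hFs := Int.dat_smF D
  set h : ℝ → F2 E4 M := fun e => avgLT G p κ e l D.F with hh
  have hJ : JSm V h := jsm_avgLT hG hκ hc hρ0 hρ hr l (JSm.const hFs V)
  have hI : Icc 0 e0 ⊆ V := fun e he => by
    show |e| < e1
    rw [abs_of_nonneg he.1]; exact lt_of_le_of_lt he.2 he01
  have hclose := fun i => jsm_close hV hJ hI (𝒰.p i) (𝒰.cpt i) (𝒰.sub i)
  choose C hC hC' using hclose
  obtain ⟨C0, hC0, hC0'⟩ := exists_qG_bound D 𝒰
  refine ⟨C0 * ∑ i, C i, fun e he0 hee0 P hPs hP => ?_⟩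
  have he : e ∈ Icc 0 e0 := ⟨he0.le, hee0⟩
  have hs : ∀ i, ∀ z ∈ tsupport (κ i), e • z ∈ ball (0 : E4) (G i).r := by
    intro i z hz
    have hz' : ‖z‖ < ρ := by simpa using hρ i hz
    have : ‖e • z‖ < (G i).r := by
      rw [norm_smul, Real.norm_eq_abs, abs_of_pos he0]
      calc e * ‖z‖ < e * ρ := by gcongr
        _ ≤ e1 * ρ := by gcongr; linarith
        _ ≤ _ := hr i
    simpa using this
  have hhs : Smooth2 (h e) := smooth2_avgLT hG hκ hc hs l hFs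
  have hh0 : h 0 = D.F := avgLT_zero h1 l D.F
  have hPc := Int.Smooth2.cont2 hPs
  have hhc := Int.Smooth2.cont2 hhs
  have hFc := Int.Smooth2.cont2 hFs
  -- the difference
  set R : F2 E4 M := h e - D.F with hR
  have hRa : ∀ x, Alt (at2 R x) := fun x => (hhc.1 x).sub (hFc.1 x)
  have hRb : ∀ i, ∀ y ∈ 𝒰.K i, ‖rep (𝒰.p i) R y‖ ≤ (∑ i, C i) * e := by
    intro i y hy
    have h2 := hC' i e he y hy
    rw [hh0] at h2
    have h3 : rep (𝒰.p i) R y = rep (𝒰.p i) (h e) y - rep (𝒰.p i) D.F y := by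
      ext u v; rfl
    rw [h3]
    refine h2.trans ?_
    gcongr
    exact Finset.single_le_sum (f := C) (fun j _ => hC j) (Finset.mem_univ i)
  have hpt := hC0' P R _ hP hRa hRb
  have e1' : D.I (avgL G p κ e l P) D.F = Int.I D.F P (h e) := by
    rw [dat_I_eq, Int.I_comm, I_avgL_adj hG hκ hc hvol hs l hFs hPs, Int.I_comm]
  have e2 : D.I P D.F = Int.I D.F P D.F := dat_I_eq D P D.F
  rw [e1', e2]
  have hi1 := Int.integrable_qG hvol hPc hhc
  have hi2 := Int.integrable_qG hvol hPc hFc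
  unfold Int.I
  rw [← integral_const_mul]
  refine integral_mono (hi2.const_mul _) hi1 fun x => ?_
  have h4 := abs_le.1 (hpt x)
  have h5 : qG D.F P (h e) x = qG D.F P D.F x + qG D.F P R x := by
    rw [← Int.qG_add_right, hR]
    congr 1
    funext x
    show at2 (h e) x = at2 D.F x + (at2 (h e) x - at2 D.F x)
    ext u v
    simp
  simp only
  rw [h5]
  have h6 := h4.1
  nlinarith [h6]

end Final

end

end Crest.Agent.R240.SmAdj
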