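import Mathlib
import Crest.Agent.R240.SmAdj
import Crest.Agent.R240.SmSys

/-!
# Row 240, N8: the fields `exact` and `adj` of the smoothing package (helper461)
-/

set_option autoImplicit false
set_option maxSynthPendingDepth 3
set_option linter.unusedSectionVars false

open Set Function Filter Metric MeasureTheory
open scoped Manifold ContDiff Topology
open Crest.Agent.R240.Ch Crest.Agent.R240.SmAdj

namespace Crest.Agent.R240.Sm

noncomputable section

variable {M : Type*} [MetricSpace M] [CompactSpace M] [ChartedSpace E4 M]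
    [IsManifold 𝓘(ℝ, E4) ∞ M] [MeasurableSpace M] [BorelSpace M]

/-- the operators of the system as compositions of averages. -/
lemma Sys.opL_avgL {S : Sys M} {e : ℝ} (h : S.Ok e) (q : Fin S.n → KF) (l : List (Fin S.n))
    (b : X2 M) :
    (S.opL e q l b : F2 E4 M) = avgL S.G S.p (fun i => kk (q i).1) e l (b : F2 E4 M) := by
  induction l with
  | nil => rfl
  | cons i l ih =>
    rw [Sys.opL_cons, LinearMap.comp_apply, Sys.op1_coe h i (q i).2, ih, avgL_cons]
    rfl

lemma kk_hcs (q : E4 → ℝ) : HasCompactSupport (kk q) :=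
  (isCompact_closedBall (0 : E4) 1).of_isClosed_subset (isClosed_tsupport _) (kk_supp q)

/-- `SmPack.exact`. -/
theorem fExact (S : Sys M) : FExact S := by
  obtain ⟨e1, he1, -, hok⟩ := S.exists_ok
  refine ⟨e1, he1, fun e q he hle b hb => ?_⟩
  have h := hok e he hle
  have h1 := isEx_avgL (κ := fun i => kk (q i).1) S.hG (fun i => (kk_smooth (q i).2).continuous)
    (fun i => kk_hcs _) (fun i => (h.adm_kk i (q i).2).mem) (List.finRange S.n) b.2 hb
  rw [Sys.A, Sys.opL_avgL h]
  exact h1

/-- `SmPack.adj`. -/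
theorem fAdj (D : Dat M) (S : Sys M) : FAdj D S := by
  obtain ⟨e1, he1, -, hok⟩ := S.exists_ok
  obtain ⟨𝒰⟩ := exists_Cover (M := M)
  have h1 := adj_avgL (κ := fun _ : Fin S.n => kap0) D 𝒰 S.hG (fun _ => kap0_cont)
    (fun _ => kap0_comp) (fun _ => kap0_integral) (ρ := 2) two_pos
    (fun _ => by rw [tsupport_kap0]; exact closedBall_subset_ball (by norm_num))
    (e0 := e1 / 4) (e1 := e1 / 2) (by linarith)
    (fun i => by
      have := (hok e1 he1 le_rfl).2 i
      rw [Sys.G_r]; linarith) (List.finRange S.n)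
  obtain ⟨C, hC⟩ := h1
  refine ⟨e1 / 4, by positivity, C, fun e he hle P hP => ?_⟩
  have h := hok e he (by linarith)
  have h2 := hC e he hle P.1 P.2 hP
  rw [Sys.A, Sys.opL_avgL h]
  have h3 : (fun i => kk ((oneK S.n) i).1) = fun _ : Fin S.n => kap0 := by
    funext i; exact kk_one
  rw [h3]
  exact h2

end

end Crest.Agent.R240.Sm
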