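import Crest.Agent.R240.Sm7a
import Crest.Agent.R240.Sm7b

/-!
# Row 240, block R, Sm7 part c (helper245): the jet bound `PB` and the field `approx` for `AL`
-/

set_option autoImplicit false
set_option maxSynthPendingDepth 3
set_option linter.unusedSectionVars false

open Set Function Filter MeasureTheory Metric
open scoped Manifold ContDiff Topology

namespace Crest.Agent.R240.Sm7

open Crest.Agent.R240.Ch Crest.Agent.R240.Sm

noncomputable section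

variable {M : Type*} [TopologicalSpace M] [ChartedSpace E4 M] [IsManifold 𝓘(ℝ, E4) ∞ M]
  [T2Space M]

/-- joint jets of the pull-backs are bounded by the `C^m` norm. -/
theorem pb_pullG (𝒰 : Cover M) {G : Fam E4} {p : M} (hG : G.K ⊆ (chartAt E4 p).target) {ρ : ℝ}
    (hρ : ρ < G.r) : PB 𝒰 G p ρ := by
  intro m
  have hLF : LF (ball (0 : E4) G.r) (fun w => pullG G p w) (fun w => psi G p w) :=
    LF.pullG hG isOpen_ball (ζ := fun w : E4 => w) contDiffOn_id fun w hw => hw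
  obtain ⟨A, hA, h⟩ := LF.jb_const 𝒰 isOpen_ball hLF (isCompact_closedBall (0 : E4) ρ)
    (closedBall_subset_ball hρ) m
  exact ⟨A, hA, fun b hb k z hz y hy j hj => h b hb k z hz y hy j hj⟩

/-- **field (2) of `SmPack`** for the composition `AL` of one-chart averages. -/
theorem approx_AL (𝒰 : Cover M) {ι : Type*} {G : ι → Fam E4} {p : ι → M}
    (hG : ∀ i, (G i).K ⊆ (chartAt E4 (p i)).target) {κ : ι → E4 → ℝ} (hk : ∀ i, Ker (κ i))
    (hk1 : ∀ i, ∫ z, κ i z = 1) {ρ : ι → ℝ} (hρ : ∀ i, ρ i < (G i).r) (l : List ι) (m : ℕ) :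
    ∃ C : ℝ, 0 ≤ C ∧ ∀ e, 0 < e → (∀ i ∈ l, e ≤ ρ i) → ∀ b : F2 E4 M, Smooth2 b →
      𝒰.cm m (AL G p κ l e b) ≤ C * 𝒰.cm m b ∧
      𝒰.cm m (AL G p κ l e b - b) ≤ C * e * 𝒰.cm (m + 1) b := by
  obtain ⟨C1, hC1, h1⟩ := cm_AL 𝒰 hG hk hρ (fun i => pb_pullG 𝒰 (hG i) (hρ i)) l m
  obtain ⟨C2, hC2, h2⟩ := cm_AL_sub 𝒰 hG hk hk1 hρ (fun i => pb_pullG 𝒰 (hG i) (hρ i)) l m
  refine ⟨C1 + C2, add_nonneg hC1 hC2, fun e he heρ b hb => ⟨?_, ?_⟩⟩
  · exact (h1 e he heρ b hb).trans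
      (mul_le_mul_of_nonneg_right (by linarith) (cm_nonneg 𝒰 m b))
  · refine (h2 e he heρ b hb).trans ?_
    exact mul_le_mul_of_nonneg_right (mul_le_mul_of_nonneg_right (by linarith) he.le)
      (cm_nonneg 𝒰 (m + 1) b)

/-- with uniform scale `e ≤ e0`, `e0 < (G i).r`. -/
theorem approx_AL' (𝒰 : Cover M) {ι : Type*} {G : ι → Fam E4} {p : ι → M}
    (hG : ∀ i, (G i).K ⊆ (chartAt E4 (p i)).target) {κ : ι → E4 → ℝ} (hk : ∀ i, Ker (κ i))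
    (hk1 : ∀ i, ∫ z, κ i z = 1) {e0 : ℝ} (he0 : ∀ i, e0 < (G i).r) (l : List ι) (m : ℕ) :
    ∃ C : ℝ, 0 ≤ C ∧ ∀ e, 0 < e → e ≤ e0 → ∀ b : F2 E4 M, Smooth2 b →
      𝒰.cm m (AL G p κ l e b) ≤ C * 𝒰.cm m b ∧
      𝒰.cm m (AL G p κ l e b - b) ≤ C * e * 𝒰.cm (m + 1) b := by
  obtain ⟨C, hC, h⟩ := approx_AL 𝒰 hG hk hk1 (ρ := fun _ => e0) he0 l m
  exact ⟨C, hC, fun e he hee b hb => h e he (fun _ _ => hee) b hb⟩

/-- the same statement under the name `pb` (helper950). -/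
theorem pb (𝒰 : Cover M) {G : Fam E4} {p : M} (hG : G.K ⊆ (chartAt E4 p).target) {ρ : ℝ}
    (hρ : ρ < G.r) : PB 𝒰 G p ρ := pb_pullG 𝒰 hG hρ

end

end Crest.Agent.R240.Sm7
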