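import Mathlib
import Crest.Agent.R240.SmSys
import Crest.Agent.R240.Sm7c

/-!
Row 240, N8 (helper915): the field `approx` for the smoothing system (from 245's `Sm7c`).
-/

set_option autoImplicit false
set_option maxSynthPendingDepth 3
set_option linter.unusedSectionVars false

open Set Function Filter Metric MeasureTheory
open scoped Manifold ContDiff Topology
open Crest.Agent.R240.Ch

namespace Crest.Agent.R240.Sm

noncomputable section

variable {M : Type*} [MetricSpace M] [CompactSpace M] [ChartedSpace E4 M]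
    [IsManifold 𝓘(ℝ, E4) ∞ M] [MeasurableSpace M] [BorelSpace M]

theorem fApprox (𝒰 : Cover M) (S : Sys M) : FApprox 𝒰 S := by
  obtain ⟨e1, he1, he1', hok⟩ := S.exists_ok
  refine ⟨e1, he1, fun l => ?_⟩
  have h1 : ∀ i : Fin S.n, e1 < (S.G i).r := fun i => (hok e1 he1 le_rfl).2 i
  have h2 : ∀ i : Fin S.n, Sm7.Ker (kk ((oneK S.n) i).1) := fun i => kk_ker ((oneK S.n) i).2
  have h3 : ∀ i : Fin S.n, ∫ z, kk ((oneK S.n) i).1 z = 1 := fun i => by
    change ∫ z, kk (fun _ => 1) z = 1
    rw [kk_one, kap0_integral]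
  obtain ⟨C, _, hC⟩ := Sm7.approx_AL' 𝒰 (G := S.G) (p := S.p) S.hG h2 h3 h1
    (List.finRange S.n) l
  refine ⟨C, fun e he he' b => ?_⟩
  have h := hC e he he' (b : F2 E4 M) b.2
  have hco : (S.A e (oneK S.n) b : F2 E4 M) =
      Sm7.AL S.G S.p (fun i => kk ((oneK S.n) i).1) (List.finRange S.n) e (b : F2 E4 M) :=
    Sys.opL_coe (hok e he he') _ _ b
  have hco' : ((S.A e (oneK S.n) b - b : X2 M) : F2 E4 M) =
      Sm7.AL S.G S.p (fun i => kk ((oneK S.n) i).1) (List.finRange S.n) e (b : F2 E4 M) -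
        (b : F2 E4 M) := by
    rw [← hco]; rfl
  rw [hco, hco']
  exact h

end

end Crest.Agent.R240.Sm
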