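import Mathlib
import Crest.Agent.R240.Sm2d
import Crest.Agent.R240.SmCr2
import Crest.Agent.R240.NrmM
import Crest.Agent.R240.ChDens

/-!
# Row 240 (S0371), node N8(5), helper609: crude smoothing bounds on `M` (general form)
-/

set_option autoImplicit false
set_option maxSynthPendingDepth 3
set_option linter.unusedSectionVars false

open Set Filter Topology MeasureTheory Metric
open scoped Manifold ContDiff ENNReal

namespace Crest.Agent.R240.SmCrX

open Crest.Agent.R240.Ch Crest.Agent.R240.Sm Crest.Agent.R240.SmJ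

noncomputable section

variable {M : Type*} [MetricSpace M] [CompactSpace M] [ChartedSpace E4 M]
    [IsManifold 𝓘(ℝ, E4) ∞ M] [MeasurableSpace M] [BorelSpace M]

theorem int_nr_le (D : R240.Dat M) {b : F2 E4 M} (hb : Smooth2 b) :
    ∫ x, D.nr b x ∂D.μ ≤ D.n2 D.F * D.n2 b := by
  have h1 := NM.int_nr_mul_le D hb (NM.smF D)
  simp only [NM.nr_F, mul_one] at h1
  linarith

/-- local `L¹` norm in a chart against the `L²` norm. -/
theorem l1_le_n2 (D : R240.Dat M) (k : M) {K : Set E4} (hK : IsCompact K)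
    (hKt : K ⊆ (chartAt E4 k).target) :
    ∃ C : ℝ, 0 ≤ C ∧ ∀ b : F2 E4 M, Smooth2 b → ∫ y in K, ‖rep k b y‖ ≤ C * D.n2 b := by
  have hn0 : ∀ b, 0 ≤ D.n2 b := NM.n2_nonneg D
  rcases K.eq_empty_or_nonempty with rfl | hne
  · exact ⟨0, le_rfl, fun b hb => by simp⟩
  obtain ⟨m, M', hBd⟩ := ChDens.exists_Bd D k hK hKt
  have hvol := Int.dat_volF D
  obtain ⟨y1, hy1, hmin⟩ := hK.exists_isMinOn hne ((hvol.continuousOn_dens k).mono hKt)
  set w : ℝ := Int.dens D.F k y1 with hw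
  have hw0 : 0 < w := hvol.dens_pos (hKt hy1)
  have hwle : ∀ y ∈ K, w ≤ Int.dens D.F k y := fun y hy => hmin hy
  set A : ℝ := √(2 * M' ^ 2) with hA
  have hA0 : 0 ≤ A := Real.sqrt_nonneg _
  have hptw : ∀ b : F2 E4 M, Smooth2 b → ∀ y ∈ K, ‖rep k b y‖ ≤
      A / w * (D.nr b ((chartAt E4 k).symm y) * Int.dens D.F k y) := by
    intro b hb y hy
    have h1 := (hBd y hy).norm_sq_le_nsq (Int.rep_alt hb.1 k y)
    have h2 : ‖rep k b y‖ ≤ A * D.nr b ((chartAt E4 k).symm y) := by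
      rw [ChDens.nr_chart D hb (hKt hy)]
      unfold nr
      rw [hA, ← Real.sqrt_mul (by positivity)]
      exact Real.le_sqrt_of_sq_le h1
    have h3 : 0 ≤ D.nr b ((chartAt E4 k).symm y) := NM.nr_nonneg D b _
    have h4 := hwle y hy
    calc ‖rep k b y‖ ≤ A * D.nr b ((chartAt E4 k).symm y) := h2
      _ = A / w * (D.nr b ((chartAt E4 k).symm y) * w) := by field_simp
      _ ≤ _ := by gcongr
  refine ⟨A / w * D.n2 D.F, mul_nonneg (by positivity) (hn0 _), fun b hb => ?_⟩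
  have hcont : ContinuousOn (fun y => rep k b y) K := ((hb.2 k).continuousOn).mono hKt
  set f : M → ℝ≥0∞ := (chartAt E4 k).source.indicator (fun x => ENNReal.ofReal (D.nr b x)) with hf
  have hfm : Measurable f :=
    (NM.continuous_nr D hb).measurable.ennreal_ofReal.indicator
      (chartAt E4 k).open_source.measurableSet
  have hf0 : ∀ x ∉ (chartAt E4 k).source, f x = 0 := fun x hx => indicator_of_notMem hx _
  have hv := D.vol k f hfm hf0
  have h1 : ∫⁻ y in K, ‖rep k b y‖ₑ ≤ ENNReal.ofReal (A / w * ∫ x, D.nr b x ∂D.μ) := by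
    calc ∫⁻ y in K, ‖rep k b y‖ₑ
        ≤ ∫⁻ y in K, ENNReal.ofReal (A / w) * (f ((chartAt E4 k).symm y) *
            ENNReal.ofReal (Int.dens D.F k y)) := by
          refine setLIntegral_mono' hK.measurableSet fun y hy => ?_
          have hs : (chartAt E4 k).symm y ∈ (chartAt E4 k).source :=
            (chartAt E4 k).map_target (hKt hy)
          rw [hf, indicator_of_mem hs, ← ENNReal.ofReal_mul (NM.nr_nonneg D b _),
            ← ENNReal.ofReal_mul (by positivity), ← ofReal_norm]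
          exact ENNReal.ofReal_le_ofReal (hptw b hb y hy)
      _ ≤ ∫⁻ y in (chartAt E4 k).target, ENNReal.ofReal (A / w) * (f ((chartAt E4 k).symm y) *
            ENNReal.ofReal (Int.dens D.F k y)) := lintegral_mono_set hKt
      _ = ENNReal.ofReal (A / w) * ∫⁻ x, f x ∂D.μ := by
          rw [lintegral_const_mul' _ _ ENNReal.ofReal_ne_top, hv]
          rfl
      _ ≤ ENNReal.ofReal (A / w) * ∫⁻ x, ENNReal.ofReal (D.nr b x) ∂D.μ := by
          gcongr with x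
          exact indicator_le_self _ _ x
      _ = ENNReal.ofReal (A / w) * ENNReal.ofReal (∫ x, D.nr b x ∂D.μ) := by
          rw [← ofReal_integral_eq_lintegral_ofReal (NM.integrable_cont D (NM.continuous_nr D hb))
            (Eventually.of_forall fun x => NM.nr_nonneg D b x)]
      _ = _ := by rw [← ENNReal.ofReal_mul (by positivity)]
  rw [integral_norm_eq_lintegral_enorm (hcont.aestronglyMeasurable hK.measurableSet)]
  have h2 : 0 ≤ ∫ x, D.nr b x ∂D.μ := integral_nonneg fun x => NM.nr_nonneg D b x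
  refine (ENNReal.toReal_le_of_le_ofReal (by positivity) h1).trans ?_
  have h3 := int_nr_le D hb
  calc A / w * ∫ x, D.nr b x ∂D.μ ≤ A / w * (D.n2 D.F * D.n2 b) := by gcongr
    _ = _ := by ring

/-- multiplying by a cutoff supported in the chart. -/
theorem contDiff_cut_rep {k : M} {χ : E4 → ℝ} (hχ : ContDiff ℝ ∞ χ)
    (hs : tsupport χ ⊆ (chartAt E4 k).target) {b : F2 E4 M} (hb : Smooth2 b) :
    ContDiff ℝ ∞ (fun y => χ y • rep k b y) := by
  rw [contDiff_iff_contDiffAt]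
  intro y
  by_cases hy : y ∈ (chartAt E4 k).target
  · exact hχ.contDiffAt.smul ((hb.2 k y hy).contDiffAt ((chartAt E4 k).open_target.mem_nhds hy))
  · have hy' : y ∉ tsupport χ := fun h => hy (hs h)
    have hev : (fun y => χ y • rep k b y) =ᶠ[𝓝 y] fun _ => 0 := by
      filter_upwards [(isClosed_tsupport χ).isOpen_compl.mem_nhds hy'] with w hw
      rw [image_eq_zero_of_notMem_tsupport hw, zero_smul]
    exact contDiffAt_const.congr_of_eventuallyEq hev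

variable {Z : Type} [NormedAddCommGroup Z] [NormedSpace ℝ Z] [FiniteDimensional ℝ Z]
  [MeasureSpace Z] [BorelSpace Z] [(volume : Measure Z).IsAddHaarMeasure]

/-- **crude bound near one point.** -/
theorem crude_loc (D : R240.Dat M) {r : ℝ} (hr : 0 < r) {T : Z → F2 E4 M → F2 E4 M}
    {φ : Z → M → M} (hLF : LF (ball (0 : Z) r) T φ) (hφ0 : ∀ x, φ 0 x = x)
    (q : M) {y0 : E4} (hy0 : y0 ∈ (chartAt E4 q).target)
    (hSUB : ∃ (k : M) (j : E4 →L[ℝ] Z) (L0 : E4 ≃L[ℝ] E4),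
      (chartAt E4 q).symm y0 ∈ (chartAt E4 k).source ∧ ‖j‖ ≤ 1 ∧
      HasFDerivAt (fun ζ => chartAt E4 k (φ (j ζ) ((chartAt E4 q).symm y0)))
        (L0 : E4 →L[ℝ] E4) 0) :
    ∃ ρ : ℝ, 0 < ρ ∧ ρ < r ∧ ∀ m : ℕ, ∃ C : ℝ, 0 ≤ C ∧
      ∀ κ : Z → ℝ, ContDiff ℝ ∞ κ → tsupport κ ⊆ closedBall 0 1 → ∀ B : ℝ,
        (∀ i ≤ m, ∀ z, ‖iteratedFDeriv ℝ i κ z‖ ≤ B) → ∀ e : ℝ, 0 < e → e ≤ ρ →
        ∀ b : F2 E4 M, Smooth2 b → ∀ y ∈ ball y0 ρ,
          ‖iteratedFDeriv ℝ m (fun y => ∫ z, κ z • rep q (T (e • z) b) y) y‖ ≤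
            C * B * (e ^ (m + 4))⁻¹ * D.n2 b := by
  obtain ⟨k, j, L0, hk, hj, hder⟩ := hSUB
  set x0 : M := (chartAt E4 q).symm y0 with hx0
  obtain ⟨N, hNo, hmN, hNs, hNc, hV, Λ, hΛ, hrep⟩ :=
    hLF 0 (mem_ball_self hr) q y0 hy0 k (by rw [hφ0]; exact hk)
  set V : Z × E4 → E4 := fun v => chartAt E4 k (φ v.1 ((chartAt E4 q).symm v.2)) with hVd
  set y1 : E4 := chartAt E4 k x0 with hy1
  have hy1t : y1 ∈ (chartAt E4 k).target := (chartAt E4 k).map_source hk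
  have hV0 : V (0, y0) = y1 := by simp only [hVd, hφ0]; rfl
  obtain ⟨δ, hδ, hδs⟩ := Metric.isOpen_iff.1 (chartAt E4 k).open_target y1 hy1t
  let χ : ContDiffBump y1 := ⟨δ / 4, δ / 2, by positivity, by linarith⟩
  have hχs : tsupport χ ⊆ closedBall y1 (δ / 2) := χ.tsupport_eq.subset
  have hKt : closedBall y1 (δ / 2) ⊆ (chartAt E4 k).target :=
    (closedBall_subset_ball (by linarith)).trans hδs
  have hχ1 : ∀ y ∈ ball y1 (δ / 4), χ y = 1 := fun y hy =>
    χ.one_of_mem_closedBall (ball_subset_closedBall hy)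
  -- the swapped data
  set U : Set (E4 × Z) := (Prod.swap ⁻¹' N) ∩ (fun p : E4 × Z => V p.swap) ⁻¹' (ball y1 (δ / 4))
    with hU
  have hswap : ContDiff ℝ ∞ (Prod.swap : E4 × Z → Z × E4) := contDiff_snd.prodMk contDiff_fst
  have hYs : ContDiffOn ℝ ∞ (fun p : E4 × Z => V p.swap) (Prod.swap ⁻¹' N) :=
    hV.comp hswap.contDiffOn (fun p hp => hp)
  have hUo : IsOpen U :=
    hYs.continuousOn.isOpen_inter_preimage (hNo.preimage hswap.continuous) isOpen_ball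
  have h0U : (y0, (0 : Z)) ∈ U := by
    refine ⟨hmN, ?_⟩
    show V (0, y0) ∈ ball y1 (δ / 4)
    rw [hV0]; exact mem_ball_self (by positivity)
  set Y : E4 × Z → E4 := fun p => V p.swap with hY
  have hYU : ContDiffOn ℝ ∞ Y U := hYs.mono inter_subset_left
  have hdy : (dy Y (y0, 0)).comp j = (L0 : E4 →L[ℝ] E4) := by
    have hd : DifferentiableAt ℝ Y (y0, 0) :=
      ((hYU (y0, 0) h0U).contDiffAt (hUo.mem_nhds h0U)).differentiableAt (by simp)
    have h1 : HasFDerivAt (fun z : Z => Y (y0, z)) (dy Y (y0, 0)) 0 := hasFDerivAt_dy hd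
    have h2 : HasFDerivAt (fun ζ : E4 => Y (y0, j ζ)) ((dy Y (y0, 0)).comp j) 0 := by
      have h3 : HasFDerivAt (fun z : Z => Y (y0, z)) (dy Y (y0, 0)) (j 0) := by
        rw [map_zero]; exact h1
      exact h3.comp 0 j.hasFDerivAt
    exact h2.unique hder
  obtain ⟨d, c, c0, hdY, hqN, hΩU, hND⟩ := SmCr.exists_dat hUo hYU h0U hj hdy
  obtain ⟨ρ, hρ, hρN, h3ρ, hbd⟩ := SmCr.local_crude (volume : Measure E4) (volume : Measure Z) d
    (V := Bil) hND hqN
  obtain ⟨C1, hC1, hl1⟩ := l1_le_n2 D k (isCompact_closedBall y1 (δ / 2)) hKt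
  set A : E4 × Z → Bil →L[ℝ] Bil := fun p => Λ p.swap with hA
  have hAs : ContDiffOn ℝ ∞ A d.Ω :=
    hΛ.comp hswap.contDiffOn (fun p hp => (hΩU hp).1)
  refine ⟨min ρ (r / 2), by positivity, (min_le_right _ _).trans_lt (by linarith), fun m => ?_⟩
  obtain ⟨C, hC, hbm⟩ := hbd (W := Bil) A hAs m
  refine ⟨C * C1, by positivity, ?_⟩
  intro κ hκ hs B hB e he heρ b hb y hy
  have heρ' : e ≤ ρ := heρ.trans (min_le_left _ _)
  set β : E4 → Bil := fun y => χ y • rep k b y with hβ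
  have hβs : ContDiff ℝ ∞ β := contDiff_cut_rep (k := k) χ.contDiff (hχs.trans hKt) hb
  have hβ0 : ∀ y ∉ closedBall y1 (δ / 2), β y = 0 := by
    intro y hy
    have : χ y = 0 := image_eq_zero_of_notMem_tsupport (fun h => hy (hχs h))
    simp only [hβ, this, zero_smul]
  have hβc : HasCompactSupport β :=
    HasCompactSupport.intro (isCompact_closedBall y1 (δ / 2)) hβ0
  have hβi : Integrable β := hβs.continuous.integrable_of_hasCompactSupport hβc
  -- the operator in the chart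
  have hOp : ∀ y ∈ ball y0 ρ, d.Op volume e κ A β y = ∫ z, κ z • rep q (T (e • z) b) y := by
    intro y hy
    unfold SmCr.Dat.Op
    refine integral_congr_ae (Eventually.of_forall fun z => ?_)
    show κ z • A (y, e • z) (β (d.Y (y, e • z))) = κ z • rep q (T (e • z) b) y
    by_cases hz : κ z = 0
    · simp only [hz, zero_smul]
    have hz1 : z ∈ closedBall (0 : Z) 1 := hs (subset_tsupport _ hz)
    have hzn : ‖z‖ ≤ 1 := by simpa using hz1
    have hmem : (y, e • z) ∈ d.Ω := by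
      refine ⟨hρN hy, ?_⟩
      rw [mem_ball_zero_iff, norm_smul, Real.norm_eq_abs, abs_of_pos he]
      calc e * ‖z‖ ≤ e * 1 := by gcongr
        _ < d.r := by linarith
    have hmU := hΩU hmem
    have e1 : β (d.Y (y, e • z)) = rep k b (V (e • z, y)) := by
      have h1 : d.Y (y, e • z) = V (e • z, y) := by rw [hdY]; rfl
      have h2 : χ (V (e • z, y)) = 1 := hχ1 _ hmU.2
      simp only [hβ, h1, h2, one_smul]
    rw [e1, hrep (e • z, y) hmU.1 b]
    rfl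
  have hev : (fun y => ∫ z, κ z • rep q (T (e • z) b) y) =ᶠ[𝓝 y] d.Op volume e κ A β := by
    have hyρ : y ∈ ball y0 ρ := ball_subset_ball (min_le_left _ _) hy
    filter_upwards [isOpen_ball.mem_nhds hyρ] with y' hy' using (hOp y' hy').symm
  rw [(Filter.EventuallyEq.iteratedFDeriv ℝ hev m).eq_of_nhds]
  have h1 := hbm κ hκ hs B hB e he heρ' β hβs hβi y (ball_subset_ball (min_le_left _ _) hy)
  have hB0 : 0 ≤ B := (norm_nonneg _).trans (hB 0 (Nat.zero_le _) 0)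
  have h2 : ∫ x, ‖β x‖ ≤ C1 * D.n2 b := by
    have h3 : ∫ x, ‖β x‖ = ∫ x in closedBall y1 (δ / 2), ‖β x‖ := by
      rw [setIntegral_eq_integral_of_forall_compl_eq_zero]
      intro x hx
      rw [hβ0 x hx, norm_zero]
    rw [h3]
    refine le_trans ?_ (hl1 b hb)
    have hcK := isCompact_closedBall y1 (δ / 2)
    refine setIntegral_mono_on (hβi.norm.integrableOn)
      ((((hb.2 k).continuousOn).mono hKt).norm.integrableOn_compact hcK) hcK.measurableSet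
      fun x _ => ?_
    rw [hβ]
    simp only
    rw [norm_smul, Real.norm_eq_abs, abs_of_nonneg χ.nonneg]
    calc χ x * ‖rep k b x‖ ≤ 1 * ‖rep k b x‖ := by
          gcongr
          exact χ.le_one
      _ = _ := one_mul _
  have hfr : Module.finrank ℝ E4 = 4 := by simp [E4]
  rw [hfr] at h1
  calc ‖iteratedFDeriv ℝ m (d.Op volume e κ A β) y‖
      ≤ C * B * (e ^ (m + 4))⁻¹ * ∫ x, ‖β x‖ := h1
    _ ≤ C * B * (e ^ (m + 4))⁻¹ * (C1 * D.n2 b) := by gcongr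
    _ = _ := by ring

/-- **crude bound on `M`** (field (5) of `SmPack`). -/
theorem crude_M (D : R240.Dat M) (𝒰 : Cover M) {r : ℝ} (hr : 0 < r)
    {T : Z → F2 E4 M → F2 E4 M} {φ : Z → M → M}
    (hLF : LF (ball (0 : Z) r) T φ) (hφ0 : ∀ x, φ 0 x = x)
    (hJS : ∀ b : F2 E4 M, Smooth2 b → JSm (ball (0 : Z) r) (fun z => T z b))
    (hSUB : ∀ x : M, ∃ (k : M) (j : E4 →L[ℝ] Z) (L0 : E4 ≃L[ℝ] E4),
      x ∈ (chartAt E4 k).source ∧ ‖j‖ ≤ 1 ∧
      HasFDerivAt (fun ζ => chartAt E4 k (φ (j ζ) x)) (L0 : E4 →L[ℝ] E4) 0) :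
    ∃ ρ : ℝ, 0 < ρ ∧ ρ < r ∧ ∀ l : ℕ, ∃ C : ℝ, 0 ≤ C ∧
      ∀ κ : Z → ℝ, ContDiff ℝ ∞ κ → tsupport κ ⊆ closedBall 0 1 → ∀ B : ℝ,
        (∀ i ≤ l, ∀ z, ‖iteratedFDeriv ℝ i κ z‖ ≤ B) → ∀ e : ℝ, 0 < e → e ≤ ρ →
        ∀ b : F2 E4 M, Smooth2 b →
          𝒰.cm l (avg κ (fun z => T (e • z) b)) ≤ C * B / e ^ (l + 4) * D.n2 b := by
  have hloc : ∀ q : M, ∀ y0 ∈ (chartAt E4 q).target, ∃ ρ : ℝ, 0 < ρ ∧ ρ < r ∧ ∀ m : ℕ,
      ∃ C : ℝ, 0 ≤ C ∧
      ∀ κ : Z → ℝ, ContDiff ℝ ∞ κ → tsupport κ ⊆ closedBall 0 1 → ∀ B : ℝ,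
        (∀ i ≤ m, ∀ z, ‖iteratedFDeriv ℝ i κ z‖ ≤ B) → ∀ e : ℝ, 0 < e → e ≤ ρ →
        ∀ b : F2 E4 M, Smooth2 b → ∀ y ∈ ball y0 ρ,
          ‖iteratedFDeriv ℝ m (fun y => ∫ z, κ z • rep q (T (e • z) b) y) y‖ ≤
            C * B * (e ^ (m + 4))⁻¹ * D.n2 b :=
    fun q y0 hy0 => crude_loc D hr hLF hφ0 q hy0 (hSUB _)
  choose! ρf hρ0 hρr Cf hC0 hbd using hloc
  -- finite subcovers
  have hcov : ∀ i : Fin 𝒰.N, ∃ t : Finset E4, (∀ y ∈ t, y ∈ 𝒰.K i) ∧
      𝒰.K i ⊆ ⋃ y ∈ t, ball y (ρf (𝒰.p i) y) := by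
    intro i
    obtain ⟨t, ht, hc⟩ := (𝒰.cpt i).elim_nhds_subcover (fun y => ball y (ρf (𝒰.p i) y))
      (fun y hy => ball_mem_nhds y (hρ0 _ _ (𝒰.sub i hy)))
    exact ⟨t, ht, hc⟩
  choose t ht hcov using hcov
  -- the radius
  obtain ⟨ρ, hρ, hρr', hρle⟩ : ∃ ρ : ℝ, 0 < ρ ∧ ρ ≤ min 1 (r / 2) ∧
      ∀ i, ∀ y ∈ t i, ρ ≤ ρf (𝒰.p i) y := by
    have h1 : ∀ (s : Finset (Fin 𝒰.N × E4)), (∀ v ∈ s, v.2 ∈ 𝒰.K v.1) → ∃ ρ : ℝ, 0 < ρ ∧
        ρ ≤ min 1 (r / 2) ∧ ∀ v ∈ s, ρ ≤ ρf (𝒰.p v.1) v.2 := by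
      classical
      intro s
      induction s using Finset.induction_on with
      | empty => exact fun _ => ⟨min 1 (r / 2), by positivity, le_rfl, fun v hv => absurd hv (by simp)⟩
      | insert a s ha ih =>
        intro hs
        obtain ⟨ρ, h1, h2, h3⟩ := ih fun v hv => hs v (Finset.mem_insert_of_mem hv)
        have h4 := hρ0 (𝒰.p a.1) a.2 (𝒰.sub a.1 (hs a (Finset.mem_insert_self _ _)))
        refine ⟨min ρ (ρf (𝒰.p a.1) a.2), lt_min h1 h4, (min_le_left _ _).trans h2, ?_⟩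
        intro v hv
        rcases Finset.mem_insert.1 hv with rfl | hv
        · exact min_le_right _ _
        · exact (min_le_left _ _).trans (h3 v hv)
    classical
    obtain ⟨ρ, h1, h2, h3⟩ := h1 (Finset.univ.biUnion fun i => (t i).image fun y => (i, y)) (by
      intro v hv
      simp only [Finset.mem_biUnion, Finset.mem_univ, true_and, Finset.mem_image] at hv
      obtain ⟨i, y, hy, rfl⟩ := hv
      exact ht i y hy)
    refine ⟨ρ, h1, h2, fun i y hy => h3 (i, y) ?_⟩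
    simp only [Finset.mem_biUnion, Finset.mem_univ, true_and, Finset.mem_image]
    exact ⟨i, y, hy, rfl⟩
  have hρ1 : ρ ≤ 1 := hρr'.trans (min_le_left _ _)
  have hρ2 : ρ ≤ r / 2 := hρr'.trans (min_le_right _ _)
  refine ⟨ρ, hρ, by linarith, fun l => ?_⟩
  -- the constant
  set C : ℝ := ∑ i, ∑ y ∈ t i, ∑ m ∈ Finset.range (l + 1), Cf (𝒰.p i) y m with hC
  have hCnn : ∀ i, ∀ y ∈ t i, ∀ m, 0 ≤ Cf (𝒰.p i) y m := fun i y hy m =>
    hC0 _ _ (𝒰.sub i (ht i y hy)) m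
  have hCle : ∀ i, ∀ y ∈ t i, ∀ m ≤ l, Cf (𝒰.p i) y m ≤ C := by
    intro i y hy m hm
    have h1 : Cf (𝒰.p i) y m ≤ ∑ m ∈ Finset.range (l + 1), Cf (𝒰.p i) y m :=
      Finset.single_le_sum (f := fun m => Cf (𝒰.p i) y m) (fun m _ => hCnn i y hy m)
        (Finset.mem_range.2 (by omega))
    have h2 : ∑ m ∈ Finset.range (l + 1), Cf (𝒰.p i) y m ≤
        ∑ y ∈ t i, ∑ m ∈ Finset.range (l + 1), Cf (𝒰.p i) y m :=
      Finset.single_le_sum (f := fun y => ∑ m ∈ Finset.range (l + 1), Cf (𝒰.p i) y m)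
        (fun y hy => Finset.sum_nonneg fun m _ => hCnn i y hy m) hy
    have h3 : ∑ y ∈ t i, ∑ m ∈ Finset.range (l + 1), Cf (𝒰.p i) y m ≤ C :=
      Finset.single_le_sum (f := fun i => ∑ y ∈ t i, ∑ m ∈ Finset.range (l + 1), Cf (𝒰.p i) y m)
        (fun i _ => Finset.sum_nonneg fun y hy => Finset.sum_nonneg fun m _ => hCnn i y hy m)
        (Finset.mem_univ i)
    exact h1.trans (h2.trans h3)
  have hCnn' : 0 ≤ C := Finset.sum_nonneg fun i _ => Finset.sum_nonneg fun y hy =>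
    Finset.sum_nonneg fun m _ => hCnn i y hy m
  refine ⟨C, hCnn', ?_⟩
  intro κ hκ hs B hB e he heρ b hb
  have hB0 : 0 ≤ B := (norm_nonneg _).trans (hB 0 (Nat.zero_le _) 0)
  have hn2 : 0 ≤ D.n2 b := NM.n2_nonneg D b
  have he1 : e ≤ 1 := heρ.trans hρ1
  refine cm_le 𝒰 (by positivity) fun i m hm y hy => ?_
  obtain ⟨y0, hy0, hyb⟩ : ∃ y0 ∈ t i, y ∈ ball y0 (ρf (𝒰.p i) y0) := by
    simpa using hcov i hy
  have hy0K := ht i y0 hy0
  have hc : HasCompactSupport κ := by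
    have : ProperSpace Z := FiniteDimensional.proper ℝ Z
    exact HasCompactSupport.of_support_subset_isCompact (isCompact_closedBall 0 1)
      ((subset_tsupport κ).trans hs)
  have hUo : IsOpen {z : Z | e • z ∈ ball (0 : Z) r} := isOpen_ball.preimage (continuous_const_smul e)
  have hsU : tsupport κ ⊆ {z : Z | e • z ∈ ball (0 : Z) r} := by
    intro z hz
    have hz1 : ‖z‖ ≤ 1 := by simpa using hs hz
    show e • z ∈ ball (0 : Z) r
    rw [mem_ball_zero_iff, norm_smul, Real.norm_eq_abs, abs_of_pos he]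
    calc e * ‖z‖ ≤ e * 1 := by gcongr
      _ < r := by linarith
  have hJ : JSm {z : Z | e • z ∈ ball (0 : Z) r} (fun z => T (e • z) b) :=
    (hJS b hb).comp (contDiff_const_smul e).contDiffOn (fun z hz => hz)
  have hrep : rep (𝒰.p i) (avg κ (fun z => T (e • z) b)) =
      fun y => ∫ z, κ z • rep (𝒰.p i) (T (e • z) b) y :=
    funext fun y => rep_avg hUo hκ.continuous hc hsU hJ (𝒰.p i) y
  rw [hrep]
  have h1 := hbd (𝒰.p i) y0 (𝒰.sub i hy0K) m κ hκ hs B (fun j hj z => hB j (hj.trans hm) z) e he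
    (heρ.trans (hρle i y0 hy0)) b hb y hyb
  refine h1.trans ?_
  have h2 : (e ^ (m + 4))⁻¹ ≤ (e ^ (l + 4))⁻¹ := by
    apply inv_anti₀ (by positivity)
    exact pow_le_pow_of_le_one he.le he1 (by omega)
  have h3 := hCle i y0 hy0 m hm
  rw [div_eq_mul_inv]
  gcongr

end

end Crest.Agent.R240.SmCrX
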