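import Mathlib
import Crest.Agent.R240.SmSys
import Crest.Agent.R240.SmCrM
import Crest.Agent.R240.SmCrX
import Crest.Agent.R240.LkF

/-!
# Row 240 (S0371), N8, field `crude` (helper609, with 950, 404)
-/

set_option autoImplicit false
set_option maxSynthPendingDepth 3
set_option linter.unusedSectionVars false

open Set Filter Topology MeasureTheory Metric
open scoped Manifold ContDiff ENNReal

namespace Crest.Agent.R240.Sm

open Crest.Agent.R240.Ch

noncomputable section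

/-! ### bounds of product kernels -/

/-- the bound of one factor. -/
theorem exists_kk_bound (l : ℕ) : ∃ B : ℝ, 0 ≤ B ∧ ∀ q : E4 → ℝ, ContDiff ℝ ∞ q →
    (∀ j ≤ l, ∀ z ∈ closedBall (0 : E4) 1, ‖iteratedFDeriv ℝ j q z‖ ≤ 1) →
    ∀ j ≤ l, ∀ z, ‖iteratedFDeriv ℝ j (kk q) z‖ ≤ B := by
  have h1 : ∀ j : ℕ, ∃ C : ℝ, ∀ z, ‖iteratedFDeriv ℝ j kap0 z‖ ≤ C := fun j =>
    (kap0_comp.iteratedFDeriv (𝕜 := ℝ) j).exists_bound_of_continuous
      (kap0_smooth.continuous_iteratedFDeriv (by exact_mod_cast le_top))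
  choose C hC using h1
  have hC0 : ∀ j, 0 ≤ C j := fun j => (norm_nonneg _).trans (hC j 0)
  refine ⟨∑ j ∈ Finset.range (l + 1), ∑ i ∈ Finset.range (j + 1), (j.choose i : ℝ) * C (j - i),
    Finset.sum_nonneg fun j _ => Finset.sum_nonneg fun i _ => mul_nonneg (by positivity) (hC0 _), ?_⟩
  intro q hq hq1 j hj z
  have hle : ∑ i ∈ Finset.range (j + 1), (j.choose i : ℝ) * C (j - i) ≤
      ∑ j ∈ Finset.range (l + 1), ∑ i ∈ Finset.range (j + 1), (j.choose i : ℝ) * C (j - i) :=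
    Finset.single_le_sum (f := fun j => ∑ i ∈ Finset.range (j + 1), (j.choose i : ℝ) * C (j - i))
      (fun j _ => Finset.sum_nonneg fun i _ => mul_nonneg (by positivity) (hC0 _))
      (Finset.mem_range.2 (by omega))
  refine le_trans ?_ hle
  by_cases hz : z ∈ closedBall (0 : E4) 1
  · refine (norm_iteratedFDeriv_mul_le (N := ∞) hq kap0_smooth z
      (by exact_mod_cast le_top)).trans ?_
    refine Finset.sum_le_sum fun i hi => ?_
    have h2 : ‖iteratedFDeriv ℝ i q z‖ ≤ 1 :=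
      hq1 i ((Nat.lt_succ_iff.1 (Finset.mem_range.1 hi)).trans hj) z hz
    calc (j.choose i : ℝ) * ‖iteratedFDeriv ℝ i q z‖ * ‖iteratedFDeriv ℝ (j - i) kap0 z‖
        ≤ (j.choose i : ℝ) * 1 * C (j - i) := by
          have := hC (j - i) z
          gcongr
      _ = _ := by ring
  · have h3 : iteratedFDeriv ℝ j (kk q) z = 0 := by
      by_contra h
      exact hz (kk_supp q (support_iteratedFDeriv_subset j h))
    rw [h3, norm_zero]
    exact Finset.sum_nonneg fun i _ => mul_nonneg (by positivity) (hC0 _)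

/-- bounds of products. -/
theorem exists_prod_bound {Z : Type*} [NormedAddCommGroup Z] [NormedSpace ℝ Z] (l : ℕ) {Bk : ℝ}
    (hBk : 0 ≤ Bk) (n : ℕ) : ∃ B : ℝ, 0 ≤ B ∧ ∀ f : Fin n → Z → ℝ, (∀ i, ContDiff ℝ ∞ (f i)) →
    (∀ i, ∀ j ≤ l, ∀ z, ‖iteratedFDeriv ℝ j (f i) z‖ ≤ Bk) →
    ∀ j ≤ l, ∀ z, ‖iteratedFDeriv ℝ j (fun z => ∏ i, f i z) z‖ ≤ B := by
  induction n with
  | zero =>
    refine ⟨1, zero_le_one, fun f _ _ j _ z => ?_⟩
    simp only [Finset.univ_eq_empty, Finset.prod_empty]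
    rcases j with _ | j
    · rw [norm_iteratedFDeriv_zero]; simp
    · rw [iteratedFDeriv_succ_const]; simp
  | succ n ih =>
    obtain ⟨B, hB, h⟩ := ih
    refine ⟨2 ^ l * Bk * B, by positivity, fun f hf hfb j hj z => ?_⟩
    have h1 : (fun z => ∏ i, f i z) = fun z => f 0 z * ∏ i : Fin n, f i.succ z :=
      funext fun z => Fin.prod_univ_succ _
    rw [h1]
    have hs : ContDiff ℝ ∞ (fun z => ∏ i : Fin n, f i.succ z) :=
      contDiff_prod fun i _ => hf _
    refine (norm_iteratedFDeriv_mul_le (N := ∞) (hf 0) hs z (by exact_mod_cast le_top)).trans ?_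
    calc ∑ i ∈ Finset.range (j + 1), (j.choose i : ℝ) * ‖iteratedFDeriv ℝ i (f 0) z‖ *
          ‖iteratedFDeriv ℝ (j - i) (fun z => ∏ i : Fin n, f i.succ z) z‖
        ≤ ∑ i ∈ Finset.range (j + 1), (j.choose i : ℝ) * Bk * B := by
          refine Finset.sum_le_sum fun i hi => ?_
          have h2 := hfb 0 i ((Nat.lt_succ_iff.1 (Finset.mem_range.1 hi)).trans hj) z
          have h3 := h (fun i => f i.succ) (fun i => hf _) (fun i => hfb _) (j - i)
            ((Nat.sub_le _ _).trans hj) z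
          gcongr
      _ = 2 ^ j * Bk * B := by
          rw [← Finset.sum_mul, ← Finset.sum_mul]
          have := Nat.sum_range_choose j
          have h4 : (∑ i ∈ Finset.range (j + 1), (j.choose i : ℝ)) = 2 ^ j := by
            exact_mod_cast this
          rw [h4]
      _ ≤ 2 ^ l * Bk * B := by
          have : (2 : ℝ) ^ j ≤ 2 ^ l := pow_le_pow_right₀ (by norm_num) hj
          gcongr

theorem norm_iter_comp_proj {n : ℕ} {g : E4 → ℝ} (hg : ContDiff ℝ ∞ g) (i : Fin n) (j : ℕ)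
    {B : ℝ} (hB : ∀ z, ‖iteratedFDeriv ℝ j g z‖ ≤ B) (z : Fin n → E4) :
    ‖iteratedFDeriv ℝ j (fun z : Fin n → E4 => g (z i)) z‖ ≤ B := by
  have hB0 : 0 ≤ B := (norm_nonneg _).trans (hB 0)
  set P : (Fin n → E4) →L[ℝ] E4 := ContinuousLinearMap.proj i with hP
  have h6 : ‖P‖ ≤ 1 :=
    ContinuousLinearMap.opNorm_le_bound _ zero_le_one fun z => by
      rw [one_mul]; exact norm_le_pi_norm z i
  have h5 : iteratedFDeriv ℝ j (g ∘ P) z =
      (iteratedFDeriv ℝ j g (P z)).compContinuousLinearMap fun _ => P :=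
    ContinuousLinearMap.iteratedFDeriv_comp_right (n := ∞) P hg z (by exact_mod_cast le_top)
  have h7 : (fun z : Fin n → E4 => g (z i)) = g ∘ P := rfl
  rw [h7, h5]
  refine (ContinuousMultilinearMap.norm_compContinuousLinearMap_le _ _).trans ?_
  calc ‖iteratedFDeriv ℝ j g (P z)‖ * ∏ _i : Fin j, ‖P‖ ≤ B * 1 := by
        refine mul_le_mul (hB _) ?_ (Finset.prod_nonneg fun _ _ => norm_nonneg _) hB0
        exact Finset.prod_le_one (fun _ _ => norm_nonneg _) fun _ _ => h6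
    _ = B := mul_one _

/-- the bound of the product kernels. -/
theorem exists_kp_bound (n l : ℕ) : ∃ B : ℝ, 0 ≤ B ∧ ∀ q : Fin n → KF, q ∈ ClK n l →
    ∀ j ≤ l, ∀ z, ‖iteratedFDeriv ℝ j (Leak.kp fun i => kk (q i).1) z‖ ≤ B := by
  obtain ⟨Bk, hBk, h1⟩ := exists_kk_bound l
  obtain ⟨B, hB, h2⟩ := exists_prod_bound (Z := Fin n → E4) l hBk n
  refine ⟨B, hB, fun q hq j hj z => ?_⟩
  refine h2 (fun i z => kk (q i).1 (z i))
    (fun i => (kk_smooth (q i).2).comp (contDiff_apply ℝ E4 i)) ?_ j hj z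
  intro i j hj z
  exact norm_iter_comp_proj (kk_smooth (q i).2) i j
    (h1 (q i).1 (q i).2 (fun j hj z hz => hq i j hj z hz) j hj) z

/-! ### the field -/

variable {M : Type*} [MetricSpace M] [CompactSpace M] [ChartedSpace E4 M]
    [IsManifold 𝓘(ℝ, E4) ∞ M] [MeasurableSpace M] [BorelSpace M]

/-- **field `crude` of `SmPack`.** -/
theorem fCrude (D : R240.Dat M) (𝒰 : Cover M) (S : Sys M) : FCrude D 𝒰 S := by
  classical
  obtain ⟨r, hr, -, hok⟩ := S.exists_ok
  have hokr : S.Ok r := hok r hr le_rfl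
  have hsub : ball (0 : Fin S.n → E4) r ⊆ Leak.UU S.G := by
    intro z hz i
    have h1 : ‖z‖ < r := by simpa using hz
    show z i ∈ ball (0 : E4) (S.G i).r
    rw [mem_ball_zero_iff, S.G_r]
    exact ((norm_le_pi_norm z i).trans_lt h1).trans (hokr.2 i)
  have hG : Leak.HG S.G S.p := S.hG
  have hnd : (List.finRange S.n).Nodup := List.nodup_finRange S.n
  have hLF : LF (ball (0 : Fin S.n → E4) r) (fun z => Leak.PP S.G S.p (List.finRange S.n) z)
      (fun z => Leak.PS S.G S.p (List.finRange S.n) z) :=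
    (SmCrM.LF_PP (M := M) hG (List.finRange S.n)).reparam isOpen_ball contDiffOn_id hsub
  have hJS : ∀ b : F2 E4 M, Smooth2 b → JSm (ball (0 : Fin S.n → E4) r)
      (fun z => Leak.PP S.G S.p (List.finRange S.n) z b) := fun b hb =>
    Leak.JSm.PP hG isOpen_ball contDiffOn_id hsub (JSm.const hb _)
  have hSUB : ∀ x : M, ∃ (k : M) (j : E4 →L[ℝ] (Fin S.n → E4)) (L0 : E4 ≃L[ℝ] E4),
      x ∈ (chartAt E4 k).source ∧ ‖j‖ ≤ 1 ∧
      HasFDerivAt (fun ζ => chartAt E4 k (Leak.PS S.G S.p (List.finRange S.n) (j ζ) x))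
        (L0 : E4 →L[ℝ] E4) 0 := by
    intro x
    obtain ⟨i, hi, hK⟩ := S.cover x
    refine ⟨S.p i, SmCrM.slot i, ContinuousLinearEquiv.refl ℝ E4, hi, SmCrM.norm_slot_le i, ?_⟩
    have hθ : (S.c i).θ (chartAt E4 (S.p i) x) = 1 := S.one i _ (S.KΩ i (interior_subset hK))
    have h3 : (fun ζ : E4 => chartAt E4 (S.p i)
        (Leak.PS S.G S.p (List.finRange S.n) (SmCrM.slot i ζ) x)) =ᶠ[𝓝 0]
        fun ζ => chartAt E4 (S.p i) x + ζ := by
      have hb : ball (0 : E4) (S.G i).r ∈ 𝓝 (0 : E4) := ball_mem_nhds _ (S.G i).r_pos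
      filter_upwards [hb] with ζ hζ
      have e1 : Leak.PS S.G S.p (List.finRange S.n) (SmCrM.slot i ζ) x =
          psi (S.G i) (S.p i) ζ x := by
        rw [SmCrM.PS_single hnd (List.mem_finRange i) (z := SmCrM.slot i ζ)]
        · rw [SmCrM.slot_apply, Pi.single_eq_same]
        · intro j hj
          rw [SmCrM.slot_apply, Pi.single_eq_of_ne hj]
      rw [e1, (chart_psi (hG i) hζ hi).2]
      change (S.c i).tau ζ _ = _
      rw [Cut.tau, hθ, one_smul]
    have h4 : HasFDerivAt (fun ζ : E4 => chartAt E4 (S.p i) x + ζ)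
        (ContinuousLinearMap.id ℝ E4) 0 := (hasFDerivAt_id (0 : E4)).const_add _
    exact h4.congr_of_eventuallyEq h3
  obtain ⟨ρ, hρ, hρr, hcr⟩ := SmCrX.crude_M D 𝒰 hr hLF
    (fun x => SmCrM.PS_zero (List.finRange S.n) x) hJS hSUB
  refine ⟨ρ, hρ, fun l => ?_⟩
  obtain ⟨C, hC, hcl⟩ := hcr l
  obtain ⟨B, hB, hkp⟩ := exists_kp_bound S.n l
  refine ⟨l, l + 4, C * B, fun e p he heρ hp b => ?_⟩
  have hoke : S.Ok e := hok e he (heρ.trans hρr.le)
  have hadm : Leak.AdmK S.G (fun i => kk (p i).1) e :=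
    ⟨fun i => (hoke.adm_kk i (p i).2).cont, fun i => (hoke.adm_kk i (p i).2).comp,
      fun i => (hoke.adm_kk i (p i).2).mem⟩
  have hA : (S.A e p b : F2 E4 M) =
      avg (Leak.kp fun i => kk (p i).1)
        (fun z => Leak.PP S.G S.p (List.finRange S.n) (e • z) (b : F2 E4 M)) := by
    rw [Sys.A, Sys.opL_coe hoke]
    exact Leak.AL_eq_avg hG hadm hnd List.mem_finRange b.2
  rw [hA]
  have hks : ContDiff ℝ ∞ (Leak.kp fun i => kk (p i).1) := by
    unfold Leak.kp
    exact contDiff_prod fun i _ => (kk_smooth (p i).2).comp (contDiff_apply ℝ E4 i)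
  have hksupp : tsupport (Leak.kp fun i => kk (p i).1) ⊆ closedBall (0 : Fin S.n → E4) 1 := by
    intro z hz
    have h1 := Leak.tsupport_kp _ hz
    rw [mem_closedBall_zero_iff, pi_norm_le_iff_of_nonneg zero_le_one]
    intro i
    simpa using kk_supp (p i).1 (h1 i (mem_univ i))
  exact hcl _ hks hksupp B (fun i hi z => hkp p hp i hi z) e he heρ b.1 b.2

end

end Crest.Agent.R240.Sm
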