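import Mathlib
import Crest.Agent.R240.Sm4a
import Crest.Agent.R240.IntPair
import Crest.Agent.R240.XInst

/-!
Row 240 (S0371), block R, Sm4 part b (helper599): one averaging in the chart at `p` makes a
functional of finite order smooth where the averaging is a translation averaging.
-/

set_option autoImplicit false
set_option maxSynthPendingDepth 3
set_option linter.unusedSectionVars false

open Set Function Filter MeasureTheory Metric
open scoped Manifold ContDiff Topology Pointwise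

namespace Crest.Agent.R240.Sm4

open Ch Sm FunRep
open Crest.Agent.R240.Int

noncomputable section

/-! ### linear algebra: alternating part, duality through `W` -/

/-- the projection to alternating forms -/
def altL : Bil →L[ℝ] Bil :=
  (1 / 2 : ℝ) • (ContinuousLinearMap.id ℝ Bil -
    ((ContinuousLinearMap.flipₗᵢ ℝ E4 E4 ℝ).toContinuousLinearEquiv : Bil →L[ℝ] Bil))

lemma altL_apply (b : Bil) (u v : E4) : altL b u v = (b u v - b v u) / 2 := by
  have h : altL b u v = (1 / 2 : ℝ) * (b u v - b v u) := rfl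
  rw [h]; ring

lemma alt_altL (b : Bil) : Alt (altL b) := by
  intro v; rw [altL_apply]; ring

lemma altL_of_alt {b : Bil} (hb : Alt b) : altL b = b := by
  ext u v
  rw [altL_apply, hb.swap v u]; ring

lemma wed_pr_apply (i j : Fin 4) (u v : E4) :
    wed (pr i) (pr j) u v = u i * v j - u j * v i := by
  have : wed (pr i) (pr j) u v = pr i u * pr j v - pr j u * pr i v := rfl
  rw [this]; rfl

lemma ent_wed_pr (i j k l : Fin 4) : ent (wed (pr i) (pr j)) k l =
    (if i = k then 1 else 0) * (if j = l then 1 else 0) -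
      (if j = k then 1 else 0) * (if i = l then (1 : ℝ) else 0) := by
  rw [ent, wed_pr_apply]
  simp

/-- the two-form dual to a functional through the wedge pairing -/
def hd (φ : Bil →L[ℝ] ℝ) : Bil :=
  φ (wed (pr 2) (pr 3)) • wed (pr 0) (pr 1) - φ (wed (pr 1) (pr 3)) • wed (pr 0) (pr 2)
    + φ (wed (pr 1) (pr 2)) • wed (pr 0) (pr 3) + φ (wed (pr 0) (pr 3)) • wed (pr 1) (pr 2)
    - φ (wed (pr 0) (pr 2)) • wed (pr 1) (pr 3) + φ (wed (pr 0) (pr 1)) • wed (pr 2) (pr 3)

lemma alt_hd (φ : Bil →L[ℝ] ℝ) : Alt (hd φ) := by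
  intro v
  have h : hd φ v v = φ (wed (pr 2) (pr 3)) * wed (pr 0) (pr 1) v v
    - φ (wed (pr 1) (pr 3)) * wed (pr 0) (pr 2) v v
    + φ (wed (pr 1) (pr 2)) * wed (pr 0) (pr 3) v v
    + φ (wed (pr 0) (pr 3)) * wed (pr 1) (pr 2) v v
    - φ (wed (pr 0) (pr 2)) * wed (pr 1) (pr 3) v v
    + φ (wed (pr 0) (pr 1)) * wed (pr 2) (pr 3) v v := rfl
  rw [h]
  simp only [wed_pr_apply]
  ring

lemma alt_basis {b : Bil} (hb : Alt b) : b =
    ent b 0 1 • wed (pr 0) (pr 1) + ent b 0 2 • wed (pr 0) (pr 2) + ent b 0 3 • wed (pr 0) (pr 3)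
      + ent b 1 2 • wed (pr 1) (pr 2) + ent b 1 3 • wed (pr 1) (pr 3)
      + ent b 2 3 • wed (pr 2) (pr 3) := by
  ext u v
  rw [alt_expand hb]
  have h : (ent b 0 1 • wed (pr 0) (pr 1) + ent b 0 2 • wed (pr 0) (pr 2)
      + ent b 0 3 • wed (pr 0) (pr 3) + ent b 1 2 • wed (pr 1) (pr 2)
      + ent b 1 3 • wed (pr 1) (pr 3) + ent b 2 3 • wed (pr 2) (pr 3)) u v =
      ent b 0 1 * wed (pr 0) (pr 1) u v + ent b 0 2 * wed (pr 0) (pr 2) u v
      + ent b 0 3 * wed (pr 0) (pr 3) u v + ent b 1 2 * wed (pr 1) (pr 2) u v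
      + ent b 1 3 * wed (pr 1) (pr 3) u v + ent b 2 3 * wed (pr 2) (pr 3) u v := rfl
  rw [h]
  simp only [wed_pr_apply]
  ring

lemma W_hd (φ : Bil →L[ℝ] ℝ) {b : Bil} (hb : Alt b) : W (hd φ) b = φ b := by
  have h1 : φ b = ent b 0 1 * φ (wed (pr 0) (pr 1)) + ent b 0 2 * φ (wed (pr 0) (pr 2))
      + ent b 0 3 * φ (wed (pr 0) (pr 3)) + ent b 1 2 * φ (wed (pr 1) (pr 2))
      + ent b 1 3 * φ (wed (pr 1) (pr 3)) + ent b 2 3 * φ (wed (pr 2) (pr 3)) := by
    conv_lhs => rw [alt_basis hb]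
    simp only [map_add, map_smul, smul_eq_mul]
  rw [h1]
  unfold W hd
  simp only [ent_add, ent_sub, ent_smul, ent_wed_pr]
  simp
  ring

lemma contDiff_hd : ContDiff ℝ ∞ hd := by
  unfold hd
  have h : ∀ c : Bil, ContDiff ℝ ∞ (fun φ : Bil →L[ℝ] ℝ => φ c) := fun c =>
    (ContinuousLinearMap.apply ℝ ℝ c).contDiff
  exact ((((((h _).smul contDiff_const).sub ((h _).smul contDiff_const)).add
    ((h _).smul contDiff_const)).add ((h _).smul contDiff_const)).sub
    ((h _).smul contDiff_const)).add ((h _).smul contDiff_const)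

/-! ### the functional in the chart -/

section Func

variable {M : Type*} [TopologicalSpace M] [ChartedSpace E4 M] [IsManifold 𝓘(ℝ, E4) ∞ M]
  [T2Space M]

lemma altL_comp_mem {K : Set E4} {f : E4 → Bil} (hf : f ∈ DK K Bil) :
    (fun y => altL (f y)) ∈ DK K Bil :=
  ⟨altL.contDiff.comp hf.1, fun y hy => by simp only [hf.2 y hy, map_zero]⟩

/-- the smooth form given by a chart function -/
def eX {p : M} {K : Set E4} (hK : IsCompact K) (hKt : K ⊆ (chartAt E4 p).target)
    {f : E4 → Bil} (hf : f ∈ DK K Bil) : X2 M :=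
  ⟨ext2 p (fun y => altL (f y)), smooth2_ext2 hK hKt (altL_comp_mem hf).1 (altL_comp_mem hf).2
    (fun y => alt_altL (f y))⟩

open Classical in
/-- the functional `L` on functions in the chart at `p` supported in `K` -/
def Lx (L : X2 M →ₗ[ℝ] ℝ) {p : M} {K : Set E4} (hK : IsCompact K)
    (hKt : K ⊆ (chartAt E4 p).target) (f : E4 → Bil) : ℝ :=
  if hf : f ∈ DK K Bil then L (eX hK hKt hf) else 0

lemma Lx_eq (L : X2 M →ₗ[ℝ] ℝ) {p : M} {K : Set E4} (hK : IsCompact K)
    (hKt : K ⊆ (chartAt E4 p).target) {f : E4 → Bil} (hf : f ∈ DK K Bil) :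
    Lx L hK hKt f = L (eX hK hKt hf) := dif_pos hf

theorem finOrd_Lx (𝒰 : Cover M) {m : ℕ} {C0 : ℝ} (hC0 : 0 ≤ C0) {p : M} {K : Set E4}
    (hK : IsCompact K) (hKt : K ⊆ (chartAt E4 p).target) :
    ∃ C, 0 ≤ C ∧ ∀ L : X2 M →ₗ[ℝ] ℝ, (∀ b, |L b| ≤ C0 * 𝒰.cm m b.1) →
      FinOrd K m C (Lx L hK hKt) := by
  obtain ⟨C1, hC1, h1⟩ := cm_ext2 𝒰 p hK hKt m
  refine ⟨C0 * (C1 * ‖altL‖), by positivity, fun L hL => ⟨?_, ?_, ?_⟩⟩
  · intro f g hf hg
    rw [Lx_eq L hK hKt hf, Lx_eq L hK hKt hg,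
      Lx_eq L hK hKt (Submodule.add_mem _ hf hg), ← map_add]
    congr 1
    apply Subtype.ext
    show ext2 p (fun y => altL (f y + g y)) = ext2 p (fun y => altL (f y)) +
      ext2 p (fun y => altL (g y))
    rw [← ext2_add]
    congr 1
    funext y
    rw [map_add]; rfl
  · intro c f hf
    rw [Lx_eq L hK hKt hf, Lx_eq L hK hKt (Submodule.smul_mem _ c hf), ← smul_eq_mul, ← map_smul]
    congr 1
    apply Subtype.ext
    show ext2 p (fun y => altL (c • f y)) = c • ext2 p (fun y => altL (f y))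
    rw [← ext2_smul]
    congr 1
    funext y
    rw [map_smul]; rfl
  · intro f hf A hA
    rw [Lx_eq L hK hKt hf]
    refine (hL _).trans ?_
    rw [mul_assoc, mul_assoc]
    refine mul_le_mul_of_nonneg_left ?_ hC0
    refine h1 _ (altL_comp_mem hf) _ fun j hj y => ?_
    refine (ContinuousLinearMap.norm_iteratedFDeriv_comp_left (N := ∞) altL
      hf.1.contDiffAt (by exact_mod_cast le_top)).trans ?_
    exact mul_le_mul_of_nonneg_left (hA j hj y) (norm_nonneg _)

end Func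

/-! ### chart functions of forms supported in the chart -/

section ChartFun

variable {M : Type*} [TopologicalSpace M] [ChartedSpace E4 M] [IsManifold 𝓘(ℝ, E4) ∞ M]

/-- `b` vanishes off the core `symm '' K` of the chart at `p` -/
def Supp (p : M) (K : Set E4) (b : F2 E4 M) : Prop :=
  ∀ x, x ∉ (chartAt E4 p).symm '' K → at2 b x = 0

/-- the chart function of a form supported in the core -/
def cf (p : M) (K : Set E4) (b : F2 E4 M) : E4 → Bil := K.indicator (rep p b)

lemma rep_zero_of_supp {p : M} {K : Set E4} (hKt : K ⊆ (chartAt E4 p).target) {b : F2 E4 M}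
    (hb : Supp p K b) {y : E4} (hy : y ∈ (chartAt E4 p).target) (hyK : y ∉ K) :
    rep p b y = 0 := by
  rw [rep_eq_pb, hb]
  · rfl
  · rintro ⟨k, hk, hky⟩
    have h1 := (chartAt E4 p).symm.injOn (hKt hk) hy hky
    exact hyK (h1 ▸ hk)

lemma cf_eq {p : M} {K : Set E4} (hKt : K ⊆ (chartAt E4 p).target) {b : F2 E4 M}
    (hb : Supp p K b) {y : E4} (hy : y ∈ (chartAt E4 p).target) : cf p K b y = rep p b y := by
  by_cases hyK : y ∈ K
  · exact indicator_of_mem hyK _
  · rw [cf, indicator_of_notMem hyK, rep_zero_of_supp hKt hb hy hyK]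

lemma cf_zero {p : M} {K : Set E4} {b : F2 E4 M} {y : E4} (hy : y ∉ K) : cf p K b y = 0 :=
  indicator_of_notMem hy _

lemma cf_contDiff {p : M} {K : Set E4} (hK : IsCompact K) (hKt : K ⊆ (chartAt E4 p).target)
    {b : F2 E4 M} (hbs : Smooth2 b) (hb : Supp p K b) : ContDiff ℝ ∞ (cf p K b) := by
  rw [contDiff_iff_contDiffAt]
  intro y
  by_cases hy : y ∈ (chartAt E4 p).target
  · refine (contDiffOn_chart_iff.1 (hbs.2 p) y hy).congr_of_eventuallyEq ?_
    filter_upwards [(chartAt E4 p).open_target.mem_nhds hy] with z hz using cf_eq hKt hb hz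
  · have hyK : y ∉ K := fun h => hy (hKt h)
    refine (contDiffAt_const (c := (0 : Bil))).congr_of_eventuallyEq ?_
    filter_upwards [hK.isClosed.isOpen_compl.mem_nhds hyK] with z hz using cf_zero hz

lemma cf_tsupport {p : M} {K : Set E4} (hK : IsCompact K) {b : F2 E4 M} :
    tsupport (cf p K b) ⊆ K :=
  closure_minimal (fun y hy => by
    by_contra h
    exact hy (cf_zero h)) hK.isClosed

lemma cf_compact {p : M} {K : Set E4} (hK : IsCompact K) {b : F2 E4 M} :
    HasCompactSupport (cf p K b) := hK.of_isClosed_subset (isClosed_tsupport _) (cf_tsupport hK)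

lemma cf_alt {p : M} {K : Set E4} {b : F2 E4 M} (hb : ∀ x v, at2 b x v v = 0) (y : E4) :
    Alt (cf p K b y) := by
  intro v
  by_cases hy : y ∈ K
  · rw [cf, indicator_of_mem hy, rep_eq_pb, pb_apply]; exact hb _ _
  · rw [cf_zero hy]; rfl

end ChartFun

/-! ### averaging in the chart -/

section Avg

variable {M : Type*} [TopologicalSpace M] [ChartedSpace E4 M] [IsManifold 𝓘(ℝ, E4) ∞ M]

/-- **the averaging of a form supported where the cut-off is one is a translation averaging.** -/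
theorem at2_avg {p : M} (c : Cut E4) (hc : ∀ y, c.θ y ∈ Icc (0 : ℝ) 1)
    (hct : tsupport c.θ ⊆ (chartAt E4 p).target) {Ω : Set E4} (hΩ : IsOpen Ω)
    (hΩ1 : ∀ y ∈ Ω, c.θ y = 1) {κ : E4 → ℝ} (hκ : Continuous κ) {ρ e : ℝ}
    (hκρ : ∀ z, κ z ≠ 0 → ‖z‖ ≤ ρ) (he : 0 < e) (heρ : e * ρ < c.z0)
    {K : Set E4} (hK : IsCompact K) (hKt : K ⊆ (chartAt E4 p).target)
    (hKΩ : ∀ w ∈ K, closedBall w (e * ρ) ⊆ Ω) {b : F2 E4 M} (hbs : Smooth2 b)
    (hb : Supp p K b) (x : M) :
    ∫ z, κ z • at2 (pullG c.fam p (e • z) b) x =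
      at2 (ext2 p (fun y => ∫ z, κ z • cf p K b (y + e • z))) x := by
  by_cases hx : x ∈ (chartAt E4 p).source
  · set y := chartAt E4 p x with hy
    have hyt : y ∈ (chartAt E4 p).target := (chartAt E4 p).map_source hx
    have h1 : ∀ z, κ z • at2 (pullG c.fam p (e • z) b) x =
        pbL (tcc x p x) (κ z • cf p K b (y + e • z)) := by
      intro z
      by_cases hz : κ z = 0
      · rw [hz, zero_smul, zero_smul, map_zero]
      have hzn : ‖e • z‖ ≤ e * ρ := by
        rw [norm_smul, Real.norm_of_nonneg he.le]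
        exact mul_le_mul_of_nonneg_left (hκρ z hz) he.le
      have hzb : e • z ∈ ball (0 : E4) c.fam.r := by
        rw [mem_ball_zero_iff, Cut.fam_r]
        exact hzn.trans_lt heρ
      have hgt : c.fam.g (e • z) y ∈ (chartAt E4 p).target :=
        c.fam.mem_of_mem hzb (by rw [Cut.fam_K]; exact hct) hyt
      rw [map_smul, pbL_apply, at2_pullG_of_mem hx, ← hy]
      congr 1
      by_cases hyΩ : y ∈ Ω
      · have h2 : c.fam.g (e • z) y = y + e • z := by
          rw [Cut.fam_g, Cut.tau, hΩ1 y hyΩ, one_smul]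
        have h3 : c.fam.dg (e • z) y = ContinuousLinearMap.id ℝ E4 := by
          have h4 : fderiv ℝ c.θ y = 0 := by
            have : c.θ =ᶠ[𝓝 y] fun _ => (1 : ℝ) := by
              filter_upwards [hΩ.mem_nhds hyΩ] with w hw using hΩ1 w hw
            rw [this.fderiv_eq]; simp
          rw [Cut.fam_dg, Cut.dtau, h4]
          ext v
          simp
        rw [h3, h2, cf_eq hKt hb (h2 ▸ hgt)]
        rfl
      · have hnot : ∀ w, dist y w ≤ e * ρ → w ∉ K := fun w hw hwK =>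
          hyΩ (hKΩ w hwK (mem_closedBall.2 hw))
        have h2 : rep p b (c.fam.g (e • z) y) = 0 := by
          refine rep_zero_of_supp hKt hb hgt (hnot _ ?_)
          rw [Cut.fam_g, Cut.tau, dist_eq_norm]
          have h3 : y - (y + c.θ y • e • z) = -(c.θ y • e • z) := by abel
          rw [h3, norm_neg, norm_smul, Real.norm_of_nonneg (hc y).1]
          exact (mul_le_of_le_one_left (norm_nonneg _) (hc y).2).trans hzn
        have h4 : cf p K b (y + e • z) = 0 := by
          refine cf_zero (hnot _ ?_)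
          rw [dist_eq_norm]
          have h3 : y - (y + e • z) = -(e • z) := by abel
          rw [h3, norm_neg]
          exact hzn
        rw [h2, h4, pb_zero, pb_zero]
    simp only [h1]
    rw [at2_ext2_of_mem hx, ← pbL_apply]
    refine ContinuousLinearMap.integral_comp_comm (pbL (tcc x p x)) ?_
    have hcont : Continuous fun z => κ z • cf p K b (y + e • z) :=
      hκ.smul ((cf_contDiff hK hKt hbs hb).continuous.comp
        (continuous_const.add (continuous_const_smul e)))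
    refine hcont.integrable_of_hasCompactSupport ?_
    refine HasCompactSupport.intro (isCompact_closedBall (0 : E4) ρ) fun z hz => ?_
    have : κ z = 0 := by
      by_contra h
      exact hz (mem_closedBall_zero_iff.2 (hκρ z h))
    rw [this, zero_smul]
  · rw [at2_ext2_of_notMem hx]
    have h1 : ∀ z, κ z • at2 (pullG c.fam p (e • z) b) x = 0 := by
      intro z
      rw [at2_pullG_of_notMem hx, hb x fun h => hx (core_subset hKt h), smul_zero]
    simp only [h1, integral_zero]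

end Avg

/-! ### the representation theorem S1 -/

section S1

variable {M : Type*} [TopologicalSpace M] [ChartedSpace E4 M] [IsManifold 𝓘(ℝ, E4) ∞ M]
  [T2Space M] [CompactSpace M] [MeasurableSpace M] [BorelSpace M]

lemma sg_mul_self {F : F2 E4 M} (hF : Vol F) {p : M} {y : E4} (hy : y ∈ (chartAt E4 p).target) :
    sg F p y * sg F p y = 1 := by
  unfold sg
  rcases lt_or_gt_of_ne (hF.rep_ne hy) with h1 | h1
  · rw [sign_neg h1]; simp
  · rw [sign_pos h1]; simp

theorem smooth2_sg {F : F2 E4 M} (hF : Vol F) {p : M} {K0 : Set E4} (hK0 : IsCompact K0)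
    (hK0t : K0 ⊆ (chartAt E4 p).target) {h : E4 → Bil} (hh : ContDiff ℝ ∞ h)
    (hh0 : ∀ y, y ∉ K0 → h y = 0) (hha : ∀ y, Alt (h y)) :
    Smooth2 (ext2 p (fun y => sg F p y • h y)) := by
  refine Smooth2.of_local (fun x v => ?_) (fun x => ?_)
  · by_cases hx : x ∈ (chartAt E4 p).source
    · rw [at2_ext2_of_mem hx, pb_apply]
      have := hha (chartAt E4 p x) (tcc x p x v)
      show sg F p (chartAt E4 p x) * h (chartAt E4 p x) (tcc x p x v) (tcc x p x v) = 0
      rw [this, mul_zero]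
    · rw [at2_ext2_of_notMem hx]; rfl
  · by_cases hx : x ∈ (chartAt E4 p).source
    · refine ⟨p, hx, ?_⟩
      have ht := (chartAt E4 p).map_source hx
      have h1 : ContDiffAt ℝ ∞ (fun y => sg F p (chartAt E4 p x) • h y) (chartAt E4 p x) :=
        (contDiffAt_const (c := sg F p (chartAt E4 p x))).smul hh.contDiffAt
      refine h1.congr_of_eventuallyEq ?_
      filter_upwards [(chartAt E4 p).open_target.mem_nhds ht, sg_locally_const hF ht]
        with y hy hy2
      rw [rep_ext2_self hy, hy2]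
    · refine ⟨x, mem_chart_source E4 x, ?_⟩
      have hx' : (chartAt E4 x).symm (chartAt E4 x x) ∉ (chartAt E4 p).symm '' K0 := by
        rw [(chartAt E4 x).left_inv (mem_chart_source E4 x)]
        exact fun h1 => hx (core_subset hK0t h1)
      refine contDiffAt_const.congr_of_eventuallyEq
        (eventually_rep_zero hK0 hK0t (fun y hy => ?_) (mem_chart_target E4 x) hx')
      rw [hh0 y hy, smul_zero]

lemma W_zero_right (b : Bil) : W b 0 = 0 := by
  unfold W
  simp only [ent_zero]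
  ring

/-- the pairing with a form given by a chart function -/
theorem I_ext2 {F : F2 E4 M} (hF : Vol F)
    {p : M} {K0 K : Set E4} (hK0 : IsCompact K0)
    (hK0t : K0 ⊆ (chartAt E4 p).target)
    (hKt : K ⊆ (chartAt E4 p).target) {h : E4 → Bil} (hh : ContDiff ℝ ∞ h)
    (hh0 : ∀ y, y ∉ K0 → h y = 0) (hha : ∀ y, Alt (h y)) {b : F2 E4 M} (hbs : Smooth2 b)
    (hb : Supp p K b) :
    I F (ext2 p (fun y => sg F p y • h y)) b = ∫ y, W (h y) (cf p K b y) := by
  have hsm : Smooth2 (ext2 p (fun y => sg F p y • h y)) := smooth2_sg hF hK0 hK0t hh hh0 hha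
  have hcont : Continuous (qG F (ext2 p (fun y => sg F p y • h y)) b) :=
    continuous_qG hF (Smooth2.cont2 hsm) (Smooth2.cont2 hbs)
  unfold I
  rw [integral_mu_of_supp hF p hcont.aestronglyMeasurable]
  · have h1 : ∀ y ∈ (chartAt E4 p).target,
        dens F p y • qG F (ext2 p (fun y => sg F p y • h y)) b ((chartAt E4 p).symm y) =
          W (h y) (cf p K b y) := by
      intro y hy
      rw [qG_chart hF hsm.1 hbs.1 hy, smul_eq_mul, dens_mul_q hF hy, rep_ext2_self hy,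
        W_smul_left, ← mul_assoc, sg_mul_self hF hy, one_mul, cf_eq hKt hb hy]
    rw [setIntegral_congr_fun (chartAt E4 p).open_target.measurableSet h1]
    refine setIntegral_eq_integral_of_forall_compl_eq_zero fun y hy => ?_
    rw [cf_zero fun h2 => hy (hKt h2), W_zero_right]
  · intro x hx
    have h1 : at2 b x = 0 := hb x fun h => hx (core_subset hKt h)
    unfold qG q
    rw [h1, W_zero_right, zero_div]

/-- the averaged form, as the extension of a convolution. -/
theorem avg_eq_conv {p : M} (c : Cut E4) (hc : ∀ y, c.θ y ∈ Icc (0 : ℝ) 1)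
    (hct : tsupport c.θ ⊆ (chartAt E4 p).target) {Ω : Set E4} (hΩ : IsOpen Ω)
    (hΩ1 : ∀ y ∈ Ω, c.θ y = 1) {κ : E4 → ℝ} (hκ : ContDiff ℝ ∞ κ) {ρ e : ℝ}
    (hκρ : ∀ z, κ z ≠ 0 → ‖z‖ ≤ ρ) (he : 0 < e) (heρ : e * ρ < c.z0)
    {K : Set E4} (hK : IsCompact K) (hKt : K ⊆ (chartAt E4 p).target)
    (hKΩ : ∀ w ∈ K, closedBall w (e * ρ) ⊆ Ω) {b : F2 E4 M} (hbs : Smooth2 b)
    (hb : Supp p K b) (x : M) :
    ∫ z, κ z • at2 (pullG c.fam p (e • z) b) x =
      at2 (ext2 p (fun y => altL (∫ z, ((e ^ Module.finrank ℝ E4)⁻¹ * κ (e⁻¹ • (z - y))) •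
        cf p K b z))) x := by
  rw [at2_avg c hc hct hΩ hΩ1 hκ.continuous hκρ he heρ hK hKt hKΩ hbs hb]
  congr 2
  funext y
  rw [scaled_average volume κ (cf p K b) he y, ← ContinuousLinearMap.integral_comp_comm]
  · congr 1
    funext z
    rw [map_smul, altL_of_alt (cf_alt hbs.1 z)]
  · have h2 : Continuous fun z : E4 => (e ^ Module.finrank ℝ E4)⁻¹ * κ (e⁻¹ • (z - y)) :=
      continuous_const.mul (hκ.continuous.comp
        ((continuous_const_smul e⁻¹).comp (continuous_id.sub continuous_const)))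
    have h3 : Continuous (cf p K b) := (cf_contDiff hK hKt hbs hb).continuous
    exact (h2.smul h3).integrable_of_hasCompactSupport (cf_compact hK).smul_left

/-- the density in the chart -/
theorem S1_chart (𝒰 : Cover M) {p : M} (c : Cut E4)
    (hc : ∀ y, c.θ y ∈ Icc (0 : ℝ) 1)
    (hct : tsupport c.θ ⊆ (chartAt E4 p).target) {Ω : Set E4} (hΩ : IsOpen Ω)
    (hΩ1 : ∀ y ∈ Ω, c.θ y = 1) {κ : E4 → ℝ} (hκ : ContDiff ℝ ∞ κ) {ρ e : ℝ} (hρ : 0 ≤ ρ)
    (hκρ : ∀ z, κ z ≠ 0 → ‖z‖ ≤ ρ) (he : 0 < e) (heρ : e * ρ < c.z0)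
    {K : Set E4} (hK : IsCompact K)
    (hKΩ : ∀ w ∈ K, closedBall w (e * ρ) ⊆ Ω)
    (A : X2 M → X2 M)
    (hA : ∀ b x, at2 (A b).1 x = ∫ z, κ z • at2 (pullG c.fam p (e • z) b.1) x)
    (L : X2 M →ₗ[ℝ] ℝ) {m : ℕ} {C0 : ℝ} (hL : ∀ b, |L b| ≤ C0 * 𝒰.cm m b.1) :
    ∃ (V : Set E4) (θ : E4 → (Bil →L[ℝ] ℝ)), IsOpen V ∧ K ⊆ V ∧ V ⊆ (chartAt E4 p).target ∧
      ContDiffOn ℝ ∞ θ V ∧
      ∀ b : X2 M, Supp p K b.1 → L (A b) = ∫ y, θ y (cf p K b.1 y) := by
  classical
  have hΩt : Ω ⊆ (chartAt E4 p).target := fun y hy => hct (subset_tsupport _ (by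
    rw [mem_support, hΩ1 y hy]; exact one_ne_zero))
  have heρ0 : 0 ≤ e * ρ := by positivity
  have hKsub : K ⊆ Ω := fun w hw => hKΩ w hw (mem_closedBall_self heρ0)
  have hKt : K ⊆ (chartAt E4 p).target := hKsub.trans hΩt
  -- the constants
  set T : Set E4 := K + closedBall (0 : E4) (e * ρ) with hT
  have hTc : IsCompact T := hK.add (isCompact_closedBall _ _)
  have hTΩ : T ⊆ Ω := by
    rintro _ ⟨w, hw, z, hz, rfl⟩
    refine hKΩ w hw ?_
    rw [mem_closedBall, dist_eq_norm]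
    simpa using hz
  obtain ⟨δ, hδ, hδΩ⟩ := hTc.exists_cthickening_subset_open hΩ hTΩ
  set K0 : Set E4 := cthickening δ T with hK0
  have hK0c : IsCompact K0 := hTc.cthickening
  have hK0t : K0 ⊆ (chartAt E4 p).target := hδΩ.trans hΩt
  set V : Set E4 := thickening δ K with hV
  have hVo : IsOpen V := isOpen_thickening
  have hKV : K ⊆ V := self_subset_thickening hδ K
  have hball : ∀ y ∈ V, ∀ x, dist x y ≤ e * ρ → x ∈ K0 := by
    intro y hy x hxy
    obtain ⟨k, hk, hyk⟩ := mem_thickening_iff.1 hy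
    have h1 : x + (k - y) ∈ T := by
      refine ⟨k, hk, x - y, ?_, by show k + (x - y) = x + (k - y); abel⟩
      rw [mem_closedBall_zero_iff, ← dist_eq_norm]; exact hxy
    refine mem_cthickening_of_dist_le x _ δ T h1 ?_
    rw [dist_eq_norm]
    have h2 : x - (x + (k - y)) = y - k := by abel
    rw [h2, ← dist_eq_norm]
    exact hyk.le
  -- the scaled kernel
  set κe : E4 → ℝ := fun u => (e ^ Module.finrank ℝ E4)⁻¹ * κ (e⁻¹ • u) with hκe
  have hκes : ContDiff ℝ ∞ κe := contDiff_const.mul (hκ.comp (contDiff_const_smul _))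
  have hκe0 : ∀ y ∈ V, ∀ x, κe (y - x) ≠ 0 → x ∈ K0 := by
    intro y hy x hx
    have h1 : κ (e⁻¹ • (y - x)) ≠ 0 := fun h => hx (by simp only [hκe]; rw [h, mul_zero])
    have h2 := hκρ _ h1
    rw [norm_smul, norm_inv, Real.norm_of_nonneg he.le, inv_mul_le_iff₀ he] at h2
    refine hball y hy x ?_
    rw [dist_comm, dist_eq_norm]; exact h2
  -- the functional in the chart
  have hL' : ∀ b, |L b| ≤ |C0| * 𝒰.cm m b.1 := fun b => (hL b).trans
    (mul_le_mul_of_nonneg_right (le_abs_self _) (Real.sSup_nonneg (by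
      rintro r ⟨i, j, hj, y, hy, rfl⟩; exact norm_nonneg _)))
  obtain ⟨C, hC, hfin⟩ := finOrd_Lx 𝒰 (m := m) (abs_nonneg C0) (p := p) hK0c hK0t
  obtain ⟨θ, hθs, -, -, -, hrep⟩ := conv_rep hK0c hC (hfin L hL') hκes hVo hκe0
  have hVt : V ⊆ (chartAt E4 p).target := fun y hy =>
    hK0t (hball y hy y (by rw [dist_self]; exact heρ0))
  refine ⟨V, θ, hVo, hKV, hVt, hθs, fun b hb => ?_⟩
  obtain ⟨hm, -, hint⟩ := hrep volume (cf p K b.1) (cf_contDiff hK hKt b.2 hb) (cf_compact hK)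
    ((cf_tsupport hK).trans hKV)
  rw [← hint, Lx_eq L hK0c hK0t hm]
  congr 1
  apply Subtype.ext
  funext x
  show at2 (A b).1 x = at2 (ext2 p (fun y => altL (∫ z, κe (z - y) • cf p K b.1 z))) x
  rw [hA, avg_eq_conv c hc hct hΩ hΩ1 hκ hκρ he heρ hK hKt hKΩ b.2 hb]

/-- **S1.** After one averaging in the chart at `p` a functional of finite order is represented
by a smooth form on the forms supported where the averaging is by translations. -/
theorem S1 (𝒰 : Cover M) {F : F2 E4 M}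
    (hF : Vol F) {p : M} (c : Cut E4)
    (hc : ∀ y, c.θ y ∈ Icc (0 : ℝ) 1)
    (hct : tsupport c.θ ⊆ (chartAt E4 p).target) {Ω : Set E4} (hΩ : IsOpen Ω)
    (hΩ1 : ∀ y ∈ Ω, c.θ y = 1) {κ : E4 → ℝ} (hκ : ContDiff ℝ ∞ κ) {ρ e : ℝ} (hρ : 0 ≤ ρ)
    (hκρ : ∀ z, κ z ≠ 0 → ‖z‖ ≤ ρ) (he : 0 < e) (heρ : e * ρ < c.z0)
    {K : Set E4} (hK : IsCompact K)
    (hKΩ : ∀ w ∈ K, closedBall w (e * ρ) ⊆ Ω)
    (A : X2 M → X2 M)
    (hA : ∀ b x, at2 (A b).1 x = ∫ z, κ z • at2 (pullG c.fam p (e • z) b.1) x)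
    (L : X2 M →ₗ[ℝ] ℝ) {m : ℕ} {C0 : ℝ} (hL : ∀ b, |L b| ≤ C0 * 𝒰.cm m b.1) :
    ∃ h : X2 M, ∀ b : X2 M, Supp p K b.1 → L (A b) = I F h.1 b.1 := by
  obtain ⟨V, θ, hVo, hKV, hVt, hθs, hrep⟩ :=
    S1_chart 𝒰 c hc hct hΩ hΩ1 hκ hρ hκρ he heρ hK hKΩ A hA L hL
  obtain ⟨d, hdV, hd1, -⟩ := exists_cut hK hVo hKV
  have hdt : tsupport d.θ ⊆ (chartAt E4 p).target := hdV.trans hVt
  have hhs : ContDiff ℝ ∞ (fun y => hd (d.θ y • θ y)) := by
    refine contDiff_hd.comp (contDiff_of_tsup fun y hy => ?_)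
    have hyV : y ∈ V := hdV (tsupport_smul_subset_left _ _ hy)
    exact d.smooth.contDiffAt.smul (hθs.contDiffAt (hVo.mem_nhds hyV))
  have hhd0 : hd 0 = 0 := by
    unfold hd
    simp
  have hh0 : ∀ y, y ∉ tsupport d.θ → hd (d.θ y • θ y) = 0 := by
    intro y hy
    rw [image_eq_zero_of_notMem_tsupport hy, zero_smul, hhd0]
  refine ⟨⟨_, smooth2_sg hF d.comp hdt hhs hh0 fun y => alt_hd _⟩, fun b hb => ?_⟩
  rw [hrep b hb, I_ext2 hF d.comp hdt (hKV.trans hVt) hhs hh0 (fun y => alt_hd _) b.2 hb]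
  refine integral_congr_ae (Eventually.of_forall fun y => ?_)
  show θ y (cf p K b.1 y) = W (hd (d.θ y • θ y)) (cf p K b.1 y)
  by_cases hyK : y ∈ K
  · have h3 : d.θ y = 1 := (Filter.Eventually.self_of_nhdsSet hd1) y hyK
    rw [h3, one_smul, W_hd _ (cf_alt b.2.1 y)]
  · rw [cf_zero hyK, map_zero, W_zero_right]

end S1

end

end Crest.Agent.R240.Sm4
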