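import Mathlib

/-!
# Row 240, block R (smoothing), Sm5 (helper915): abstract gluing of local representations

`X` = smooth forms (or functions), `I` = the pairing, `A i` the one-chart averaging operators,
`At i` their transposes, `FO` the class of functionals of finite order, `S j k` the support
condition (chart piece `j`, after `k` operators), `chi j` the partition of unity.
-/

set_option autoImplicit false

open Set Function

namespace Crest.Agent.R240.Sm5

variable {X : Type*} [AddCommGroup X] [Module ℝ X]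

/-- transpose of a product of operators. -/
theorem exists_transpose {ι : Type*} (I : X → X → ℝ) (A : ι → Module.End ℝ X)
    (hadj : ∀ i h, ∃ h', ∀ b, I h (A i b) = I h' b) (l : List ι) (h : X) :
    ∃ h', ∀ b, I h ((l.map A).prod b) = I h' b := by
  induction l generalizing h with
  | nil => exact ⟨h, fun b => by simp⟩
  | cons i l ih =>
    obtain ⟨h1, hh1⟩ := hadj i h
    obtain ⟨h2, hh2⟩ := ih h1
    refine ⟨h2, fun b => ?_⟩
    rw [List.map_cons, List.prod_cons, Module.End.mul_apply, hh1, hh2]

theorem prop_list {ι : Type*} (A : ι → Module.End ℝ X) (S : ℕ → X → Prop)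
    (hS : ∀ k i b, S k b → S (k + 1) (A i b)) (l : List ι) (b : X) (hb : S 0 b) :
    S l.length ((l.map A).prod b) := by
  induction l with
  | nil => simpa using hb
  | cons i l ih =>
    rw [List.map_cons, List.prod_cons, Module.End.mul_apply, List.length_cons]
    exact hS _ _ _ ih

theorem mono_of_succ {S : ℕ → X → Prop} (hmono : ∀ k b, S k b → S (k + 1) b) {k n : ℕ}
    (hkn : k ≤ n) {b : X} (hb : S k b) : S n b := by
  induction hkn with
  | refl => exact hb
  | step _ ih => exact hmono _ _ ih

/-- local representation of `L ∘ A_{i_1} ∘ ... ∘ A_{i_n}` on the forms with support condition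
`S 0`, when the operator `A j` (with representation property `hS1`) occurs in the list. -/
theorem rep_list {ι : Type*} [DecidableEq ι] (I : X → X → ℝ) (A : ι → Module.End ℝ X)
    (hadj : ∀ i h, ∃ h', ∀ b, I h (A i b) = I h' b)
    (FO : (X →ₗ[ℝ] ℝ) → Prop) (hFO : ∀ i L, FO L → FO (L ∘ₗ A i))
    (S : ℕ → X → Prop) (hS : ∀ k i b, S k b → S (k + 1) (A i b))
    (hmono : ∀ k b, S k b → S (k + 1) b) (j : ι) (n : ℕ)
    (hS1 : ∀ L, FO L → ∃ h, ∀ b, S n b → L (A j b) = I h b)
    (l : List ι) (hj : j ∈ l) (hl : l.length ≤ n + 1) (L : X →ₗ[ℝ] ℝ) (hL : FO L) :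
    ∃ η, ∀ b, S 0 b → L ((l.map A).prod b) = I η b := by
  induction l generalizing L with
  | nil => simp at hj
  | cons i l ih =>
    by_cases hij : j = i
    · subst hij
      obtain ⟨h, hh⟩ := hS1 L hL
      obtain ⟨h', hh'⟩ := exists_transpose I A hadj l h
      refine ⟨h', fun b hb => ?_⟩
      have h1 : S n ((l.map A).prod b) := by
        refine mono_of_succ hmono ?_ (prop_list A S hS l b hb)
        simpa using hl
      rw [List.map_cons, List.prod_cons, Module.End.mul_apply, hh _ h1, hh']
    · have hj' : j ∈ l := by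
        rcases List.mem_cons.mp hj with h | h
        · exact absurd h hij
        · exact h
      have hl' : l.length ≤ n + 1 := by
        have : (i :: l).length = l.length + 1 := List.length_cons
        omega
      obtain ⟨η, hη⟩ := ih hj' hl' (L ∘ₗ A i) (hFO i L hL)
      refine ⟨η, fun b hb => ?_⟩
      rw [List.map_cons, List.prod_cons, Module.End.mul_apply, ← hη b hb]
      rfl

/-- **Gluing theorem.** -/
theorem rep_glue {ι : Type*} [DecidableEq ι] (I : X → X → ℝ)
    (hI0 : ∀ b, I 0 b = 0) (hIadd : ∀ a c b, I (a + c) b = I a b + I c b)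
    (A : ι → Module.End ℝ X)
    (hadj : ∀ i h, ∃ h', ∀ b, I h (A i b) = I h' b)
    (FO : (X →ₗ[ℝ] ℝ) → Prop) (hFO : ∀ i L, FO L → FO (L ∘ₗ A i))
    (l : List ι) (n : ℕ) (hl : l.length ≤ n + 1)
    (κ : Type*) [Fintype κ] (idx : κ → ι) (hidx : ∀ j, idx j ∈ l)
    (S : κ → ℕ → X → Prop) (hS : ∀ j k i b, S j k b → S j (k + 1) (A i b))
    (hmono : ∀ j k b, S j k b → S j (k + 1) b)
    (hS1 : ∀ j, ∀ L, FO L → ∃ h, ∀ b, S j n b → L (A (idx j) b) = I h b)
    (chi : κ → X → X) (hchi : ∀ b, ∑ j, chi j b = b) (hsupp : ∀ j b, S j 0 (chi j b))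
    (hsym : ∀ j h b, I h (chi j b) = I (chi j h) b)
    (L : X →ₗ[ℝ] ℝ) (hL : FO L) :
    ∃ η, ∀ b, L ((l.map A).prod b) = I η b := by
  have h1 : ∀ j : κ, ∃ η, ∀ b, S j 0 b → L ((l.map A).prod b) = I η b := fun j =>
    rep_list I A hadj FO hFO (S j) (hS j) (hmono j) (idx j) n (hS1 j) l (hidx j) hl L hL
  choose η hη using h1
  have hsum : ∀ (s : Finset κ) (f : κ → X) (b : X), I (∑ j ∈ s, f j) b = ∑ j ∈ s, I (f j) b := by
    classical
    intro s f b
    induction s using Finset.induction_on with
    | empty => simp [hI0]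
    | insert a s ha ih => rw [Finset.sum_insert ha, Finset.sum_insert ha, hIadd, ih]
  refine ⟨∑ j, chi j (η j), fun b => ?_⟩
  rw [hsum]
  conv_lhs => rw [← hchi b]
  rw [map_sum, map_sum]
  refine Finset.sum_congr rfl fun j _ => ?_
  rw [hη j _ (hsupp j b), hsym]

end Crest.Agent.R240.Sm5
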