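import Mathlib
import Crest.Agent.R240.SmSys
import Crest.Agent.R240.Sm4b
import Crest.Agent.R240.Sm5Abs
import Crest.Agent.R240.SmMass
import Crest.Agent.R240.IntTop
import Crest.Agent.R240.Ch7

/-!
Row 240 (S0371), N8 (helper599): existence of a smooth density for a finite measure composed with
the smoothing operator on functions.
-/

set_option autoImplicit false
set_option maxSynthPendingDepth 3
set_option linter.unusedSectionVars false

open Set Function Filter MeasureTheory Metric
open scoped Manifold ContDiff Topology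

namespace Crest.Agent.R240.SmF

open Crest.Agent.R240.Ch Crest.Agent.R240.Sm Crest.Agent.R240.Int Crest.Agent.R240.FunRep

noncomputable section

/-! ### chart functions -/

section ChartFun

variable {M : Type*} [TopologicalSpace M] [ChartedSpace E4 M] [IsManifold 𝓘(ℝ, E4) ∞ M]

/-- `f` vanishes off the core `symm '' K` of the chart at `p` -/
def SuppF (p : M) (K : Set E4) (f : M → ℝ) : Prop :=
  ∀ x, x ∉ (chartAt E4 p).symm '' K → f x = 0

/-- the chart function -/
def cfF (p : M) (K : Set E4) (f : M → ℝ) : E4 → ℝ :=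
  K.indicator (fun y => f ((chartAt E4 p).symm y))

lemma symm_zero {p : M} {K : Set E4} (hKt : K ⊆ (chartAt E4 p).target) {f : M → ℝ}
    (hf : SuppF p K f) {y : E4} (hy : y ∈ (chartAt E4 p).target) (hyK : y ∉ K) :
    f ((chartAt E4 p).symm y) = 0 := by
  refine hf _ ?_
  rintro ⟨k, hk, hky⟩
  have h1 := (chartAt E4 p).symm.injOn (hKt hk) hy hky
  exact hyK (h1 ▸ hk)

lemma cfF_eq {p : M} {K : Set E4} (hKt : K ⊆ (chartAt E4 p).target) {f : M → ℝ}
    (hf : SuppF p K f) {y : E4} (hy : y ∈ (chartAt E4 p).target) :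
    cfF p K f y = f ((chartAt E4 p).symm y) := by
  by_cases hyK : y ∈ K
  · exact indicator_of_mem hyK _
  · rw [cfF, indicator_of_notMem hyK, symm_zero hKt hf hy hyK]

lemma cfF_zero {p : M} {K : Set E4} {f : M → ℝ} {y : E4} (hy : y ∉ K) : cfF p K f y = 0 :=
  indicator_of_notMem hy _

lemma cfF_continuous {p : M} {K : Set E4} (hK : IsCompact K) (hKt : K ⊆ (chartAt E4 p).target)
    {f : M → ℝ} (hfs : SmoothF E4 f) (hf : SuppF p K f) : Continuous (cfF p K f) := by
  rw [continuous_iff_continuousAt]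
  intro y
  by_cases hy : y ∈ (chartAt E4 p).target
  · have h1 : ContinuousAt (fun y => f ((chartAt E4 p).symm y)) y :=
      (hfs p).continuousOn.continuousAt ((chartAt E4 p).open_target.mem_nhds hy)
    refine h1.congr ?_
    filter_upwards [(chartAt E4 p).open_target.mem_nhds hy] with z hz
    exact (cfF_eq hKt hf hz).symm
  · have hyK : y ∉ K := fun h => hy (hKt h)
    refine (continuousAt_const (y := (0 : ℝ))).congr ?_
    filter_upwards [hK.isClosed.isOpen_compl.mem_nhds hyK] with z hz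
    exact (cfF_zero hz).symm

lemma cfF_compact {p : M} {K : Set E4} (hK : IsCompact K) {f : M → ℝ} :
    HasCompactSupport (cfF p K f) :=
  HasCompactSupport.intro hK fun _ hy => cfF_zero hy

/-- **the averaging of a function supported where the cut-off is one is a translation
averaging.** -/
theorem a1_eq {p : M} (c : Cut E4) (hc : ∀ y, c.θ y ∈ Icc (0 : ℝ) 1)
    (hct : tsupport c.θ ⊆ (chartAt E4 p).target) {Ω : Set E4}
    (hΩ1 : ∀ y ∈ Ω, c.θ y = 1) {κ : E4 → ℝ} (hκ1 : ∀ z, κ z ≠ 0 → ‖z‖ ≤ 1) {e : ℝ}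
    (he : 0 < e) (hez : e < c.z0) {K : Set E4} (hKt : K ⊆ (chartAt E4 p).target)
    (hKΩ : ∀ w ∈ K, closedBall w e ⊆ Ω) {f : M → ℝ} (hf : SuppF p K f) {x : M}
    (hx : x ∈ (chartAt E4 p).source) :
    a1 c.fam p κ e f x = ∫ z, κ z * cfF p K f (chartAt E4 p x + e • z) := by
  unfold a1
  refine integral_congr_ae (Eventually.of_forall fun z => ?_)
  simp only
  by_cases hz : κ z = 0
  · rw [hz, zero_mul, zero_mul]
  congr 1
  set y := chartAt E4 p x with hy
  have hyt : y ∈ (chartAt E4 p).target := (chartAt E4 p).map_source hx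
  have hzn : ‖e • z‖ ≤ e := by
    rw [norm_smul, Real.norm_of_nonneg he.le]
    exact mul_le_of_le_one_right he.le (hκ1 z hz)
  have hzb : e • z ∈ ball (0 : E4) c.fam.r := by
    rw [mem_ball_zero_iff, Cut.fam_r]
    exact hzn.trans_lt hez
  have hgt : c.fam.g (e • z) y ∈ (chartAt E4 p).target :=
    c.fam.mem_of_mem hzb (by rw [Cut.fam_K]; exact hct) hyt
  rw [psi_of_mem hx, ← hy]
  by_cases hyΩ : y ∈ Ω
  · have h2 : c.fam.g (e • z) y = y + e • z := by
      rw [Cut.fam_g, Cut.tau, hΩ1 y hyΩ, one_smul]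
    rw [h2, cfF_eq hKt hf (h2 ▸ hgt)]
  · have hnot : ∀ w, dist y w ≤ e → w ∉ K := fun w hw hwK =>
      hyΩ (hKΩ w hwK (mem_closedBall.2 hw))
    have h2 : f ((chartAt E4 p).symm (c.fam.g (e • z) y)) = 0 := by
      refine symm_zero hKt hf hgt (hnot _ ?_)
      rw [Cut.fam_g, Cut.tau, dist_eq_norm]
      have h3 : y - (y + c.θ y • e • z) = -(c.θ y • e • z) := by abel
      rw [h3, norm_neg, norm_smul, Real.norm_of_nonneg (hc y).1]
      exact (mul_le_of_le_one_left (norm_nonneg _) (hc y).2).trans hzn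
    have h4 : cfF p K f (y + e • z) = 0 := by
      refine cfF_zero (hnot _ ?_)
      rw [dist_eq_norm]
      have h3 : y - (y + e • z) = -(e • z) := by abel
      rw [h3, norm_neg]
      exact hzn
    rw [h2, h4]

theorem a1_off {p : M} (c : Cut E4) {κ : E4 → ℝ} {e : ℝ} {K : Set E4}
    (hKt : K ⊆ (chartAt E4 p).target) {f : M → ℝ} (hf : SuppF p K f) {x : M}
    (hx : x ∉ (chartAt E4 p).source) : a1 c.fam p κ e f x = 0 := by
  unfold a1
  refine integral_eq_zero_of_ae (Eventually.of_forall fun z => ?_)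
  simp only [Pi.zero_apply]
  rw [psi_of_notMem hx, hf x fun h => hx (Sm4.core_subset hKt h), mul_zero]

end ChartFun

/-! ### the density of a finite measure after one averaging -/

section S1

variable {M : Type*} [MetricSpace M] [CompactSpace M] [ChartedSpace E4 M]
    [IsManifold 𝓘(ℝ, E4) ∞ M] [MeasurableSpace M] [BorelSpace M]

lemma contDiffOn_ent {n : WithTop ℕ∞} {f : E4 → Bil} {s : Set E4} (hf : ContDiffOn ℝ n f s)
    (i j : Fin 4) : ContDiffOn ℝ n (fun y => ent (f y) i j) s :=
  (hf.clm_apply contDiffOn_const).clm_apply contDiffOn_const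

lemma contDiffOn_W {n : WithTop ℕ∞} {f g : E4 → Bil} {s : Set E4} (hf : ContDiffOn ℝ n f s)
    (hg : ContDiffOn ℝ n g s) : ContDiffOn ℝ n (fun y => W (f y) (g y)) s := by
  have hf' := contDiffOn_ent hf
  have hg' := contDiffOn_ent hg
  unfold W
  exact (((((((hf' _ _).mul (hg' _ _)).sub ((hf' _ _).mul (hg' _ _))).add
    ((hf' _ _).mul (hg' _ _))).add ((hf' _ _).mul (hg' _ _))).sub
    ((hf' _ _).mul (hg' _ _))).add ((hf' _ _).mul (hg' _ _)))

lemma contDiffAt_dens {F : F2 E4 M} (hF : Vol F) (hFs : Smooth2 F) {p : M} {y : E4}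
    (hy : y ∈ (chartAt E4 p).target) : ContDiffAt ℝ ∞ (dens F p) y := by
  have h1 : ContDiffAt ℝ ∞ (fun y => W (rep p F y) (rep p F y)) y :=
    (contDiffOn_W (hFs.2 p) (hFs.2 p)).contDiffAt ((chartAt E4 p).open_target.mem_nhds hy)
  exact h1.abs (hF.rep_ne hy)

/-- the convolution of a finite measure with a smooth kernel of compact support is smooth. -/
lemma contDiff_measConv (ν : Measure E4) [IsFiniteMeasure ν] {k : E4 → ℝ}
    (hk : ContDiff ℝ ∞ k) (hkc : HasCompactSupport k) :
    ContDiff ℝ ∞ (fun w => ∫ y, k (w - y) ∂ν) := by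
  have h1 : LocallyIntegrable (fun _ : E4 => (1 : ℝ)) ν :=
    (integrable_const (1 : ℝ)).locallyIntegrable
  have h2 := hkc.contDiff_convolution_right (ContinuousLinearMap.mul ℝ ℝ) h1 hk
  have h3 : (fun w => ∫ y, k (w - y) ∂ν) =
      convolution (fun _ => (1 : ℝ)) k (ContinuousLinearMap.mul ℝ ℝ) ν := by
    funext w
    unfold convolution
    simp
  rw [h3]
  exact h2

/-- **density after one averaging**, for functions supported where the averaging is by
translations. -/
theorem S1F (D : Dat M) {p : M} (c : Cut E4) (hc : ∀ y, c.θ y ∈ Icc (0 : ℝ) 1)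
    (hct : tsupport c.θ ⊆ (chartAt E4 p).target) {Ω : Set E4}
    (hΩ1 : ∀ y ∈ Ω, c.θ y = 1) {κ : E4 → ℝ} (hκs : ContDiff ℝ ∞ κ)
    (hκ1 : ∀ z, κ z ≠ 0 → ‖z‖ ≤ 1) {e : ℝ} (he : 0 < e) (hez : e < c.z0)
    {K : Set E4} (hK : IsCompact K) (hKt : K ⊆ (chartAt E4 p).target)
    (hKΩ : ∀ w ∈ K, closedBall w e ⊆ Ω) (ν : Measure M) [IsFiniteMeasure ν] :
    ∃ h : M → ℝ, SmoothF E4 h ∧ ∀ f, SmoothF E4 f → SuppF p K f →
      ∫ x, a1 c.fam p κ e f x ∂ν = ∫ x, f x * h x ∂D.μ := by
  classical
  have hF : Vol D.F := dat_volF D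
  have hFs : Smooth2 D.F := dat_smF D
  have hfin : IsFiniteMeasure D.μ := D.fin
  -- the scaled kernel
  set κe : E4 → ℝ := fun u => (e ^ Module.finrank ℝ E4)⁻¹ * κ (e⁻¹ • u) with hκe
  have hκes : ContDiff ℝ ∞ κe := contDiff_const.mul (hκs.comp (contDiff_const_smul _))
  have hκec : HasCompactSupport κe := by
    refine HasCompactSupport.intro (isCompact_closedBall (0 : E4) e) fun u hu => ?_
    have : κ (e⁻¹ • u) = 0 := by
      by_contra h
      refine hu ?_
      have h1 := hκ1 _ h
      rw [norm_smul, norm_inv, Real.norm_of_nonneg he.le, inv_mul_le_iff₀ he, mul_one] at h1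
      exact mem_closedBall_zero_iff.2 h1
    simp only [hκe]
    rw [this, mul_zero]
  -- the image measure
  have hmeas : AEMeasurable (chartAt E4 p) (ν.restrict (chartAt E4 p).source) :=
    (chartAt E4 p).continuousOn.aemeasurable (chartAt E4 p).open_source.measurableSet
  set ν' : Measure E4 := Measure.map (chartAt E4 p) (ν.restrict (chartAt E4 p).source) with hν'
  have hν'f : IsFiniteMeasure ν' := by rw [hν']; infer_instance
  set H : E4 → ℝ := fun w => ∫ y, κe (w - y) ∂ν' with hH
  have hHs : ContDiff ℝ ∞ H := contDiff_measConv ν' hκes hκec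
  -- the cut-off
  obtain ⟨d, hdV, hd1, -⟩ := exists_cut hK (chartAt E4 p).open_target hKt
  have hd1' : ∀ y ∈ K, d.θ y = 1 := fun y hy => (Filter.Eventually.self_of_nhdsSet hd1) y hy
  set g : E4 → ℝ := fun w => d.θ w * (H w / dens D.F p w) with hg
  have hgs : ContDiff ℝ ∞ g := by
    refine contDiff_of_tsup fun y hy => ?_
    have hyt : y ∈ (chartAt E4 p).target := hdV (tsupport_mul_subset_left hy)
    exact d.smooth.contDiffAt.mul (hHs.contDiffAt.div (contDiffAt_dens hF hFs hyt)
      (hF.dens_pos hyt).ne')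
  have hg0 : ∀ y, y ∉ tsupport d.θ → g y = 0 := fun y hy => by
    simp only [hg]
    rw [image_eq_zero_of_notMem_tsupport hy, zero_mul]
  have hhs : SmoothF E4 (extF p g) := smoothF_extF d.comp hdV hgs hg0
  refine ⟨extF p g, hhs, fun f hfs hf => ?_⟩
  have hcc : Continuous (cfF p K f) := cfF_continuous hK hKt hfs hf
  -- the left hand side
  have hL1 : ∫ x, a1 c.fam p κ e f x ∂ν =
      ∫ x in (chartAt E4 p).source, a1 c.fam p κ e f x ∂ν :=
    (setIntegral_eq_integral_of_forall_compl_eq_zero fun x hx => a1_off c hKt hf hx).symm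
  set Φ : E4 → ℝ := fun y => ∫ w, κe (w - y) * cfF p K f w with hΦ
  have hΦx : ∀ x ∈ (chartAt E4 p).source, a1 c.fam p κ e f x = Φ (chartAt E4 p x) := by
    intro x hx
    rw [a1_eq c hc hct hΩ1 hκ1 he hez hKt hKΩ hf hx]
    have := scaled_average volume κ (cfF p K f) he (chartAt E4 p x)
    simpa only [smul_eq_mul] using this
  have hcont2 : Continuous fun q : E4 × E4 => κe (q.2 - q.1) * cfF p K f q.2 :=
    (hκes.continuous.comp (continuous_snd.sub continuous_fst)).mul (hcc.comp continuous_snd)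
  have hΦm : StronglyMeasurable Φ :=
    StronglyMeasurable.integral_prod_right' (f := fun q : E4 × E4 => κe (q.2 - q.1) *
      cfF p K f q.2) hcont2.stronglyMeasurable
  have hL2 : ∫ x in (chartAt E4 p).source, a1 c.fam p κ e f x ∂ν = ∫ y, Φ y ∂ν' := by
    rw [setIntegral_congr_fun (chartAt E4 p).open_source.measurableSet hΦx, hν',
      integral_map hmeas hΦm.aestronglyMeasurable]
  obtain ⟨B, hB⟩ := hκes.continuous.bounded_above_of_compact_support hκec
  have hint : Integrable (fun q : E4 × E4 => κe (q.2 - q.1) * cfF p K f q.2)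
      (ν'.prod volume) := by
    have h1 : Integrable (cfF p K f) volume :=
      hcc.integrable_of_hasCompactSupport (cfF_compact hK)
    have h2 : Integrable (fun q : E4 × E4 => B * ‖cfF p K f q.2‖) (ν'.prod volume) :=
      (integrable_const B).mul_prod h1.norm
    refine h2.mono' hcont2.aestronglyMeasurable (Eventually.of_forall fun q => ?_)
    rw [norm_mul]
    exact mul_le_mul_of_nonneg_right (hB _) (norm_nonneg _)
  have hL3 : ∫ y, Φ y ∂ν' = ∫ w, cfF p K f w * H w := by
    simp only [hΦ]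
    rw [integral_integral_swap (f := fun y w => κe (w - y) * cfF p K f w) hint]
    refine integral_congr_ae (Eventually.of_forall fun w => ?_)
    simp only [hH]
    rw [integral_mul_const, mul_comm]
  -- the right hand side
  have hfc : Continuous f := SmoothF.cont hfs
  have hhc : Continuous (extF p g) := SmoothF.cont hhs
  have hR1 : ∫ x, f x * extF p g x ∂D.μ = ∫ y in (chartAt E4 p).target,
      dens D.F p y • (f ((chartAt E4 p).symm y) * extF p g ((chartAt E4 p).symm y)) := by
    refine isVol_integral hF D.vol p (hfc.mul hhc).aestronglyMeasurable fun x hx => ?_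
    rw [hf x fun h => hx (Sm4.core_subset hKt h), zero_mul]
  have hR2 : ∀ y ∈ (chartAt E4 p).target,
      dens D.F p y • (f ((chartAt E4 p).symm y) * extF p g ((chartAt E4 p).symm y)) =
        cfF p K f y * H y := by
    intro y hy
    rw [extF_of_mem (symm_mem hy), (chartAt E4 p).right_inv hy, ← cfF_eq hKt hf hy]
    by_cases hyK : y ∈ K
    · have hne := (hF.dens_pos hy).ne'
      simp only [hg, smul_eq_mul]
      rw [hd1' y hyK, one_mul]
      field_simp
    · rw [cfF_zero hyK, zero_mul, zero_mul, smul_zero]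
  rw [hL1, hL2, hL3, hR1, setIntegral_congr_fun (chartAt E4 p).open_target.measurableSet hR2]
  exact (setIntegral_eq_integral_of_forall_compl_eq_zero fun y hy => by
    rw [cfF_zero fun h => hy (hKt h), zero_mul]).symm

end S1

/-! ### gluing -/

section Glue

variable {M : Type*} [MetricSpace M] [CompactSpace M] [ChartedSpace E4 M]
    [IsManifold 𝓘(ℝ, E4) ∞ M] [MeasurableSpace M] [BorelSpace M]

/-- the space of smooth functions -/
def XF (M : Type*) [MetricSpace M] [CompactSpace M] [ChartedSpace E4 M]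
    [IsManifold 𝓘(ℝ, E4) ∞ M] : Submodule ℝ (M → ℝ) where
  carrier := {f | SmoothF E4 f}
  add_mem' hf hg := SmoothF.add hf hg
  zero_mem' := smoothF_const 0
  smul_mem' c _ hf := SmoothF.mul (smoothF_const c) hf

/-- the one-chart operator on functions -/
def f1X (S : Sys M) {e : ℝ} (h : S.Ok e) (i : Fin S.n) : Module.End ℝ (XF M) where
  toFun f := ⟨S.f1 e i f.1, Sys.smoothF_f1 h i f.2⟩
  map_add' f g := Subtype.ext (Sys.f1_add h i f.2 g.2)
  map_smul' c f := Subtype.ext (Sys.f1_smul e i c f.1)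

/-- support propagation of one averaging -/
theorem supp_f1 {p : M} (c : Cut E4) {κ : E4 → ℝ} (hκ : ∀ z, κ z ≠ 0 → ‖z‖ ≤ 1)
    {e : ℝ} (he : 0 < e) (hez : e ≤ c.z0 / 2) {C : ℝ} (hC : 0 ≤ C)
    (hdisp : ∀ z ∈ closedBall (0 : E4) (c.z0 / 2), ∀ x : M,
      dist (psi c.fam p z x) x ≤ C * ‖z‖)
    (K : Set M) (f : M → ℝ) (hf : ∀ x ∉ K, f x = 0) :
    ∀ x ∉ cthickening (C * e) K, a1 c.fam p κ e f x = 0 := by
  intro x hx
  unfold a1
  refine integral_eq_zero_of_ae (Eventually.of_forall fun z => ?_)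
  simp only [Pi.zero_apply]
  by_cases hz : κ z = 0
  · rw [hz, zero_mul]
  have hzn : ‖e • z‖ ≤ e := by
    rw [norm_smul, Real.norm_of_nonneg he.le]
    exact mul_le_of_le_one_right he.le (hκ z hz)
  have hd : dist (psi c.fam p (e • z) x) x ≤ C * e :=
    (hdisp _ (mem_closedBall_zero_iff.2 (hzn.trans hez)) x).trans
      (mul_le_mul_of_nonneg_left hzn hC)
  have h2 : psi c.fam p (e • z) x ∉ K := by
    intro h
    refine hx (mem_cthickening_of_dist_le x _ _ K h ?_)
    rw [dist_comm]; exact hd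
  rw [hf _ h2, mul_zero]

/-- **existence of a smooth density.** -/
theorem exists_dens_of (D : Dat M) (S : Sys M)
    (hT : ∀ {e : ℝ}, S.Ok e → ∀ i (g : M → ℝ), SmoothF E4 g → ∃ g', SmoothF E4 g' ∧
      ∀ f, SmoothF E4 f → ∫ x, S.f1 e i f x * g x ∂D.μ = ∫ x, f x * g' x ∂D.μ)
    (hP : ∀ {e : ℝ}, S.Ok e → ∀ i (ν : Measure M), IsFiniteMeasure ν → ∃ ν' : Measure M,
      IsFiniteMeasure ν' ∧ ∀ f, SmoothF E4 f → ∫ x, S.f1 e i f x ∂ν = ∫ x, f x ∂ν') :
    ∃ e1 : ℝ, 0 < e1 ∧ ∀ s : Measure M, IsFiniteMeasure s → ∀ e, 0 < e → e ≤ e1 →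
      ∃ g, SmoothF E4 g ∧ ∀ f, SmoothF E4 f → ∫ x, S.a e f x ∂s = ∫ x, f x * g x ∂D.μ := by
  classical
  have hF : Vol D.F := dat_volF D
  have hfin : IsFiniteMeasure D.μ := D.fin
  obtain ⟨e2, he2, -, hok⟩ := S.exists_ok
  -- the open cover
  set U : Fin S.n → Set M := fun i => (chartAt E4 (S.p i)).source ∩
    chartAt E4 (S.p i) ⁻¹' S.Ω i with hU
  have hUo : ∀ i, IsOpen (U i) := fun i =>
    (chartAt E4 (S.p i)).isOpen_inter_preimage (S.op i)
  obtain ⟨f, hf⟩ := SmoothPartitionOfUnity.exists_isSubordinate 𝓘(ℝ, E4) (isClosed_univ (X := M))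
    U hUo (fun x _ => by
      obtain ⟨i, hi, hi'⟩ := S.cover x
      exact mem_iUnion.2 ⟨i, hi, S.KΩ i (interior_subset hi')⟩)
  have hsum : ∀ x, ∑ j, f j x = 1 := by
    intro x
    have := f.sum_eq_one (mem_univ x)
    rwa [finsum_eq_sum_of_fintype] at this
  have hfs : ∀ j, SmoothF E4 (fun x => f j x) := fun j => (smoothF_iff _).1 (f j).contMDiff
  set K : Fin S.n → Set M := fun j => tsupport (f j) with hK
  have hKc : ∀ j, IsCompact (K j) := fun j => (isClosed_tsupport _).isCompact
  have hKU : ∀ j, K j ⊆ U j := hf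
  choose δ hδ hδU using fun j => (hKc j).exists_cthickening_subset_open (hUo j) (hKU j)
  set R : Fin S.n → Set E4 := fun j => chartAt E4 (S.p j) '' (cthickening (δ j) (K j)) with hR
  have hQs : ∀ j, cthickening (δ j) (K j) ⊆ (chartAt E4 (S.p j)).source := fun j =>
    (hδU j).trans inter_subset_left
  have hRc : ∀ j, IsCompact (R j) := fun j =>
    (hKc j).cthickening.image_of_continuousOn ((chartAt E4 (S.p j)).continuousOn.mono (hQs j))
  have hRO : ∀ j, R j ⊆ S.Ω j := by
    rintro j _ ⟨x, hx, rfl⟩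
    exact (hδU j hx).2
  choose η hη hηO using fun j => (hRc j).exists_cthickening_subset_open (S.op j) (hRO j)
  choose C hC hdisp using fun j => exists_disp_psi D.bl (S.c j).fam (p := S.p j)
    (by rw [Cut.fam_K]; exact S.sub j) (r' := (S.c j).z0 / 2)
    (by rw [Cut.fam_r]; linarith [(S.c j).z0_pos])
  set Ct : ℝ := ∑ j, C j with hCt
  have hCt0 : 0 ≤ Ct := Finset.sum_nonneg fun j _ => hC j
  have hCle : ∀ j, C j ≤ Ct := fun j =>
    Finset.single_le_sum (f := C) (fun i _ => hC i) (Finset.mem_univ j)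
  set l : List (Fin S.n) := List.finRange S.n with hl
  -- the bound of the scales
  have hex : ∃ e0 : ℝ, 0 < e0 ∧ ∀ j, e0 ≤ (S.c j).z0 / 2 ∧ e0 ≤ η j ∧
      l.length * (Ct * e0) ≤ δ j := by
    have h1 : ∀ j, ∃ e1 : ℝ, 0 < e1 ∧ ∀ e, e ≤ e1 → e ≤ (S.c j).z0 / 2 ∧ e ≤ η j ∧
        l.length * (Ct * e) ≤ δ j := by
      intro j
      refine ⟨min ((S.c j).z0 / 2) (min (η j) (δ j / (l.length * Ct + 1))), ?_, fun e he => ?_⟩
      · have := (S.c j).z0_pos
        have := hη j
        have := hδ j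
        positivity
      · have h2 := le_min_iff.1 he
        have h3 := le_min_iff.1 h2.2
        refine ⟨h2.1, h3.1, ?_⟩
        have h4 : (0 : ℝ) < l.length * Ct + 1 := by positivity
        rw [← mul_assoc]
        rcases le_or_gt e 0 with h5 | h5
        · exact (mul_nonpos_of_nonneg_of_nonpos (by positivity) h5).trans (hδ j).le
        · have h6 := (le_div_iff₀ h4).1 h3.2
          nlinarith
    choose e1 he1 he1' using h1
    rcases isEmpty_or_nonempty (Fin S.n) with hι | hι
    · exact ⟨1, one_pos, fun j => (hι.false j).elim⟩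
    · refine ⟨Finset.univ.inf' Finset.univ_nonempty e1, ?_, fun j => he1' j _ ?_⟩
      · exact (Finset.lt_inf'_iff _).2 fun j _ => he1 j
      · exact Finset.inf'_le _ (Finset.mem_univ j)
  obtain ⟨e0, he0, hsmall⟩ := hex
  refine ⟨min e0 e2, lt_min he0 he2, fun s hs e he hee => ?_⟩
  have hee0 : e ≤ e0 := hee.trans (min_le_left _ _)
  have hoke : S.Ok e := hok e he (hee.trans (min_le_right _ _))
  have hint : ∀ a b : XF M, Integrable (fun x => b.1 x * a.1 x) D.μ := fun a b =>
    ((SmoothF.cont b.2).mul (SmoothF.cont a.2)).integrable_of_hasCompactSupport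
      (HasCompactSupport.of_compactSpace _)
  set FO : (XF M →ₗ[ℝ] ℝ) → Prop := fun L => ∃ ν : Measure M, IsFiniteMeasure ν ∧
    ∀ b : XF M, L b = ∫ x, b.1 x ∂ν with hFO
  have hkapn : ∀ z, kap0 z ≠ 0 → ‖z‖ ≤ 1 := fun z hz => (norm_lt_of_kap0 hz).le
  -- the functional
  set L : XF M →ₗ[ℝ] ℝ :=
    { toFun := fun b => ∫ x, b.1 x ∂s
      map_add' := fun a b => integral_add
        ((SmoothF.cont a.2).integrable_of_hasCompactSupport (HasCompactSupport.of_compactSpace _))
        ((SmoothF.cont b.2).integrable_of_hasCompactSupport (HasCompactSupport.of_compactSpace _))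
      map_smul' := fun c b => integral_const_mul c _ } with hL
  have hLFO : FO L := ⟨s, hs, fun b => rfl⟩
  have hδ0 : 0 ≤ Ct * e := by positivity
  obtain ⟨g, hg⟩ := Sm5.rep_glue (X := XF M) (fun a b => ∫ x, b.1 x * a.1 x ∂D.μ)
    (fun b => by simp)
    (fun a c b => by
      rw [← integral_add (hint a b) (hint c b)]
      refine integral_congr_ae (Eventually.of_forall fun x => ?_)
      show b.1 x * (a.1 x + c.1 x) = _
      ring)
    (f1X S hoke)
    (fun i h => by
      obtain ⟨h', hh's, hh'⟩ := hT hoke i h.1 h.2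
      exact ⟨⟨h', hh's⟩, fun b => hh' b.1 b.2⟩)
    FO
    (fun i L' ⟨ν, hν, hL'⟩ => by
      obtain ⟨ν', hν', h⟩ := hP hoke i ν hν
      refine ⟨ν', hν', fun b => ?_⟩
      rw [LinearMap.comp_apply, hL', ← h b.1 b.2]
      rfl)
    l l.length (Nat.le_succ _) (Fin S.n) (fun j => j) (fun j => List.mem_finRange j)
    (fun j k b => ∀ x ∉ cthickening (k * (Ct * e)) (K j), b.1 x = 0)
    (fun j k i b hb x hx => by
      have h1 := supp_f1 (p := S.p i) (S.c i) hkapn he (hee0.trans (hsmall i).1) (hC i)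
        (hdisp i) _ b.1 hb
      refine h1 x fun hx2 => hx ?_
      have h2 := cthickening_mono (mul_le_mul_of_nonneg_right (hCle i) he.le)
        (cthickening (k * (Ct * e)) (K j)) hx2
      have h3 := cthickening_cthickening_subset hδ0 (mul_nonneg (Nat.cast_nonneg k) hδ0) (K j) h2
      refine cthickening_mono ?_ _ h3
      push_cast
      linarith)
    (fun j k b hb x hx => hb x fun h => hx (cthickening_mono (by push_cast; nlinarith) _ h))
    (fun j L' ⟨ν, hν, hL'⟩ => by
      obtain ⟨h, hhs, hh⟩ := S1F D (p := S.p j) (S.c j) (S.c01 j) (S.sub j) (S.one j) kap0_smooth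
        hkapn he (hoke.2 j) (hRc j) ((hRO j).trans (S.Ω_sub j)) (fun w hw => by
          refine Subset.trans ?_ (hηO j)
          refine Subset.trans (closedBall_subset_closedBall (hee0.trans (hsmall j).2.1)) ?_
          exact closedBall_subset_cthickening hw _) ν
      refine ⟨⟨h, hhs⟩, fun b hb => ?_⟩
      have h3 : SuppF (S.p j) (R j) b.1 := by
        intro x hx
        refine hb x fun hx2 => hx ?_
        have h4 : x ∈ cthickening (δ j) (K j) := by
          refine cthickening_mono ?_ _ hx2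
          refine le_trans ?_ (hsmall j).2.2
          exact mul_le_mul_of_nonneg_left (mul_le_mul_of_nonneg_left hee0 hCt0)
            (Nat.cast_nonneg _)
        exact ⟨chartAt E4 (S.p j) x, ⟨x, h4, rfl⟩, (chartAt E4 (S.p j)).left_inv (hQs j h4)⟩
      rw [hL']
      exact hh b.1 b.2 h3)
    (fun j b => ⟨fun x => f j x * b.1 x, SmoothF.mul (hfs j) b.2⟩)
    (fun b => by
      apply Subtype.ext
      funext x
      rw [Submodule.coe_sum, Finset.sum_apply]
      show ∑ j, f j x * b.1 x = b.1 x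
      rw [← Finset.sum_mul, hsum, one_mul])
    (fun j b x hx => by
      have hx' : x ∉ K j := fun h => hx (self_subset_cthickening _ h)
      show f j x * b.1 x = 0
      rw [image_eq_zero_of_notMem_tsupport hx', zero_mul])
    (fun j h b => by
      refine integral_congr_ae (Eventually.of_forall fun x => ?_)
      show f j x * b.1 x * h.1 x = b.1 x * (f j x * h.1 x)
      ring) L hLFO
  refine ⟨g.1, g.2, fun b hb => ?_⟩
  have key : ∀ (l' : List (Fin S.n)), ((l'.map (f1X S hoke)).prod ⟨b, hb⟩).1 = S.fL e l' b := by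
    intro l'
    induction l' with
    | nil => rfl
    | cons i l' ih =>
      rw [List.map_cons, List.prod_cons, Module.End.mul_apply, Sys.fL_cons, ← ih]
      rfl
  have h1 := hg ⟨b, hb⟩
  have h2 : L ((l.map (f1X S hoke)).prod ⟨b, hb⟩) = ∫ x, S.a e b x ∂s := by
    show ∫ x, ((l.map (f1X S hoke)).prod ⟨b, hb⟩).1 x ∂s = _
    rw [key l]
    rfl
  rw [← h2, h1]

end Glue

end

end Crest.Agent.R240.SmF
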