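import Mathlib
import Crest.Agent.R240.SmSys
import Crest.Agent.R240.IntTop

/-!
Row 240, N8 field `repm`, part (P) (helper599): the image of a finite measure under one averaging.
-/

set_option autoImplicit false
set_option maxSynthPendingDepth 3
set_option linter.unusedSectionVars false

open Set Function Filter Metric MeasureTheory
open scoped Manifold ContDiff Topology NNReal ENNReal
open Crest.Agent.R240.Ch Crest.Agent.R240.Sm

namespace Crest.Agent.R240.SmF

noncomputable section

section Psi

variable {M : Type*} [TopologicalSpace M] [ChartedSpace E4 M] [IsManifold 𝓘(ℝ, E4) ∞ M]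
variable [T2Space M]

/-- joint continuity of the family of diffeomorphisms. -/
theorem continuousAt_psi2 {G : Fam E4} {p : M} (hG : G.K ⊆ (chartAt E4 p).target) {z : E4}
    (hz : z ∈ ball (0 : E4) G.r) (x : M) :
    ContinuousAt (fun w : M × E4 => psi G p w.2 w.1) (x, z) := by
  by_cases hx : x ∈ (chartAt E4 p).source
  · have hev : (fun w : M × E4 => (chartAt E4 p).symm (G.g w.2 (chartAt E4 p w.1))) =ᶠ[𝓝 (x, z)]
        fun w => psi G p w.2 w.1 := by
      have h5 : ∀ᶠ w : M × E4 in 𝓝 (x, z), w.1 ∈ (chartAt E4 p).source :=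
        (continuous_fst.tendsto (x, z)).eventually ((chartAt E4 p).open_source.mem_nhds hx)
      filter_upwards [h5] with w hw
      rw [psi_of_mem hw]
    refine ContinuousAt.congr ?_ hev
    have h1 : ContinuousAt (fun w : M × E4 => ((w.2, chartAt E4 p w.1) : E4 × E4)) (x, z) :=
      continuousAt_snd.prodMk (ContinuousAt.comp (g := chartAt E4 p) (f := fun w : M × E4 => w.1)
        (x := (x, z)) ((chartAt E4 p).continuousAt hx) continuousAt_fst)
    have hmem : (z, chartAt E4 p x) ∈ (ball (0 : E4) G.r ×ˢ (univ : Set E4)) := ⟨hz, mem_univ _⟩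
    have h2 : ContinuousAt (fun w : E4 × E4 => G.g w.1 w.2) (z, chartAt E4 p x) :=
      ((G.smooth _ hmem).contDiffAt ((isOpen_ball.prod isOpen_univ).mem_nhds hmem)).continuousAt
    have h3 : ContinuousAt (fun w : M × E4 => G.g w.2 (chartAt E4 p w.1)) (x, z) :=
      ContinuousAt.comp (g := fun w : E4 × E4 => G.g w.1 w.2)
        (f := fun w : M × E4 => ((w.2, chartAt E4 p w.1) : E4 × E4)) (x := (x, z)) h2 h1
    have h4 : G.g z (chartAt E4 p x) ∈ (chartAt E4 p).target :=
      G.mem_of_mem hz hG ((chartAt E4 p).map_source hx)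
    exact ContinuousAt.comp (g := (chartAt E4 p).symm)
      (f := fun w : M × E4 => G.g w.2 (chartAt E4 p w.1)) (x := (x, z))
      ((chartAt E4 p).continuousAt_symm h4) h3
  · have hx' : x ∉ KM G p := fun h => hx (KM_subset hG h)
    have hev : (fun w : M × E4 => w.1) =ᶠ[𝓝 (x, z)] fun w => psi G p w.2 w.1 := by
      have h5 : ∀ᶠ w : M × E4 in 𝓝 (x, z), w.1 ∉ KM G p :=
        (continuous_fst.tendsto (x, z)).eventually ((isClosed_KM hG).isOpen_compl.mem_nhds hx')
      have h6 : ∀ᶠ w : M × E4 in 𝓝 (x, z), w.2 ∈ ball (0 : E4) G.r :=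
        (continuous_snd.tendsto (x, z)).eventually (isOpen_ball.mem_nhds hz)
      filter_upwards [h5, h6] with w hw hw2
      rw [psi_off hw2 hw]
    exact continuousAt_fst.congr hev

/-- the radial retraction onto the closed unit ball. -/
def rr (z : E4) : E4 := (max 1 ‖z‖)⁻¹ • z

lemma rr_cont : Continuous rr := by
  refine Continuous.smul (Continuous.inv₀ (continuous_const.max continuous_norm) ?_) continuous_id
  intro z
  exact (lt_of_lt_of_le one_pos (le_max_left _ _)).ne'

lemma rr_eq {z : E4} (hz : ‖z‖ ≤ 1) : rr z = z := by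
  rw [rr, max_eq_left hz, inv_one, one_smul]

lemma norm_rr (z : E4) : ‖rr z‖ ≤ 1 := by
  have h : 0 < max 1 ‖z‖ := lt_of_lt_of_le one_pos (le_max_left _ _)
  rw [rr, norm_smul, norm_inv, Real.norm_of_nonneg h.le, inv_mul_le_iff₀ h, mul_one]
  exact le_max_right _ _

lemma continuous_psi_rr {G : Fam E4} {p : M} (hG : G.K ⊆ (chartAt E4 p).target) {e : ℝ}
    (he : 0 ≤ e) (heG : e < G.r) :
    Continuous (fun w : M × E4 => psi G p (e • rr w.2) w.1) := by
  rw [continuous_iff_continuousAt]
  rintro ⟨x, z⟩
  have hm : e • rr z ∈ ball (0 : E4) G.r := by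
    rw [mem_ball_zero_iff, norm_smul, Real.norm_of_nonneg he]
    exact lt_of_le_of_lt (mul_le_of_le_one_right he (norm_rr z)) heG
  exact ContinuousAt.comp (g := fun w : M × E4 => psi G p w.2 w.1)
    (f := fun w : M × E4 => ((w.1, e • rr w.2) : M × E4)) (x := (x, z))
    (continuousAt_psi2 hG hm x)
    (continuousAt_fst.prodMk ((rr_cont.comp continuous_snd).const_smul e).continuousAt)

end Psi

section Fields

variable {M : Type*} [MetricSpace M] [CompactSpace M] [ChartedSpace E4 M]
    [IsManifold 𝓘(ℝ, E4) ∞ M] [MeasurableSpace M] [BorelSpace M]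

/-- **(P)**: the image of a finite measure under one averaging of functions. -/
theorem exists_push2 (S : Sys M) {e : ℝ} (he : S.Ok e) (i : Fin S.n) (ν : Measure M)
    [IsFiniteMeasure ν] : ∃ ν' : Measure M, IsFiniteMeasure ν' ∧ ∀ f : M → ℝ, SmoothF E4 f →
      ∫ x, S.f1 e i f x ∂ν = ∫ x, f x ∂ν' := by
  have hT : Continuous (fun w : M × E4 => psi (S.G i) (S.p i) (e • rr w.2) w.1) :=
    continuous_psi_rr (S.hG i) he.1.le (he.2 i)
  have hkm : Measurable (fun z : E4 => (kap0 z).toNNReal) :=
    (continuous_real_toNNReal.comp kap0_cont).measurable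
  have hcomp : HasCompactSupport kap0 :=
    (isCompact_closedBall (0 : E4) 1).of_isClosed_subset (isClosed_tsupport kap0)
      tsupport_kap0.subset
  have hki : Integrable (kap0 : E4 → ℝ) := kap0_cont.integrable_of_hasCompactSupport hcomp
  set κ : Measure E4 := volume.withDensity (fun z => ((kap0 z).toNNReal : ℝ≥0∞)) with hκ
  have hfin : IsFiniteMeasure κ := by
    refine isFiniteMeasure_withDensity ?_
    have := hki.lintegral_lt_top
    exact this.ne
  refine ⟨(ν.prod κ).map (fun w : M × E4 => psi (S.G i) (S.p i) (e • rr w.2) w.1),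
    inferInstance, fun f hf => ?_⟩
  have hfc : Continuous f := Int.SmoothF.cont hf
  rw [integral_map hT.aemeasurable hfc.aestronglyMeasurable]
  have hint : Integrable (fun w : M × E4 => f (psi (S.G i) (S.p i) (e • rr w.2) w.1))
      (ν.prod κ) := by
    obtain ⟨C, hC⟩ := isCompact_univ.exists_bound_of_continuousOn (hfc.continuousOn (s := univ))
    exact Integrable.of_bound (hfc.comp hT).aestronglyMeasurable C
      (Eventually.of_forall fun w => hC _ (mem_univ _))
  rw [integral_prod _ hint]
  refine integral_congr_ae (Eventually.of_forall fun x => ?_)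
  simp only
  rw [hκ, integral_withDensity_eq_integral_smul hkm]
  unfold Sys.f1 a1
  refine integral_congr_ae (Eventually.of_forall fun z => ?_)
  simp only
  rw [NNReal.smul_def, Real.coe_toNNReal _ (kap0_nonneg z), smul_eq_mul]
  by_cases hz : kap0 z = 0
  · rw [hz, zero_mul, zero_mul]
  · have hz1 : ‖z‖ ≤ 1 := by
      simpa using tsupport_kap0.subset (subset_tsupport _ hz)
    rw [rr_eq hz1]

end Fields

end

end Crest.Agent.R240.SmF
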