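import Mathlib
import Crest.Agent.R240.SmSys
import Crest.Agent.R240.Sm3b
import Crest.Agent.R240.IntTop

/-!
Row 240, N8 field `repm` (helper837): transposition of the one-chart averaging of functions with
respect to the volume measure, and the `L¹` bound.
-/

set_option autoImplicit false
set_option maxSynthPendingDepth 3
set_option linter.unusedSectionVars false

open Set Function Filter Metric MeasureTheory
open scoped Manifold ContDiff Topology
open Crest.Agent.R240.Ch Crest.Agent.R240.Sm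

namespace Crest.Agent.R240.SmF

noncomputable section

section Jac

variable {M : Type*} [TopologicalSpace M] [ChartedSpace E4 M] [IsManifold 𝓘(ℝ, E4) ∞ M]

/-- the Jacobian function `q(ψ^* F, ψ^* F)`. -/
def jac (F : F2 E4 M) (G : Fam E4) (p : M) (z : E4) (x : M) : ℝ :=
  qG F (pullG G p z F) (pullG G p z F) x

variable [T2Space M]

theorem contDiffOn_jac {F : F2 E4 M} (hF : Int.Vol F) (hFs : Smooth2 F) {G : Fam E4} {p : M}
    (hG : G.K ⊆ (chartAt E4 p).target) (q' : M) :
    ContDiffOn ℝ ∞ (fun w : E4 × E4 => jac F G p w.1 ((chartAt E4 q').symm w.2))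
      (ball 0 G.r ×ˢ (chartAt E4 q').target) := by
  have hj := jsm_pullG hG hFs
  have h1 : ContDiffOn ℝ ∞ (fun w : E4 × E4 => rep q' (pullG G p w.1 F) w.2)
      (ball 0 G.r ×ˢ (chartAt E4 q').target) := hj.2 q'
  have h2 : ContDiffOn ℝ ∞ (fun w : E4 × E4 => rep q' F w.2)
      (ball 0 G.r ×ˢ (chartAt E4 q').target) :=
    (hFs.2 q').comp contDiff_snd.contDiffOn fun w hw => hw.2
  have hW : ∀ f g : E4 × E4 → Bil, ContDiffOn ℝ ∞ f (ball 0 G.r ×ˢ (chartAt E4 q').target) →
      ContDiffOn ℝ ∞ g (ball 0 G.r ×ˢ (chartAt E4 q').target) →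
      ContDiffOn ℝ ∞ (fun w => W (f w) (g w)) (ball 0 G.r ×ˢ (chartAt E4 q').target) := by
    intro f g hf hg
    have hf' : ∀ i j, ContDiffOn ℝ ∞ (fun w => ent (f w) i j)
      (ball 0 G.r ×ˢ (chartAt E4 q').target) := fun i j =>
      (hf.clm_apply contDiffOn_const).clm_apply contDiffOn_const
    have hg' : ∀ i j, ContDiffOn ℝ ∞ (fun w => ent (g w) i j)
      (ball 0 G.r ×ˢ (chartAt E4 q').target) := fun i j =>
      (hg.clm_apply contDiffOn_const).clm_apply contDiffOn_const
    unfold W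
    exact (((((((hf' _ _).mul (hg' _ _)).sub ((hf' _ _).mul (hg' _ _))).add
      ((hf' _ _).mul (hg' _ _))).add ((hf' _ _).mul (hg' _ _))).sub
      ((hf' _ _).mul (hg' _ _))).add ((hf' _ _).mul (hg' _ _)))
  have h3 := (hW _ _ h1 h1).div (hW _ _ h2 h2) (fun w hw => hF.rep_ne hw.2)
  refine h3.congr fun w hw => ?_
  exact Int.qG_chart hF (fun x v => hj.1 w.1 hw.1 x v) (fun x v => hj.1 w.1 hw.1 x v) hw.2

/-- the transposed one-chart averaging of functions (`G` = the inverse family). -/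
def aT (F : F2 E4 M) (G : Fam E4) (p : M) (κ : E4 → ℝ) (e : ℝ) (g : M → ℝ) : M → ℝ :=
  fun x => ∫ z, κ z * (g (psi G p (e • z) x) * jac F G p (e • z) x)

theorem contDiffOn_aT_family {F : F2 E4 M} (hF : Int.Vol F) (hFs : Smooth2 F) {G : Fam E4} {p : M}
    (hG : G.K ⊆ (chartAt E4 p).target) {g : M → ℝ} (hg : SmoothF E4 g) (e : ℝ) (q' : M) :
    ContDiffOn ℝ ∞ (fun w : E4 × E4 => g (psi G p (e • w.1) ((chartAt E4 q').symm w.2)) *
      jac F G p (e • w.1) ((chartAt E4 q').symm w.2)) (dom G e ×ˢ (chartAt E4 q').target) :=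
  (contDiffOn_repF_pullF_smul hG hg e q').mul
    (contDiffOn_param (G := fun w : E4 × E4 => jac F G p w.1 ((chartAt E4 q').symm w.2))
    (contDiffOn_jac hF hFs hG q') (f := fun z => e • z) (contDiff_const_smul e).contDiffOn
    fun _ hz => hz)

theorem smoothF_aT {F : F2 E4 M} (hF : Int.Vol F) (hFs : Smooth2 F) {G : Fam E4} {p : M}
    (hG : G.K ⊆ (chartAt E4 p).target) {κ : E4 → ℝ} {e : ℝ} (h : Adm G κ e) {g : M → ℝ}
    (hg : SmoothF E4 g) : SmoothF E4 (aT F G p κ e g) := fun q' =>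
  (contDiffOn_integral (isOpen_dom G e) (chartAt E4 q').open_target h.cont h.comp h.sub
    (contDiffOn_swap (contDiffOn_aT_family hF hFs hG hg e q'))).congr fun _ _ => rfl

theorem smoothF_pullF {G : Fam E4} {p : M} (hG : G.K ⊆ (chartAt E4 p).target) {z : E4}
    (hz : z ∈ ball (0 : E4) G.r) {g : M → ℝ} (hg : SmoothF E4 g) : SmoothF E4 (pullF G p z g) := by
  intro q'
  have h := contDiffOn_repF_pullF hG hg q'
  have h2 : ContDiffOn ℝ ∞ (fun y : E4 => ((z, y) : E4 × E4)) (chartAt E4 q').target :=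
    (contDiff_const.prodMk contDiff_id).contDiffOn
  exact h.comp h2 fun y hy => ⟨hz, hy⟩

/-- a function `Φ z x`, smooth in the charts, is continuous on `U × M`. -/
lemma continuousAt_family {Φ : E4 → M → ℝ} {U : Set E4} (hU : IsOpen U)
    (h : ∀ q' : M, ContDiffOn ℝ ∞ (fun w : E4 × E4 => Φ w.1 ((chartAt E4 q').symm w.2))
      (U ×ˢ (chartAt E4 q').target)) {z : E4} (hz : z ∈ U) (x : M) :
    ContinuousAt (fun w : M × E4 => Φ w.2 w.1) (x, z) := by
  have hmem : (z, chartAt E4 x x) ∈ U ×ˢ (chartAt E4 x).target := ⟨hz, mem_chart_target E4 x⟩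
  have ho : U ×ˢ (chartAt E4 x).target ∈ 𝓝 (z, chartAt E4 x x) :=
    (hU.prod (chartAt E4 x).open_target).mem_nhds hmem
  have h2 := (h x).continuousOn.continuousAt ho
  have hch : ContinuousAt (chartAt E4 x) x := (chartAt E4 x).continuousAt (mem_chart_source E4 x)
  have h3 : ContinuousAt (fun w : M × E4 => ((w.2, chartAt E4 x w.1) : E4 × E4)) (x, z) :=
    continuousAt_snd.prodMk (ContinuousAt.comp (g := chartAt E4 x) (f := fun w : M × E4 => w.1)
      (x := (x, z)) hch continuousAt_fst)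
  have h4 := ContinuousAt.comp (g := fun w : E4 × E4 => Φ w.1 ((chartAt E4 x).symm w.2))
      (f := fun w : M × E4 => ((w.2, chartAt E4 x w.1) : E4 × E4)) (x := (x, z)) h2 h3
  refine h4.congr ?_
  have ho2 : (chartAt E4 x).source ×ˢ U ∈ 𝓝 (x, z) :=
    ((chartAt E4 x).open_source.prod hU).mem_nhds ⟨mem_chart_source E4 x, hz⟩
  filter_upwards [ho2] with w hw
  simp only [comp_apply]
  rw [(chartAt E4 x).left_inv hw.1]

/-- multiplied with an admissible kernel the family is continuous with compact support. -/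
lemma continuous_kernel_family {Φ : E4 → M → ℝ} {U : Set E4} (hU : IsOpen U)
    (h : ∀ q' : M, ContDiffOn ℝ ∞ (fun w : E4 × E4 => Φ w.1 ((chartAt E4 q').symm w.2))
      (U ×ˢ (chartAt E4 q').target)) {κ : E4 → ℝ} (hκ : Continuous κ) (hs : tsupport κ ⊆ U) :
    Continuous (fun w : M × E4 => κ w.2 * Φ w.2 w.1) := by
  rw [continuous_iff_continuousAt]
  rintro ⟨x, z⟩
  by_cases hz : z ∈ U
  · exact (hκ.comp continuous_snd).continuousAt.mul (continuousAt_family hU h hz x)
  · have hz' : z ∉ tsupport κ := fun h' => hz (hs h')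
    have hev : (fun w : M × E4 => κ w.2 * Φ w.2 w.1) =ᶠ[𝓝 (x, z)] fun _ => 0 := by
      have h5 : ∀ᶠ w : M × E4 in 𝓝 (x, z), w.2 ∈ (tsupport κ)ᶜ :=
        (continuous_snd.tendsto (x, z)).eventually
          ((isClosed_tsupport κ).isOpen_compl.mem_nhds hz')
      filter_upwards [h5] with w hw
      rw [image_eq_zero_of_notMem_tsupport hw, zero_mul]
    exact continuousAt_const.congr hev.symm

variable [CompactSpace M] [MeasurableSpace M] [BorelSpace M]

/-- Fubini for a kernel family. -/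
lemma integral_kernel_family {Φ : E4 → M → ℝ} {U : Set E4} (hU : IsOpen U)
    (h : ∀ q' : M, ContDiffOn ℝ ∞ (fun w : E4 × E4 => Φ w.1 ((chartAt E4 q').symm w.2))
      (U ×ˢ (chartAt E4 q').target)) {κ : E4 → ℝ} (hκ : Continuous κ) (hc : HasCompactSupport κ)
    (hs : tsupport κ ⊆ U) {f : M → ℝ} (hf : Continuous f) (ν : Measure M) [IsFiniteMeasure ν] :
    ∫ x, f x * (∫ z, κ z * Φ z x) ∂ν = ∫ z, κ z * (∫ x, f x * Φ z x ∂ν) := by
  have hcont : Continuous (fun w : M × E4 => f w.1 * (κ w.2 * Φ w.2 w.1)) :=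
    (hf.comp continuous_fst).mul (continuous_kernel_family hU h hκ hs)
  have hsupp : HasCompactSupport (fun w : M × E4 => f w.1 * (κ w.2 * Φ w.2 w.1)) := by
    refine HasCompactSupport.intro (K := univ ×ˢ tsupport κ) (isCompact_univ.prod hc) ?_
    intro w hw
    have : w.2 ∉ tsupport κ := fun h' => hw ⟨mem_univ _, h'⟩
    rw [image_eq_zero_of_notMem_tsupport this, zero_mul, mul_zero]
  have hint : Integrable (fun w : M × E4 => f w.1 * (κ w.2 * Φ w.2 w.1))
      (ν.prod volume) := hcont.integrable_of_hasCompactSupport hsupp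
  have hsw := integral_integral_swap (μ := ν) (ν := (volume : Measure E4))
    (f := fun x z => f x * (κ z * Φ z x)) hint
  calc ∫ x, f x * (∫ z, κ z * Φ z x) ∂ν = ∫ x, (∫ z, f x * (κ z * Φ z x)) ∂ν := by
        refine integral_congr_ae (Eventually.of_forall fun x => ?_)
        simp only
        rw [integral_const_mul]
    _ = ∫ z, (∫ x, f x * (κ z * Φ z x) ∂ν) := hsw
    _ = ∫ z, κ z * (∫ x, f x * Φ z x ∂ν) := by
        refine integral_congr_ae (Eventually.of_forall fun z => ?_)
        simp only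
        rw [← integral_const_mul]
        refine integral_congr_ae (Eventually.of_forall fun x => ?_)
        simp only
        ring

/-- change of variables for one diffeomorphism. -/
theorem integral_psi {F : F2 E4 M} (hF : Int.Vol F) (hFs : Smooth2 F) {G : Fam E4} {p : M}
    (hG : G.K ⊆ (chartAt E4 p).target) {z : E4} (hz : z ∈ ball (0 : E4) G.r) {f g : M → ℝ}
    (hf : SmoothF E4 f) (hg : SmoothF E4 g) :
    ∫ x, g x * f (psi G p z x) ∂(Int.mu F) =
      ∫ x, f x * (g (psi G.symm p z x) * jac F G.symm p z x) ∂(Int.mu F) := by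
  set Fz : F2 E4 M := pullG G.symm p z F with hFz
  have hz' : z ∈ ball (0 : E4) G.symm.r := hz
  have hFzs : Smooth2 Fz := smooth2_pullG (G := G.symm) hG hFs hz'
  have hgz : SmoothF E4 (pullF G.symm p z g) := smoothF_pullF (G := G.symm) hG hz' hg
  have h1 := I_pullG (M := M) hF hG hz (Smooth2.fmul hf hFzs) (Smooth2.fmul hgz hFzs)
  rw [pullG_fmul, pullG_fmul, hFz, pullG_pullG_symm hG hz] at h1
  have h2 : pullF G p z (pullF G.symm p z g) = g := by
    funext x
    simp only [pullF]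
    rw [psi_symm_psi hG hz]
  rw [h2] at h1
  unfold Int.I at h1
  have h3 : ∀ x, qG F (fmul (pullF G p z f) F) (fmul g F) x = g x * f (psi G p z x) := by
    intro x
    have hne := hF.ne x
    unfold qG q
    rw [at2_fmul', at2_fmul', W_smul_left, W_smul_right]
    simp only [pullF]
    field_simp
  have h4 : ∀ x, qG F (fmul f (pullG G.symm p z F)) (fmul (pullF G.symm p z g)
      (pullG G.symm p z F)) x = f x * (g (psi G.symm p z x) * jac F G.symm p z x) := by
    intro x
    unfold jac qG q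
    rw [at2_fmul', at2_fmul', W_smul_left, W_smul_right]
    simp only [pullF]
    ring
  simp only [h3, h4] at h1
  exact h1

/-- **transposition of the one-chart averaging of functions.** -/
theorem integral_a1_mul {F : F2 E4 M} (hF : Int.Vol F) (hFs : Smooth2 F) {G : Fam E4} {p : M}
    (hG : G.K ⊆ (chartAt E4 p).target) {κ : E4 → ℝ} {e : ℝ} (h : Adm G κ e) {f g : M → ℝ}
    (hf : SmoothF E4 f) (hg : SmoothF E4 g) :
    ∫ x, a1 G p κ e f x * g x ∂(Int.mu F) = ∫ x, f x * aT F G.symm p κ e g x ∂(Int.mu F) := by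
  have := Int.isFinite_mu hF
  have h1 := integral_kernel_family (Φ := fun z x => f (psi G p (e • z) x)) (isOpen_dom G e)
    (fun q' => contDiffOn_repF_pullF_smul hG hf e q') h.cont h.comp h.sub
    (Int.SmoothF.cont hg) (Int.mu F)
  have h2 := integral_kernel_family (Φ := fun z x => g (psi G.symm p (e • z) x) *
      jac F G.symm p (e • z) x) (isOpen_dom G.symm e)
    (fun q' => contDiffOn_aT_family hF hFs (G := G.symm) hG hg e q') h.cont h.comp h.sub
    (Int.SmoothF.cont hf) (Int.mu F)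
  calc ∫ x, a1 G p κ e f x * g x ∂(Int.mu F)
      = ∫ x, g x * (∫ z, κ z * f (psi G p (e • z) x)) ∂(Int.mu F) := by
        refine integral_congr_ae (Eventually.of_forall fun x => ?_)
        simp only [a1]
        ring
    _ = ∫ z, κ z * (∫ x, g x * f (psi G p (e • z) x) ∂(Int.mu F)) := h1
    _ = ∫ z, κ z * (∫ x, f x * (g (psi G.symm p (e • z) x) * jac F G.symm p (e • z) x)
          ∂(Int.mu F)) := by
        refine integral_congr_ae (Eventually.of_forall fun z => ?_)
        simp only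
        by_cases hz : κ z = 0
        · rw [hz, zero_mul, zero_mul]
        · rw [integral_psi hF hFs hG (h.mem' hz) hf hg]
    _ = _ := h2.symm

/-- the transposed averaging of the constant one is bounded, uniformly in the scale. -/
theorem exists_aT_bound {F : F2 E4 M} (hF : Int.Vol F) (hFs : Smooth2 F) {G : Fam E4} {p : M}
    (hG : G.K ⊆ (chartAt E4 p).target) {κ : E4 → ℝ} (hκ : Continuous κ) (hκ0 : ∀ z, 0 ≤ κ z)
    (hs : tsupport κ ⊆ closedBall 0 1) (hκ1 : ∫ z, κ z = 1) {r' : ℝ} (hr' : r' < G.r) :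
    ∃ C : ℝ, 1 ≤ C ∧ ∀ e, 0 < e → e ≤ r' → ∀ x, aT F G p κ e (fun _ => 1) x ≤ C := by
  have hsub : closedBall (0 : E4) r' ⊆ ball (0 : E4) G.r := closedBall_subset_ball hr'
  have hco : ContinuousOn (fun w : M × E4 => jac F G p w.2 w.1) (univ ×ˢ closedBall 0 r') := by
    rintro ⟨x, z⟩ ⟨-, hz⟩
    exact (continuousAt_family isOpen_ball (fun q' => contDiffOn_jac hF hFs hG q')
      (hsub hz) x).continuousWithinAt
  obtain ⟨C, hC⟩ := ((isCompact_univ (X := M)).prod
    (isCompact_closedBall (0 : E4) r')).exists_bound_of_continuousOn hco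
  have hcomp : HasCompactSupport κ :=
    (isCompact_closedBall 0 1).of_isClosed_subset (isClosed_tsupport κ) hs
  refine ⟨max C 1, le_max_right _ _, fun e he her x => ?_⟩
  unfold aT
  have h0 : ∀ z, κ z * ((1 : ℝ) * jac F G p (e • z) x) ≤ κ z * max C 1 := by
    intro z
    by_cases hz : κ z = 0
    · rw [hz, zero_mul, zero_mul]
    · refine mul_le_mul_of_nonneg_left ?_ (hκ0 z)
      have hz1 : ‖z‖ ≤ 1 := by simpa using hs (subset_tsupport _ hz)
      have hm : e • z ∈ closedBall (0 : E4) r' := by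
        rw [mem_closedBall_zero_iff, norm_smul, Real.norm_of_nonneg he.le]
        nlinarith [norm_nonneg z]
      have := hC (x, e • z) ⟨mem_univ _, hm⟩
      rw [one_mul]
      exact ((le_abs_self _).trans this).trans (le_max_left _ _)
  by_cases hint : Integrable (fun z => κ z * ((1 : ℝ) * jac F G p (e • z) x))
  · calc ∫ z, κ z * ((1 : ℝ) * jac F G p (e • z) x) ≤ ∫ z, κ z * max C 1 :=
          integral_mono hint ((hκ.integrable_of_hasCompactSupport hcomp).mul_const _) h0
      _ = max C 1 := by rw [integral_mul_const, hκ1, one_mul]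
  · rw [integral_undef hint]
    exact zero_le_one.trans (le_max_right _ _)

end Jac

section Fields

variable {M : Type*} [MetricSpace M] [CompactSpace M] [ChartedSpace E4 M]
    [IsManifold 𝓘(ℝ, E4) ∞ M] [MeasurableSpace M] [BorelSpace M]

theorem mu_eq (D : Dat M) : D.μ = Int.mu D.F := Int.isVol_eq_mu (Int.dat_volF D) D.vol

/-- **(T) transposition.** -/
theorem f1_adj (D : Dat M) (S : Sys M) {e : ℝ} (he : S.Ok e) (i : Fin S.n) {g : M → ℝ}
    (hg : SmoothF E4 g) : ∃ g' : M → ℝ, SmoothF E4 g' ∧ ∀ f : M → ℝ, SmoothF E4 f →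
      ∫ x, S.f1 e i f x * g x ∂D.μ = ∫ x, f x * g' x ∂D.μ := by
  refine ⟨aT D.F (S.G i).symm (S.p i) kap0 e g,
    smoothF_aT (Int.dat_volF D) (Int.dat_smF D) (G := (S.G i).symm) (S.hG i)
      (he.adm_kap0 i).symm hg, fun f hf => ?_⟩
  rw [mu_eq]
  exact integral_a1_mul (Int.dat_volF D) (Int.dat_smF D) (S.hG i) (he.adm_kap0 i) hf hg

/-- **`L¹` bound for one chart.** -/
theorem f1_l1 (D : Dat M) (S : Sys M) (i : Fin S.n) :
    ∃ C : ℝ, 1 ≤ C ∧ ∀ e, 0 < e → e ≤ (S.c i).z0 / 2 → ∀ f : M → ℝ, SmoothF E4 f →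
      (∀ x, 0 ≤ f x) → ∫ x, S.f1 e i f x ∂D.μ ≤ C * ∫ x, f x ∂D.μ := by
  have hz0 := (S.c i).z0_pos
  obtain ⟨C, hC, hC'⟩ := exists_aT_bound (Int.dat_volF D) (Int.dat_smF D) (G := (S.G i).symm)
    (p := S.p i) (S.hG i) kap0_cont kap0_nonneg tsupport_kap0.subset kap0_integral
    (r' := (S.c i).z0 / 2) (by change (S.c i).z0 / 2 < (S.c i).z0; linarith)
  refine ⟨C, hC, fun e he hez f hf hf0 => ?_⟩
  have hadm : Adm (S.G i) kap0 e := Adm.of_ball kap0_cont tsupport_kap0.subset (by
    rw [abs_of_pos he]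
    change e < (S.c i).z0
    linarith)
  have := Int.isFinite_mu (Int.dat_volF D)
  have h1 := integral_a1_mul (Int.dat_volF D) (Int.dat_smF D) (S.hG i) hadm hf
    (smoothF_const (E := E4) (M := M) 1)
  rw [mu_eq]
  have h2 : ∫ x, S.f1 e i f x ∂(Int.mu D.F) =
      ∫ x, f x * aT D.F (S.G i).symm (S.p i) kap0 e (fun _ => 1) x ∂(Int.mu D.F) := by
    rw [← h1]
    refine integral_congr_ae (Eventually.of_forall fun x => ?_)
    simp only [mul_one]
    rfl
  rw [h2, ← integral_const_mul]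
  have hfc : Continuous f := Int.SmoothF.cont hf
  have hac : Continuous (aT D.F (S.G i).symm (S.p i) kap0 e (fun _ => 1)) :=
    Int.SmoothF.cont (smoothF_aT (Int.dat_volF D) (Int.dat_smF D) (G := (S.G i).symm) (S.hG i)
      hadm.symm (smoothF_const (E := E4) (M := M) 1))
  refine integral_mono ?_ ?_ fun x => ?_
  · exact Int.integrable_of_cont (Int.dat_volF D) (hfc.mul hac)
  · exact Int.integrable_of_cont (Int.dat_volF D) (hfc.const_mul C)
  · change f x * aT D.F (S.G i).symm (S.p i) kap0 e (fun _ => 1) x ≤ C * f x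
    rw [mul_comm C]
    exact mul_le_mul_of_nonneg_left (hC' e he hez x) (hf0 x)

end Fields

end

end Crest.Agent.R240.SmF
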