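import Mathlib
import Crest.Agent.R240.SmFE
import Crest.Agent.R240.SmFT
import Crest.Agent.R240.SmFP2

/-!
Row 240, N8 field `repm`, part (E) (helper599): the density of a finite measure after the
averaging of functions.
-/

set_option autoImplicit false
set_option maxSynthPendingDepth 3
set_option linter.unusedSectionVars false

open Set Function Filter Metric MeasureTheory
open scoped Manifold ContDiff Topology
open Crest.Agent.R240.Ch Crest.Agent.R240.Sm

namespace Crest.Agent.R240.SmF

noncomputable section

variable {M : Type*} [MetricSpace M] [CompactSpace M] [ChartedSpace E4 M]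
    [IsManifold 𝓘(ℝ, E4) ∞ M] [MeasurableSpace M] [BorelSpace M]

/-- **(E)**: after averaging at a small scale every finite measure has a smooth density. -/
theorem exists_dens (D : Dat M) (S : Sys M) :
    ∃ e1 : ℝ, 0 < e1 ∧ ∀ s : Measure M, IsFiniteMeasure s → ∀ e, 0 < e → e ≤ e1 →
      ∃ g : M → ℝ, SmoothF E4 g ∧ ∀ f : M → ℝ, SmoothF E4 f →
        ∫ x, S.a e f x ∂s = ∫ x, f x * g x ∂D.μ :=
  exists_dens_of D S (fun he i _ hg => f1_adj D S he i hg)
    (fun he i ν _ => exists_push2 S he i ν)

end

end Crest.Agent.R240.SmF
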