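import Mathlib
import Crest.Agent.R240.SmFT
import Crest.Agent.R240.SmMass

/-!
Row 240, N8 field `repm` (helper837): the estimate `a_e f ≤ C e⁻⁴ ∫ f dμ`.
-/

set_option autoImplicit false
set_option maxSynthPendingDepth 3
set_option linter.unusedSectionVars false

open Set Function Filter Metric MeasureTheory
open scoped Manifold ContDiff Topology
open Crest.Agent.R240.Ch Crest.Agent.R240.Sm

namespace Crest.Agent.R240.SmF

noncomputable section

lemma exists_pos_le {n : ℕ} (δ : Fin n → ℝ) (h : ∀ i, 0 < δ i) : ∃ e1 : ℝ, 0 < e1 ∧ ∀ i, e1 ≤ δ i := by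
  rcases isEmpty_or_nonempty (Fin n) with hι | hι
  · exact ⟨1, one_pos, fun j => (hι.false j).elim⟩
  · refine ⟨Finset.univ.inf' Finset.univ_nonempty δ, ?_, fun j => ?_⟩
    · exact (Finset.lt_inf'_iff _).2 fun j _ => h j
    · exact Finset.inf'_le _ (Finset.mem_univ j)

variable {M : Type*} [MetricSpace M] [CompactSpace M] [ChartedSpace E4 M]
    [IsManifold 𝓘(ℝ, E4) ∞ M] [MeasurableSpace M] [BorelSpace M]

/-- support propagation of one averaging. -/
lemma f1_off (S : Sys M) {e : ℝ} (he : 0 < e) (i : Fin S.n) (hez : e ≤ (S.c i).z0 / 2) {C : ℝ}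
    (hC : 0 ≤ C)
    (hdisp : ∀ z ∈ closedBall (0 : E4) ((S.c i).z0 / 2), ∀ x : M,
      dist (psi (S.G i) (S.p i) z x) x ≤ C * ‖z‖) {K : Set M} {f : M → ℝ}
    (hf : ∀ x, x ∉ K → f x = 0) (x : M) (hx : x ∉ cthickening (C * e) K) :
    S.f1 e i f x = 0 := by
  change ∫ z, kap0 z * f (psi (S.G i) (S.p i) (e • z) x) = 0
  have h1 : ∀ z, kap0 z * f (psi (S.G i) (S.p i) (e • z) x) = 0 := by
    intro z
    by_cases hz : kap0 z = 0
    · rw [hz, zero_mul]
    have hzn : ‖e • z‖ ≤ e := by
      rw [norm_smul, Real.norm_of_nonneg he.le]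
      exact mul_le_of_le_one_right he.le (norm_lt_of_kap0 hz).le
    have hd : dist (psi (S.G i) (S.p i) (e • z) x) x ≤ C * e :=
      (hdisp _ (mem_closedBall_zero_iff.2 (hzn.trans hez)) x).trans
        (mul_le_mul_of_nonneg_left hzn hC)
    have h2 : psi (S.G i) (S.p i) (e • z) x ∉ K := by
      intro h
      refine hx (mem_cthickening_of_dist_le x _ _ K h ?_)
      rw [dist_comm]; exact hd
    rw [hf _ h2, mul_zero]
  simp only [h1, integral_zero]

/-- **one chart: `L¹ → L^∞`** for functions supported where the cut-off is one. -/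
theorem f1_sup (D : Dat M) (S : Sys M) (j : Fin S.n) {Q : Set M} (hQ : IsCompact Q)
    (hQs : Q ⊆ (chartAt E4 (S.p j)).source) (hQΩ : chartAt E4 (S.p j) '' Q ⊆ S.Ω j) :
    ∃ e1 : ℝ, 0 < e1 ∧ ∃ C : ℝ, 0 ≤ C ∧ ∀ e, 0 < e → e ≤ e1 → ∀ f : M → ℝ, SmoothF E4 f →
      (∀ x, 0 ≤ f x) → (∀ x, x ∉ Q → f x = 0) →
      ∀ x, S.f1 e j f x ≤ C / e ^ 4 * ∫ y, f y ∂D.μ := by
  set p := S.p j with hp
  set R : Set E4 := chartAt E4 p '' Q with hR
  have hRc : IsCompact R := hQ.image_of_continuousOn ((chartAt E4 p).continuousOn.mono hQs)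
  have hRt : R ⊆ (chartAt E4 p).target := by
    rintro _ ⟨x, hx, rfl⟩
    exact (chartAt E4 p).map_source (hQs hx)
  obtain ⟨η, hη, hηO⟩ := hRc.exists_cthickening_subset_open (S.op j) hQΩ
  obtain ⟨B, hB⟩ := kap0_comp.exists_bound_of_continuous kap0_cont
  have hB0 : 0 ≤ B := (norm_nonneg _).trans (hB 0)
  have hF := Int.dat_volF D
  -- lower bound of the density
  obtain ⟨c0, hc0, hc0'⟩ : ∃ c0 : ℝ, 0 < c0 ∧ ∀ w ∈ R, c0 ≤ Int.dens D.F p w := by
    rcases R.eq_empty_or_nonempty with h | h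
    · exact ⟨1, one_pos, fun w hw => by rw [h] at hw; exact absurd hw (notMem_empty _)⟩
    · obtain ⟨w0, hw0, hmin⟩ := hRc.exists_isMinOn h ((hF.continuousOn_dens p).mono hRt)
      exact ⟨Int.dens D.F p w0, hF.dens_pos (hRt hw0), fun w hw => hmin hw⟩
  refine ⟨min η ((S.c j).z0 / 2), lt_min hη (half_pos (S.c j).z0_pos), B / c0, by positivity,
    fun e he hee f hf hf0 hfQ x => ?_⟩
  have heη : e ≤ η := hee.trans (min_le_left _ _)
  have hez : e < (S.c j).z0 := by
    have := (S.c j).z0_pos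
    have := hee.trans (min_le_right _ _)
    linarith
  have hadm : Adm (S.G j) kap0 e := Adm.of_ball kap0_cont tsupport_kap0.subset (by
    rw [abs_of_pos he]; exact hez)
  have hI0 : 0 ≤ ∫ y, f y ∂D.μ := integral_nonneg hf0
  -- the function in the chart
  set ft : E4 → ℝ := R.indicator (fun w => f ((chartAt E4 p).symm w)) with hft
  have hft_t : ∀ w ∈ (chartAt E4 p).target, ft w = f ((chartAt E4 p).symm w) := by
    intro w hw
    by_cases hwR : w ∈ R
    · rw [hft, indicator_of_mem hwR]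
    · rw [hft, indicator_of_notMem hwR]
      refine (hfQ _ fun h => hwR ?_).symm
      exact ⟨_, h, (chartAt E4 p).right_inv hw⟩
  have hft0 : ∀ w, 0 ≤ ft w := fun w => indicator_nonneg (fun w _ => hf0 _) w
  have hcs : ContinuousOn (fun w => f ((chartAt E4 p).symm w)) (chartAt E4 p).target :=
    (hf p).continuousOn
  have hftc : Continuous ft := by
    rw [continuous_iff_continuousAt]
    intro w
    by_cases hw : w ∈ (chartAt E4 p).target
    · refine (hcs.continuousAt ((chartAt E4 p).open_target.mem_nhds hw)).congr ?_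
      filter_upwards [(chartAt E4 p).open_target.mem_nhds hw] with y hy
      exact (hft_t y hy).symm
    · have h1 : ft =ᶠ[𝓝 w] fun _ => 0 := by
        filter_upwards [hRc.isClosed.isOpen_compl.mem_nhds fun h => hw (hRt h)] with y hy
        exact indicator_of_notMem hy _
      exact continuousAt_const.congr h1.symm
  have hfts : HasCompactSupport ft := HasCompactSupport.intro hRc fun w hw =>
    indicator_of_notMem hw _
  have hfti : Integrable ft := hftc.integrable_of_hasCompactSupport hfts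
  -- the mass in the chart
  have hmass : ∫ w, ft w ≤ c0⁻¹ * ∫ y, f y ∂D.μ := by
    have h1 : ∫ y, f y ∂D.μ = ∫ w in (chartAt E4 p).target,
        Int.dens D.F p w • f ((chartAt E4 p).symm w) :=
      Int.isVol_integral hF D.vol p (Int.SmoothF.cont hf).aestronglyMeasurable fun y hy =>
        hfQ y fun h => hy (hQs h)
    have h2 : ∫ w in (chartAt E4 p).target, Int.dens D.F p w • f ((chartAt E4 p).symm w) =
        ∫ w in R, Int.dens D.F p w • f ((chartAt E4 p).symm w) := by
      have h3 : ∀ w ∈ (chartAt E4 p).target \ R,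
          Int.dens D.F p w • f ((chartAt E4 p).symm w) = 0 := fun w hw => by
        rw [← hft_t w hw.1, hft, indicator_of_notMem hw.2, smul_zero]
      exact setIntegral_eq_of_subset_of_forall_sdiff_eq_zero
        (chartAt E4 p).open_target.measurableSet hRt h3
    have hdc : ContinuousOn (fun w => Int.dens D.F p w • f ((chartAt E4 p).symm w)) R :=
      ((hF.continuousOn_dens p).mono hRt).smul (hcs.mono hRt)
    rw [h1, h2, hft, integral_indicator hRc.measurableSet, ← integral_const_mul]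
    refine setIntegral_mono_on ((hcs.mono hRt).integrableOn_compact hRc)
      ((hdc.integrableOn_compact hRc).const_mul _) hRc.measurableSet fun w hw => ?_
    rw [smul_eq_mul, ← mul_assoc]
    refine le_mul_of_one_le_left (hf0 _) ?_
    rw [← div_eq_inv_mul, le_div_iff₀ hc0, one_mul]
    exact hc0' w hw
  -- the estimate at a point
  by_cases hx : x ∈ (chartAt E4 p).source
  · set t := chartAt E4 p x with ht
    have htt : t ∈ (chartAt E4 p).target := (chartAt E4 p).map_source hx
    have hpt : ∀ z, kap0 z * f (psi (S.G j) p (e • z) x) ≤ B * ft (t + e • z) := by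
      intro z
      by_cases hz : kap0 z = 0
      · rw [hz, zero_mul]
        exact mul_nonneg hB0 (hft0 _)
      have hzn : ‖e • z‖ ≤ e := by
        rw [norm_smul, Real.norm_of_nonneg he.le]
        exact mul_le_of_le_one_right he.le (norm_lt_of_kap0 hz).le
      have hkB : kap0 z ≤ B := (le_abs_self _).trans (hB z)
      by_cases hfz : f (psi (S.G j) p (e • z) x) = 0
      · rw [hfz, mul_zero]
        exact mul_nonneg hB0 (hft0 _)
      have hmem : psi (S.G j) p (e • z) x ∈ Q := by
        by_contra h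
        exact hfz (hfQ _ h)
      have hch := chart_psi (S.hG j) (hadm.mem' hz) hx
      have hτ : (S.G j).g (e • z) t = t + (S.c j).θ t • (e • z) := rfl
      have hτR : t + (S.c j).θ t • (e • z) ∈ R := by
        rw [← hτ, ← hch.2]
        exact ⟨_, hmem, rfl⟩
      have hθ : (S.c j).θ t = 1 := by
        refine S.one j t (hηO ?_)
        refine mem_cthickening_of_dist_le t _ _ R hτR ?_
        rw [dist_eq_norm]
        have h01 := S.c01 j t
        calc ‖t - (t + (S.c j).θ t • (e • z))‖ = ‖(S.c j).θ t • (e • z)‖ := by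
              rw [← norm_neg]; congr 1; abel
          _ = |(S.c j).θ t| * ‖e • z‖ := by rw [norm_smul, Real.norm_eq_abs]
          _ ≤ 1 * e := by
              refine mul_le_mul ?_ hzn (norm_nonneg _) zero_le_one
              rw [abs_of_nonneg h01.1]
              exact h01.2
          _ ≤ η := by rw [one_mul]; exact heη
      have hfe : f (psi (S.G j) p (e • z) x) = ft (t + e • z) := by
        rw [hθ, one_smul] at hτR
        rw [psi_of_mem hx, ← ht, hτ, hθ, one_smul, hft_t _ (hRt hτR)]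
      rw [hfe]
      exact mul_le_mul_of_nonneg_right hkB (hft0 _)
    have hint2 : Integrable (fun z => B * ft (t + e • z)) :=
      ((hfti.comp_add_left t).comp_smul he.ne').const_mul B
    calc S.f1 e j f x = ∫ z, kap0 z * f (psi (S.G j) p (e • z) x) := rfl
      _ ≤ ∫ z, B * ft (t + e • z) := integral_mono (integrable_a1 (S.hG j) hadm hf x) hint2 hpt
      _ = B * ((e ^ 4)⁻¹ * ∫ w, ft w) := by
          rw [integral_const_mul]
          congr 1
          have h1 := Measure.integral_comp_smul (volume : Measure E4) (fun w => ft (t + w)) e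
          rw [integral_add_left_eq_self] at h1
          have h2 : Module.finrank ℝ E4 = 4 := by simp
          rw [h2, smul_eq_mul, abs_of_nonneg (by positivity)] at h1
          exact h1
      _ ≤ B * ((e ^ 4)⁻¹ * (c0⁻¹ * ∫ y, f y ∂D.μ)) := by
          refine mul_le_mul_of_nonneg_left (mul_le_mul_of_nonneg_left hmass ?_) hB0
          positivity
      _ = B / c0 / e ^ 4 * ∫ y, f y ∂D.μ := by
          field_simp
  · have h0 : S.f1 e j f x = 0 := by
      change ∫ z, kap0 z * f (psi (S.G j) p (e • z) x) = 0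
      have h1 : f x = 0 := hfQ x fun h => hx (hQs h)
      have h2 : ∀ z, kap0 z * f (psi (S.G j) p (e • z) x) = 0 := fun z => by
        rw [psi_of_notMem hx, h1, mul_zero]
      simp only [h2, integral_zero]
    rw [h0]
    positivity

/-- the `L¹` bound for products. -/
theorem fL_l1 (D : Dat M) (S : Sys M) :
    ∃ C : ℝ, 1 ≤ C ∧ ∀ e, 0 < e → (∀ i, e ≤ (S.c i).z0 / 2) → ∀ (l : List (Fin S.n))
      (f : M → ℝ), SmoothF E4 f → (∀ x, 0 ≤ f x) →
      ∫ x, S.fL e l f x ∂D.μ ≤ C ^ l.length * ∫ x, f x ∂D.μ := by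
  choose C hC hC' using f1_l1 D S
  have hle : ∀ i, C i ≤ 1 + ∑ j, C j := by
    intro i
    have := Finset.single_le_sum (f := C) (fun i _ => zero_le_one.trans (hC i)) (Finset.mem_univ i)
    linarith
  have h0 : 0 ≤ ∑ j, C j := Finset.sum_nonneg fun i _ => zero_le_one.trans (hC i)
  refine ⟨1 + ∑ j, C j, by linarith, fun e he hez l f hf hf0 => ?_⟩
  have hok : S.Ok e := ⟨he, fun i => by
    have := (S.c i).z0_pos
    have := hez i
    linarith⟩
  induction l with
  | nil => simp
  | cons i l ih =>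
    rw [Sys.fL_cons, List.length_cons, pow_succ]
    have h1 := hC' i e he (hez i) (S.fL e l f) (Sys.smoothF_fL hok l hf)
      (Sys.fL_nonneg e l hf0)
    have h2 : 0 ≤ ∫ x, S.fL e l f x ∂D.μ := integral_nonneg (Sys.fL_nonneg e l hf0)
    calc ∫ x, S.f1 e i (S.fL e l f) x ∂D.μ ≤ C i * ∫ x, S.fL e l f x ∂D.μ := h1
      _ ≤ (1 + ∑ j, C j) * ∫ x, S.fL e l f x ∂D.μ := mul_le_mul_of_nonneg_right (hle i) h2
      _ ≤ (1 + ∑ j, C j) * ((1 + ∑ j, C j) ^ l.length * ∫ x, f x ∂D.μ) :=
          mul_le_mul_of_nonneg_left ih (by linarith)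
      _ = _ := by ring

/-- support propagation of products. -/
theorem fL_off (S : Sys M) {C : ℝ} (hC : 0 ≤ C)
    (hdisp : ∀ i, ∀ z ∈ closedBall (0 : E4) ((S.c i).z0 / 2), ∀ x : M,
      dist (psi (S.G i) (S.p i) z x) x ≤ C * ‖z‖) {e : ℝ} (he : 0 < e)
    (hez : ∀ i, e ≤ (S.c i).z0 / 2) {K : Set M} {f : M → ℝ} (hf : ∀ x, x ∉ K → f x = 0)
    (l : List (Fin S.n)) (x : M) (hx : x ∉ cthickening (l.length * (C * e)) K) :
    S.fL e l f x = 0 := by
  induction l generalizing x with
  | nil =>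
    rw [Sys.fL_nil]
    refine hf x fun h => hx ?_
    simp only [List.length_nil, Nat.cast_zero, zero_mul, cthickening_zero]
    exact subset_closure h
  | cons i l ih =>
    rw [Sys.fL_cons]
    refine f1_off S he i (hez i) hC (hdisp i) (K := cthickening (l.length * (C * e)) K)
      (fun y hy => ih y hy) x fun h => hx ?_
    have h2 := cthickening_cthickening_subset (ε := C * e) (δ := l.length * (C * e))
      (by positivity) (by positivity) K h
    have h3 : C * e + l.length * (C * e) = ((i :: l).length : ℕ) * (C * e) := by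
      rw [List.length_cons]; push_cast; ring
    rwa [h3] at h2

/-- the estimate for a product which contains the chart `j`, for functions supported in the core
of the chart `j`. -/
theorem fL_sup_list (D : Dat M) (S : Sys M) (j : Fin S.n) {K : Set M} (hK : IsCompact K)
    (hKU : K ⊆ (chartAt E4 (S.p j)).source ∩ chartAt E4 (S.p j) ⁻¹' S.Ω j) (N : ℕ) :
    ∃ e1 : ℝ, 0 < e1 ∧ ∃ C : ℝ, 0 ≤ C ∧ ∀ e, 0 < e → e ≤ e1 → ∀ l : List (Fin S.n),
      l.length ≤ N → j ∈ l → ∀ f : M → ℝ, SmoothF E4 f → (∀ x, 0 ≤ f x) →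
      (∀ x, x ∉ K → f x = 0) → ∀ x, S.fL e l f x ≤ C / e ^ 4 * ∫ y, f y ∂D.μ := by
  have hUo : IsOpen ((chartAt E4 (S.p j)).source ∩ chartAt E4 (S.p j) ⁻¹' S.Ω j) :=
    (chartAt E4 (S.p j)).isOpen_inter_preimage (S.op j)
  obtain ⟨δ, hδ, hδU⟩ := hK.exists_cthickening_subset_open hUo hKU
  set Q : Set M := cthickening δ K with hQ
  obtain ⟨e2, he2, C2, hC2, h2⟩ := f1_sup D S j (Q := Q) hK.cthickening
    (hδU.trans inter_subset_left) (by
      rintro _ ⟨x, hx, rfl⟩
      exact (hδU hx).2)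
  obtain ⟨C1, hC1, h1⟩ := fL_l1 D S
  choose Cd hCd hdisp using fun i => exists_disp_psi D.bl (S.G i) (p := S.p i) (S.hG i)
    (r' := (S.c i).z0 / 2) (by
      change (S.c i).z0 / 2 < (S.c i).z0
      linarith [(S.c i).z0_pos])
  set Ct : ℝ := ∑ i, Cd i with hCt
  have hCt0 : 0 ≤ Ct := Finset.sum_nonneg fun i _ => hCd i
  have hCle : ∀ i, Cd i ≤ Ct := fun i =>
    Finset.single_le_sum (f := Cd) (fun i _ => hCd i) (Finset.mem_univ i)
  have hdisp' : ∀ i, ∀ z ∈ closedBall (0 : E4) ((S.c i).z0 / 2), ∀ x : M,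
      dist (psi (S.G i) (S.p i) z x) x ≤ Ct * ‖z‖ := fun i z hz x =>
    (hdisp i z hz x).trans (mul_le_mul_of_nonneg_right (hCle i) (norm_nonneg _))
  obtain ⟨e3, he3, he3'⟩ := exists_pos_le (fun i : Fin S.n => (S.c i).z0 / 2)
    fun i => half_pos (S.c i).z0_pos
  refine ⟨min (min e2 e3) (δ / (N * Ct + 1)), by positivity, C2 * C1 ^ N, by positivity,
    fun e he hee l hlN hjl f hf hf0 hfK => ?_⟩
  have hee2 : e ≤ e2 := hee.trans ((min_le_left _ _).trans (min_le_left _ _))
  have hez : ∀ i, e ≤ (S.c i).z0 / 2 := fun i =>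
    (hee.trans ((min_le_left _ _).trans (min_le_right _ _))).trans (he3' i)
  have heδ : N * (Ct * e) ≤ δ := by
    have h4 : (0 : ℝ) < N * Ct + 1 := by positivity
    have h5 : e ≤ δ / (N * Ct + 1) := hee.trans (min_le_right _ _)
    rw [le_div_iff₀ h4] at h5
    nlinarith
  have hok : S.Ok e := ⟨he, fun i => by
    have := (S.c i).z0_pos
    have := hez i
    linarith⟩
  have hI0 : 0 ≤ ∫ y, f y ∂D.μ := integral_nonneg hf0
  have hpow : ∀ l : List (Fin S.n), l.length ≤ N → C1 ^ l.length ≤ C1 ^ N := fun l hl =>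
    pow_le_pow_right₀ hC1 hl
  clear hee
  induction l with
  | nil => simp at hjl
  | cons i l ih =>
    intro x
    have hl : l.length ≤ N := (Nat.le_succ _).trans (by simpa using hlN)
    rw [Sys.fL_cons]
    by_cases hij : j = i
    · subst hij
      have hoff : ∀ y, y ∉ Q → S.fL e l f y = 0 := by
        intro y hy
        refine fL_off S hCt0 hdisp' he hez hfK l y fun h => hy ?_
        refine cthickening_mono (le_trans ?_ heδ) _ h
        exact mul_le_mul_of_nonneg_right (Nat.cast_le.2 hl) (by positivity)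
      have h3 := h2 e he hee2 (S.fL e l f) (Sys.smoothF_fL hok l hf) (Sys.fL_nonneg e l hf0)
        hoff x
      have h4 := h1 e he hez l f hf hf0
      calc S.f1 e j (S.fL e l f) x ≤ C2 / e ^ 4 * ∫ y, S.fL e l f y ∂D.μ := h3
        _ ≤ C2 / e ^ 4 * (C1 ^ l.length * ∫ y, f y ∂D.μ) :=
            mul_le_mul_of_nonneg_left h4 (by positivity)
        _ ≤ C2 / e ^ 4 * (C1 ^ N * ∫ y, f y ∂D.μ) := by
            refine mul_le_mul_of_nonneg_left (mul_le_mul_of_nonneg_right (hpow l hl) hI0) ?_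
            positivity
        _ = C2 * C1 ^ N / e ^ 4 * ∫ y, f y ∂D.μ := by ring
    · have hj' : j ∈ l := by
        rcases List.mem_cons.mp hjl with h | h
        · exact absurd h hij
        · exact h
      have h3 := ih hl hj'
      have h4 := Sys.f1_mono hok i (Sys.smoothF_fL hok l hf)
        (smoothF_const (E := E4) (M := M) (C2 * C1 ^ N / e ^ 4 * ∫ y, f y ∂D.μ)) h3 x
      rwa [Sys.f1_const] at h4

/-- additivity over finite sums. -/
lemma fL_sum {S : Sys M} {e : ℝ} (h : S.Ok e) (l : List (Fin S.n)) {ι : Type*} (s : Finset ι)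
    (f : ι → M → ℝ) (hf : ∀ i ∈ s, SmoothF E4 (f i)) :
    SmoothF E4 (fun y => ∑ i ∈ s, f i y) ∧
      S.fL e l (fun y => ∑ i ∈ s, f i y) = fun y => ∑ i ∈ s, S.fL e l (f i) y := by
  classical
  induction s using Finset.induction_on with
  | empty =>
    simp only [Finset.sum_empty]
    exact ⟨smoothF_const 0, Sys.fL_const e l 0⟩
  | insert a s ha ih =>
    obtain ⟨ih1, ih2⟩ := ih fun i hi => hf i (Finset.mem_insert_of_mem hi)
    simp only [Finset.sum_insert ha]
    refine ⟨(hf a (Finset.mem_insert_self a s)).add ih1, ?_⟩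
    rw [Sys.fL_add h l (hf a (Finset.mem_insert_self a s)) ih1, ih2]

/-- **(K) the sup estimate.** -/
theorem fL_sup (D : Dat M) (S : Sys M) : ∃ e1 : ℝ, 0 < e1 ∧ ∃ C : ℝ, 0 < C ∧
    ∀ e, 0 < e → e ≤ e1 → ∀ f : M → ℝ, SmoothF E4 f → (∀ x, 0 ≤ f x) →
      ∀ x, S.a e f x ≤ C / e ^ 4 * ∫ y, f y ∂D.μ := by
  classical
  set U : Fin S.n → Set M := fun i =>
    (chartAt E4 (S.p i)).source ∩ chartAt E4 (S.p i) ⁻¹' S.Ω i with hU
  have hUo : ∀ i, IsOpen (U i) := fun i => (chartAt E4 (S.p i)).isOpen_inter_preimage (S.op i)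
  obtain ⟨χ, hχ⟩ := SmoothPartitionOfUnity.exists_isSubordinate 𝓘(ℝ, E4)
    (isClosed_univ (X := M)) U hUo (fun x _ => by
      obtain ⟨i, hi1, hi2⟩ := S.cover x
      exact mem_iUnion.2 ⟨i, hi1, S.KΩ i (interior_subset hi2)⟩)
  have hsum : ∀ x, ∑ j, χ j x = 1 := by
    intro x
    have := χ.sum_eq_one (mem_univ x)
    rwa [finsum_eq_sum_of_fintype] at this
  choose e1 he1 C hC hsup using fun j => fL_sup_list D S j (K := tsupport (χ j))
    (isClosed_tsupport _).isCompact (hχ j) S.n
  obtain ⟨e2, he2, he2'⟩ := exists_pos_le e1 he1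
  obtain ⟨e3, he3, -, he3'⟩ := S.exists_ok
  refine ⟨min e2 e3, lt_min he2 he3, 1 + ∑ j, C j, ?_, fun e he hee f hf hf0 x => ?_⟩
  · have : 0 ≤ ∑ j, C j := Finset.sum_nonneg fun i _ => hC i
    linarith
  have hok : S.Ok e := he3' e he (hee.trans (min_le_right _ _))
  have hχs : ∀ j, SmoothF E4 (χ j) := fun j => (smoothF_iff _).1 (χ j).contMDiff
  have hfj : ∀ j, SmoothF E4 (fun y => χ j y * f y) := fun j => (hχs j).mul hf
  have hfj0 : ∀ j y, 0 ≤ χ j y * f y := fun j y => mul_nonneg (χ.nonneg j y) (hf0 y)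
  have hfsum : f = fun y => ∑ j, χ j y * f y := by
    funext y
    rw [← Finset.sum_mul, hsum, one_mul]
  have h1 := (fL_sum hok (List.finRange S.n) Finset.univ (fun j y => χ j y * f y)
    fun j _ => hfj j).2
  rw [← hfsum] at h1
  have h2 : S.a e f x = ∑ j, S.fL e (List.finRange S.n) (fun y => χ j y * f y) x :=
    congrFun h1 x
  rw [h2]
  have hI : ∀ j, ∫ y, χ j y * f y ∂D.μ ≤ ∫ y, f y ∂D.μ := by
    intro j
    have hfc := Int.SmoothF.cont hf
    have hfjc := Int.SmoothF.cont (hfj j)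
    rw [mu_eq]
    refine integral_mono (Int.integrable_of_cont (Int.dat_volF D) hfjc)
      (Int.integrable_of_cont (Int.dat_volF D) hfc) fun y => ?_
    exact mul_le_of_le_one_left (hf0 y) (χ.le_one j y)
  have hI0 : 0 ≤ ∫ y, f y ∂D.μ := integral_nonneg hf0
  calc ∑ j, S.fL e (List.finRange S.n) (fun y => χ j y * f y) x
      ≤ ∑ j, C j / e ^ 4 * ∫ y, f y ∂D.μ := by
        refine Finset.sum_le_sum fun j _ => ?_
        have h3 := hsup j e he ((hee.trans (min_le_left _ _)).trans (he2' j))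
          (List.finRange S.n) (by simp) (List.mem_finRange j) _ (hfj j) (hfj0 j)
          (fun y hy => by rw [image_eq_zero_of_notMem_tsupport hy, zero_mul]) x
        refine h3.trans (mul_le_mul_of_nonneg_left (hI j) ?_)
        have := hC j
        positivity
    _ = (∑ j, C j) / e ^ 4 * ∫ y, f y ∂D.μ := by
        rw [← Finset.sum_mul, Finset.sum_div]
    _ ≤ (1 + ∑ j, C j) / e ^ 4 * ∫ y, f y ∂D.μ := by
        refine mul_le_mul_of_nonneg_right ?_ hI0
        refine div_le_div_of_nonneg_right ?_ (by positivity)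
        linarith

end

end Crest.Agent.R240.SmF
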