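import Mathlib
import Crest.Agent.R240.SmFK
import Crest.Agent.R240.SmMass

/-!
Row 240, N8 field `repm` (helper837): sign and sup bound of the density, by testing.
-/

set_option autoImplicit false
set_option maxSynthPendingDepth 3
set_option linter.unusedSectionVars false

open Set Function Filter Metric MeasureTheory
open scoped Manifold ContDiff Topology
open Crest.Agent.R240.Ch Crest.Agent.R240.Sm

namespace Crest.Agent.R240.SmF

noncomputable section

variable {M : Type*} [MetricSpace M] [CompactSpace M] [ChartedSpace E4 M]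
    [IsManifold 𝓘(ℝ, E4) ∞ M] [MeasurableSpace M] [BorelSpace M]

lemma integrable_cont {μ : Measure M} [IsFiniteMeasure μ] {f : M → ℝ} (hf : Continuous f) :
    Integrable f μ := hf.integrable_of_hasCompactSupport (HasCompactSupport.of_compactSpace f)

/-- a bump function `f` at `x`, supported in a given neighbourhood, with `∫ f dμ > 0`. -/
lemma exists_test {μ : Measure M} [IsFiniteMeasure μ] [μ.IsOpenPosMeasure] (x : M) {U : Set M}
    (hU : U ∈ 𝓝 x) : ∃ f : M → ℝ, SmoothF E4 f ∧ (∀ y, 0 ≤ f y) ∧ (∀ y, f y ≤ 1) ∧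
      (∀ y, y ∉ U → f y = 0) ∧ 0 < ∫ y, f y ∂μ := by
  obtain ⟨R, hR, hRU⟩ := Metric.mem_nhds_iff.1 hU
  obtain ⟨f, hf, h1, h0, h01⟩ := exists_bump_ball (E := E4) x (r := R / 2) (R := R) (by linarith)
  refine ⟨f, hf, fun y => (h01 y).1, fun y => (h01 y).2, fun y hy => h0 y ?_, ?_⟩
  · by_contra h
    exact hy (hRU (mem_ball.2 (not_le.1 h)))
  · have hfc : Continuous f := Int.SmoothF.cont hf
    rw [integral_pos_iff_support_of_nonneg (fun y => (h01 y).1) (integrable_cont hfc)]
    have h2 : ball x (R / 2) ⊆ support f := by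
      intro y hy
      rw [mem_support, h1 y (mem_ball.1 hy).le]
      exact one_ne_zero
    exact lt_of_lt_of_le (isOpen_ball.measure_pos μ ⟨x, mem_ball_self (by linarith)⟩)
      (measure_mono h2)

/-- testing: if `∫ f g dμ ≤ B ∫ f dμ` for all small bumps `f` at `x`, then `g x ≤ B`. -/
lemma le_of_test {μ : Measure M} [IsFiniteMeasure μ] [μ.IsOpenPosMeasure] {g : M → ℝ}
    (hg : Continuous g) {B : ℝ} {x : M} {U : Set M} (hU : U ∈ 𝓝 x)
    (h : ∀ f : M → ℝ, SmoothF E4 f → (∀ y, 0 ≤ f y) → (∀ y, y ∉ U → f y = 0) →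
      ∫ y, f y * g y ∂μ ≤ B * ∫ y, f y ∂μ) : g x ≤ B := by
  by_contra hlt
  rw [not_le] at hlt
  obtain ⟨t, ht1, ht2⟩ := exists_between hlt
  have hV : U ∩ {y | t < g y} ∈ 𝓝 x :=
    inter_mem hU ((isOpen_lt continuous_const hg).mem_nhds ht2)
  obtain ⟨f, hf, hf0, -, hfV, hfpos⟩ := exists_test (μ := μ) x hV
  have hfc : Continuous f := Int.SmoothF.cont hf
  have h1 := h f hf hf0 fun y hy => hfV y fun h => hy h.1
  have h2 : t * ∫ y, f y ∂μ ≤ ∫ y, f y * g y ∂μ := by
    rw [← integral_const_mul]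
    refine integral_mono ((integrable_cont hfc).const_mul t) (integrable_cont (hfc.mul hg))
      fun y => ?_
    simp only
    by_cases hy : f y = 0
    · rw [hy, mul_zero, zero_mul]
    · have hy' : y ∈ U ∩ {y | t < g y} := by
        by_contra h
        exact hy (hfV y h)
      rw [mul_comm t]
      exact mul_le_mul_of_nonneg_left (le_of_lt hy'.2) (hf0 y)
  nlinarith

/-- the density is `≥ 0`. -/
theorem dens_nonneg {μ : Measure M} [IsFiniteMeasure μ] [μ.IsOpenPosMeasure] {g : M → ℝ}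
    (hg : Continuous g)
    (h : ∀ f : M → ℝ, SmoothF E4 f → (∀ y, 0 ≤ f y) → 0 ≤ ∫ y, f y * g y ∂μ) (x : M) :
    0 ≤ g x := by
  have h1 := le_of_test (μ := μ) (g := fun y => - g y) hg.neg (B := 0) (x := x) (U := univ)
    univ_mem (fun f hf hf0 _ => by
      have := h f hf hf0
      simp only [mul_neg, integral_neg, zero_mul]
      linarith)
  linarith

/-- **sup bound of the density.** -/
theorem dens_le {μ s : Measure M} [IsFiniteMeasure μ] [μ.IsOpenPosMeasure] [IsFiniteMeasure s]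
    {a : (M → ℝ) → M → ℝ} {δ B : ℝ} (ha : Loc δ {f | SmoothF E4 f} a)
    (hB : ∀ f : M → ℝ, SmoothF E4 f → (∀ y, 0 ≤ f y) → ∀ x, a f x ≤ B * ∫ y, f y ∂μ)
    {g : M → ℝ} (hg : Continuous g)
    (hrep : ∀ f : M → ℝ, SmoothF E4 f → ∫ x, a f x ∂s = ∫ x, f x * g x ∂μ) (x : M) {ρ : ℝ}
    (hρ : 0 < ρ) : g x ≤ B * s.real (ball x (δ + ρ)) := by
  refine le_of_test (μ := μ) hg (U := ball x ρ) (ball_mem_nhds x hρ) fun f hf hf0 hfU => ?_
  rw [← hrep f hf]
  have hI0 : 0 ≤ ∫ y, f y ∂μ := integral_nonneg hf0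
  have h1 : ∀ y, a f y ≤ (ball x (δ + ρ)).indicator (fun _ => B * ∫ y, f y ∂μ) y := by
    intro y
    by_cases hy : y ∈ ball x (δ + ρ)
    · rw [indicator_of_mem hy]
      exact hB f hf hf0 y
    · rw [indicator_of_notMem hy]
      refine ha.up f hf y 0 fun z hz => ?_
      refine (hfU z fun h => hy ?_).le
      rw [mem_ball] at h ⊢
      calc dist y x ≤ dist y z + dist z x := dist_triangle _ _ _
        _ < δ + ρ := by
          rw [dist_comm y z]
          linarith
  have hind : Integrable ((ball x (δ + ρ)).indicator (fun _ => B * ∫ y, f y ∂μ)) s :=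
    (integrable_const _).indicator measurableSet_ball
  have h0 : ∀ y, 0 ≤ a f y := fun y => ha.nonneg hf hf0 y
  calc ∫ y, a f y ∂s ≤ ∫ y, (ball x (δ + ρ)).indicator (fun _ => B * ∫ y, f y ∂μ) y ∂s :=
        integral_mono_of_nonneg (Eventually.of_forall h0) hind (Eventually.of_forall h1)
    _ = B * s.real (ball x (δ + ρ)) * ∫ y, f y ∂μ := by
        rw [integral_indicator measurableSet_ball, setIntegral_const, smul_eq_mul]
        ring

end

end Crest.Agent.R240.SmF
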