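import Mathlib
import Crest.Agent.R240.SmFG

/-!
Row 240, N8 field `repm` (helper837): propagation of the function averages, and the assembly of
`FRepm` from the existence of the density.
-/

set_option autoImplicit false
set_option maxSynthPendingDepth 3
set_option linter.unusedSectionVars false

open Set Function Filter Metric MeasureTheory
open scoped Manifold ContDiff Topology
open Crest.Agent.R240.Ch Crest.Agent.R240.Sm

namespace Crest.Agent.R240.SmF

noncomputable section

variable {M : Type*} [MetricSpace M] [CompactSpace M] [ChartedSpace E4 M]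
    [IsManifold 𝓘(ℝ, E4) ∞ M] [MeasurableSpace M] [BorelSpace M]

/-- propagation of the product. -/
theorem loc_fL (S : Sys M) {C : ℝ} (hC : 0 ≤ C)
    (hdisp : ∀ i, ∀ z ∈ closedBall (0 : E4) ((S.c i).z0 / 2), ∀ x : M,
      dist (psi (S.G i) (S.p i) z x) x ≤ C * ‖z‖) {e : ℝ} (he : 0 < e)
    (hez : ∀ i, e ≤ (S.c i).z0 / 2) (l : List (Fin S.n)) :
    Loc (l.length * (C * e)) {f : M → ℝ | SmoothF E4 f} (S.fL e l) := by
  have hok : S.Ok e := ⟨he, fun i => by
    have := (S.c i).z0_pos
    have := hez i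
    linarith⟩
  induction l with
  | nil =>
    have h : Loc 0 {f : M → ℝ | SmoothF E4 f} (S.fL e []) := Loc.id {f : M → ℝ | SmoothF E4 f}
    exact h.mono (by simp)
  | cons i l ih =>
    have h1 : Loc (C * e) {f : M → ℝ | SmoothF E4 f} (S.f1 e i) :=
      Loc.avg (ν := (volume : Measure E4)) (k := kap0)
        (ψ := fun z => psi (S.G i) (S.p i) (e • z)) kap0_nonneg kap0_integrable kap0_integral
        (fun z hz x => by
          have hzn : ‖e • z‖ ≤ e := by
            rw [norm_smul, Real.norm_of_nonneg he.le]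
            exact mul_le_of_le_one_right he.le (norm_lt_of_kap0 hz).le
          exact (hdisp i _ (mem_closedBall_zero_iff.2 (hzn.trans (hez i))) x).trans
            (mul_le_mul_of_nonneg_left hzn hC))
        (fun f hf x => integrable_a1 (S.hG i) (hok.adm_kap0 i) hf x)
    have h2 := h1.comp ih (fun f hf => Sys.smoothF_fL hok l hf)
    refine Loc.mono h2 (le_of_eq ?_)
    rw [List.length_cons]
    push_cast
    ring

/-- **`FRepm` from the existence of the density.** -/
theorem fRepm_of (D : Dat M) (S : Sys M)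
    (hE : ∃ e1 : ℝ, 0 < e1 ∧ ∀ s : Measure M, IsFiniteMeasure s → ∀ e, 0 < e → e ≤ e1 →
      ∃ g : M → ℝ, SmoothF E4 g ∧ ∀ f : M → ℝ, SmoothF E4 f →
        ∫ x, S.a e f x ∂s = ∫ x, f x * g x ∂D.μ) : FRepm D S := by
  obtain ⟨e1, he1, hE⟩ := hE
  obtain ⟨e2, he2, C2, hC2, hK⟩ := fL_sup D S
  choose Cd hCd hdisp using fun i => exists_disp_psi D.bl (S.G i) (p := S.p i) (S.hG i)
    (r' := (S.c i).z0 / 2) (by
      change (S.c i).z0 / 2 < (S.c i).z0
      linarith [(S.c i).z0_pos])
  set Ct : ℝ := 1 + ∑ i, Cd i with hCt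
  have hs0 : 0 ≤ ∑ i, Cd i := Finset.sum_nonneg fun i _ => hCd i
  have hCt0 : 0 < Ct := by positivity
  have hCle : ∀ i, Cd i ≤ Ct := fun i => by
    have := Finset.single_le_sum (f := Cd) (fun i _ => hCd i) (Finset.mem_univ i)
    rw [hCt]
    linarith
  have hdisp' : ∀ i, ∀ z ∈ closedBall (0 : E4) ((S.c i).z0 / 2), ∀ x : M,
      dist (psi (S.G i) (S.p i) z x) x ≤ Ct * ‖z‖ := fun i z hz x =>
    (hdisp i z hz x).trans (mul_le_mul_of_nonneg_right (hCle i) (norm_nonneg _))
  obtain ⟨e3, he3, he3'⟩ := exists_pos_le (fun i : Fin S.n => (S.c i).z0 / 2)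
    fun i => half_pos (S.c i).z0_pos
  set c : ℝ := S.n * Ct + 1 with hc
  have hc0 : 0 < c := by positivity
  refine ⟨min e1 (min e2 e3), by positivity, max C2 (1 + 2 * c), ?_, ?_⟩
  · exact le_trans (by linarith) (le_max_right _ _)
  intro s hs e he hee
  have hee1 : e ≤ e1 := hee.trans (min_le_left _ _)
  have hee2 : e ≤ e2 := hee.trans ((min_le_right _ _).trans (min_le_left _ _))
  have hez : ∀ i, e ≤ (S.c i).z0 / 2 := fun i =>
    (hee.trans ((min_le_right _ _).trans (min_le_right _ _))).trans (he3' i)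
  have hok : S.Ok e := ⟨he, fun i => by
    have := (S.c i).z0_pos
    have := hez i
    linarith⟩
  obtain ⟨g, hg, hrep⟩ := hE s hs e he hee1
  have hfin : IsFiniteMeasure D.μ := by
    rw [mu_eq]
    exact Int.isFinite_mu (Int.dat_volF D)
  have hop : D.μ.IsOpenPosMeasure := by
    rw [mu_eq]
    exact Int.isOpenPos_mu (Int.dat_volF D)
  have hgc : Continuous g := Int.SmoothF.cont hg
  have hloc0 := loc_fL S hCt0.le hdisp' he hez (List.finRange S.n)
  rw [List.length_finRange] at hloc0
  have hloc : Loc (S.n * (Ct * e)) {f : M → ℝ | SmoothF E4 f} (S.a e) := hloc0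
  have hloc' : Loc (c * e) {f : M → ℝ | SmoothF E4 f} (S.a e) := by
    refine hloc.mono ?_
    rw [hc]
    nlinarith
  have hgn : ∀ x, 0 ≤ g x := dens_nonneg (μ := D.μ) hgc fun f hf hf0 => by
    rw [← hrep f hf]
    exact integral_nonneg (Sys.fL_nonneg e _ hf0)
  refine ⟨g, hg, hgn, hrep, fun x => ?_, fun x r hr => ?_⟩
  · have h1 := dens_le (μ := D.μ) (s := s) hloc (fun f hf hf0 x => hK e he hee2 f hf hf0 x) hgc
      hrep x he
    have h2 : S.n * (Ct * e) + e ≤ max C2 (1 + 2 * c) * e := by
      have h3 : 1 + 2 * c ≤ max C2 (1 + 2 * c) := le_max_right _ _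
      have h4 : S.n * (Ct * e) + e = c * e := by rw [hc]; ring
      rw [h4]
      refine mul_le_mul_of_nonneg_right ?_ he.le
      linarith
    calc g x ≤ C2 / e ^ 4 * s.real (ball x (S.n * (Ct * e) + e)) := h1
      _ ≤ max C2 (1 + 2 * c) / e ^ 4 * s.real (ball x (max C2 (1 + 2 * c) * e)) := by
        refine mul_le_mul ?_ (measureReal_mono (ball_subset_ball h2)) measureReal_nonneg ?_
        · exact div_le_div_of_nonneg_right (le_max_left _ _) (by positivity)
        · have : 0 ≤ max C2 (1 + 2 * c) := hC2.le.trans (le_max_left _ _)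
          positivity
  · exact mass_low' (E := E4) hc0 he hloc' (fun f hf => Int.SmoothF.cont
      (Sys.smoothF_fL hok _ hf)) hgc hgn hrep x hr (le_max_right _ _)

end

end Crest.Agent.R240.SmF
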