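import Mathlib
import Crest.Agent.R240.SmFL
import Crest.Agent.R240.SmFE2

/-!
Row 240, N8: the field `repm` (helper837).
-/

set_option autoImplicit false
set_option maxSynthPendingDepth 3

open scoped Manifold ContDiff Topology
open Crest.Agent.R240.Ch Crest.Agent.R240.Sm

namespace Crest.Agent.R240.SmF

variable {M : Type*} [MetricSpace M] [CompactSpace M] [ChartedSpace E4 M]
    [IsManifold 𝓘(ℝ, E4) ∞ M] [MeasurableSpace M] [BorelSpace M]

/-- **the field `repm`.** -/
theorem fRepm (D : Dat M) (S : Sys M) : FRepm D S := fRepm_of D S (exists_dens D S)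

end Crest.Agent.R240.SmF
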