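import Mathlib
import Crest.Agent.R240.Iface
import Crest.Agent.R240.PhiR
import Crest.Agent.R240.Sm5Abs

/-!
# Row 240, block R (smoothing), Sm5 (helper915): gluing of local representations on `M`
-/

set_option autoImplicit false
set_option linter.unusedSectionVars false
set_option maxSynthPendingDepth 3

open Set Function Filter MeasureTheory Metric
open scoped Manifold ContDiff Topology

namespace Crest.Agent.R240.Sm5

open Crest.Agent.R240.Ch Crest.Agent.R240.Vm

noncomputable section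

variable {M : Type*} [MetricSpace M] [CompactSpace M] [ChartedSpace E4 M]
    [IsManifold 𝓘(ℝ, E4) ∞ M] [MeasurableSpace M] [BorelSpace M]

/-- the two-form `b` vanishes off `K`. -/
def VOff (K : Set M) (b : X2 M) : Prop := ∀ x ∉ K, at2 b.1 x = 0

theorem VOff.mono {K K' : Set M} (h : K ⊆ K') {b : X2 M} (hb : VOff K b) : VOff K' b :=
  fun x hx => hb x fun h' => hx (h h')

theorem qG_add_left (F b b' c : F2 E4 M) (x : M) :
    qG F (b + b') c x = qG F b c x + qG F b' c x := by
  change q (at2 F x) (at2 b x + at2 b' x) (at2 c x) = _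
  unfold q qG q
  rw [W_add_left, add_div]

theorem qG_comm (F b c : F2 E4 M) (x : M) : qG F b c x = qG F c b x := by
  unfold qG q
  rw [W_comm]

theorem qG_zero_left (F c : F2 E4 M) (x : M) : qG F 0 c x = 0 := by
  change q (at2 F x) 0 (at2 c x) = 0
  unfold q W
  simp [ent_zero]

theorem qG_fmul_swap (F b c : F2 E4 M) (f : M → ℝ) (x : M) :
    qG F b (Ch.fmul f c) x = qG F (Ch.fmul f b) c x := by
  rw [qG_comm, qG_fmul_left, qG_fmul_left, qG_comm]

theorem integrable_qG (D : Dat M) (hq : ∀ b c : X2 M, Continuous (qG D.F b.1 c.1))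
    (b c : X2 M) : Integrable (qG D.F b.1 c.1) D.μ := by
  have := D.fin
  exact (hq b c).integrable_of_hasCompactSupport (HasCompactSupport.of_compactSpace _)

theorem I_add_left (D : Dat M) (hq : ∀ b c : X2 M, Continuous (qG D.F b.1 c.1))
    (b b' c : X2 M) : D.I ((b + b' : X2 M)).1 c.1 = D.I b.1 c.1 + D.I b'.1 c.1 := by
  unfold Dat.I IG
  rw [← integral_add (integrable_qG D hq b c) (integrable_qG D hq b' c)]
  exact integral_congr_ae (Eventually.of_forall fun x => qG_add_left D.F b.1 b'.1 c.1 x)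

theorem I_zero_left (D : Dat M) (c : X2 M) : D.I ((0 : X2 M)).1 c.1 = 0 := by
  unfold Dat.I IG
  have : (fun x => qG D.F ((0 : X2 M)).1 c.1 x) = fun _ => 0 :=
    funext fun x => qG_zero_left D.F c.1 x
  rw [this, integral_zero]

theorem I_mulX (D : Dat M) (f : SF M) (b c : X2 M) :
    D.I b.1 (mulX M f c).1 = D.I (mulX M f b).1 c.1 := by
  unfold Dat.I IG
  exact integral_congr_ae (Eventually.of_forall fun x => qG_fmul_swap D.F b.1 c.1 f x)

theorem sum_mulX {κ : Type*} [Fintype κ] (χ : κ → SF M) (hχ : ∀ x, ∑ j, χ j x = 1) (b : X2 M) :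
    ∑ j, mulX M (χ j) b = b := by
  have h1 : ∑ j, mulX M (χ j) b = mulX M (∑ j, χ j) b := by
    rw [map_sum, LinearMap.sum_apply]
  rw [h1]
  apply Subtype.ext
  funext x
  change (∑ j, χ j : SF M) x • b.1 x = b.1 x
  have h2 : (∑ j, χ j : SF M) x = ∑ j, χ j x := by
    have := map_sum (ContMDiffMap.coeFnAddMonoidHom (I := 𝓘(ℝ, E4)) (I' := 𝓘(ℝ, ℝ)) (N := M)
      (G := ℝ) (n := ∞)) χ Finset.univ
    have h3 := congrFun this x
    simpa [Finset.sum_apply] using h3
  rw [h2, hχ, one_smul]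

/-- **Gluing of local representations on `M`**: `A i` are the one-chart averaging operators,
they move supports by at most `δ`; `χ j` is a partition of unity with `χ j = 0` off `K j`, and the
operator `A (idx j)` has the representation property for forms vanishing off the
`l.length * δ`-thickening of `K j`. -/
theorem rep_glue_M (D : Dat M) (hq : ∀ b c : X2 M, Continuous (qG D.F b.1 c.1))
    {ι : Type*} [DecidableEq ι] (A : ι → Module.End ℝ (X2 M))
    (hadj : ∀ i (h : X2 M), ∃ h' : X2 M, ∀ b : X2 M, D.I h.1 (A i b).1 = D.I h'.1 b.1)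
    (FO : (X2 M →ₗ[ℝ] ℝ) → Prop) (hFO : ∀ i L, FO L → FO (L ∘ₗ A i))
    (l : List ι) {κ : Type*} [Fintype κ] (idx : κ → ι) (hidx : ∀ j, idx j ∈ l)
    {δ : ℝ} (hδ : 0 ≤ δ)
    (hprop : ∀ i (K : Set M) (b : X2 M), VOff K b → VOff (cthickening δ K) (A i b))
    (χ : κ → SF M) (hχ : ∀ x, ∑ j, χ j x = 1) (K : κ → Set M)
    (hK : ∀ j, ∀ x ∉ K j, χ j x = 0)
    (hS1 : ∀ j (L : X2 M →ₗ[ℝ] ℝ), FO L → ∃ h : X2 M, ∀ b : X2 M,
      VOff (cthickening (l.length * δ) (K j)) b → L (A (idx j) b) = D.I h.1 b.1)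
    (L : X2 M →ₗ[ℝ] ℝ) (hL : FO L) :
    ∃ η : X2 M, ∀ b : X2 M, L ((l.map A).prod b) = D.I η.1 b.1 := by
  refine rep_glue (fun a b : X2 M => D.I a.1 b.1) (fun b => I_zero_left D b)
    (fun a c b => I_add_left D hq a c b) A hadj FO hFO l l.length (Nat.le_succ _) κ idx hidx
    (fun j k b => VOff (cthickening (k * δ) (K j)) b) ?_ ?_ hS1
    (fun j b => mulX M (χ j) b) (fun b => sum_mulX χ hχ b) ?_
    (fun j h b => I_mulX D (χ j) h b) L hL
  · intro j k i b hb
    refine VOff.mono ?_ (hprop i _ b hb)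
    have := cthickening_cthickening_subset hδ (mul_nonneg (Nat.cast_nonneg k) hδ) (K j)
    refine this.trans (cthickening_mono ?_ _)
    push_cast
    linarith
  · intro j k b hb
    refine VOff.mono (cthickening_mono ?_ _) hb
    push_cast
    nlinarith
  · intro j b x hx
    have hx' : x ∉ K j := fun h => hx (self_subset_cthickening _ h)
    rw [at2_mulX, hK j x hx', zero_smul]

end

end Crest.Agent.R240.Sm5
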