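import Mathlib
import Crest.Agent.R240.IfaceR
import Crest.Agent.R240.Sm4b
import Crest.Agent.R240.Sm5
import Crest.Agent.R240.SmMass
import Crest.Agent.R240.IntTop

/-!
Row 240 (S0371), block R (helper599): field `rep` of `SmPack`: a functional of finite order
composed with the product of the one-chart averagings is represented by a smooth form.
-/

set_option autoImplicit false
set_option maxSynthPendingDepth 3
set_option linter.unusedSectionVars false

open Set Function Filter MeasureTheory Metric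
open scoped Manifold ContDiff Topology

namespace Crest.Agent.R240.SmRep

open Crest.Agent.R240.Ch Crest.Agent.R240.Sm Crest.Agent.R240.Sm4 Crest.Agent.R240.Sm5
open Crest.Agent.R240.Int Crest.Agent.R240.Vm

noncomputable section

section PropSupp

variable {M : Type*} [TopologicalSpace M] [ChartedSpace E4 M] [IsManifold 𝓘(ℝ, E4) ∞ M]

/-- the pull-back vanishes at `x` if the form vanishes at `ψ x` -/
lemma at2_pullG_zero {G : Fam E4} {p : M} {z : E4} {b : F2 E4 M} {x : M}
    (h : at2 b (psi G p z x) = 0) : at2 (pullG G p z b) x = 0 := by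
  by_cases hx : x ∈ (chartAt E4 p).source
  · rw [at2_pullG_of_mem hx, rep_eq_pb, ← psi_of_mem hx, h]
    rfl
  · rw [at2_pullG_of_notMem hx]
    rwa [psi_of_notMem hx] at h

end PropSupp

section Main

variable {M : Type*} [MetricSpace M] [CompactSpace M] [ChartedSpace E4 M]
    [IsManifold 𝓘(ℝ, E4) ∞ M] [MeasurableSpace M] [BorelSpace M]

/-- support propagation of one averaging -/
theorem vOff_avg {p : M} (c : Cut E4) {κ : E4 → ℝ} (hκ : ∀ z, κ z ≠ 0 → ‖z‖ ≤ 1)
    {e : ℝ} (he : 0 < e) (hez : e ≤ c.z0 / 2) {C : ℝ} (hC : 0 ≤ C)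
    (hdisp : ∀ z ∈ closedBall (0 : E4) (c.z0 / 2), ∀ x : M,
      dist (psi c.fam p z x) x ≤ C * ‖z‖)
    (A : X2 M → X2 M)
    (hA : ∀ b x, at2 (A b).1 x = ∫ z, κ z • at2 (pullG c.fam p (e • z) b.1) x)
    (K : Set M) (b : X2 M) (hb : VOff K b) : VOff (cthickening (C * e) K) (A b) := by
  intro x hx
  rw [hA]
  have h1 : ∀ z, κ z • at2 (pullG c.fam p (e • z) b.1) x = 0 := by
    intro z
    by_cases hz : κ z = 0
    · rw [hz, zero_smul]
    have hzn : ‖e • z‖ ≤ e := by
      rw [norm_smul, Real.norm_of_nonneg he.le]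
      exact mul_le_of_le_one_right he.le (hκ z hz)
    have hd : dist (psi c.fam p (e • z) x) x ≤ C * e :=
      (hdisp _ (mem_closedBall_zero_iff.2 (hzn.trans hez)) x).trans
        (mul_le_mul_of_nonneg_left hzn hC)
    have h2 : psi c.fam p (e • z) x ∉ K := by
      intro h
      refine hx (mem_cthickening_of_dist_le x _ _ K h ?_)
      rw [dist_comm]; exact hd
    rw [at2_pullG_zero (hb _ h2), smul_zero]
  simp only [h1, integral_zero]

/-- **field `rep`.** -/
theorem rep_core (D : Dat M) (𝒰 : Cover M) {ι : Type} [Fintype ι] [DecidableEq ι]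
    (p : ι → M) (c : ι → Cut E4) (hc : ∀ i y, (c i).θ y ∈ Icc (0 : ℝ) 1)
    (hct : ∀ i, tsupport (c i).θ ⊆ (chartAt E4 (p i)).target)
    (O : ι → Set E4) (hO : ∀ i, IsOpen (O i)) (hO1 : ∀ i, ∀ y ∈ O i, (c i).θ y = 1)
    (hcov : ∀ x : M, ∃ i, x ∈ (chartAt E4 (p i)).source ∧ chartAt E4 (p i) x ∈ O i)
    (l : List ι) (hl : ∀ i, i ∈ l) :
    ∃ e0 : ℝ, 0 < e0 ∧ ∀ e, 0 < e → e ≤ e0 → ∀ κ : ι → E4 → ℝ, (∀ i, ContDiff ℝ ∞ (κ i)) →
      (∀ i z, κ i z ≠ 0 → ‖z‖ ≤ 1) → ∀ A : ι → Module.End ℝ (X2 M),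
      (∀ i b x, at2 (A i b).1 x = ∫ z, κ i z • at2 (pullG (c i).fam (p i) (e • z) b.1) x) →
      (∀ i m, ∃ C : ℝ, ∀ b, 𝒰.cm m (A i b).1 ≤ C * 𝒰.cm m b.1) →
      (∀ i (h : X2 M), ∃ h' : X2 M, ∀ b : X2 M, D.I h.1 (A i b).1 = D.I h'.1 b.1) →
      ∀ L : X2 M →ₗ[ℝ] ℝ, FOrd 𝒰 L →
        ∃ η : X2 M, ∀ b : X2 M, L ((l.map A).prod b) = D.I η.1 b.1 := by
  classical
  have hF : Vol D.F := dat_volF D
  -- the open cover
  set U : ι → Set M := fun i => (chartAt E4 (p i)).source ∩ chartAt E4 (p i) ⁻¹' O i with hU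
  have hUo : ∀ i, IsOpen (U i) := fun i => (chartAt E4 (p i)).isOpen_inter_preimage (hO i)
  obtain ⟨f, hf⟩ := SmoothPartitionOfUnity.exists_isSubordinate 𝓘(ℝ, E4) (isClosed_univ (X := M))
    U hUo (fun x _ => by
      obtain ⟨i, hi⟩ := hcov x
      exact mem_iUnion.2 ⟨i, hi⟩)
  have hsum : ∀ x, ∑ j, f j x = 1 := by
    intro x
    have := f.sum_eq_one (mem_univ x)
    rwa [finsum_eq_sum_of_fintype] at this
  set K : ι → Set M := fun j => tsupport (f j) with hK
  have hKc : ∀ j, IsCompact (K j) := fun j => (isClosed_tsupport _).isCompact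
  have hKU : ∀ j, K j ⊆ U j := hf
  choose δ hδ hδU using fun j => (hKc j).exists_cthickening_subset_open (hUo j) (hKU j)
  set R : ι → Set E4 := fun j => chartAt E4 (p j) '' (cthickening (δ j) (K j)) with hR
  have hQs : ∀ j, cthickening (δ j) (K j) ⊆ (chartAt E4 (p j)).source := fun j =>
    (hδU j).trans inter_subset_left
  have hRc : ∀ j, IsCompact (R j) := fun j =>
    (hKc j).cthickening.image_of_continuousOn ((chartAt E4 (p j)).continuousOn.mono (hQs j))
  have hRO : ∀ j, R j ⊆ O j := by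
    rintro j _ ⟨x, hx, rfl⟩
    exact (hδU j hx).2
  choose η hη hηO using fun j => (hRc j).exists_cthickening_subset_open (hO j) (hRO j)
  choose C hC hdisp using fun j => exists_disp_psi D.bl (c j).fam (p := p j)
    (by rw [Cut.fam_K]; exact hct j) (r' := (c j).z0 / 2)
    (by rw [Cut.fam_r]; linarith [(c j).z0_pos])
  set Ct : ℝ := ∑ j, C j with hCt
  have hCt0 : 0 ≤ Ct := Finset.sum_nonneg fun j _ => hC j
  have hCle : ∀ j, C j ≤ Ct := fun j =>
    Finset.single_le_sum (f := C) (fun i _ => hC i) (Finset.mem_univ j)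
  -- the bound of the scales
  have hex : ∃ e0 : ℝ, 0 < e0 ∧ ∀ j, e0 ≤ (c j).z0 / 2 ∧ e0 ≤ η j ∧
      l.length * (Ct * e0) ≤ δ j := by
    have h1 : ∀ j, ∃ e1 : ℝ, 0 < e1 ∧ ∀ e, e ≤ e1 → e ≤ (c j).z0 / 2 ∧ e ≤ η j ∧
        l.length * (Ct * e) ≤ δ j := by
      intro j
      refine ⟨min ((c j).z0 / 2) (min (η j) (δ j / (l.length * Ct + 1))), ?_, fun e he => ?_⟩
      · have := (c j).z0_pos
        have := hη j
        have := hδ j
        positivity
      · have h2 := le_min_iff.1 he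
        have h3 := le_min_iff.1 h2.2
        refine ⟨h2.1, h3.1, ?_⟩
        have h4 : (0 : ℝ) < l.length * Ct + 1 := by positivity
        rw [← mul_assoc]
        rcases le_or_gt e 0 with h5 | h5
        · exact (mul_nonpos_of_nonneg_of_nonpos (by positivity) h5).trans (hδ j).le
        · have h6 := (le_div_iff₀ h4).1 h3.2
          nlinarith
    choose e1 he1 he1' using h1
    rcases isEmpty_or_nonempty ι with hι | hι
    · exact ⟨1, one_pos, fun j => (hι.false j).elim⟩
    · refine ⟨Finset.univ.inf' Finset.univ_nonempty e1, ?_, fun j => he1' j _ ?_⟩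
      · exact (Finset.lt_inf'_iff _).2 fun j _ => he1 j
      · exact Finset.inf'_le _ (Finset.mem_univ j)
  obtain ⟨e0, he0, hsmall⟩ := hex
  refine ⟨e0, he0, fun e he hee κ hκs hκ1 A hA hcm hadj L hL => ?_⟩
  have hq : ∀ b c : X2 M, Continuous (qG D.F b.1 c.1) := fun b c =>
    continuous_qG hF (Smooth2.cont2 b.2) (Smooth2.cont2 c.2)
  have hcm0 : ∀ m (b : F2 E4 M), 0 ≤ 𝒰.cm m b := fun m b => Real.sSup_nonneg (by
    rintro r ⟨i, j, hj, y, hy, rfl⟩; exact norm_nonneg _)
  refine rep_glue_M D hq A hadj (FOrd 𝒰) ?_ l (fun j : ι => j) (fun j => hl j)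
    (δ := Ct * e) (by positivity) ?_ (fun j => f j) hsum K ?_ ?_ L hL
  · rintro i L ⟨m, K1, hK1⟩
    obtain ⟨C1, hC1⟩ := hcm i m
    refine ⟨m, |K1| * C1, fun b => ?_⟩
    calc |L (A i b)| ≤ K1 * 𝒰.cm m (A i b).1 := hK1 _
      _ ≤ |K1| * 𝒰.cm m (A i b).1 :=
        mul_le_mul_of_nonneg_right (le_abs_self _) (hcm0 _ _)
      _ ≤ |K1| * (C1 * 𝒰.cm m b.1) := mul_le_mul_of_nonneg_left (hC1 b) (abs_nonneg _)
      _ = |K1| * C1 * 𝒰.cm m b.1 := by ring
  · intro i S b hb
    have h1 := vOff_avg (c i) (hκ1 i) he (hee.trans (hsmall i).1) (hC i) (hdisp i) (A i) (hA i)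
      S b hb
    exact VOff.mono (cthickening_mono (mul_le_mul_of_nonneg_right (hCle i) he.le) _) h1
  · intro j x hx
    exact image_eq_zero_of_notMem_tsupport hx
  · rintro j L ⟨m, K1, hK1⟩
    obtain ⟨h, hh⟩ := S1 𝒰 hF (c j) (hc j) (hct j) (hO j) (hO1 j) (hκs j) (ρ := 1) zero_le_one
      (hκ1 j) he (by
        have h1 := (hsmall j).1
        have h2 := (c j).z0_pos
        rw [mul_one]; linarith) (hRc j) (by
        intro w hw
        refine Subset.trans ?_ (hηO j)
        rw [mul_one]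
        refine Subset.trans (closedBall_subset_closedBall (hee.trans (hsmall j).2.1)) ?_
        exact closedBall_subset_cthickening hw _) (A j) (hA j) L hK1
    refine ⟨h, fun b hb => ?_⟩
    have h3 : Supp (p j) (R j) b.1 := by
      intro x hx
      refine hb x fun hx2 => hx ?_
      have h4 : x ∈ cthickening (δ j) (K j) := by
        refine cthickening_mono ?_ _ hx2
        refine le_trans ?_ (hsmall j).2.2
        exact mul_le_mul_of_nonneg_left (mul_le_mul_of_nonneg_left hee hCt0) (Nat.cast_nonneg _)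
      exact ⟨chartAt E4 (p j) x, ⟨x, h4, rfl⟩, (chartAt E4 (p j)).left_inv (hQs j h4)⟩
    rw [hh b h3]
    exact (IG_eq_I hF D.vol _ _).symm

end Main

end

end Crest.Agent.R240.SmRep
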