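import Mathlib
import Crest.Agent.R240.SmRep
import Crest.Agent.R240.Sm7c
import Crest.Agent.R240.Sm3b

/-!
Row 240 (S0371), block R (helper599): field `rep` of `SmPack` for the operators `Sm7.AL`.
-/

set_option autoImplicit false
set_option maxSynthPendingDepth 3
set_option linter.unusedSectionVars false

open Set Function Filter MeasureTheory Metric
open scoped Manifold ContDiff Topology

namespace Crest.Agent.R240.SmRep

open Crest.Agent.R240.Ch Crest.Agent.R240.Sm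
open Crest.Agent.R240.Int Crest.Agent.R240.Vm

noncomputable section

section Top

variable {M : Type*} [TopologicalSpace M] [ChartedSpace E4 M] [IsManifold 𝓘(ℝ, E4) ∞ M]
  [T2Space M]

/-- the one-chart averaging as a linear operator on smooth two-forms -/
def A1X (G : Fam E4) (p : M) (hG : G.K ⊆ (chartAt E4 p).target) (κ : E4 → ℝ) (hk : Sm7.Ker κ)
    (e : ℝ) (he : 0 < e) (her : e < G.r) : X2 M →ₗ[ℝ] X2 M where
  toFun b := ⟨Sm7.A1 G p κ e b.1, Sm7.smooth2_A1 hG hk he le_rfl her b.2⟩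
  map_add' b b' := by
    apply Subtype.ext
    show Sm7.A1 G p κ e (b.1 + b'.1) = Sm7.A1 G p κ e b.1 + Sm7.A1 G p κ e b'.1
    unfold Sm7.A1
    simp only [pullG_add]
    exact avg_add_right (Sm7.isOpen_pre e) hk.cont hk.cpt (Sm7.supp_sub hk he le_rfl her)
      (Sm7.jsm_pull_smul hG b.2 e) (Sm7.jsm_pull_smul hG b'.2 e)
  map_smul' r b := by
    apply Subtype.ext
    show Sm7.A1 G p κ e (r • b.1) = r • Sm7.A1 G p κ e b.1
    unfold Sm7.A1
    simp only [pullG_smul]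
    exact avg_smul_right r κ _

@[simp] lemma A1X_coe (G : Fam E4) (p : M) (hG : G.K ⊆ (chartAt E4 p).target) (κ : E4 → ℝ)
    (hk : Sm7.Ker κ) (e : ℝ) (he : 0 < e) (her : e < G.r) (b : X2 M) :
    (A1X G p hG κ hk e he her b).1 = Sm7.A1 G p κ e b.1 := rfl

lemma at2_A1 (G : Fam E4) (p : M) (κ : E4 → ℝ) (e : ℝ) (b : F2 E4 M) (x : M) :
    at2 (Sm7.A1 G p κ e b) x = ∫ z, κ z • at2 (pullG G p (e • z) b) x := rfl

end Top

section Main

variable {M : Type*} [MetricSpace M] [CompactSpace M] [ChartedSpace E4 M]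
    [IsManifold 𝓘(ℝ, E4) ∞ M] [MeasurableSpace M] [BorelSpace M]

/-- **field `rep`**, for the composition `AL` of the one-chart averagings. -/
theorem rep_AL (D : Dat M) (𝒰 : Cover M) {ι : Type} [Fintype ι] [DecidableEq ι]
    (p : ι → M) (c : ι → Cut E4) (hc : ∀ i y, (c i).θ y ∈ Icc (0 : ℝ) 1)
    (hct : ∀ i, tsupport (c i).θ ⊆ (chartAt E4 (p i)).target)
    (O : ι → Set E4) (hO : ∀ i, IsOpen (O i)) (hO1 : ∀ i, ∀ y ∈ O i, (c i).θ y = 1)
    (hcov : ∀ x : M, ∃ i, x ∈ (chartAt E4 (p i)).source ∧ chartAt E4 (p i) x ∈ O i)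
    (l : List ι) (hl : ∀ i, i ∈ l) :
    ∃ e0 : ℝ, 0 < e0 ∧ ∀ e, 0 < e → e ≤ e0 → ∀ κ : ι → E4 → ℝ, (∀ i, ContDiff ℝ ∞ (κ i)) →
      (∀ i, tsupport (κ i) ⊆ closedBall 0 1) →
      ∀ A : X2 M → X2 M, (∀ b : X2 M, (A b).1 = Sm7.AL (fun i => (c i).fam) p κ l e b.1) →
      ∀ L : X2 M →ₗ[ℝ] ℝ, FOrd 𝒰 L →
        ∃ η : X2 M, ∀ b : X2 M, L (A b) = D.I (η : F2 E4 M) (b : F2 E4 M) := by
  classical
  obtain ⟨e1, he1, hrep⟩ := rep_core D 𝒰 p c hc hct O hO hO1 hcov l hl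
  have hex : ∃ e2 : ℝ, 0 < e2 ∧ ∀ j, e2 < (c j).z0 := by
    rcases isEmpty_or_nonempty ι with hι | hι
    · exact ⟨1, one_pos, fun j => (hι.false j).elim⟩
    · refine ⟨Finset.univ.inf' Finset.univ_nonempty (fun j => (c j).z0 / 2), ?_, fun j => ?_⟩
      · exact (Finset.lt_inf'_iff _).2 fun j _ => half_pos (c j).z0_pos
      · exact (Finset.inf'_le _ (Finset.mem_univ j)).trans_lt (half_lt_self (c j).z0_pos)
  obtain ⟨e2, he2, hz⟩ := hex
  refine ⟨min e1 e2, lt_min he1 he2, fun e he hee κ hκs hκ1 A hA L hL => ?_⟩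
  have hee1 : e ≤ e1 := hee.trans (min_le_left _ _)
  have her : ∀ i, e < ((c i).fam).r := fun i => by
    rw [Cut.fam_r]; exact (hee.trans (min_le_right _ _)).trans_lt (hz i)
  have hk : ∀ i, Sm7.Ker (κ i) := fun i => ⟨(hκs i).continuous, hκ1 i⟩
  have hG : ∀ i, (c i).fam.K ⊆ (chartAt E4 (p i)).target := fun i => by
    rw [Cut.fam_K]; exact hct i
  have hκn : ∀ i z, κ i z ≠ 0 → ‖z‖ ≤ 1 := fun i z hz' =>
    mem_closedBall_zero_iff.1 (hκ1 i (subset_tsupport _ hz'))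
  set B : ι → Module.End ℝ (X2 M) := fun i =>
    A1X (c i).fam (p i) (hG i) (κ i) (hk i) e he (her i) with hB
  have hcm : ∀ i m, ∃ C : ℝ, ∀ b, 𝒰.cm m (B i b).1 ≤ C * 𝒰.cm m b.1 := by
    intro i m
    obtain ⟨C, -, h⟩ := Sm7.cm_A1 𝒰 (hG i) (her i) (Sm7.pb 𝒰 (hG i) (her i)) (hk i) m
    exact ⟨C, fun b => (h e he le_rfl b.1 b.2).1⟩
  have hadj : ∀ i (h : X2 M), ∃ h' : X2 M, ∀ b : X2 M, D.I h.1 (B i b).1 = D.I h'.1 b.1 := by
    intro i h
    have hs : ∀ z ∈ tsupport (κ i), e • z ∈ ball (0 : E4) (c i).fam.r := fun z hz' =>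
      Sm7.supp_sub (hk i) he le_rfl (her i) hz'
    refine ⟨⟨Sm7.A1 (c i).fam.symm (p i) (κ i) e h.1,
      Sm7.smooth2_A1 (G := (c i).fam.symm) (hG i) (hk i) he le_rfl (her i) h.2⟩, fun b => ?_⟩
    exact datI_avg_pull D (hG i) (hk i).cont (hk i).cpt hs h.2 b.2
  obtain ⟨η, hη⟩ := hrep e he hee1 κ hκs hκn B (fun i b x => rfl) hcm hadj L hL
  · refine ⟨η, fun b => ?_⟩
    rw [← hη b]
    congr 1
    apply Subtype.ext
    rw [hA b]
    have key : ∀ l' : List ι, ((l'.map B).prod b).1 =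
        Sm7.AL (fun i => (c i).fam) p κ l' e b.1 := by
      intro l'
      induction l' with
      | nil => rfl
      | cons i l' ih =>
        rw [List.map_cons, List.prod_cons, Module.End.mul_apply, Sm7.AL_cons, ← ih]
        rfl
    exact (key l).symm

end Main

end

end Crest.Agent.R240.SmRep
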