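import Mathlib
import Crest.Agent.R240.SmRep2
import Crest.Agent.R240.SmSys

/-!
Row 240 (S0371), block R (helper599): field `rep` of `SmPack` for the system `Sys M`.
-/

set_option autoImplicit false
set_option maxSynthPendingDepth 3
set_option linter.unusedSectionVars false

open Set Function Filter MeasureTheory Metric
open scoped Manifold ContDiff Topology

namespace Crest.Agent.R240.Sm

open Crest.Agent.R240.Ch

variable {M : Type*} [MetricSpace M] [CompactSpace M] [ChartedSpace E4 M]
    [IsManifold 𝓘(ℝ, E4) ∞ M] [MeasurableSpace M] [BorelSpace M]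

/-- **field `rep`** of the smoothing package. -/
theorem fRep (D : Dat M) (𝒰 : Cover M) (S : Sys M) : FRep D 𝒰 S := by
  classical
  obtain ⟨e1, he1, h⟩ := SmRep.rep_AL D 𝒰 S.p S.c S.c01 S.sub S.Ω S.op
    (fun i y hy => S.one i y hy)
    (fun x => by
      obtain ⟨i, hi, hi'⟩ := S.cover x
      exact ⟨i, hi, S.KΩ i (interior_subset hi')⟩)
    (List.finRange S.n) (fun i => List.mem_finRange i)
  obtain ⟨e2, he2, -, hok⟩ := S.exists_ok
  refine ⟨min e1 e2, lt_min he1 he2, fun L hL e p he hee => ?_⟩
  obtain ⟨η, hη⟩ := h e he (hee.trans (min_le_left _ _)) (fun i => kk (p i).1)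
    (fun i => kk_smooth (p i).2) (fun i => kk_supp (p i).1) (S.A e p)
    (fun b => Sys.opL_coe (hok e he (hee.trans (min_le_right _ _))) p (List.finRange S.n) b) L hL
  exact ⟨η, hη⟩

end Crest.Agent.R240.Sm
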