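import Mathlib

/-!
# Row 240, block R, N8 field `sign` (helper136): reduction to non-negative kernels, abstract part

* `abs_le_of_split` : a functional on families `p = (p_i)` which is bounded by `R` on the families with
  all `p_i ∈ T i` is bounded by `2 ^ |ι| R` on the families with all `p_i ∈ S i`, if every `f ∈ S i`
  splits as `f = g - h` with `g, h ∈ T i`.
* `half_add`, `half_sub` : if `|∂^j p| ≤ 1` on a set for `j ≤ k`, then `(1 ± p) / 2` is non-negative
  there and satisfies the same bounds.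
-/

set_option autoImplicit false

open Set Function

namespace Crest.Agent.R240.SmSign

section abstract_

variable {ι : Type*} [Fintype ι] [DecidableEq ι] {V : ι → Type*}

omit [Fintype ι] in
theorem abs_le_of_split_aux (S T : ∀ i, Set (V i)) (hTS : ∀ i, T i ⊆ S i)
    (φ : (∀ i, V i) → ℝ) {R : ℝ}
    (hsplit : ∀ i, ∀ p : ∀ i, V i, (∀ j, p j ∈ S j) →
      ∃ g ∈ T i, ∃ h ∈ T i, |φ p| ≤ |φ (update p i g)| + |φ (update p i h)|)
    (hR : ∀ p : ∀ i, V i, (∀ j, p j ∈ T j) → |φ p| ≤ R) (s : Finset ι) :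
    ∀ p : ∀ i, V i, (∀ j, p j ∈ S j) → (∀ j, j ∉ s → p j ∈ T j) → |φ p| ≤ 2 ^ s.card * R := by
  induction s using Finset.induction_on with
  | empty =>
    intro p _ hp
    rw [Finset.card_empty, pow_zero, one_mul]
    exact hR p fun j => hp j (Finset.notMem_empty j)
  | insert i s hi ih =>
    intro p hpS hpT
    obtain ⟨g, hg, h, hh, hle⟩ := hsplit i p hpS
    have key : ∀ f ∈ T i, |φ (update p i f)| ≤ 2 ^ s.card * R := by
      intro f hf
      refine ih (update p i f) (fun j => ?_) fun j hj => ?_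
      · by_cases hji : j = i
        · subst hji
          rw [update_self]
          exact hTS _ hf
        · rw [update_of_ne hji]
          exact hpS j
      · by_cases hji : j = i
        · subst hji
          rw [update_self]
          exact hf
        · rw [update_of_ne hji]
          exact hpT j fun hmem => (Finset.mem_insert.1 hmem).elim hji hj
    rw [Finset.card_insert_of_notMem hi, pow_succ]
    have h1 := key g hg
    have h2 := key h hh
    linarith

/-- the sign lemma, abstract form. -/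
theorem abs_le_of_split (S T : ∀ i, Set (V i)) (hTS : ∀ i, T i ⊆ S i)
    (φ : (∀ i, V i) → ℝ) {R : ℝ}
    (hsplit : ∀ i, ∀ p : ∀ i, V i, (∀ j, p j ∈ S j) →
      ∃ g ∈ T i, ∃ h ∈ T i, |φ p| ≤ |φ (update p i g)| + |φ (update p i h)|)
    (hR : ∀ p : ∀ i, V i, (∀ j, p j ∈ T j) → |φ p| ≤ R)
    (p : ∀ i, V i) (hp : ∀ j, p j ∈ S j) : |φ p| ≤ 2 ^ Fintype.card ι * R := by
  have := abs_le_of_split_aux S T hTS φ hsplit hR Finset.univ p hp
    fun j hj => absurd (Finset.mem_univ j) hj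
  rwa [Finset.card_univ] at this

/-- the sign lemma for a functional which is additive in each slot (subtraction form). -/
theorem abs_le_of_sub (S T : ∀ i, Set (V i)) (hTS : ∀ i, T i ⊆ S i)
    (φ : (∀ i, V i) → ℝ) {R : ℝ}
    (hsplit : ∀ i, ∀ p : ∀ i, V i, (∀ j, p j ∈ S j) →
      ∃ g ∈ T i, ∃ h ∈ T i, φ p = φ (update p i g) - φ (update p i h))
    (hR : ∀ p : ∀ i, V i, (∀ j, p j ∈ T j) → |φ p| ≤ R)
    (p : ∀ i, V i) (hp : ∀ j, p j ∈ S j) : |φ p| ≤ 2 ^ Fintype.card ι * R := by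
  refine abs_le_of_split S T hTS φ (fun i p hp => ?_) hR p hp
  obtain ⟨g, hg, h, hh, he⟩ := hsplit i p hp
  refine ⟨g, hg, h, hh, ?_⟩
  rw [he]
  exact abs_sub _ _

end abstract_

section jets

variable {E : Type*} [NormedAddCommGroup E] [NormedSpace ℝ E]

theorem norm_iteratedFDeriv_const_le (c : ℝ) {j : ℕ} (hj : j ≠ 0) (x : E) :
    ‖iteratedFDeriv ℝ j (fun _ : E => c) x‖ = 0 := by
  rw [iteratedFDeriv_const_of_ne hj]
  exact norm_zero

/-- jets of `(1 + s p) / 2`, `|s| ≤ 1`. -/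
theorem norm_half_le {k : ℕ} {p : E → ℝ} (hp : ContDiff ℝ k p) {x : E}
    (h : ∀ j ≤ k, ‖iteratedFDeriv ℝ j p x‖ ≤ 1) {s : ℝ} (hs : |s| ≤ 1) {j : ℕ} (hj : j ≤ k) :
    ‖iteratedFDeriv ℝ j (fun y => (1 + s * p y) / 2) x‖ ≤ 1 := by
  have hpj : ContDiff ℝ j p := hp.of_le (by exact_mod_cast hj)
  have e : (fun y => (1 + s * p y) / 2) = (fun _ : E => (1 / 2 : ℝ)) + (s / 2) • p := by
    funext y
    simp only [Pi.add_apply, Pi.smul_apply, smul_eq_mul]
    ring
  have h2 : ContDiffAt ℝ j (fun _ : E => (1 / 2 : ℝ)) x := contDiffAt_const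
  have h3 : ContDiffAt ℝ j ((s / 2) • p) x := (hpj.const_smul (s / 2)).contDiffAt
  rw [e, iteratedFDeriv_add_apply h2 h3, iteratedFDeriv_const_smul_apply hpj.contDiffAt]
  have h0 : ‖iteratedFDeriv ℝ j (fun _ : E => (1 / 2 : ℝ)) x‖ ≤ 1 / 2 := by
    by_cases hj0 : j = 0
    · subst hj0
      rw [norm_iteratedFDeriv_zero]
      norm_num
    · rw [norm_iteratedFDeriv_const_le _ hj0]
      norm_num
  have h1 : ‖(s / 2) • iteratedFDeriv ℝ j p x‖ ≤ 1 / 2 := by
    rw [norm_smul, Real.norm_eq_abs, abs_div, abs_two]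
    have := h j hj
    have h2 : 0 ≤ |s| := abs_nonneg s
    nlinarith [norm_nonneg (iteratedFDeriv ℝ j p x)]
  exact (norm_add_le _ _).trans (by linarith)

theorem half_nonneg {p : E → ℝ} {x : E} (h : ‖iteratedFDeriv ℝ 0 p x‖ ≤ 1) {s : ℝ}
    (hs : |s| ≤ 1) : 0 ≤ (1 + s * p x) / 2 := by
  rw [norm_iteratedFDeriv_zero, Real.norm_eq_abs] at h
  have h1 : |s * p x| ≤ 1 := by
    rw [abs_mul]
    exact mul_le_one₀ hs (abs_nonneg _) h
  have := (abs_le.1 h1).1
  linarith

end jets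

end Crest.Agent.R240.SmSign
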