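import Mathlib
import Crest.Agent.R240.SmSign

/-!
# Row 240, block R, N8 field `sign` (helper136): the sign lemma for compositions of operators

`B i q : X →ₗ[ℝ] X` is the one-chart operator with kernel `q`, linear in `q`;
`fold B l q b` is the composition over the list `l` (`foldr`).
-/

set_option autoImplicit false

open Set Function Metric
open scoped ContDiff

namespace Crest.Agent.R240.SmSign

section ops

variable {ι X Q : Type*} [AddCommGroup X] [Module ℝ X] [DecidableEq ι]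

omit [DecidableEq ι] in
theorem foldr_congr_on (B : ι → Q → X →ₗ[ℝ] X) (l : List ι) {q q' : ι → Q}
    (h : ∀ j ∈ l, q j = q' j) (b : X) :
    l.foldr (fun j b => B j (q j) b) b = l.foldr (fun j b => B j (q' j) b) b := by
  induction l with
  | nil => rfl
  | cons j l ih =>
    rw [List.foldr_cons, List.foldr_cons, h j (by simp),
      ih fun k hk => h k (List.mem_cons_of_mem _ hk)]

/-- additivity in each slot of the composition. -/
theorem foldr_update_sub (B : ι → Q → X →ₗ[ℝ] X) (l : List ι) (hl : l.Nodup) {i : ι}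
    (hi : i ∈ l) (q : ι → Q) (g h : Q) (hB : ∀ b, B i (q i) b = B i g b - B i h b) (b : X) :
    l.foldr (fun j b => B j (q j) b) b =
      l.foldr (fun j b => B j (update q i g j) b) b -
        l.foldr (fun j b => B j (update q i h j) b) b := by
  induction l with
  | nil => exact absurd hi (by simp)
  | cons j l ih =>
    have hl' := List.nodup_cons.1 hl
    rw [List.foldr_cons, List.foldr_cons, List.foldr_cons]
    by_cases hj : i = j
    · subst hj
      have hcon : ∀ f : Q, l.foldr (fun j b => B j (update q i f j) b) b =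
          l.foldr (fun j b => B j (q j) b) b := fun f =>
        foldr_congr_on B l
          (fun k hk' => update_of_ne (fun h' : k = i => hl'.1 (h' ▸ hk')) _ _) b
      rw [hcon, hcon, update_self, update_self]
      exact hB _
    · have hil : i ∈ l := (List.mem_cons.1 hi).resolve_left hj
      rw [ih hl'.2 hil, map_sub, update_of_ne (Ne.symm hj), update_of_ne (Ne.symm hj)]

end ops

/-- smooth kernels. -/
abbrev SmQ (E : Type*) [NormedAddCommGroup E] [NormedSpace ℝ E] : Type _ :=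
  {q : E → ℝ // ContDiff ℝ ∞ q}

section sign

variable {E : Type*} [NormedAddCommGroup E] [NormedSpace ℝ E]

/-- `(1 + s q) / 2` -/
noncomputable def halfQ (s : ℝ) (q : SmQ E) : SmQ E :=
  ⟨fun z => (1 + s * q.1 z) / 2, (contDiff_const.add (contDiff_const.mul q.2)).div_const 2⟩

theorem halfQ_sub (q : SmQ E) (z : E) : q.1 z = (halfQ 1 q).1 z - (halfQ (-1) q).1 z := by
  change q.1 z = (1 + 1 * q.1 z) / 2 - (1 + -1 * q.1 z) / 2
  ring

theorem halfQ_mem {k : ℕ} {q : SmQ E} {z : E}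
    (h : ∀ j ≤ k, ‖iteratedFDeriv ℝ j q.1 z‖ ≤ 1) {s : ℝ} (hs : |s| ≤ 1) :
    (∀ j ≤ k, ‖iteratedFDeriv ℝ j (halfQ s q).1 z‖ ≤ 1) ∧ 0 ≤ (halfQ s q).1 z :=
  ⟨fun _ hj => norm_half_le (q.2.of_le (by exact_mod_cast le_top)) h hs hj,
    half_nonneg (h 0 (Nat.zero_le _)) hs⟩

variable {X : Type*} [AddCommGroup X] [Module ℝ X] {n : ℕ}

/-- **the sign lemma for compositions of one-chart operators.** -/
theorem sign_fold (B : Fin n → SmQ E → X →ₗ[ℝ] X) (K : Set E)
    (hB : ∀ i (q g h : SmQ E), (∀ z, q.1 z = g.1 z - h.1 z) → ∀ b, B i q b = B i g b - B i h b)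
    (k : ℕ) (L : X →ₗ[ℝ] ℝ) (b : X) (R : ℝ)
    (hR : ∀ q : Fin n → SmQ E, (∀ i, ∀ j ≤ k, ∀ z ∈ K, ‖iteratedFDeriv ℝ j (q i).1 z‖ ≤ 1) →
      (∀ i, ∀ z ∈ K, 0 ≤ (q i).1 z) →
      |L ((List.finRange n).foldr (fun i b => B i (q i) b) b)| ≤ R)
    (q : Fin n → SmQ E) (hq : ∀ i, ∀ j ≤ k, ∀ z ∈ K, ‖iteratedFDeriv ℝ j (q i).1 z‖ ≤ 1) :
    |L ((List.finRange n).foldr (fun i b => B i (q i) b) b)| ≤ 2 ^ n * R := by
  have key := abs_le_of_sub (ι := Fin n) (V := fun _ => SmQ E)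
    (fun _ => {f : SmQ E | ∀ j ≤ k, ∀ z ∈ K, ‖iteratedFDeriv ℝ j f.1 z‖ ≤ 1})
    (fun _ => {f : SmQ E | (∀ j ≤ k, ∀ z ∈ K, ‖iteratedFDeriv ℝ j f.1 z‖ ≤ 1) ∧
      ∀ z ∈ K, 0 ≤ f.1 z})
    (fun _ _ hf => hf.1)
    (fun q => L ((List.finRange n).foldr (fun i b => B i (q i) b) b)) (R := R) ?_ ?_ q hq
  · rwa [Fintype.card_fin] at key
  · intro i p hp
    have hmem : ∀ s : ℝ, |s| ≤ 1 → halfQ s (p i) ∈
        {f : SmQ E | (∀ j ≤ k, ∀ z ∈ K, ‖iteratedFDeriv ℝ j f.1 z‖ ≤ 1) ∧ ∀ z ∈ K, 0 ≤ f.1 z} := by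
      intro s hs
      exact ⟨fun j hj z hz => (halfQ_mem (fun j hj => hp i j hj z hz) hs).1 j hj,
        fun z hz => (halfQ_mem (fun j hj => hp i j hj z hz) hs).2⟩
    refine ⟨halfQ 1 (p i), hmem 1 (by simp), halfQ (-1) (p i), hmem (-1) (by simp), ?_⟩
    rw [← map_sub, foldr_update_sub B (List.finRange n) (List.nodup_finRange n)
      (List.mem_finRange i) p (halfQ 1 (p i)) (halfQ (-1) (p i))
      (hB i _ _ _ (halfQ_sub (p i))) b]
  · intro p hp
    exact hR p (fun i => (hp i).1) fun i => (hp i).2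

end sign

end Crest.Agent.R240.SmSign
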