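import Mathlib
import Crest.Agent.R240.Sm7b
import Crest.Agent.R240.SmAvg
import Crest.Agent.R240.SmSignA
import Crest.Agent.R240.XInst

/-!
# Row 240, block R, N8 field `sign` (helper136): slot linearity of the composed averages

* `A1_lin_left`, `A1_lin_right` : the one-chart average is linear in the kernel and in the form;
* `AL_update_lin` : the composition over a `Nodup` list is linear in each kernel;
* `sign_AL` : the sign lemma for `AL` with kernels `q i * κ₀`.
-/

set_option autoImplicit false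
set_option maxSynthPendingDepth 3
set_option linter.unusedSectionVars false
set_option linter.style.haveILetI false

open Set Function Filter MeasureTheory Metric
open scoped Manifold ContDiff Topology

namespace Crest.Agent.R240.SmSign

open Crest.Agent.R240.Ch Crest.Agent.R240.Sm Crest.Agent.R240.SmJ Crest.Agent.R240.Sm7

noncomputable section

variable {M : Type*} [TopologicalSpace M] [ChartedSpace E4 M] [IsManifold 𝓘(ℝ, E4) ∞ M]
  [T2Space M]

section one

variable {G : Fam E4} {p : M} (hG : G.K ⊆ (chartAt E4 p).target)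
include hG

theorem A1_lin_left {κ κ' : E4 → ℝ} (hk : Ker κ) (hk' : Ker κ') {e ρ : ℝ} (he : 0 < e)
    (heρ : e ≤ ρ) (hρ : ρ < G.r) {b : F2 E4 M} (hb : Smooth2 b) (c c' : ℝ) :
    A1 G p (fun z => c * κ z + c' * κ' z) e b = c • A1 G p κ e b + c' • A1 G p κ' e b := by
  have h1 : Ker (fun z => c * κ z) :=
    ⟨continuous_const.mul hk.cont, (tsupport_mul_subset_right (f := fun _ => c)).trans hk.supp⟩
  have h2 : Ker (fun z => c' * κ' z) :=
    ⟨continuous_const.mul hk'.cont, (tsupport_mul_subset_right (f := fun _ => c')).trans hk'.supp⟩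
  have h3 := avg_add_left (isOpen_pre (G := G) e) h1.cont h1.cpt (supp_sub h1 he heρ hρ)
    h2.cont h2.cpt (supp_sub h2 he heρ hρ) (jsm_pull_smul hG hb e)
  rw [avg_smul_left, avg_smul_left] at h3
  exact h3

theorem A1_lin_right {κ : E4 → ℝ} (hk : Ker κ) {e ρ : ℝ} (he : 0 < e)
    (heρ : e ≤ ρ) (hρ : ρ < G.r) {a b : F2 E4 M} (ha : Smooth2 a) (hb : Smooth2 b) (c c' : ℝ) :
    A1 G p κ e (c • a + c' • b) = c • A1 G p κ e a + c' • A1 G p κ e b := by
  have h1 : (fun z : E4 => pullG G p (e • z) (c • a + c' • b)) =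
      fun z => c • pullG G p (e • z) a + c' • pullG G p (e • z) b := by
    funext z
    rw [pullG_add, pullG_smul, pullG_smul]
  have h2 := avg_add_right (isOpen_pre (G := G) e) hk.cont hk.cpt (supp_sub hk he heρ hρ)
    ((jsm_pull_smul hG ha e).smul (f := fun _ => c) contDiffOn_const)
    ((jsm_pull_smul hG hb e).smul (f := fun _ => c') contDiffOn_const)
  rw [avg_smul_right, avg_smul_right] at h2
  unfold A1
  rw [h1]
  exact h2

end one

section list

variable {ι : Type*} [DecidableEq ι] {G : ι → Fam E4} {p : ι → M}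

theorem AL_congr {κ κ' : ι → E4 → ℝ} (l : List ι) (h : ∀ i ∈ l, κ i = κ' i) (e : ℝ)
    (b : F2 E4 M) : AL G p κ l e b = AL G p κ' l e b := by
  induction l with
  | nil => rfl
  | cons i l ih =>
    rw [AL_cons, AL_cons, h i (by simp), ih fun k hk => h k (List.mem_cons_of_mem _ hk)]

/-- linearity in each kernel -/
theorem AL_update_lin (hG : ∀ i, (G i).K ⊆ (chartAt E4 (p i)).target) {κ : ι → E4 → ℝ}
    (hk : ∀ i, Ker (κ i)) {ρ : ι → ℝ} (hρ : ∀ i, ρ i < (G i).r) {g h : E4 → ℝ} (hg : Ker g)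
    (hh : Ker h) (c c' : ℝ) (l : List ι) (hl : l.Nodup) {i : ι} (hi : i ∈ l) {e : ℝ}
    (he : 0 < e) (heρ : ∀ i ∈ l, e ≤ ρ i) {b : F2 E4 M} (hb : Smooth2 b) :
    AL G p (update κ i fun z => c * g z + c' * h z) l e b =
      c • AL G p (update κ i g) l e b + c' • AL G p (update κ i h) l e b := by
  have hup : ∀ f : E4 → ℝ, Ker f → ∀ j, Ker (update κ i f j) := by
    intro f hf j
    by_cases hj : j = i
    · subst hj
      rw [update_self]
      exact hf
    · rw [update_of_ne hj]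
      exact hk j
  induction l with
  | nil => exact absurd hi (by simp)
  | cons j l ih =>
    have hl' := List.nodup_cons.1 hl
    have heρ' : ∀ i ∈ l, e ≤ ρ i := fun k hk' => heρ k (List.mem_cons_of_mem _ hk')
    by_cases hj : i = j
    · subst hj
      have hcon : ∀ f : E4 → ℝ, AL G p (update κ i f) l e b = AL G p κ l e b := fun f =>
        AL_congr l (fun k hk' => update_of_ne (fun h' : k = i => hl'.1 (h' ▸ hk')) _ _) e b
      rw [AL_cons, AL_cons, AL_cons, hcon, hcon, hcon, update_self, update_self, update_self]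
      exact A1_lin_left (hG i) hg hh he (heρ i (by simp)) (hρ i)
        (smooth2_AL hG hk hρ l he heρ' hb) c c'
    · have hil : i ∈ l := (List.mem_cons.1 hi).resolve_left hj
      rw [AL_cons, AL_cons, AL_cons, ih hl'.2 hil heρ', update_of_ne (Ne.symm hj),
        update_of_ne (Ne.symm hj), update_of_ne (Ne.symm hj)]
      exact A1_lin_right (hG j) (hk j) he (heρ j (by simp)) (hρ j)
        (smooth2_AL hG (hup g hg) hρ l he heρ' hb) (smooth2_AL hG (hup h hh) hρ l he heρ' hb) c c'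

end list

/-! ### the sign lemma for `AL` -/

section sign

variable {M : Type*} [TopologicalSpace M] [ChartedSpace E4 M] [IsManifold 𝓘(ℝ, E4) ∞ M]
  [T2Space M] {n : ℕ} {G : Fin n → Fam E4} {p : Fin n → M}

theorem update_ker (q : Fin n → SmQ E4) (κ₀ : E4 → ℝ) (i : Fin n) (g : SmQ E4) :
    (fun (j : Fin n) (z : E4) => (update q i g j).1 z * κ₀ z) =
      update (fun (j : Fin n) (z : E4) => (q j).1 z * κ₀ z) i (fun z => g.1 z * κ₀ z) := by
  funext j
  by_cases hj : j = i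
  · subst hj
    rw [update_self, update_self]
  · rw [update_of_ne hj, update_of_ne hj]

theorem ker_mul {κ₀ : E4 → ℝ} (hκ₀ : Ker κ₀) (q : SmQ E4) : Ker (fun z => q.1 z * κ₀ z) :=
  ⟨q.2.continuous.mul hκ₀.cont, (tsupport_mul_subset_right (f := q.1)).trans hκ₀.supp⟩

/-- **field `sign` of `SmPack`** for operators of the form `AL` with kernels `q i * κ₀`. -/
theorem sign_AL (hG : ∀ i, (G i).K ⊆ (chartAt E4 (p i)).target) {κ₀ : E4 → ℝ} (hκ₀ : Ker κ₀)
    {ρ : Fin n → ℝ} (hρ : ∀ i, ρ i < (G i).r) {e : ℝ} (he : 0 < e) (heρ : ∀ i, e ≤ ρ i)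
    (A : (Fin n → SmQ E4) → X2 M →ₗ[ℝ] X2 M)
    (hA : ∀ q b, (A q b : F2 E4 M) =
      AL G p (fun i z => (q i).1 z * κ₀ z) (List.finRange n) e (b : F2 E4 M))
    (K : Set E4) (k : ℕ) (L : X2 M →ₗ[ℝ] ℝ) (b : X2 M) (R : ℝ)
    (hR : ∀ q : Fin n → SmQ E4, (∀ i, ∀ j ≤ k, ∀ z ∈ K, ‖iteratedFDeriv ℝ j (q i).1 z‖ ≤ 1) →
      (∀ i, ∀ z ∈ K, 0 ≤ (q i).1 z) → |L (A q b)| ≤ R)
    (q : Fin n → SmQ E4) (hq : ∀ i, ∀ j ≤ k, ∀ z ∈ K, ‖iteratedFDeriv ℝ j (q i).1 z‖ ≤ 1) :
    |L (A q b)| ≤ 2 ^ n * R := by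
  have key := abs_le_of_sub (ι := Fin n) (V := fun _ => SmQ E4)
    (fun _ => {f : SmQ E4 | ∀ j ≤ k, ∀ z ∈ K, ‖iteratedFDeriv ℝ j f.1 z‖ ≤ 1})
    (fun _ => {f : SmQ E4 | (∀ j ≤ k, ∀ z ∈ K, ‖iteratedFDeriv ℝ j f.1 z‖ ≤ 1) ∧
      ∀ z ∈ K, 0 ≤ f.1 z})
    (fun _ _ hf => hf.1)
    (fun q => L (A q b)) (R := R) ?_ ?_ q hq
  · rwa [Fintype.card_fin] at key
  · intro i f hf
    have hmem : ∀ s : ℝ, |s| ≤ 1 → halfQ s (f i) ∈
        {f : SmQ E4 | (∀ j ≤ k, ∀ z ∈ K, ‖iteratedFDeriv ℝ j f.1 z‖ ≤ 1) ∧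
          ∀ z ∈ K, 0 ≤ f.1 z} := by
      intro s hs
      exact ⟨fun j hj z hz => (halfQ_mem (fun j hj => hf i j hj z hz) hs).1 j hj,
        fun z hz => (halfQ_mem (fun j hj => hf i j hj z hz) hs).2⟩
    refine ⟨halfQ 1 (f i), hmem 1 (by simp), halfQ (-1) (f i), hmem (-1) (by simp), ?_⟩
    rw [← map_sub]
    congr 1
    apply Subtype.ext
    rw [Submodule.coe_sub, hA, hA, hA, update_ker, update_ker]
    have h1 := AL_update_lin hG (κ := fun (j : Fin n) (z : E4) => (f j).1 z * κ₀ z)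
      (fun j => ker_mul hκ₀ (f j)) hρ (ker_mul hκ₀ (halfQ 1 (f i)))
      (ker_mul hκ₀ (halfQ (-1) (f i))) 1 (-1) (List.finRange n) (List.nodup_finRange n)
      (List.mem_finRange i) he (fun j _ => heρ j) b.2
    have h2 : update (fun (j : Fin n) (z : E4) => (f j).1 z * κ₀ z) i
        (fun z => 1 * ((halfQ 1 (f i)).1 z * κ₀ z) + -1 * ((halfQ (-1) (f i)).1 z * κ₀ z)) =
        fun (j : Fin n) (z : E4) => (f j).1 z * κ₀ z := by
      rw [update_eq_iff]
      refine ⟨?_, fun _ _ => rfl⟩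
      funext z
      rw [halfQ_sub (f i) z]
      ring
    rw [h2, one_smul, neg_one_smul, ← sub_eq_add_neg] at h1
    exact h1
  · intro f hf
    exact hR f (fun i => (hf i).1) fun i => (hf i).2

end sign

end

end Crest.Agent.R240.SmSign
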