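import Mathlib
import Crest.Agent.R240.SmSys
import Crest.Agent.R240.SmSignL

/-!
# Row 240, N8 (helper136): the field `sign` of `SmPack`
-/

set_option autoImplicit false
set_option maxSynthPendingDepth 3

open Set Function Filter MeasureTheory Metric
open scoped Manifold ContDiff Topology

namespace Crest.Agent.R240.SmSign

open Crest.Agent.R240.Ch Crest.Agent.R240.Sm

variable {M : Type*} [MetricSpace M] [CompactSpace M] [ChartedSpace E4 M]
    [IsManifold 𝓘(ℝ, E4) ∞ M] [MeasurableSpace M] [BorelSpace M]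

omit [CompactSpace M] [MeasurableSpace M] [BorelSpace M] in
/-- **field `sign` of `SmPack`.** -/
theorem fSign (S : Sys M) : FSign S := by
  obtain ⟨e1, he1, -, hok⟩ := S.exists_ok
  refine ⟨e1, he1, fun k => ⟨2 ^ S.n, fun e he hee L b R hR q hq => ?_⟩⟩
  have h := hok e he hee
  refine sign_AL (G := S.G) (p := S.p) S.hG (κ₀ := kap0) ⟨kap0_cont, tsupport_kap0.subset⟩
    (ρ := fun _ => e) (fun i => h.2 i) he (fun _ => le_rfl) (fun q => S.A e q)
    (fun q b => Sys.opL_coe h q (List.finRange S.n) b) (closedBall 0 1) k L b R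
    (fun q hq h0 => hR q ⟨hq, h0⟩) q hq

end Crest.Agent.R240.SmSign
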