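import Mathlib
import Crest.Agent.R240.SmSys

/-!
Row 240, N8 (helper915): existence of a smoothing system.
-/

set_option autoImplicit false
set_option maxSynthPendingDepth 3
set_option linter.unusedSectionVars false

open Set Function Filter Metric MeasureTheory
open scoped Manifold ContDiff Topology
open Crest.Agent.R240.Ch

namespace Crest.Agent.R240.Sm

noncomputable section

variable {M : Type*} [TopologicalSpace M] [ChartedSpace E4 M] [IsManifold 𝓘(ℝ, E4) ∞ M]

/-- **a smoothing system exists.** -/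
theorem exists_sys [CompactSpace M] : Nonempty (Sys M) := by
  classical
  -- local data
  have hloc : ∀ x : M, ∃ (c : Cut E4) (K Ω : Set E4), tsupport c.θ ⊆ (chartAt E4 x).target ∧
      (∀ y, c.θ y ∈ Icc (0 : ℝ) 1) ∧ IsCompact K ∧ IsOpen Ω ∧ K ⊆ Ω ∧ (∀ y ∈ Ω, c.θ y = 1) ∧
      chartAt E4 x x ∈ interior K := by
    intro x
    have hx : chartAt E4 x x ∈ (chartAt E4 x).target := mem_chart_target E4 x
    obtain ⟨r, hr, hsub⟩ := Metric.nhds_basis_closedBall.mem_iff.1
      ((chartAt E4 x).open_target.mem_nhds hx)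
    obtain ⟨c, hc1, hc2, hc3⟩ := exists_cut (isCompact_closedBall (chartAt E4 x x) r)
      (chartAt E4 x).open_target hsub
    obtain ⟨Ω, hΩo, hKΩ, hΩ⟩ := eventually_nhdsSet_iff_exists.1 hc2
    exact ⟨c, closedBall (chartAt E4 x x) r, Ω, hc1, hc3, isCompact_closedBall _ _, hΩo, hKΩ, hΩ,
      ball_subset_interior_closedBall (mem_ball_self hr)⟩
  choose c K Ω h1 h2 h3 h4 h5 h6 h7 using hloc
  obtain ⟨t, ht⟩ := isCompact_univ.elim_nhds_subcover
    (fun x : M => (chartAt E4 x).source ∩ (chartAt E4 x) ⁻¹' interior (K x)) (fun x _ => by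
      have hs : (chartAt E4 x).source ∈ 𝓝 x := (chartAt E4 x).open_source.mem_nhds
        (mem_chart_source E4 x)
      have hi : interior (K x) ∈ 𝓝 (chartAt E4 x x) := isOpen_interior.mem_nhds (h7 x)
      exact inter_mem hs (((chartAt E4 x).continuousAt (mem_chart_source E4 x)).preimage_mem_nhds
        hi))
  refine ⟨{
    n := t.card
    p := fun i => (t.equivFin.symm i : M)
    c := fun i => c (t.equivFin.symm i : M)
    sub := fun i => h1 _
    c01 := fun i => h2 _
    K := fun i => K (t.equivFin.symm i : M)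
    Ω := fun i => Ω (t.equivFin.symm i : M)
    cpt := fun i => h3 _
    op := fun i => h4 _
    KΩ := fun i => h5 _
    one := fun i => h6 _
    cover := fun x => ?_ }⟩
  have hx := ht.2 (mem_univ x)
  simp only [mem_iUnion, exists_prop] at hx
  obtain ⟨y, hy, hxy⟩ := hx
  exact ⟨t.equivFin ⟨y, hy⟩, by simpa using hxy⟩

end

end Crest.Agent.R240.Sm
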