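import Mathlib
import Crest.Agent.R240.SmSysEx
import Crest.Agent.R240.SmFApp
import Crest.Agent.R240.SmF1
import Crest.Agent.R240.SmSignF
import Crest.Agent.R240.SmRep3
import Crest.Agent.R240.Q5
import Crest.Agent.R240.SmFCrude
import Crest.Agent.R240.SmFRepm
import Crest.Agent.R240.Lk8
import Crest.Agent.R240.LkP
import Crest.Agent.R240.LkH
import Crest.Agent.R240.LkMb

/-!
Row 240, N8 (helper915): **the smoothing package exists.**
-/

set_option autoImplicit false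
set_option maxSynthPendingDepth 3

open Set Function Filter Metric MeasureTheory
open scoped Manifold ContDiff Topology
open Crest.Agent.R240.Ch Crest.Agent.R240.Sm

namespace Crest.Agent.R240

noncomputable section

variable {M : Type*} [MetricSpace M] [CompactSpace M] [ChartedSpace E4 M]
    [IsManifold 𝓘(ℝ, E4) ∞ M] [MeasurableSpace M] [BorelSpace M]

/-- the field `leak` (895, 404, 461). -/
theorem Sm.fLeak (D : Dat M) (𝒰 : Cover M) (S : Sys M) : FLeak D 𝒰 S := by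
  refine Lk.fLeak_of D 𝒰 S Lk.tfK (Leak.hasSum_leak D 𝒰 S) fun k => ?_
  obtain ⟨C, hC, h⟩ := Lk.mult_bound' S.n k
  exact ⟨C, hC, Lk.A_tfK_bound_of S k hC h⟩

/-- N8 from the open fields. -/
theorem Dat.n8_of (D : Dat M) (hr : ∀ S : Sys M, FRepm D S)
    (hk : ∀ (𝒰 : Cover M) (S : Sys M), FLeak D 𝒰 S) : D.N8 := by
  intro 𝒰
  obtain ⟨S⟩ := exists_sys (M := M)
  exact smPack_of D 𝒰 S (fExact S) (fApprox 𝒰 S) (Q4.fBd D S) (Q4.fPos D S)
    (Q4.fLeak1 D S) (Q4.fLeak2 D S) (Q4.fLow D S) (fRep D 𝒰 S) (hr S)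
    (fCrude D 𝒰 S) (hk 𝒰 S) (fAdj D S) (SmSign.fSign S)

/-- **node N8.** -/
theorem Dat.n8 (D : Dat M) : D.N8 := D.n8_of (SmF.fRepm D) (Sm.fLeak D)

end

end Crest.Agent.R240
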