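import Crest.Agent.R240.N8a
import Crest.Agent.R240.NrCm
import Crest.Agent.R240.En4G

/-!
Row 240 (S0371), helper548: node N8a.
-/

set_option autoImplicit false
set_option maxSynthPendingDepth 3

open Set Function Filter MeasureTheory Metric
open scoped Manifold ContDiff Topology ENNReal

namespace Crest.Agent.R240.N8A

open Crest.Agent.R240.Ch

variable {M : Type*} [MetricSpace M] [CompactSpace M] [ChartedSpace E4 M]
    [IsManifold 𝓘(ℝ, E4) ∞ M] [MeasurableSpace M] [BorelSpace M]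

/-- NODE N8a. -/
theorem node_N8a (D : Dat M) (h8 : D.N8) (hcov : D.COV) (hfund : D.FUND) : D.N8a := by
  obtain ⟨𝒰⟩ := hcov
  obtain ⟨S⟩ := h8 𝒰
  refine n8a_of D 𝒰 S hfund ?_ ?_ ?_
  · obtain ⟨C, -, hC⟩ := NrCm.nr_le_cm D 𝒰
    exact ⟨C, hC⟩
  · intro X g hg h
    exact En4.geF_of_dual D X hg h
  · intro X g hg hg0 h x
    exact En4.nr_anti_le_of_dual D X hg hg0 h x

end Crest.Agent.R240.N8A
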