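import Crest.Agent.R240.IfaceR

/-!
Row 240 (S0371), helper781: the node N9 (MONO on `M`) is `Dat.N9` of `IfaceR` (helper276).
This file only re-exports it.
-/
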