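import Mathlib
import Crest.Agent.R240.PotSt

/-!
Row 240 (S0371), Part P: the functionals `tC` and the two core estimates.
-/

set_option autoImplicit false
set_option maxSynthPendingDepth 3
open scoped ContDiff
open MeasureTheory Metric Crest.Agent.R240.En

namespace Crest.Agent.R240.Pot
namespace PD

variable (D : PD)

/-- the functional `ξ ↦ a(y) (ξ ∧ φ_y)(u,v,w)` -/
noncomputable def tC (a : E4 → ℝ) (u v w : E4) (y : E4) : Cov →ₗ[ℝ] ℝ where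
  toFun ξ := a y * wed3 ξ (fb (D.φ y)) u v w
  map_add' ξ η := by rw [wed3_add]; ring
  map_smul' r ξ := by rw [wed3_smul_cov]; simp only [RingHom.id_apply, smul_eq_mul]; ring

lemma tC_apply (a : E4 → ℝ) (u v w : E4) (y : E4) (ξ : Cov) :
    D.tC a u v w y ξ = a y * wed3 ξ (fb (D.φ y)) u v w := rfl

lemma MBC {a : E4 → ℝ} (ha : Continuous a) (u v w : E4) (ξ : Cov) :
    MB D.c D.R fun y => D.tC a u v w y ξ := by
  simp only [tC_apply, wed3]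
  refine (MB.of_cont ha).mul (((MB.const _).mul ?_).sub ((MB.const _).mul ?_) |>.add
    ((MB.const _).mul ?_))
  · exact MB_phi D.mφ D.bA _ _
  · exact MB_phi D.mφ D.bA _ _
  · exact MB_phi D.mφ D.bA _ _

/-- core estimate, first order -/
def Core2 (ρ : E4 → ℝ) : Prop :=
  Moll ρ → D.ClosedCur → ∀ a : E4 → ℝ, ContDiff ℝ ∞ a → ∀ u v w : E4,
  ∃ C : ℝ, 0 < C ∧ ∀ e : ℝ, 0 < e → e ≤ D.R / 8 → ∀ x ∈ ball D.c (5 / 8 * D.R),
    |D.GF (3 * D.R) (D.tC a u v w) (fderiv ℝ (rhoE ρ e)) x| ≤ C * wE D.s D.c D.R e 2 x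

/-- core estimate, second order -/
def Core3 (ρ : E4 → ℝ) : Prop :=
  Moll ρ → D.ClosedCur → ∀ a : E4 → ℝ, ContDiff ℝ ∞ a → ∀ u v w l : E4,
  ∃ C : ℝ, 0 < C ∧ ∀ e : ℝ, 0 < e → e ≤ D.R / 8 → ∀ x ∈ ball D.c (5 / 8 * D.R),
    |D.GF (3 * D.R) (D.tC a u v w) (fderiv ℝ (fun z => fderiv ℝ (rhoE ρ e) z l)) x| ≤
      C * wE D.s D.c D.R e 3 x

end PD
end Crest.Agent.R240.Pot
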