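import Mathlib
import Crest.Agent.R240.PotCoreDefs
import Crest.Agent.R240.PotPoinc4
import Crest.Agent.R240.PotTr

/-!
Row 240 (S0371), Part P: `B2Bd` and `PsiBd` from the core estimates.
-/

set_option autoImplicit false
set_option maxSynthPendingDepth 3
open scoped ContDiff
open MeasureTheory Metric Crest.Agent.R240.En Crest.Agent.R240.PotPoinc

namespace Crest.Agent.R240.Pot

lemma cov_norm_le (ξ : Cov) : ‖ξ‖ ≤ ∑ l, |ξ (ee l)| := by
  have h0 : 0 ≤ ∑ l, |ξ (ee l)| := Finset.sum_nonneg fun i _ => abs_nonneg _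
  refine ξ.opNorm_le_bound h0 fun u => ?_
  have hc : ∀ (w : E4) (i : Fin 4), |w i| ≤ ‖w‖ := fun w i => by
    have h2 := PiLp.norm_apply_le w i
    simpa using h2
  have e1 : ξ u = ∑ l, u l * ξ (ee l) := by
    have h := congrArg ξ (EuclideanSpace.basisFun (Fin 4) ℝ |>.sum_repr u).symm
    simp only [map_sum, map_smul, smul_eq_mul, EuclideanSpace.basisFun_repr,
      EuclideanSpace.basisFun_apply] at h
    exact h
  rw [e1, Real.norm_eq_abs]
  calc |∑ l, u l * ξ (ee l)| ≤ ∑ l, |u l * ξ (ee l)| := Finset.abs_sum_le_sum_abs _ _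
    _ ≤ ∑ l, ‖u‖ * |ξ (ee l)| := by
        refine Finset.sum_le_sum fun i _ => ?_
        rw [abs_mul]
        have := hc u i
        gcongr
    _ = (∑ l, |ξ (ee l)|) * ‖u‖ := by
        rw [Finset.sum_mul]
        exact Finset.sum_congr rfl fun i _ => mul_comm _ _

/-- sum of finitely many eventual bounds -/
lemma sum_bd {ι : Type*} [Fintype ι] {E : Type*} {P : ℝ → E → Prop} {f : ι → ℝ → E → ℝ}
    {W : ℝ → E → ℝ} (hW : ∀ e x, P e x → 0 ≤ W e x)
    (h : ∀ i, ∃ C : ℝ, 0 < C ∧ ∀ e x, P e x → |f i e x| ≤ C * W e x) :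
    ∃ C : ℝ, 0 < C ∧ ∀ e x, P e x → ∑ i, |f i e x| ≤ C * W e x := by
  choose C hC hb using h
  refine ⟨∑ i, C i + 1, ?_, fun e x hx => ?_⟩
  · have : 0 ≤ ∑ i, C i := Finset.sum_nonneg fun i _ => (hC i).le
    linarith
  · have h1 : ∑ i, |f i e x| ≤ ∑ i, C i * W e x := Finset.sum_le_sum fun i _ => hb i e x hx
    rw [← Finset.sum_mul] at h1
    have := hW e x hx
    nlinarith

namespace PD

variable (D : PD)

section
variable {V : Type*} [NormedAddCommGroup V] [NormedSpace ℝ V] [FiniteDimensional ℝ V]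
variable {V' : Type*} [NormedAddCommGroup V'] [NormedSpace ℝ V'] [FiniteDimensional ℝ V']

/-- `GF` of a finite sum of families -/
lemma GF_sum {ι : Type*} [Fintype ι] {r : ℝ} {θ : E4 → V →ₗ[ℝ] ℝ} {θ' : ι → E4 → V' →ₗ[ℝ] ℝ}
    (hθ' : ∀ i v, MB D.c D.R fun y => θ' i y v) {f : E4 → V} {f' : ι → E4 → V'}
    (hf' : ∀ i, Continuous (f' i)) (hc' : ∀ i, HasCompactSupport (f' i))
    (h : ∀ y z, θ y (f z) = ∑ i, θ' i y (f' i z)) (x : E4) :
    D.GF r θ f x = ∑ i, D.GF r (θ' i) (f' i) x := by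
  unfold GF GG
  rw [← integral_finset_sum _ fun i _ => D.GF_int (hθ' i) (hf' i) (hc' i) x]
  refine integral_congr_ae (Filter.Eventually.of_forall fun t => ?_)
  simp only [TT, LinearMap.smul_apply, smul_eq_mul]
  rw [h, Finset.mul_sum]

end

/-- coefficient in the expansion of `L` -/
noncomputable def cL (w : E4) (i j b c : Fin 4) (y : E4) : ℝ :=
  1 / 2 * D.G y i j * (D.J y (ee j)) b * (D.J y w) c

lemma cL_contDiff (w : E4) (i j b c : Fin 4) : ContDiff ℝ ∞ (D.cL w i j b c) := by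
  have h : ∀ (v : E4) (b : Fin 4), ContDiff ℝ ∞ fun y => (D.J y v) b := fun v b =>
    (EuclideanSpace.proj b : E4 →L[ℝ] ℝ).contDiff.comp (D.smJ.clm_apply contDiff_const)
  exact ((contDiff_const.mul (D.smG i j)).mul (h _ _)).mul (h _ _)

lemma t2_expand (y w : E4) (ξ : Cov) : D.t2 y w ξ =
    ∑ i, ∑ j, ∑ b, ∑ c, D.tC (D.cL w i j b c) (ee i) (ee b) (ee c) y ξ := by
  have e1 : ∀ u : E4, u = ∑ l, u l • ee l := fun u => by
    have h := (EuclideanSpace.basisFun (Fin 4) ℝ |>.sum_repr u).symm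
    simp only [EuclideanSpace.basisFun_repr, EuclideanSpace.basisFun_apply] at h
    exact h
  have e2 : ∀ i (p q : E4), wed3 ξ (fb (D.φ y)) (ee i) p q =
      ∑ b, ∑ c, p b * q c * wed3 ξ (fb (D.φ y)) (ee i) (ee b) (ee c) := by
    intro i p q
    have hp : ∀ (L : E4 →L[ℝ] ℝ), L p = ∑ b, p b * L (ee b) := fun L => by
      conv_lhs => rw [e1 p]
      simp only [map_sum, map_smul, smul_eq_mul]
    have hq : ∀ (L : E4 →L[ℝ] ℝ), L q = ∑ b, q b * L (ee b) := fun L => by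
      conv_lhs => rw [e1 q]
      simp only [map_sum, map_smul, smul_eq_mul]
    have hpq := bil_expand (D.φ y) p q
    simp only [wed3, fb]
    rw [hp ξ, hq ξ, hq (D.φ y (ee i)), hp (D.φ y (ee i)), hpq]
    simp only [ent, Fin.sum_univ_four]
    ring
  simp only [t2, th2, LinearMap.coe_mk, AddHom.coe_mk, Lop, tC_apply, cL]
  rw [Finset.mul_sum]
  refine Finset.sum_congr rfl fun i _ => ?_
  rw [Finset.mul_sum]
  refine Finset.sum_congr rfl fun j _ => ?_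
  rw [e2, Finset.mul_sum, Finset.mul_sum]
  refine Finset.sum_congr rfl fun b _ => ?_
  rw [Finset.mul_sum, Finset.mul_sum]
  refine Finset.sum_congr rfl fun c _ => ?_
  ring

theorem b2Bd_of {ρ : E4 → ℝ} (h : D.Core2 ρ) : D.B2Bd ρ := by
  intro hρ hcl
  have h1 := h hρ hcl
  have key := sum_bd (ι := Fin 4 × Fin 4 × Fin 4 × Fin 4 × Fin 4)
    (P := fun e x => 0 < e ∧ e ≤ D.R / 8 ∧ x ∈ ball D.c (5 / 8 * D.R))
    (f := fun p e x => D.GF (3 * D.R) (D.tC (D.cL (ee p.1) p.2.1 p.2.2.1 p.2.2.2.1 p.2.2.2.2)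
      (ee p.2.1) (ee p.2.2.2.1) (ee p.2.2.2.2)) (fderiv ℝ (rhoE ρ e)) x)
    (W := fun e x => wE D.s D.c D.R e 2 x)
    (fun e x hx => by
      have := D.fin
      exact wE_nonneg D.s D.c D.R hx.1 2 x)
    (fun p => by
      obtain ⟨C, hC, hb⟩ := h1 _ (D.cL_contDiff (ee p.1) p.2.1 p.2.2.1 p.2.2.2.1 p.2.2.2.2)
        (ee p.2.1) (ee p.2.2.2.1) (ee p.2.2.2.2)
      exact ⟨C, hC, fun e x hx => hb e hx.1 hx.2.1 x hx.2.2⟩)
  obtain ⟨C, hC, hb⟩ := key
  refine ⟨C, hC, fun e he heR x hx => ?_⟩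
  have hb' := hb e x ⟨he, heR, hx⟩
  have hσ : ContDiff ℝ ∞ (rhoE ρ e) := rhoE_contDiff hρ.sm e
  have hc : HasCompactSupport (rhoE ρ e) := rhoE_hasCompactSupport hρ.sup he
  refine (cov_norm_le _).trans (le_trans ?_ hb')
  have e1 : ∀ l, D.b2 (3 * D.R) (rhoE ρ e) x (ee l) = ∑ i, ∑ j, ∑ b, ∑ c,
      D.GF (3 * D.R) (D.tC (D.cL (ee l) i j b c) (ee i) (ee b) (ee c))
        (fderiv ℝ (rhoE ρ e)) x := by
    intro l
    rw [b2, D.CV_apply D.MB2 D.t2_add D.t2_smul hσ hc]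
    have h2 := D.GF_sum (r := 3 * D.R) (ι := Fin 4 × Fin 4 × Fin 4 × Fin 4)
      (θ := fun y => D.t2 y (ee l))
      (θ' := fun p => D.tC (D.cL (ee l) p.1 p.2.1 p.2.2.1 p.2.2.2) (ee p.1) (ee p.2.2.1)
        (ee p.2.2.2)) (fun p ξ => D.MBC (D.cL_contDiff _ _ _ _ _).continuous _ _ _ ξ)
      (f := fderiv ℝ (rhoE ρ e)) (f' := fun _ => fderiv ℝ (rhoE ρ e))
      (fun _ => (fd_contDiff hσ).continuous) (fun _ => hc.fderiv (𝕜 := ℝ))
      (fun y z => by
        rw [D.t2_expand]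
        simp only [Fintype.sum_prod_type]) x
    rw [h2]
    simp only [Fintype.sum_prod_type]
  simp only [e1, Fintype.sum_prod_type]
  refine Finset.sum_le_sum fun l _ => ?_
  refine (Finset.abs_sum_le_sum_abs _ _).trans (Finset.sum_le_sum fun i _ => ?_)
  refine (Finset.abs_sum_le_sum_abs _ _).trans (Finset.sum_le_sum fun j _ => ?_)
  refine (Finset.abs_sum_le_sum_abs _ _).trans (Finset.sum_le_sum fun b _ => ?_)
  exact Finset.abs_sum_le_sum_abs _ _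

lemma fd2_ee {σ : E4 → ℝ} (hσ : ContDiff ℝ ∞ σ) (z : E4) (i : Fin 4) :
    fderiv ℝ (fderiv ℝ σ) z (ee i) = fderiv ℝ (fun z => fderiv ℝ σ z (ee i)) z := by
  ext v
  have hd : DifferentiableAt ℝ (fderiv ℝ σ) z := ((fd_contDiff hσ).differentiable (by simp)) z
  rw [fd2_symm hσ z (ee i) v]
  have h := (hd.hasFDerivAt.clm_apply (hasFDerivAt_const (ee i) z)).fderiv
  rw [h]
  simp

theorem psiBd_of {ρ : E4 → ℝ} (h : D.Core3 ρ) : D.PsiBd ρ := by
  intro hρ hcl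
  have h1 := h hρ hcl
  have key := sum_bd (ι := Fin 4 × Fin 4 × Fin 4 × Fin 4)
    (P := fun e x => 0 < e ∧ e ≤ D.R / 8 ∧ x ∈ ball D.c (5 / 8 * D.R))
    (f := fun p e x => D.GF (3 * D.R) (D.tC (fun y => D.G y p.2.2.1 p.2.2.2)
      (ee p.2.2.2) (ee p.1) (ee p.2.1))
        (fderiv ℝ (fun z => fderiv ℝ (rhoE ρ e) z (ee p.2.2.1))) x)
    (W := fun e x => wE D.s D.c D.R e 3 x)
    (fun e x hx => by
      have := D.fin
      exact wE_nonneg D.s D.c D.R hx.1 3 x)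
    (fun p => by
      obtain ⟨C, hC, hb⟩ := h1 _ (D.smG p.2.2.1 p.2.2.2)
        (ee p.2.2.2) (ee p.1) (ee p.2.1) (ee p.2.2.1)
      exact ⟨C, hC, fun e x hx => hb e hx.1 hx.2.1 x hx.2.2⟩)
  obtain ⟨C, hC, hb⟩ := key
  refine ⟨C, hC, fun e he heR x hx v w => ?_⟩
  have hb' := hb e x ⟨he, heR, hx⟩
  have hσ : ContDiff ℝ ∞ (rhoE ρ e) := rhoE_contDiff hρ.sm e
  have hc : HasCompactSupport (rhoE ρ e) := rhoE_hasCompactSupport hρ.sup he
  have hsi : ∀ i : Fin 4, ContDiff ℝ ∞ (fun z => fderiv ℝ (rhoE ρ e) z (ee i)) := fun i =>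
    (fd_contDiff hσ).clm_apply contDiff_const
  have hci : ∀ i : Fin 4, HasCompactSupport (fun z => fderiv ℝ (rhoE ρ e) z (ee i)) := fun i =>
    (hc.fderiv (𝕜 := ℝ)).comp_left (g := fun T : Cov => T (ee i)) (by simp)
  refine le_trans ?_ hb'
  have e1 : D.GF (3 * D.R) (D.t3 (ee v) (ee w)) (fderiv ℝ (fderiv ℝ (rhoE ρ e))) x =
      ∑ i, ∑ j, D.GF (3 * D.R) (D.tC (fun y => D.G y i j) (ee j) (ee v) (ee w))
        (fderiv ℝ (fun z => fderiv ℝ (rhoE ρ e) z (ee i))) x := by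
    have h2 := D.GF_sum (r := 3 * D.R) (ι := Fin 4 × Fin 4)
      (θ := D.t3 (ee v) (ee w))
      (θ' := fun p => D.tC (fun y => D.G y p.1 p.2) (ee p.2) (ee v) (ee w))
      (fun p ξ => D.MBC (D.smG _ _).continuous _ _ _ ξ)
      (f := fderiv ℝ (fderiv ℝ (rhoE ρ e)))
      (f' := fun p => fderiv ℝ (fun z => fderiv ℝ (rhoE ρ e) z (ee p.1)))
      (fun p => (fd_contDiff (hsi p.1)).continuous) (fun p => (hci p.1).fderiv (𝕜 := ℝ))
      (fun y z => by
        simp only [Fintype.sum_prod_type, t3, th3, LinearMap.coe_mk, AddHom.coe_mk, ctr, tC_apply,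
          fd2_ee hσ]) x
    rw [h2]
    simp only [Fintype.sum_prod_type]
  rw [e1]
  have e2 : |∑ i, ∑ j, D.GF (3 * D.R) (D.tC (fun y => D.G y i j) (ee j) (ee v) (ee w))
        (fderiv ℝ (fun z => fderiv ℝ (rhoE ρ e) z (ee i))) x| ≤
      ∑ i, ∑ j, |D.GF (3 * D.R) (D.tC (fun y => D.G y i j) (ee j) (ee v) (ee w))
        (fderiv ℝ (fun z => fderiv ℝ (rhoE ρ e) z (ee i))) x| :=
    (Finset.abs_sum_le_sum_abs _ _).trans (Finset.sum_le_sum fun i _ =>
      Finset.abs_sum_le_sum_abs _ _)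
  refine e2.trans ?_
  simp only [Fintype.sum_prod_type]
  have nn : ∀ v w : Fin 4, 0 ≤ ∑ i, ∑ j, |D.GF (3 * D.R)
      (D.tC (fun y => D.G y i j) (ee j) (ee v) (ee w))
        (fderiv ℝ (fun z => fderiv ℝ (rhoE ρ e) z (ee i))) x| := fun v w =>
    Finset.sum_nonneg fun i _ => Finset.sum_nonneg fun j _ => abs_nonneg _
  refine le_trans ?_ (Finset.single_le_sum (f := fun v : Fin 4 => ∑ w : Fin 4, ∑ i, ∑ j,
    |D.GF (3 * D.R) (D.tC (fun y => D.G y i j) (ee j) (ee v) (ee w))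
        (fderiv ℝ (fun z => fderiv ℝ (rhoE ρ e) z (ee i))) x|)
    (fun v _ => Finset.sum_nonneg fun w _ => nn v w) (Finset.mem_univ v))
  exact Finset.single_le_sum (f := fun w : Fin 4 => ∑ i, ∑ j,
    |D.GF (3 * D.R) (D.tC (fun y => D.G y i j) (ee j) (ee v) (ee w))
        (fderiv ℝ (fun z => fderiv ℝ (rhoE ρ e) z (ee i))) x|)
    (fun w _ => nn v w) (Finset.mem_univ w)

end PD
end Crest.Agent.R240.Pot
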