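import Mathlib
import Crest.Agent.R240.XInst
import Crest.Agent.R240.Fre

/-!
Row 240 (S0371), SmPack.approx (helper955): approximation bounds of compositions.
-/

set_option autoImplicit false
set_option maxSynthPendingDepth 3
set_option linter.unusedSectionVars false

open Set Function Filter Topology
open scoped Manifold ContDiff

namespace Crest.Agent.R240.SmApp

open Ch

noncomputable section

variable {M : Type*} [TopologicalSpace M] [ChartedSpace E4 M] [IsManifold 𝓘(ℝ, E4) ∞ M]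

/-- bounds of an operator which approximates the identity at scale `e`. -/
structure App (𝒰 : Cover M) (C : ℕ → ℝ) (e : ℝ) (A : X2 M →ₗ[ℝ] X2 M) : Prop where
  nonneg : ∀ l, 0 ≤ C l
  bd : ∀ (l : ℕ) (b : X2 M), 𝒰.cm l (A b : F2 E4 M) ≤ C l * 𝒰.cm l (b : F2 E4 M)
  ap : ∀ (l : ℕ) (b : X2 M),
    𝒰.cm l ((A b - b : X2 M) : F2 E4 M) ≤ C l * e * 𝒰.cm (l + 1) (b : F2 E4 M)

lemma cm_coe_sub_add (𝒰 : Cover M) (l : ℕ) (a b c : X2 M) :
    𝒰.cm l ((a - c : X2 M) : F2 E4 M) ≤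
      𝒰.cm l ((a - b : X2 M) : F2 E4 M) + 𝒰.cm l ((b - c : X2 M) : F2 E4 M) := by
  have h := cm_add_le 𝒰 l (a - b : X2 M).2 (b - c : X2 M).2
  have h2 : ((a - b : X2 M) : F2 E4 M) + ((b - c : X2 M) : F2 E4 M) =
      ((a - c : X2 M) : F2 E4 M) := by
    rw [← Submodule.coe_add]
    congr 1
    abel
  rw [h2] at h
  exact h

theorem App.id (𝒰 : Cover M) {e : ℝ} (he : 0 ≤ e) : App 𝒰 (fun _ => 1) e LinearMap.id where
  nonneg _ := zero_le_one
  bd l b := by simp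
  ap l b := by
    have h : ((LinearMap.id (R := ℝ) b - b : X2 M) : F2 E4 M) = 0 := by simp
    rw [h, cm_zero]
    have := cm_nonneg 𝒰 (l + 1) (b : F2 E4 M)
    positivity

/-- constants of a composition. -/
def cc (C₁ C₂ : ℕ → ℝ) (l : ℕ) : ℝ := C₁ l * C₂ l + C₁ l * C₂ (l + 1) + C₂ l

theorem App.comp {𝒰 : Cover M} {C₁ C₂ : ℕ → ℝ} {e : ℝ} (he : 0 ≤ e) {A B : X2 M →ₗ[ℝ] X2 M}
    (hA : App 𝒰 C₁ e A) (hB : App 𝒰 C₂ e B) : App 𝒰 (cc C₁ C₂) e (A ∘ₗ B) where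
  nonneg l := by
    have h1 := hA.nonneg l
    have h2 := hB.nonneg l
    have h3 := hB.nonneg (l + 1)
    unfold cc; positivity
  bd l b := by
    have h1 := hA.nonneg l
    have h2 := hB.nonneg l
    have h3 := hB.nonneg (l + 1)
    have h4 := cm_nonneg 𝒰 l (b : F2 E4 M)
    calc 𝒰.cm l ((A ∘ₗ B) b : F2 E4 M) ≤ C₁ l * 𝒰.cm l (B b : F2 E4 M) := hA.bd l (B b)
      _ ≤ C₁ l * (C₂ l * 𝒰.cm l (b : F2 E4 M)) := by gcongr; exact hB.bd l b
      _ = (C₁ l * C₂ l) * 𝒰.cm l (b : F2 E4 M) := by ring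
      _ ≤ cc C₁ C₂ l * 𝒰.cm l (b : F2 E4 M) := by
          refine mul_le_mul_of_nonneg_right ?_ h4
          unfold cc
          nlinarith [mul_nonneg h1 h3]
  ap l b := by
    have h1 := hA.nonneg l
    have h2 := hB.nonneg l
    have h3 := hB.nonneg (l + 1)
    have h4 := cm_nonneg 𝒰 (l + 1) (b : F2 E4 M)
    calc 𝒰.cm l (((A ∘ₗ B) b - b : X2 M) : F2 E4 M)
        ≤ 𝒰.cm l ((A (B b) - B b : X2 M) : F2 E4 M) + 𝒰.cm l ((B b - b : X2 M) : F2 E4 M) :=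
          cm_coe_sub_add 𝒰 l (A (B b)) (B b) b
      _ ≤ C₁ l * e * 𝒰.cm (l + 1) (B b : F2 E4 M) + C₂ l * e * 𝒰.cm (l + 1) (b : F2 E4 M) :=
          add_le_add (hA.ap l (B b)) (hB.ap l b)
      _ ≤ C₁ l * e * (C₂ (l + 1) * 𝒰.cm (l + 1) (b : F2 E4 M)) +
            C₂ l * e * 𝒰.cm (l + 1) (b : F2 E4 M) := by
          gcongr; exact hB.bd (l + 1) b
      _ = (C₁ l * C₂ (l + 1) + C₂ l) * e * 𝒰.cm (l + 1) (b : F2 E4 M) := by ring
      _ ≤ cc C₁ C₂ l * e * 𝒰.cm (l + 1) (b : F2 E4 M) := by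
          refine mul_le_mul_of_nonneg_right (mul_le_mul_of_nonneg_right ?_ he) h4
          unfold cc
          nlinarith [mul_nonneg h1 h2]

theorem App.mono {𝒰 : Cover M} {C₁ C₂ : ℕ → ℝ} {e : ℝ} (he : 0 ≤ e) {A : X2 M →ₗ[ℝ] X2 M}
    (hA : App 𝒰 C₁ e A) (h : ∀ l, C₁ l ≤ C₂ l) : App 𝒰 C₂ e A where
  nonneg l := (hA.nonneg l).trans (h l)
  bd l b := (hA.bd l b).trans (mul_le_mul_of_nonneg_right (h l) (cm_nonneg _ _ _))
  ap l b := (hA.ap l b).trans (mul_le_mul_of_nonneg_right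
    (mul_le_mul_of_nonneg_right (h l) he) (cm_nonneg _ _ _))

/-- constants of a product of `n` operators with constants `C`. -/
def CN (C : ℕ → ℝ) : ℕ → ℕ → ℝ
  | 0 => fun _ => 1
  | n + 1 => cc C (CN C n)

theorem App.list {𝒰 : Cover M} {C : ℕ → ℝ} {e : ℝ} (he : 0 ≤ e) {ι : Type*}
    (A : ι → Module.End ℝ (X2 M)) (l : List ι) (h : ∀ i ∈ l, App 𝒰 C e (A i)) :
    App 𝒰 (CN C l.length) e ((l.map A).prod) := by
  induction l with
  | nil => exact App.id 𝒰 he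
  | cons i l ih =>
    rw [List.map_cons, List.prod_cons]
    exact (h i (List.mem_cons_self)).comp he (ih fun j hj => h j (List.mem_cons_of_mem _ hj))

/-- bounds only, without approximation, for a list (general kernels). -/
structure Bdd (𝒰 : Cover M) (C : ℕ → ℝ) (A : X2 M →ₗ[ℝ] X2 M) : Prop where
  nonneg : ∀ l, 0 ≤ C l
  bd : ∀ (l : ℕ) (b : X2 M), 𝒰.cm l (A b : F2 E4 M) ≤ C l * 𝒰.cm l (b : F2 E4 M)

theorem Bdd.comp {𝒰 : Cover M} {C₁ C₂ : ℕ → ℝ} {A B : X2 M →ₗ[ℝ] X2 M}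
    (hA : Bdd 𝒰 C₁ A) (hB : Bdd 𝒰 C₂ B) : Bdd 𝒰 (fun l => C₁ l * C₂ l) (A ∘ₗ B) where
  nonneg l := mul_nonneg (hA.nonneg l) (hB.nonneg l)
  bd l b := by
    have h1 := hA.nonneg l
    calc 𝒰.cm l ((A ∘ₗ B) b : F2 E4 M) ≤ C₁ l * 𝒰.cm l (B b : F2 E4 M) := hA.bd l (B b)
      _ ≤ C₁ l * (C₂ l * 𝒰.cm l (b : F2 E4 M)) := by gcongr; exact hB.bd l b
      _ = _ := by ring

theorem Bdd.list {𝒰 : Cover M} {C : ℕ → ℝ} {ι : Type*}
    (A : ι → Module.End ℝ (X2 M)) (l : List ι) (h : ∀ i ∈ l, Bdd 𝒰 C (A i)) :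
    Bdd 𝒰 (fun k => C k ^ l.length) ((l.map A).prod) := by
  induction l with
  | nil => exact ⟨fun _ => by simp, fun l b => by simp⟩
  | cons i l ih =>
    rw [List.map_cons, List.prod_cons]
    have h1 := (h i (List.mem_cons_self)).comp (ih fun j hj => h j (List.mem_cons_of_mem _ hj))
    have h2 : (fun k => C k ^ (i :: l).length) = fun k => C k * C k ^ l.length := by
      funext k; rw [List.length_cons, pow_succ, mul_comm]
    rw [h2]
    exact h1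

end

end Crest.Agent.R240.SmApp
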