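import Crest.Agent.R240.SmComp
import Crest.Agent.R240.SmSys

/-!
Row 240 (S0371), N8 (helper822): from the one-chart statements `OneGood`, `OneLow` to the fields
`FBd, FPos, FLeak1, FLeak2, FLow` of 915's system.
-/

set_option autoImplicit false
set_option maxSynthPendingDepth 3

open Set Function Filter MeasureTheory Metric
open scoped Manifold ContDiff Topology ENNReal

namespace Crest.Agent.R240.Comp

open Crest.Agent.R240 Crest.Agent.R240.Ch Crest.Agent.R240.Sm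

noncomputable section

variable {M : Type*} [MetricSpace M] [CompactSpace M] [ChartedSpace E4 M]
    [IsManifold 𝓘(ℝ, E4) ∞ M] [MeasurableSpace M] [BorelSpace M]

/-- one-chart statement (helper83): `bd, pos, leak1, leak2` for the `i`-th operator with a kernel
factor `0 ≤ q ≤ 1`. -/
def OneGood (D : Dat M) (S : Sys M) : Prop :=
  ∀ i : Fin S.n, ∃ e1 C : ℝ, 0 < e1 ∧ ∀ e, 0 < e → e ≤ e1 → ∀ q : E4 → ℝ, ContDiff ℝ ∞ q →
    (∀ z ∈ closedBall (0 : E4) 1, 0 ≤ q z ∧ q z ≤ 1) → Good D e C (S.op1 e i q) (S.f1 e i)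

/-- one-chart statement (helper245): `low` for the `i`-th operator with kernel factor `1`. -/
def OneLow (D : Dat M) (S : Sys M) : Prop :=
  ∀ i : Fin S.n, ∃ e1 C : ℝ, 0 < e1 ∧ ∀ e, 0 < e → e ≤ e1 →
    Low D e C (S.op1 e i (fun _ => 1)) (S.f1 e i)

variable {D : Dat M} {S : Sys M}

theorem avgF_f1 {e : ℝ} (h : S.Ok e) (i : Fin S.n) : AvgF (S.f1 e i) where
  smooth _ hf := Sys.smoothF_f1 h i hf
  nonneg _ _ h0 x := Sys.f1_nonneg e i h0 x
  one x := congrFun (Sys.f1_const e i 1) x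
  add _ _ hf hg x := congrFun (Sys.f1_add h i hf hg) x
  smul r f _ x := congrFun (Sys.f1_smul e i r f) x

theorem opL_eq_compL (e : ℝ) (p : Fin S.n → KF) (l : List (Fin S.n)) :
    S.opL e p l = compL (fun i => S.op1 e i (p i).1) l := rfl

theorem clpK_01 {n k : ℕ} {p : Fin n → KF} (hp : p ∈ ClpK n k) (i : Fin n) :
    ∀ z ∈ closedBall (0 : E4) 1, 0 ≤ (p i).1 z ∧ (p i).1 z ≤ 1 := fun z hz =>
  ⟨hp.2 i z hz, (le_abs_self _).trans (ClK.abs_le hp.1 i hz)⟩

/-- common constants for the one-chart statements. -/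
theorem OneGood.unif (h : OneGood D S) : ∃ e1 C : ℝ, 0 < e1 ∧ e1 ≤ 1 ∧ 1 ≤ C ∧
    (∀ e, 0 < e → e ≤ e1 → S.Ok e) ∧
    ∀ (i : Fin S.n) (e : ℝ), 0 < e → e ≤ e1 → ∀ q : E4 → ℝ, ContDiff ℝ ∞ q →
    (∀ z ∈ closedBall (0 : E4) 1, 0 ≤ q z ∧ q z ≤ 1) → Good D e C (S.op1 e i q) (S.f1 e i) := by
  choose e1 C he1 hC using h
  obtain ⟨e2, he2, he21, hok⟩ := S.exists_ok
  obtain ⟨δ, hδ, hδ'⟩ : ∃ δ : ℝ, 0 < δ ∧ ∀ i, δ ≤ e1 i := by
    rcases isEmpty_or_nonempty (Fin S.n) with hn | hn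
    · exact ⟨1, one_pos, fun i => (hn.false i).elim⟩
    · refine ⟨Finset.univ.inf' Finset.univ_nonempty e1, ?_, fun i =>
        Finset.inf'_le _ (Finset.mem_univ i)⟩
      rw [Finset.lt_inf'_iff]
      exact fun i _ => he1 i
  have hCs : ∀ i, C i ≤ 1 + ∑ j, |C j| := fun i => by
    have h1 := Finset.single_le_sum (f := fun j => |C j|) (fun j _ => abs_nonneg _)
      (Finset.mem_univ i)
    have h2 := le_abs_self (C i)
    linarith
  refine ⟨min δ e2, 1 + ∑ j, |C j|, lt_min hδ he2, (min_le_right _ _).trans he21,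
    le_add_of_nonneg_right (Finset.sum_nonneg fun j _ => abs_nonneg _),
    fun e h h' => hok e h (h'.trans (min_le_right _ _)), fun i e he hee q hq hq1 => ?_⟩
  have hok' := hok e he (hee.trans (min_le_right _ _))
  exact (hC i e he ((hee.trans (min_le_left _ _)).trans (hδ' i)) q hq hq1).mono
    (avgF_f1 hok' i) he.le (hCs i)

/-- common constants for the one-chart statements. -/
theorem OneLow.unif (h : OneLow D S) : ∃ e1 C : ℝ, 0 < e1 ∧ 1 ≤ C ∧
    ∀ (i : Fin S.n) (e : ℝ), 0 < e → e ≤ e1 → Low D e C (S.op1 e i (fun _ => 1)) (S.f1 e i) := by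
  choose e1 C he1 hC using h
  obtain ⟨e2, he2, he21, hok⟩ := S.exists_ok
  obtain ⟨δ, hδ, hδ'⟩ : ∃ δ : ℝ, 0 < δ ∧ ∀ i, δ ≤ e1 i := by
    rcases isEmpty_or_nonempty (Fin S.n) with hn | hn
    · exact ⟨1, one_pos, fun i => (hn.false i).elim⟩
    · refine ⟨Finset.univ.inf' Finset.univ_nonempty e1, ?_, fun i =>
        Finset.inf'_le _ (Finset.mem_univ i)⟩
      rw [Finset.lt_inf'_iff]
      exact fun i _ => he1 i
  have hCs : ∀ i, C i ≤ 1 + ∑ j, |C j| := fun i => by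
    have h1 := Finset.single_le_sum (f := fun j => |C j|) (fun j _ => abs_nonneg _)
      (Finset.mem_univ i)
    have h2 := le_abs_self (C i)
    linarith
  refine ⟨min δ e2, 1 + ∑ j, |C j|, lt_min hδ he2,
    le_add_of_nonneg_right (Finset.sum_nonneg fun j _ => abs_nonneg _), fun i e he hee => ?_⟩
  have hok' := hok e he (hee.trans (min_le_right _ _))
  exact (hC i e he ((hee.trans (min_le_left _ _)).trans (hδ' i))).mono
    (avgF_f1 hok' i) he.le (hCs i)

/-- the whole operator is `Good`. -/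
theorem OneGood.all (h : OneGood D S) : ∃ e1 C : ℝ, 0 < e1 ∧ 1 ≤ C ∧
    ∀ e, 0 < e → e ≤ e1 → ∀ p ∈ ClpK S.n 0, Good D e C (S.A e p) (S.a e) := by
  obtain ⟨e1, C, he1, he11, hC, hok, hg⟩ := h.unif
  refine ⟨e1, (6 * C) ^ S.n, he1, one_le_pow₀ (by linarith), fun e he hee p hp => ?_⟩
  have h1 := Good.list (D := D) (e := e) (C := C) (A := fun i => S.op1 e i (p i).1) (a := S.f1 e)
    (List.finRange S.n) (fun i _ => avgF_f1 (hok e he hee) i) he.le (hee.trans he11)
    (zero_le_one.trans hC) (fun i _ => hg i e he hee _ (p i).2 (clpK_01 hp i))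
  rw [List.length_finRange] at h1
  exact h1

theorem fBd (h : OneGood D S) : FBd D S := by
  obtain ⟨e1, C, he1, -, hg⟩ := h.all
  exact ⟨e1, he1, C, fun e p he hee hp b f hf hb x => (hg e he hee p hp).bd b f hf hb x⟩

theorem fPos (h : OneGood D S) : FPos D S := by
  obtain ⟨e1, C, he1, -, hg⟩ := h.all
  exact ⟨e1, he1, C, fun e p he hee hp P hP f hf hb => (hg e he hee p hp).pos P hP f hf hb⟩

theorem fLeak1 (h : OneGood D S) : FLeak1 D S := by
  obtain ⟨e1, C, he1, -, hg⟩ := h.all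
  exact ⟨e1, he1, C, fun e p he hee hp b f hf hb x => (hg e he hee p hp).leak1 b f hf hb x⟩

theorem fLeak2 (h : OneGood D S) : FLeak2 D S := by
  obtain ⟨e1, C, he1, -, hg⟩ := h.all
  exact ⟨e1, he1, C, fun e p he hee hp b f hf hb x => (hg e he hee p hp).leak2 b f hf hb x⟩

theorem fLow (h : OneGood D S) (hl : OneLow D S) : FLow D S := by
  obtain ⟨e1, C1, he1, he11, hC1, hok, hg⟩ := h.unif
  obtain ⟨e2, C2, he2, hC2, hl⟩ := hl.unif
  have hCm : 1 ≤ max C1 C2 := hC1.trans (le_max_left _ _)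
  refine ⟨min e1 e2, lt_min he1 he2, (10 * max C1 C2) ^ S.n, fun e he hee => ?_⟩
  have h1 := hee.trans (min_le_left _ _)
  have h2 := hee.trans (min_le_right _ _)
  have h01 : ∀ z ∈ closedBall (0 : E4) 1, (0 : ℝ) ≤ (fun _ : E4 => (1 : ℝ)) z ∧
    (fun _ : E4 => (1 : ℝ)) z ≤ 1 := fun _ _ => ⟨zero_le_one, le_rfl⟩
  have h3 := Low.list (D := D) (e := e) (C := max C1 C2)
    (A := fun i => S.op1 e i (fun _ => 1)) (a := S.f1 e)
    (List.finRange S.n) (fun i _ => avgF_f1 (hok e he h1) i) he.le (h1.trans he11) hCm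
    (fun i _ => (hg i e he h1 _ contDiff_const h01).mono (avgF_f1 (hok e he h1) i) he.le
      (le_max_left _ _))
    (fun i _ => (hl i e he h2).mono (avgF_f1 (hok e he h1) i) he.le (le_max_right _ _))
  rw [List.length_finRange] at h3
  exact h3

end

end Crest.Agent.R240.Comp
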