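import Mathlib
import Crest.Agent.R240.SmSys
import Crest.Agent.R240.IntPair

/-!
Row 240, N8 (helper240): the push-forward of a finite measure under a one-chart smoothing of
functions: `∫ S.f1 e i f dν = ∫ f dν'` for a finite measure `ν'`.
-/

set_option autoImplicit false
set_option maxSynthPendingDepth 3

open Set Function Filter Metric MeasureTheory
open scoped Manifold ContDiff Topology ENNReal
open Crest.Agent.R240.Ch Crest.Agent.R240.Sm

namespace Crest.Agent.R240.SmF

noncomputable section

section general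

variable {M : Type*} [TopologicalSpace M] [ChartedSpace E4 M] [IsManifold 𝓘(ℝ, E4) ∞ M]

open Classical in
/-- the joint map `(x, z) ↦ psi_{e z} x`, the first projection outside of the parameter domain. -/
def jmap (G : Fam E4) (p : M) (e : ℝ) : M × E4 → M :=
  ((chartAt E4 p).source ×ˢ dom G e).piecewise
    (fun w => (chartAt E4 p).symm (G.g (e • w.2) (chartAt E4 p w.1))) Prod.fst

omit [IsManifold 𝓘(ℝ, E4) ∞ M] in
lemma jmap_eq (G : Fam E4) (p : M) (e : ℝ) {z : E4} (hz : z ∈ dom G e) (x : M) :
    jmap G p e (x, z) = psi G p (e • z) x := by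
  by_cases hx : x ∈ (chartAt E4 p).source
  · rw [psi_of_mem hx]
    exact if_pos (show (x, z) ∈ (chartAt E4 p).source ×ˢ dom G e from ⟨hx, hz⟩)
  · rw [psi_of_notMem hx]
    exact if_neg (fun h : (x, z) ∈ (chartAt E4 p).source ×ˢ dom G e => hx h.1)

omit [IsManifold 𝓘(ℝ, E4) ∞ M] in
lemma continuousOn_jmap_aux {G : Fam E4} {p : M} (hG : G.K ⊆ (chartAt E4 p).target) (e : ℝ) :
    ContinuousOn (fun w : M × E4 => (chartAt E4 p).symm (G.g (e • w.2) (chartAt E4 p w.1)))
      ((chartAt E4 p).source ×ˢ dom G e) := by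
  have h1 : ContinuousOn (fun w : M × E4 => ((e • w.2, chartAt E4 p w.1) : E4 × E4))
      ((chartAt E4 p).source ×ˢ dom G e) := by
    refine ContinuousOn.prodMk (by fun_prop) ?_
    exact (chartAt E4 p).continuousOn.comp continuousOn_fst fun w hw => hw.1
  have h2 : ContinuousOn (fun w : M × E4 => G.g (e • w.2) (chartAt E4 p w.1))
      ((chartAt E4 p).source ×ˢ dom G e) :=
    G.smooth.continuousOn.comp h1 fun w hw => ⟨hw.2, mem_univ _⟩
  exact (chartAt E4 p).continuousOn_symm.comp h2
    fun w hw => G.mem_of_mem hw.2 hG ((chartAt E4 p).map_source hw.1)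

variable [MeasurableSpace M] [BorelSpace M] [SecondCountableTopology M]

omit [IsManifold 𝓘(ℝ, E4) ∞ M] in
lemma measurable_jmap {G : Fam E4} {p : M} (hG : G.K ⊆ (chartAt E4 p).target) (e : ℝ) :
    Measurable (jmap G p e) := by
  classical
  exact ContinuousOn.measurable_piecewise (continuousOn_jmap_aux hG e) continuousOn_fst
    (((chartAt E4 p).open_source.prod (isOpen_dom G e)).measurableSet)

end general

/-- the probability measure with density `kap0`. -/
def lam0 : Measure E4 := volume.withDensity fun z => ENNReal.ofReal (kap0 z)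

instance : IsFiniteMeasure lam0 := by
  unfold lam0
  exact isFiniteMeasure_withDensity_ofReal kap0_integrable.2

lemma integral_lam0 (g : E4 → ℝ) : ∫ z, g z ∂lam0 = ∫ z, kap0 z * g z := by
  have hm : Measurable fun z : E4 => ENNReal.ofReal (kap0 z) :=
    ENNReal.measurable_ofReal.comp kap0_cont.measurable
  unfold lam0
  rw [integral_withDensity_eq_integral_toReal_smul hm
    (Eventually.of_forall fun _ => ENNReal.ofReal_lt_top)]
  refine integral_congr_ae (Eventually.of_forall fun z => ?_)
  simp only [ENNReal.toReal_ofReal (kap0_nonneg z), smul_eq_mul]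

variable {M : Type*} [MetricSpace M] [CompactSpace M] [ChartedSpace E4 M]
    [IsManifold 𝓘(ℝ, E4) ∞ M] [MeasurableSpace M] [BorelSpace M]

/-- the push-forward measure. -/
def push (S : Sys M) (e : ℝ) (i : Fin S.n) (ν : Measure M) : Measure M :=
  (ν.prod lam0).map (jmap (S.G i) (S.p i) e)

instance (S : Sys M) (e : ℝ) (i : Fin S.n) (ν : Measure M) [IsFiniteMeasure ν] :
    IsFiniteMeasure (push S e i ν) := by
  unfold push; infer_instance

set_option maxHeartbeats 400000 in
/-- for bounded Borel functions. -/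
theorem integral_push (S : Sys M) {e : ℝ} (he : S.Ok e) (i : Fin S.n) (ν : Measure M)
    [IsFiniteMeasure ν] {f : M → ℝ} (hf : Measurable f) {C : ℝ} (hC : ∀ x, |f x| ≤ C) :
    ∫ x, S.f1 e i f x ∂ν = ∫ x, f x ∂(push S e i ν) := by
  have hm : Measurable (jmap (S.G i) (S.p i) e) := measurable_jmap (S.hG i) e
  have h1 : ∀ x, S.f1 e i f x = ∫ z, f (jmap (S.G i) (S.p i) e (x, z)) ∂lam0 := by
    intro x
    rw [integral_lam0]
    have h2 : S.f1 e i f x = ∫ z, kap0 z * f (psi (S.G i) (S.p i) (e • z) x) := rfl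
    rw [h2]
    refine integral_congr_ae (Eventually.of_forall fun z => ?_)
    by_cases hz : kap0 z = 0
    · simp only [hz, zero_mul]
    · simp only [jmap_eq (S.G i) (S.p i) e ((he.adm_kap0 i).mem' hz)]
  have h3 : Integrable (fun w : M × E4 => f (jmap (S.G i) (S.p i) e w)) (ν.prod lam0) := by
    refine Integrable.of_bound (C := C) ((hf.comp hm).aestronglyMeasurable) ?_
    exact Eventually.of_forall fun w => by
      rw [Real.norm_eq_abs]; exact hC _
  have h4 : ∫ x, f x ∂(push S e i ν) = ∫ w, f (jmap (S.G i) (S.p i) e w) ∂(ν.prod lam0) :=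
    integral_map hm.aemeasurable hf.aestronglyMeasurable
  rw [h4, integral_prod (fun w : M × E4 => f (jmap (S.G i) (S.p i) e w)) h3]
  simp only [h1]

/-- **(P)**: the push-forward of a finite measure. -/
theorem exists_push (S : Sys M) {e : ℝ} (he : S.Ok e) (i : Fin S.n) (ν : Measure M)
    [IsFiniteMeasure ν] : ∃ ν' : Measure M, IsFiniteMeasure ν' ∧
      ∀ f, SmoothF E4 f → ∫ x, S.f1 e i f x ∂ν = ∫ x, f x ∂ν' := by
  refine ⟨push S e i ν, inferInstance, fun f hf => ?_⟩
  have hc : Continuous f := Crest.Agent.R240.Int.SmoothF.cont hf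
  obtain ⟨C, hC⟩ := isCompact_univ.exists_bound_of_continuousOn hc.continuousOn
  exact integral_push S he i ν hc.measurable (C := C) fun x => by
    have := hC x (mem_univ x)
    rwa [Real.norm_eq_abs] at this

end

end Crest.Agent.R240.SmF
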