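import Crest.Agent.R240.Q3
import Crest.Agent.R240.SmComp2

/-!
Row 240 (S0371), N8 (helper245): the one-chart field `low` of `SmPack`, from 83's pointwise
estimate `Q4.Pt.low`.
-/

set_option autoImplicit false
set_option maxSynthPendingDepth 3

open Set Function Filter MeasureTheory Metric
open scoped Manifold ContDiff Topology

namespace Crest.Agent.R240.Comp

open Crest.Agent.R240 Crest.Agent.R240.Ch Crest.Agent.R240.Sm

noncomputable section

variable {M : Type*} [MetricSpace M] [CompactSpace M] [ChartedSpace E4 M]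
    [IsManifold 𝓘(ℝ, E4) ∞ M] [MeasurableSpace M] [BorelSpace M]

theorem oneLow (D : Dat M) (S : Sys M) : OneLow D S := by
  intro i
  have hr : 0 < (S.G i).r := (S.G i).r_pos
  obtain ⟨C, hC⟩ := Q4.exists_pt D (S.hG i) (half_pos hr).le (half_lt_self hr)
  obtain ⟨e2, he2, -, hok⟩ := S.exists_ok
  have hC0 : 0 ≤ C := zero_le_one.trans hC.one_le
  refine ⟨min e2 ((S.G i).r / 2), C, lt_min he2 (half_pos hr), fun e he hee f hf hf0 b hb x v => ?_⟩
  have hok' := hok e he (hee.trans (min_le_left _ _))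
  have her : e ≤ (S.G i).r / 2 := hee.trans (min_le_right _ _)
  have hq : ContDiff ℝ ∞ (fun _ : E4 => (1 : ℝ)) := contDiff_const
  have hadm := hok'.adm_kk i hq
  have hadm0 := hok'.adm_kap0 i
  rw [Sys.op1_coe hok' i hq, kk_one, Sm.at2_A1]
  have hint := Sm.integrable_A1 (S.hG i) hadm0 b.2 x
  have hev : (∫ z, kap0 z • at2 (pullG (S.G i) (S.p i) (e • z) (b : F2 E4 M)) x) v (atJ D.J x v) =
      ∫ z, kap0 z * at2 (pullG (S.G i) (S.p i) (e • z) (b : F2 E4 M)) x v (atJ D.J x v) := by
    have h1 := (Q4.evL v (atJ D.J x v)).integral_comp_comm hint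
    rw [Q4.evL_apply] at h1
    rw [← h1]
    rfl
  rw [hev]
  have hF0 : 0 ≤ at2 D.F x v (atJ D.J x v) := F_nonneg D x v
  have hl : (1 - C * e) * S.f1 e i f x * at2 D.F x v (atJ D.J x v) =
      ∫ z, ((1 - C * e) * at2 D.F x v (atJ D.J x v)) *
        (kap0 z * f (psi (S.G i) (S.p i) (e • z) x)) := by
    rw [integral_const_mul]
    simp only [Sys.f1, Sm.a1]
    ring
  rw [hl]
  refine integral_mono ((Sm.integrable_a1 (S.hG i) hadm0 hf x).const_mul _) ?_ fun z => ?_
  · have h1 := (Q4.evL v (atJ D.J x v)).integrable_comp hint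
    exact h1
  · simp only
    by_cases hz : kap0 z = 0
    · simp [hz]
    have hz1 : ‖z‖ < 1 := norm_lt_of_kap0 hz
    have hez : e • z ∈ closedBall (0 : E4) ((S.G i).r / 2) := by
      rw [mem_closedBall_zero_iff, norm_smul, Real.norm_eq_abs, abs_of_pos he]
      nlinarith [norm_nonneg z]
    have h1 := hC.low (e • z) hez x v
    rw [hb, pullG_fmul]
    have h2 : at2 (fmul (pullF (S.G i) (S.p i) (e • z) f) (pullG (S.G i) (S.p i) (e • z) D.F)) x v
        (atJ D.J x v) = f (psi (S.G i) (S.p i) (e • z) x) *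
          at2 (pullG (S.G i) (S.p i) (e • z) D.F) x v (atJ D.J x v) := rfl
    rw [h2]
    have h3 : ‖e • z‖ ≤ e := by
      rw [norm_smul, Real.norm_eq_abs, abs_of_pos he]
      nlinarith [norm_nonneg z]
    have h4 : (1 - C * e) * at2 D.F x v (atJ D.J x v) ≤
        (1 - C * ‖e • z‖) * at2 D.F x v (atJ D.J x v) := by
      refine mul_le_mul_of_nonneg_right ?_ hF0
      have := mul_le_mul_of_nonneg_left h3 hC0
      linarith
    have h5 := mul_le_mul_of_nonneg_left (h4.trans h1)
      (mul_nonneg (kap0_nonneg z) (hf0 (psi (S.G i) (S.p i) (e • z) x)))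
    calc _ = kap0 z * f (psi (S.G i) (S.p i) (e • z) x) *
        ((1 - C * e) * at2 D.F x v (atJ D.J x v)) := by ring
      _ ≤ _ := h5
      _ = _ := by ring

end

end Crest.Agent.R240.Comp
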