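import Mathlib
import Crest.Agent.R240.Kern

/-!
Row 240 (S0371), helper548: STEP 6 (the final contradiction), abstract core.

`X` = smooth two-forms, `Sm` = smooth functions on `M`, `j1 b = b'`, `j2 b = b''`, `Pp` = cone of
semi-positive invariant forms, `q b c` = pointwise pairing, `nn b x = |b|_x`, `fm f b = f b`.
-/

set_option autoImplicit false

open MeasureTheory Metric Filter Set
open scoped ENNReal Topology

namespace Crest.Agent.R240.S6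

noncomputable section

section Measures

variable {M : Type*} [MetricSpace M] [CompactSpace M] [MeasurableSpace M] [BorelSpace M]

omit [CompactSpace M] in
theorem measurable_meas_ball [SecondCountableTopology M] (s : Measure M) [SFinite s] (r : ℝ) :
    Measurable fun x => s (ball x r) := by
  have h : MeasurableSet {p : M × M | dist p.1 p.2 < r} :=
    measurableSet_lt (measurable_fst.dist measurable_snd) measurable_const
  have h2 := measurable_measure_prodMk_left (ν := s) h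
  convert h2 using 2 with x
  congr 1
  ext y
  simp [dist_comm]

theorem lintegral_sq_meas_ball (μ s : Measure M) [IsFiniteMeasure μ] [IsFiniteMeasure s]
    {B : ℝ≥0∞} {r : ℝ} (hμ : ∀ x, μ (ball x r) ≤ B) :
    ∫⁻ x, (s (ball x r)) ^ 2 ∂μ ≤ B * ∫⁻ y, s (ball y (2 * r)) ∂s := by
  have h1 : ∀ x, (s (ball x r)) ^ 2 = s (ball x r) * s (ball x r) := fun x => sq _
  simp only [h1]
  rw [Kern.lintegral_mul_meas_ball μ s (measurable_meas_ball s r) r]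
  rw [← lintegral_const_mul _ (measurable_meas_ball s (2 * r))]
  refine lintegral_mono fun y => ?_
  calc ∫⁻ z in ball y r, s (ball z r) ∂μ ≤ ∫⁻ z in ball y r, s (ball y (2 * r)) ∂μ := by
        refine setLIntegral_mono' measurableSet_ball fun z hz => ?_
        refine measure_mono ?_
        refine ball_subset_ball' ?_
        rw [mem_ball] at hz
        linarith
    _ = s (ball y (2 * r)) * μ (ball y r) := by
        rw [setLIntegral_const]
    _ ≤ B * s (ball y (2 * r)) := by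
        rw [mul_comm]
        exact mul_le_mul_left (hμ y) _

/-- the mass function `(s (ball x r))` as a real function. -/
def mb (s : Measure M) (r : ℝ) (x : M) : ℝ := (s (ball x r)).toReal

omit [CompactSpace M] [MeasurableSpace M] [BorelSpace M] in
theorem mb_nonneg [MeasurableSpace M] (s : Measure M) (r : ℝ) (x : M) : 0 ≤ mb s r x :=
  ENNReal.toReal_nonneg

theorem mb_integrable (s t : Measure M) [IsFiniteMeasure s] [IsFiniteMeasure t] (r : ℝ) :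
    Integrable (mb s r) t := by
  refine Integrable.of_bound (C := (s univ).toReal)
    (measurable_meas_ball s r).ennreal_toReal.aestronglyMeasurable ?_
  refine Eventually.of_forall fun x => ?_
  rw [Real.norm_of_nonneg (mb_nonneg s r x)]
  exact ENNReal.toReal_mono (measure_ne_top s _) (measure_mono (subset_univ _))

theorem mb_sq_integrable (s t : Measure M) [IsFiniteMeasure s] [IsFiniteMeasure t] (r : ℝ) :
    Integrable (fun x => mb s r x ^ 2) t := by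
  refine Integrable.of_bound (C := (s univ).toReal ^ 2)
    ((measurable_meas_ball s r).ennreal_toReal.pow_const 2).aestronglyMeasurable ?_
  refine Eventually.of_forall fun x => ?_
  rw [Real.norm_of_nonneg (by positivity)]
  exact pow_le_pow_left₀ (mb_nonneg s r x)
    (ENNReal.toReal_mono (measure_ne_top s _) (measure_mono (subset_univ _))) 2

theorem integral_mb (s t : Measure M) [IsFiniteMeasure s] [IsFiniteMeasure t] (r : ℝ) :
    ∫ x, mb s r x ∂t = (∫⁻ x, s (ball x r) ∂t).toReal := by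
  rw [integral_eq_lintegral_of_nonneg_ae (Eventually.of_forall fun x => mb_nonneg s r x)
    (measurable_meas_ball s r).ennreal_toReal.aestronglyMeasurable]
  congr 1
  refine lintegral_congr fun x => ?_
  rw [mb, ENNReal.ofReal_toReal (measure_ne_top s _)]

theorem integral_mb_sq_le (μ s : Measure M) [IsFiniteMeasure μ] [IsFiniteMeasure s]
    {B r : ℝ} (hB : 0 ≤ B) (hμ : ∀ x, μ (ball x r) ≤ ENNReal.ofReal B) :
    ∫ x, mb s r x ^ 2 ∂μ ≤ B * ∫ y, mb s (2 * r) y ∂s := by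
  have h0 : ∫ x, mb s r x ^ 2 ∂μ = (∫⁻ x, (s (ball x r)) ^ 2 ∂μ).toReal := by
    have hm : AEStronglyMeasurable (fun x => mb s r x ^ 2) μ :=
      ((measurable_meas_ball s r).ennreal_toReal.pow_const 2).aestronglyMeasurable
    rw [integral_eq_lintegral_of_nonneg_ae (Eventually.of_forall fun x => by positivity) hm]
    congr 1
    refine lintegral_congr fun x => ?_
    rw [mb, ENNReal.ofReal_pow ENNReal.toReal_nonneg, ENNReal.ofReal_toReal (measure_ne_top s _)]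
  rw [h0, integral_mb]
  have h1 := lintegral_sq_meas_ball μ s hμ
  have hfin : ∫⁻ y, s (ball y (2 * r)) ∂s ≠ ⊤ := by
    refine ne_of_lt (lt_of_le_of_lt (lintegral_mono (g := fun _ => s univ)
      fun y => measure_mono (subset_univ _)) ?_)
    rw [lintegral_const]
    exact ENNReal.mul_lt_top (measure_lt_top s _) (measure_lt_top s _)
  calc (∫⁻ x, (s (ball x r)) ^ 2 ∂μ).toReal
      ≤ (ENNReal.ofReal B * ∫⁻ y, s (ball y (2 * r)) ∂s).toReal :=
        ENNReal.toReal_mono (ENNReal.mul_ne_top ENNReal.ofReal_ne_top hfin) h1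
    _ = B * (∫⁻ y, s (ball y (2 * r)) ∂s).toReal := by
        rw [ENNReal.toReal_mul, ENNReal.toReal_ofReal hB]

/-- `e² ∫ s_e dt ≤ C ∫ e^{-2} s(B(x,Ke)) dt`. -/
theorem dens_L1 (s t : Measure M) [IsFiniteMeasure s] [IsFiniteMeasure t] {se : M → ℝ}
    (hse : Continuous se) {C K e : ℝ} (he : 0 < e)
    (hle : ∀ x, se x ≤ C / e ^ 4 * mb s (K * e) x) :
    e ^ 2 * ∫ x, se x ∂t ≤ C * ((e ^ 2)⁻¹ * ∫ x, mb s (K * e) x ∂t) := by
  have h1 : ∫ x, se x ∂t ≤ ∫ x, C / e ^ 4 * mb s (K * e) x ∂t := by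
    refine integral_mono ?_ ((mb_integrable s t _).const_mul _) hle
    exact (hse.integrable_of_hasCompactSupport (HasCompactSupport.of_compactSpace _))
  rw [integral_const_mul] at h1
  calc e ^ 2 * ∫ x, se x ∂t ≤ e ^ 2 * (C / e ^ 4 * ∫ x, mb s (K * e) x ∂t) :=
        mul_le_mul_of_nonneg_left h1 (by positivity)
    _ = C * ((e ^ 2)⁻¹ * ∫ x, mb s (K * e) x ∂t) := by
        field_simp

/-- `e² ∫ s_e² dμ ≤ C' ∫ e^{-2} s(B(x,2Ke)) ds`. -/
theorem dens_L2 (μ s : Measure M) [IsFiniteMeasure μ] [IsFiniteMeasure s] {se : M → ℝ}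
    (hse : Continuous se) (hse0 : ∀ x, 0 ≤ se x) {C K e B : ℝ} (he : 0 < e)
    (hB : 0 ≤ B)
    (hle : ∀ x, se x ≤ C / e ^ 4 * mb s (K * e) x)
    (hμ : ∀ x, μ (ball x (K * e)) ≤ ENNReal.ofReal (B * (K * e) ^ 4)) :
    e ^ 2 * ∫ x, se x ^ 2 ∂μ ≤ C ^ 2 * B * K ^ 4 * ((e ^ 2)⁻¹ * ∫ x, mb s (2 * K * e) x ∂s) := by
  have h1 : ∫ x, se x ^ 2 ∂μ ≤ ∫ x, (C / e ^ 4) ^ 2 * mb s (K * e) x ^ 2 ∂μ := by
    refine integral_mono ?_ ((mb_sq_integrable s μ _).const_mul _) fun x => ?_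
    · exact ((hse.pow 2).integrable_of_hasCompactSupport (HasCompactSupport.of_compactSpace _))
    · have := pow_le_pow_left₀ (hse0 x) (hle x) 2
      rwa [mul_pow] at this
  rw [integral_const_mul] at h1
  have h2 := integral_mb_sq_le μ s (B := B * (K * e) ^ 4) (r := K * e) (by positivity) hμ
  rw [show 2 * (K * e) = 2 * K * e by ring] at h2
  calc e ^ 2 * ∫ x, se x ^ 2 ∂μ
      ≤ e ^ 2 * ((C / e ^ 4) ^ 2 * (B * (K * e) ^ 4 * ∫ y, mb s (2 * K * e) y ∂s)) := by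
        refine mul_le_mul_of_nonneg_left (h1.trans ?_) (by positivity)
        exact mul_le_mul_of_nonneg_left h2 (by positivity)
    _ = C ^ 2 * B * K ^ 4 * ((e ^ 2)⁻¹ * ∫ x, mb s (2 * K * e) x ∂s) := by
        field_simp

end Measures

section Core

variable {M : Type*} [TopologicalSpace M] [CompactSpace M] [MeasurableSpace M] [BorelSpace M]
variable {X : Type*} [AddCommGroup X] [Module ℝ X]

/-- The pointwise calculus used in Step 6. -/
structure Ctx (μ : Measure M) (Sm : (M → ℝ) → Prop) (fm : (M → ℝ) → X → X) (F : X)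
    (j1 j2 : X →ₗ[ℝ] X) (Pp : Set X) (q : X → X → M → ℝ) (nn : X → M → ℝ) (K : ℝ) : Prop where
  sm_cont : ∀ f, Sm f → Continuous f
  sm_mul : ∀ f g, Sm f → Sm g → Sm (fun x => f x * g x)
  sm_const : ∀ c : ℝ, Sm (fun _ => c)
  sm_add : ∀ f g, Sm f → Sm g → Sm (fun x => f x + g x)
  sm_sqrt : ∀ f, Sm f → (∀ x, 0 < f x) → Sm (fun x => √(f x))
  sm_q : ∀ b c, Sm (q b c)
  F_mem : F ∈ Pp
  q_add_left : ∀ b c d x, q (b + c) d x = q b d x + q c d x
  q_smul_left : ∀ (r : ℝ) b d x, q (r • b) d x = r * q b d x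
  q_comm : ∀ b c x, q b c x = q c b x
  q_fm : ∀ f, Sm f → ∀ b c x, q (fm f b) c x = f x * q b c x
  q_FF : ∀ x, q F F x = 1
  q_j1 : ∀ b x, q (j1 b) F x = q b F x
  q_j2 : ∀ b c x, q b (j2 c) x = q (j2 b) (j2 c) x
  j2j2 : ∀ b, j2 (j2 b) = j2 b
  j1_add_j2 : ∀ b, j1 b + j2 b = b
  j1_fm : ∀ f, Sm f → j1 (fm f F) = fm f F
  j1F : j1 F = F
  nn_pos : ∀ P ∈ Pp, ∀ x, nn P x ≤ K * q P F x
  q_nonneg : ∀ P ∈ Pp, ∀ x, 0 ≤ q P F x
  nn_anti : ∀ b x, nn (j2 b) x ^ 2 = q (j2 b) (j2 b) x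
  nn_nonneg : ∀ b x, 0 ≤ nn b x

variable {μ : Measure M} {Sm : (M → ℝ) → Prop} {fm : (M → ℝ) → X → X} {F : X}
    {j1 j2 : X →ₗ[ℝ] X} {Pp : Set X} {q : X → X → M → ℝ} {nn : X → M → ℝ} {K : ℝ}

omit [MeasurableSpace M] [BorelSpace M] [CompactSpace M] in
theorem cont_int [MeasurableSpace M] [BorelSpace M] [CompactSpace M] (ν : Measure M)
    [IsFiniteMeasure ν] {f : M → ℝ} (hf : Continuous f) : Integrable f ν :=
  hf.integrable_of_hasCompactSupport (HasCompactSupport.of_compactSpace _)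

/-- lower bound for `b'`. -/
theorem lower (C : Ctx μ Sm fm F j1 j2 Pp q nn K) [IsFiniteMeasure μ]
    (s0 sT : Measure M) [IsFiniteMeasure s0] [IsFiniteMeasure sT]
    (L Φ : X →ₗ[ℝ] ℝ) (A : X →ₗ[ℝ] X) (a : (M → ℝ) → (M → ℝ)) (b : X) (se : M → ℝ)
    {c1 c2 : ℝ} (hc2 : 0 ≤ c2) (hK : 0 ≤ K)
    (hLP : ∀ P ∈ Pp, 0 ≤ L P)
    (hLs : ∀ f, Sm f → L (fm f F) = ∫ x, f x ∂sT)
    (hΦj : ∀ c, Φ (j1 c) = Φ c)
    (hΦP : ∀ P ∈ Pp, ∫ x, q P F x ∂μ ≤ Φ P)
    (hΦs : ∀ f, Sm f → Φ (fm f F) = ∫ x, f x ∂s0)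
    (ha : ∀ f, Sm f → Sm (a f)) (ha0 : ∀ f, Sm f → (∀ x, 0 ≤ f x) → ∀ x, 0 ≤ a f x)
    (hrep : ∀ c, Φ (A c) = ∫ x, q b c x ∂μ)
    (h4 : ∀ P ∈ Pp, ∀ h, Sm h → (∀ x, nn P x ≤ h x) → j1 (A P) + c2 • fm (a h) F ∈ Pp)
    (h6 : ∀ P ∈ Pp, (1 - c1) * ∫ x, q P F x ∂μ ≤ ∫ x, q (A P) F x ∂μ)
    (h7 : ∀ G, (∀ P ∈ Pp, 0 ≤ ∫ x, q G P x ∂μ) → j1 G ∈ Pp)
    (hse : Sm se)
    (hdens : ∀ f, Sm f → ∫ x, a f x ∂s0 = ∫ x, f x * se x ∂μ) :
    (1 - c1) * L F - K * c2 * ∫ x, se x ∂sT ≤ L (j1 b) := by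
  have key : ∀ P ∈ Pp, 0 ≤ ∫ x, q (b - (1 - c1) • F + (K * c2) • fm se F) P x ∂μ := by
    intro P hP
    set h : M → ℝ := fun x => K * q P F x with hh
    have hhS : Sm h := C.sm_mul _ _ (C.sm_const K) (C.sm_q P F)
    have hh0 : ∀ x, 0 ≤ h x := fun x => mul_nonneg hK (C.q_nonneg P hP x)
    have hmem := h4 P hP h hhS (C.nn_pos P hP)
    have e1 := hΦP _ hmem
    rw [map_add, map_smul, hΦj, hΦs _ (ha h hhS), hrep, hdens h hhS, smul_eq_mul] at e1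
    have e2 : ∫ x, q (j1 (A P) + c2 • fm (a h) F) F x ∂μ =
        ∫ x, q (A P) F x ∂μ + c2 * ∫ x, a h x ∂μ := by
      rw [← integral_const_mul, ← integral_add (cont_int μ (C.sm_cont _ (C.sm_q _ _)))
        ((cont_int μ (C.sm_cont _ (ha h hhS))).const_mul c2)]
      refine integral_congr_ae (Eventually.of_forall fun x => ?_)
      simp only [C.q_add_left, C.q_smul_left, C.q_j1, C.q_fm _ (ha h hhS), C.q_FF, mul_one]
    have e3 : 0 ≤ ∫ x, a h x ∂μ := integral_nonneg fun x => ha0 h hhS hh0 x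
    have e4 := h6 P hP
    have e5 : ∫ x, q (b - (1 - c1) • F + (K * c2) • fm se F) P x ∂μ =
        ∫ x, q b P x ∂μ - (1 - c1) * ∫ x, q P F x ∂μ + c2 * ∫ x, h x * se x ∂μ := by
      have i1 := cont_int μ (C.sm_cont _ (C.sm_q b P))
      have i2 := (cont_int μ (C.sm_cont _ (C.sm_q P F))).const_mul (1 - c1)
      have i3 := (cont_int μ (C.sm_cont _ (C.sm_mul _ _ hhS hse))).const_mul c2
      have i12 : Integrable (fun x => q b P x - (1 - c1) * q P F x) μ := i1.sub i2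
      rw [← integral_const_mul, ← integral_const_mul, ← integral_sub i1 i2,
        ← integral_add i12 i3]
      refine integral_congr_ae (Eventually.of_forall fun x => ?_)
      have hneg : q (b - (1 - c1) • F) P x = q b P x - (1 - c1) * q F P x := by
        have := C.q_add_left b (-((1 - c1) • F)) P x
        rw [← sub_eq_add_neg] at this
        rw [this, show -((1 - c1) • F) = (-(1 - c1)) • F by rw [neg_smul], C.q_smul_left]
        ring
      simp only [C.q_add_left, C.q_smul_left, C.q_fm _ hse, hneg, C.q_comm F P x, hh]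
      ring
    rw [e5]
    rw [e2] at e1
    have e6 : 0 ≤ c2 * ∫ x, a h x ∂μ := mul_nonneg hc2 e3
    linarith
  have h := hLP _ (h7 _ key)
  have hj : j1 (b - (1 - c1) • F + (K * c2) • fm se F) =
      j1 b - (1 - c1) • F + (K * c2) • fm se F := by
    rw [map_add, map_sub, map_smul, map_smul, C.j1F, C.j1_fm _ hse]
  rw [hj, map_add, map_sub, map_smul, map_smul, hLs _ hse, smul_eq_mul, smul_eq_mul] at h
  linarith

/-- upper bound for `‖b''‖_2`. -/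
theorem anti_bound (C : Ctx μ Sm fm F j1 j2 Pp q nn K) [IsFiniteMeasure μ]
    (s0 : Measure M) [IsFiniteMeasure s0]
    (Φ : X →ₗ[ℝ] ℝ) (A : X →ₗ[ℝ] X) (a : (M → ℝ) → (M → ℝ)) (b : X) (se : M → ℝ)
    {c1 c3 : ℝ} (hc1 : 0 ≤ c1) (hc3 : 0 ≤ c3)
    (hΦj : ∀ c, Φ (j1 c) = Φ c)
    (hΦn : ∀ c, |Φ (j1 c)| ≤ c3 * ∫ x, nn (j1 c) x ∂s0)
    (hnnc : ∀ c, Continuous (nn c))
    (ha : ∀ f, Sm f → Sm (a f))
    (hrep : ∀ c, Φ (A c) = ∫ x, q b c x ∂μ)
    (h5 : ∀ c, j2 c = c → ∀ h, Sm h → (∀ x, nn c x ≤ h x) →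
      ∀ x, nn (j1 (A c)) x ≤ c1 * a h x)
    (hse : Sm se) (hse0 : ∀ x, 0 ≤ se x)
    (hdens : ∀ f, Sm f → ∫ x, a f x ∂s0 = ∫ x, f x * se x ∂μ) :
    √(∫ x, q (j2 b) (j2 b) x ∂μ) ≤ c3 * c1 * √(∫ x, se x ^ 2 ∂μ) := by
  set Q : M → ℝ := q (j2 b) (j2 b) with hQ
  have hQS : Sm Q := C.sm_q _ _
  have hQ0 : ∀ x, 0 ≤ Q x := fun x => by rw [hQ, ← C.nn_anti]; positivity
  have hQc := C.sm_cont _ hQS
  have hsec := C.sm_cont _ hse
  set N := ∫ x, Q x ∂μ with hN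
  have hN0 : 0 ≤ N := integral_nonneg hQ0
  set R := ∫ x, se x ^ 2 ∂μ with hR
  have hR0 : 0 ≤ R := integral_nonneg fun x => sq_nonneg _
  -- the inequality with `δ`
  have hδ : ∀ δ : ℝ, 0 < δ → N ≤ c3 * c1 * ∫ x, √(Q x + δ) * se x ∂μ := by
    intro δ hδ
    set h : M → ℝ := fun x => √(Q x + δ) with hh
    have hhS : Sm h := C.sm_sqrt _ (C.sm_add _ _ hQS (C.sm_const δ))
      fun x => by have := hQ0 x; linarith
    have hle : ∀ x, nn (j2 b) x ≤ h x := by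
      intro x
      refine Real.le_sqrt_of_sq_le ?_
      rw [C.nn_anti]
      simp only [hQ]; linarith
    have e1 := h5 (j2 b) (C.j2j2 b) h hhS hle
    have e2 : N = Φ (A (j2 b)) := by
      rw [hrep]
      refine integral_congr_ae (Eventually.of_forall fun x => ?_)
      simp only [hQ]
      exact (C.q_j2 b b x).symm
    have e3 := hΦn (A (j2 b))
    have e4 : ∫ x, nn (j1 (A (j2 b))) x ∂s0 ≤ c1 * ∫ x, h x * se x ∂μ := by
      rw [← hdens h hhS, ← integral_const_mul]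
      exact integral_mono (cont_int s0 (hnnc _))
        ((cont_int s0 (C.sm_cont _ (ha h hhS))).const_mul c1) e1
    calc N = Φ (j1 (A (j2 b))) := by rw [e2, hΦj]
      _ ≤ |Φ (j1 (A (j2 b)))| := le_abs_self _
      _ ≤ c3 * ∫ x, nn (j1 (A (j2 b))) x ∂s0 := e3
      _ ≤ c3 * (c1 * ∫ x, h x * se x ∂μ) := mul_le_mul_of_nonneg_left e4 hc3
      _ = c3 * c1 * ∫ x, √(Q x + δ) * se x ∂μ := by ring
  -- Cauchy-Schwarz
  have hCS : ∀ δ : ℝ, 0 < δ → ∫ x, √(Q x + δ) * se x ∂μ ≤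
      √(∫ x, (Q x + δ) ∂μ) * √R := by
    intro δ hδ
    have hc : Continuous fun x => √(Q x + δ) := (hQc.add continuous_const).sqrt
    have hm1 : MemLp (fun x => √(Q x + δ)) (ENNReal.ofReal 2) μ := by
      refine (memLp_two_iff_integrable_sq hc.aestronglyMeasurable).2 ?_ |> fun h => by
        simpa using h
      exact cont_int μ (hc.pow 2)
    have hm2 : MemLp se (ENNReal.ofReal 2) μ := by
      refine (memLp_two_iff_integrable_sq hsec.aestronglyMeasurable).2 ?_ |> fun h => by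
        simpa using h
      exact cont_int μ (hsec.pow 2)
    have h1 := integral_mul_le_Lp_mul_Lq_of_nonneg (μ := μ) Real.HolderConjugate.two_two
      (f := fun x => √(Q x + δ)) (g := se)
      (ae_of_all _ fun x => Real.sqrt_nonneg _) (ae_of_all _ hse0) hm1 hm2
    have h2 : ∀ x, √(Q x + δ) ^ (2 : ℝ) = Q x + δ := by
      intro x
      have := hQ0 x
      rw [Real.rpow_two, Real.sq_sqrt (by linarith)]
    simp only [h2, Real.rpow_two] at h1
    rw [← Real.sqrt_eq_rpow, ← Real.sqrt_eq_rpow] at h1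
    exact h1
  -- limit `δ → 0`
  have hlim : N ≤ c3 * c1 * (√N * √R) := by
    have h1 : ∀ δ : ℝ, 0 < δ → N ≤ c3 * c1 * (√(N + δ * μ.real univ) * √R) := by
      intro δ hδ'
      refine (hδ δ hδ').trans (mul_le_mul_of_nonneg_left ?_ (mul_nonneg hc3 hc1))
      refine (hCS δ hδ').trans (le_of_eq ?_)
      rw [integral_add (cont_int μ hQc) (integrable_const _), integral_const, smul_eq_mul,
        mul_comm δ]
    have h2 : Tendsto (fun δ : ℝ => c3 * c1 * (√(N + δ * μ.real univ) * √R)) (𝓝[>] 0)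
        (𝓝 (c3 * c1 * (√(N + 0 * μ.real univ) * √R))) := by
      refine Tendsto.mono_left (Continuous.tendsto ?_ 0) nhdsWithin_le_nhds
      fun_prop
    rw [zero_mul, add_zero] at h2
    exact ge_of_tendsto h2 (eventually_mem_nhdsWithin.mono fun δ hδ => h1 δ hδ)
  by_cases hN1 : N = 0
  · rw [hN1, Real.sqrt_zero]; positivity
  · have hNp : 0 < √N := Real.sqrt_pos.2 (lt_of_le_of_ne hN0 (Ne.symm hN1))
    have h3 : √N * √N ≤ √N * (c3 * c1 * √R) := by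
      rw [Real.mul_self_sqrt hN0]
      linarith
    exact le_of_mul_le_mul_left h3 hNp

end Core

section Final

variable {M : Type*} [MetricSpace M] [CompactSpace M] [MeasurableSpace M] [BorelSpace M]
variable {X : Type*} [AddCommGroup X] [Module ℝ X]

variable {μ : Measure M} {Sm : (M → ℝ) → Prop} {fm : (M → ℝ) → X → X} {F : X}
    {j1 j2 : X →ₗ[ℝ] X} {Pp : Set X} {q : X → X → M → ℝ} {nn : X → M → ℝ} {K : ℝ}

/-- what Step 6 needs from the smoothing at scale `e` (constant `c`): `b = b_e`. -/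
structure SmE (μ : Measure M) (Sm : (M → ℝ) → Prop) (fm : (M → ℝ) → X → X) (F : X)
    (j1 j2 : X →ₗ[ℝ] X) (Pp : Set X) (q : X → X → M → ℝ) (nn : X → M → ℝ)
    (s0 : Measure M) (Φ : X →ₗ[ℝ] ℝ) (c e : ℝ)
    (A : X →ₗ[ℝ] X) (a : (M → ℝ) → (M → ℝ)) (b : X) (se : M → ℝ) : Prop where
  a_sm : ∀ f, Sm f → Sm (a f)
  a_nonneg : ∀ f, Sm f → (∀ x, 0 ≤ f x) → ∀ x, 0 ≤ a f x
  rep : ∀ d, Φ (A d) = ∫ x, q b d x ∂μ
  pos : ∀ P ∈ Pp, ∀ h, Sm h → (∀ x, nn P x ≤ h x) → j1 (A P) + (c * e ^ 2) • fm (a h) F ∈ Pp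
  leak : ∀ d, j2 d = d → ∀ h, Sm h → (∀ x, nn d x ≤ h x) →
      ∀ x, nn (j1 (A d)) x ≤ c * e * a h x
  adj : ∀ P ∈ Pp, (1 - c * e) * ∫ x, q P F x ∂μ ≤ ∫ x, q (A P) F x ∂μ
  se_sm : Sm se
  se_nonneg : ∀ x, 0 ≤ se x
  dens : ∀ f, Sm f → ∫ x, a f x ∂s0 = ∫ x, f x * se x ∂μ
  se_le : ∀ x, se x ≤ c / e ^ 4 * mb s0 (c * e) x

theorem contradiction (C : Ctx μ Sm fm F j1 j2 Pp q nn K) [IsFiniteMeasure μ]
    (hK : 0 ≤ K) (hnnc : ∀ d, Continuous (nn d))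
    (s0 sT : Measure M) [IsFiniteMeasure s0] [IsFiniteMeasure sT]
    (L Φ : X →ₗ[ℝ] ℝ) {c1 c3 B : ℝ} (hc1 : 0 ≤ c1) (hc3 : 0 ≤ c3) (hB : 0 ≤ B)
    (hμ : ∀ x, ∀ r > 0, μ (ball x r) ≤ ENNReal.ofReal (B * r ^ 4))
    (hLP : ∀ P ∈ Pp, 0 ≤ L P) (hLF : L F = 1)
    (hLs : ∀ f, Sm f → L (fm f F) = ∫ x, f x ∂sT)
    (hL2 : ∀ d, |L (j2 d)| ≤ c1 * √(∫ x, q (j2 d) (j2 d) x ∂μ))
    (hΦj : ∀ d, Φ (j1 d) = Φ d)
    (hΦP : ∀ P ∈ Pp, ∫ x, q P F x ∂μ ≤ Φ P)
    (hΦs : ∀ f, Sm f → Φ (fm f F) = ∫ x, f x ∂s0)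
    (hΦn : ∀ d, |Φ (j1 d)| ≤ c3 * ∫ x, nn (j1 d) x ∂s0)
    (h7 : ∀ G, (∀ P ∈ Pp, 0 ≤ ∫ x, q G P x ∂μ) → j1 G ∈ Pp)
    (hN7T : ∀ k > 0, Tendsto (fun e : ℝ => (e ^ 2)⁻¹ * ∫ x, mb s0 (k * e) x ∂sT) (𝓝[>] 0) (𝓝 0))
    (hN7s : ∀ k > 0, Tendsto (fun e : ℝ => (e ^ 2)⁻¹ * ∫ x, mb s0 (k * e) x ∂s0) (𝓝[>] 0) (𝓝 0))
    {c e0 : ℝ} (hc : 0 < c) (he0 : 0 < e0)
    (hex : ∀ e, 0 < e → e ≤ e0 → ∃ A a b se,
      SmE μ Sm fm F j1 j2 Pp q nn s0 Φ c e A a b se ∧ L b = 0) : False := by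
  -- the inequality at each scale
  have key : ∀ e, 0 < e → e ≤ e0 → (1 - c * e) -
      K * c * (c * ((e ^ 2)⁻¹ * ∫ x, mb s0 (c * e) x ∂sT)) ≤
      c1 * (c3 * c * √(c ^ 2 * B * c ^ 4 * ((e ^ 2)⁻¹ * ∫ x, mb s0 (2 * c * e) x ∂s0))) := by
    intro e he hee
    obtain ⟨A, a, b, se, S, hLb⟩ := hex e he hee
    have hsec := C.sm_cont _ S.se_sm
    have e1 := lower C s0 sT L Φ A a b se (c1 := c * e) (c2 := c * e ^ 2) (by positivity) hK
      hLP hLs hΦj hΦP hΦs S.a_sm S.a_nonneg S.rep S.pos S.adj h7 S.se_sm S.dens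
    have e2 := anti_bound C s0 Φ A a b se (c1 := c * e) (by positivity) hc3 hΦj hΦn hnnc
      S.a_sm S.rep S.leak S.se_sm S.se_nonneg S.dens
    have e3 := dens_L1 s0 sT hsec he S.se_le
    have e4 := dens_L2 μ s0 hsec S.se_nonneg he hB S.se_le (hμ · _ (by positivity))
    have e5 := hL2 b
    have e6 : L (j1 b) + L (j2 b) = 0 := by
      rw [← map_add, C.j1_add_j2, hLb]
    have e7 : -L (j2 b) ≤ |L (j2 b)| := neg_le_abs _
    have e8 : c * e * √(∫ x, se x ^ 2 ∂μ) =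
        c * √(e ^ 2 * ∫ x, se x ^ 2 ∂μ) := by
      rw [Real.sqrt_mul (by positivity), Real.sqrt_sq he.le]; ring
    have e9 : √(e ^ 2 * ∫ x, se x ^ 2 ∂μ) ≤
        √(c ^ 2 * B * c ^ 4 * ((e ^ 2)⁻¹ * ∫ x, mb s0 (2 * c * e) x ∂s0)) :=
      Real.sqrt_le_sqrt e4
    have e10 : K * (c * e ^ 2) * ∫ x, se x ∂sT ≤
        K * c * (c * ((e ^ 2)⁻¹ * ∫ x, mb s0 (c * e) x ∂sT)) := by
      calc K * (c * e ^ 2) * ∫ x, se x ∂sT = K * c * (e ^ 2 * ∫ x, se x ∂sT) := by ring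
        _ ≤ _ := mul_le_mul_of_nonneg_left e3 (by positivity)
    rw [hLF, mul_one] at e1
    calc (1 - c * e) - K * c * (c * ((e ^ 2)⁻¹ * ∫ x, mb s0 (c * e) x ∂sT))
        ≤ (1 - c * e) - K * (c * e ^ 2) * ∫ x, se x ∂sT := by linarith
      _ ≤ L (j1 b) := e1
      _ = -L (j2 b) := by linarith
      _ ≤ |L (j2 b)| := e7
      _ ≤ c1 * √(∫ x, q (j2 b) (j2 b) x ∂μ) := e5
      _ ≤ c1 * (c3 * (c * e) * √(∫ x, se x ^ 2 ∂μ)) := mul_le_mul_of_nonneg_left e2 hc1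
      _ = c1 * (c3 * (c * √(e ^ 2 * ∫ x, se x ^ 2 ∂μ))) := by rw [← e8]; ring
      _ ≤ c1 * (c3 * (c * √(c ^ 2 * B * c ^ 4 *
            ((e ^ 2)⁻¹ * ∫ x, mb s0 (2 * c * e) x ∂s0)))) := by gcongr
      _ = _ := by ring
  -- the limit
  have l1 : Tendsto (fun e : ℝ => (1 - c * e) -
      K * c * (c * ((e ^ 2)⁻¹ * ∫ x, mb s0 (c * e) x ∂sT))) (𝓝[>] 0) (𝓝 1) := by
    have h1 : Tendsto (fun e : ℝ => 1 - c * e) (𝓝[>] 0) (𝓝 (1 - c * 0)) :=
      Tendsto.mono_left (Continuous.tendsto (by fun_prop) 0) nhdsWithin_le_nhds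
    have h2 := ((hN7T c hc).const_mul c).const_mul (K * c)
    have h3 := h1.sub h2
    simpa using h3
  have l2 : Tendsto (fun e : ℝ => c1 * (c3 * c * √(c ^ 2 * B * c ^ 4 *
      ((e ^ 2)⁻¹ * ∫ x, mb s0 (2 * c * e) x ∂s0)))) (𝓝[>] 0) (𝓝 0) := by
    have h1 := (hN7s (2 * c) (by positivity)).const_mul (c ^ 2 * B * c ^ 4)
    have h2 := (h1.sqrt.const_mul (c3 * c)).const_mul c1
    simpa using h2
  have h := le_of_tendsto_of_tendsto l1 l2 (by
    filter_upwards [Ioc_mem_nhdsGT he0] with e he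
    exact key e he.1 he.2)
  linarith

end Final

end

end Crest.Agent.R240.S6
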