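import Mathlib
import Crest.Agent.R240.TopFin
import Crest.Agent.R240.N7
import Crest.Agent.R240.N1
import Crest.Agent.R240.N24
import Crest.Agent.R240.N8aFin
import Crest.Agent.R240.N5p
import Crest.Agent.R240.Fund
import Crest.Agent.R240.MonoN9
import Crest.Agent.R240.EllFin
import Crest.Agent.R240.IntNodes
import Crest.Agent.R240.Cmp
import Crest.Agent.R240.N3
import Crest.Agent.R240.N5
import Crest.Agent.R240.N6

/-!
Row 240 (S0371), TOP (helper23): everything except the open nodes N8, N6, N3, N5.
-/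

set_option autoImplicit false
set_option maxSynthPendingDepth 3

open Set Function Filter MeasureTheory Metric
open scoped Manifold ContDiff Topology ENNReal

namespace Crest.Agent.R240

open Ch

noncomputable section

variable {M : Type*} [MetricSpace M] [CompactSpace M] [ChartedSpace E4 M]
    [IsManifold 𝓘(ℝ, E4) ∞ M] [MeasurableSpace M] [BorelSpace M]

/-- the goal from the nodes N8, N5, N6, N3. -/
theorem Dat.goal_of_open (D : Dat M) (h8 : D.N8) (h5 : D.N5) (h6 : D.N6) (h3 : D.N3) : D.Goal :=
  D.goal (St1.n1 D) (N24.n2 D) h3 (N24.n4 D) h5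
    (N5P.n5'_of D h8 (node_N9 D) (Fund.fund D)) h6 D.n7_proof
    (N8A.node_N8a D h8 (Int.node_COV D) (Fund.fund D)) fun 𝒰 m _ => cm_nonneg 𝒰 m _

/-- the goal from the node N8. -/
theorem Dat.goal_of_N8 (D : Dat M) (h8 : D.N8) : D.Goal :=
  D.goal_of_open h8 (N5.n5 D h8 (node_N9 D) (Fund.fund D)) (Pol.n6 D) D.n3

end

end Crest.Agent.R240
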