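import Mathlib
import Crest.Agent.R240.Iface
import Crest.Agent.R240.IntTop

/-!
Row 240 (S0371), node VG (helper587): volume growth of balls, `μ (ball x r) ≤ C r ^ 4`.
-/

set_option autoImplicit false
set_option maxSynthPendingDepth 3

open Set Function Filter MeasureTheory Metric
open scoped Manifold ContDiff Topology ENNReal

namespace Crest.Agent.R240

open Crest.Agent.R240.Ch Crest.Agent.R240.Int

noncomputable section

namespace Dat

variable {M : Type*} [MetricSpace M] [CompactSpace M] [ChartedSpace E4 M]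
    [IsManifold 𝓘(ℝ, E4) ∞ M] [MeasurableSpace M] [BorelSpace M]

/-- one chart piece: small balls inside it have volume `≤ C r ^ 4` -/
theorem vg_local (D : Dat M) (p : M) {ρ : ℝ}
    (hρ : closedBall (chartAt E4 p p) ρ ⊆ (chartAt E4 p).target) :
    ∃ C : ℝ, 0 ≤ C ∧ ∀ x : M, ∀ r : ℝ, 0 < r →
      ball x r ⊆ (chartAt E4 p).source ∩ chartAt E4 p ⁻¹' ball (chartAt E4 p p) ρ →
        D.μ.real (ball x r) ≤ C * r ^ 4 := by
  set e := chartAt E4 p with he
  set K : Set E4 := closedBall (e p) ρ with hK
  have hKc : IsCompact K := isCompact_closedBall _ _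
  obtain ⟨c, C₀, hc, -, hbl⟩ := D.bl p K hKc hρ
  have hcont : ContinuousOn (dens D.F p) K := ((dat_volF D).continuousOn_dens p).mono hρ
  obtain ⟨B, hB⟩ := hKc.exists_bound_of_continuousOn hcont
  set B' : ℝ := max B 0 with hB'
  have hB'0 : 0 ≤ B' := le_max_right _ _
  set v : ℝ := volume.real (closedBall (0 : E4) 1) with hv
  have hv0 : 0 ≤ v := measureReal_nonneg
  refine ⟨B' * (c⁻¹ ^ 4 * v), by positivity, fun x r hr hsub => ?_⟩
  have hx : x ∈ e.source ∩ e ⁻¹' ball (e p) ρ := hsub (mem_ball_self hr)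
  -- the measure of the ball as an integral in the chart
  have h1 := D.vol p ((ball x r).indicator fun _ => (1 : ℝ≥0∞))
    (measurable_const.indicator measurableSet_ball) (fun y hy => by
      rw [indicator_of_notMem]
      intro hyb
      exact hy (hsub hyb).1)
  rw [lintegral_indicator measurableSet_ball, lintegral_const, one_mul,
    Measure.restrict_apply_univ] at h1
  have h2 : ∫⁻ y in e.target, (ball x r).indicator (fun _ => (1 : ℝ≥0∞)) (e.symm y) *
      ENNReal.ofReal |W (rep p (bp D.J D.al) y) (rep p (bp D.J D.al) y)| ≤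
      ∫⁻ y, (closedBall (e x) (r / c)).indicator (fun _ => ENNReal.ofReal B') y := by
    rw [← lintegral_indicator e.open_target.measurableSet]
    refine lintegral_mono fun y => ?_
    by_cases hy : y ∈ e.target
    · rw [indicator_of_mem hy]
      by_cases hyb : e.symm y ∈ ball x r
      · rw [indicator_of_mem hyb, one_mul]
        have hy1 := (hsub hyb).2
        have hyK : y ∈ K := by
          rw [mem_preimage, e.right_inv hy] at hy1
          exact ball_subset_closedBall hy1
        have hxK : e x ∈ K := ball_subset_closedBall hx.2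
        have h3 := (hbl y hyK (e x) hxK).1
        rw [e.left_inv hx.1] at h3
        have h4 : c * ‖y - e x‖ < r := lt_of_le_of_lt h3 (mem_ball.mp hyb)
        have h5 : y ∈ closedBall (e x) (r / c) := by
          rw [mem_closedBall, dist_eq_norm, le_div_iff₀ hc]
          linarith
        rw [indicator_of_mem h5]
        refine ENNReal.ofReal_le_ofReal ?_
        have h6 := hB y hyK
        rw [Real.norm_eq_abs, abs_of_nonneg (dens_nonneg _ _ _)] at h6
        exact h6.trans (le_max_left _ _)
      · rw [indicator_of_notMem hyb, zero_mul]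
        exact zero_le
    · rw [indicator_of_notMem hy]
      exact zero_le
  have h3 : ∫⁻ y, (closedBall (e x) (r / c)).indicator (fun _ => ENNReal.ofReal B') y =
      ENNReal.ofReal (B' * (c⁻¹ ^ 4 * v) * r ^ 4) := by
    rw [lintegral_indicator measurableSet_closedBall, lintegral_const,
      Measure.restrict_apply_univ, Measure.addHaar_closedBall _ _ (by positivity)]
    have h4 : (volume (ball (0 : E4) 1)) = ENNReal.ofReal v := by
      rw [hv, Measure.real, ENNReal.ofReal_toReal (isCompact_closedBall _ _).measure_lt_top.ne,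
        Measure.addHaar_closedBall_eq_addHaar_ball]
    rw [h4, ← ENNReal.ofReal_mul (by positivity), ← ENNReal.ofReal_mul hB'0]
    congr 1
    have h5 : Module.finrank ℝ E4 = 4 := by simp
    rw [h5]
    field_simp
  rw [Measure.real, h1]
  refine ENNReal.toReal_le_of_le_ofReal (by positivity) ?_
  exact (h2.trans h3.le)

/-- **VG** -/
theorem vg (D : Dat M) : D.VG := by
  classical
  have := D.fin
  -- the cover
  have hex : ∀ p : M, ∃ ρ : ℝ, 0 < ρ ∧ closedBall (chartAt E4 p p) ρ ⊆ (chartAt E4 p).target := by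
    intro p
    have h1 : (chartAt E4 p).target ∈ 𝓝 (chartAt E4 p p) :=
      (chartAt E4 p).open_target.mem_nhds (mem_chart_target E4 p)
    exact Metric.nhds_basis_closedBall.mem_iff.mp h1
  choose ρ hρ0 hρ using hex
  set U : M → Set M := fun p => (chartAt E4 p).source ∩ chartAt E4 p ⁻¹' ball (chartAt E4 p p) (ρ p)
    with hU
  have hUo : ∀ p, IsOpen (U p) := fun p =>
    (chartAt E4 p).isOpen_inter_preimage isOpen_ball
  have hUp : ∀ p, p ∈ U p := fun p => ⟨mem_chart_source E4 p, mem_ball_self (hρ0 p)⟩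
  obtain ⟨t, ht⟩ := isCompact_univ.elim_finite_subcover U hUo
    (fun p _ => mem_iUnion.mpr ⟨p, hUp p⟩)
  obtain ⟨δ, hδ, hleb⟩ := lebesgue_number_lemma_of_metric (s := (univ : Set M))
    (c := fun i : t => U i) isCompact_univ (fun i => hUo i) (by
      intro x hx
      have := ht hx
      simp only [mem_iUnion] at this ⊢
      obtain ⟨p, hp, hxp⟩ := this
      exact ⟨⟨p, hp⟩, hxp⟩)
  choose C hC0 hC using fun p : M => vg_local D p (hρ p)
  set C₁ : ℝ := ∑ p ∈ t, C p with hC₁
  have hC₁0 : 0 ≤ C₁ := Finset.sum_nonneg fun p _ => hC0 p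
  set T : ℝ := D.μ.real univ with hT
  have hT0 : 0 ≤ T := measureReal_nonneg
  refine ⟨C₁ + T / δ ^ 4, fun x r hr => ?_⟩
  have hr4 : 0 < r ^ 4 := by positivity
  have hTd : 0 ≤ T / δ ^ 4 := by positivity
  rcases le_or_gt r δ with hrδ | hrδ
  · obtain ⟨i, hi⟩ := hleb x (mem_univ x)
    have h1 := hC i x r hr ((ball_subset_ball hrδ).trans hi)
    have h2 : C i ≤ C₁ := Finset.single_le_sum (f := C) (fun p _ => hC0 p) i.2
    calc D.μ.real (ball x r) ≤ C i * r ^ 4 := h1
      _ ≤ (C₁ + T / δ ^ 4) * r ^ 4 := by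
        refine mul_le_mul_of_nonneg_right ?_ hr4.le
        linarith
  · have h1 : D.μ.real (ball x r) ≤ T := measureReal_mono (subset_univ _)
    have h2 : δ ^ 4 ≤ r ^ 4 := pow_le_pow_left₀ hδ.le hrδ.le 4
    have hδ4 : 0 < δ ^ 4 := by positivity
    calc D.μ.real (ball x r) ≤ T := h1
      _ = T / δ ^ 4 * δ ^ 4 := by field_simp
      _ ≤ T / δ ^ 4 * r ^ 4 := mul_le_mul_of_nonneg_left h2 hTd
      _ ≤ (C₁ + T / δ ^ 4) * r ^ 4 := by
        refine mul_le_mul_of_nonneg_right ?_ hr4.le
        linarith

end Dat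

end

end Crest.Agent.R240
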